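import Vale.Agent.P370.Par

/-! Chains of dots, the smooth potential, sharp and smooth orbitals. -/

namespace Vale.Agent.P370

open Finset MeasureTheory

/-- `ng` groups of `K` dots at the positions `pos 0 < pos 1 < …`; the links between groups have
the weight `2 ^ (-kw) / √2`. -/
structure Chain : Type where
  ng : ℕ
  K : ℕ
  pos : ℕ → ℚ
  kw : ℕ

namespace Chain

def n (c : Chain) : ℕ := c.ng * c.K

/-- height of the plateau to the left of dot `i` -/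
def pl (b : ℕ) (c : Chain) (i : ℕ) : ℚ :=
  if i = 0 ∨ i = c.n then plq b (63100 * b) else if i % c.K = 0 then plq b c.kw else 1

def wd (b : ℕ) : ℚ := 1 + 9 * rho b

def lo (b : ℕ) (c : Chain) : ℚ := c.pos 0 - wd b - 18

def hi (b : ℕ) (c : Chain) : ℚ := c.pos (c.n - 1) + wd b + 18

/-- start of the ramp on the link to the left of group `a` (`a ≤ ng`) -/
def al (b : ℕ) (c : Chain) (a : ℕ) : ℚ :=
  if a = 0 then c.pos 0 - wd b - 9 else c.pos (a * c.K - 1) + wd b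

/-- the ramp ends at `be + 9 rho` -/
def be (b : ℕ) (c : Chain) (a : ℕ) : ℚ :=
  (if a = c.ng then c.pos (c.n - 1) + wd b + 9 else c.pos (a * c.K) - wd b) - 9 * rho b

/-- left end of cell `a` -/
def mb (b : ℕ) (c : Chain) (a : ℕ) : ℚ :=
  if a = 0 then c.lo b else if a = c.ng then c.hi b else c.al b a

/-- hopping between the groups `a` and `a + 1` -/
def tau (b : ℕ) (c : Chain) (a : ℕ) : ℚ :=
  lamb b / (2 ^ c.kw * (2 * c.K * (c.pos ((a + 1) * c.K) - c.pos ((a + 1) * c.K - 1) - 2)))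

/-- weighted path Laplacian -/
def lap (b : ℕ) (c : Chain) (a a' : ℕ) : ℚ :=
  if a = a' then (if a = 0 then 0 else c.tau b (a - 1)) + (if a + 1 < c.ng then c.tau b a else 0)
  else if a + 1 = a' then -c.tau b a else if a' + 1 = a then -c.tau b a' else 0

structure Good (b : ℕ) (c : Chain) : Prop where
  ng_pos : 1 ≤ c.ng
  ng_le : c.ng ≤ 3
  K_pos : 1 ≤ c.K
  K_le : (c.K : ℚ) ≤ Pq b
  gap : ∀ i, i + 1 < c.n → c.pos i + Pq b ^ 30 ≤ c.pos (i + 1)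
  pos_bd : ∀ i < c.n, |c.pos i| ≤ Pq b ^ 64 / 2
  kw_ge : 62800 * b ≤ c.kw
  kw_le : c.kw ≤ 63100 * b
  tau_le : ∀ a, a + 1 < c.ng → c.tau b a ≤ 1 / Pq b ^ 62914

end Chain

section generic

variable {F : Type} [Field F] [LinearOrder F]

/-- `sp 8` is the B-spline with knots `0, …, 9`; `sp (k + 1)` has derivative `sp k`;
`sp 9` rises from `0` to `1`; `sp 10 x = x - 9 / 2` for `x ≥ 9`. -/
def sp (k : ℕ) (x : F) : F :=
  (∑ j ∈ range 10, (-1) ^ j * (Nat.choose 9 j : F) * max (x - j) 0 ^ k) / (k.factorial : F)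

def half (ϱ pl ξ : F) : F := (pl - ξ ^ 2 / 2) * sp 9 ((ξ - 1) / ϱ)

def half1 (ϱ pl ξ : F) : F :=
  -ξ * sp 9 ((ξ - 1) / ϱ) + (pl - ξ ^ 2 / 2) * sp 8 ((ξ - 1) / ϱ) / ϱ

def half2 (ϱ pl ξ : F) : F :=
  -sp 9 ((ξ - 1) / ϱ) - 2 * ξ * sp 8 ((ξ - 1) / ϱ) / ϱ +
    (pl - ξ ^ 2 / 2) * sp 7 ((ξ - 1) / ϱ) / ϱ ^ 2

namespace Chain

def S (b : ℕ) (c : Chain) (x : F) : F :=
  (om b : F) * (∑ i ∈ range c.n, ((x - c.pos i) ^ 2 / 2 +
    half (rho b : F) (c.pl b (i + 1) : F) (x - c.pos i) + half (rho b : F) (c.pl b i : F) (-(x - c.pos i))) -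
    ∑ i ∈ range (c.n - 1), (c.pl b (i + 1) : F))

def S1 (b : ℕ) (c : Chain) (x : F) : F :=
  (om b : F) * ∑ i ∈ range c.n, ((x - c.pos i) +
    half1 (rho b : F) (c.pl b (i + 1) : F) (x - c.pos i) - half1 (rho b : F) (c.pl b i : F) (-(x - c.pos i)))

def S2 (b : ℕ) (c : Chain) (x : F) : F :=
  (om b : F) * ∑ i ∈ range c.n, (1 +
    half2 (rho b : F) (c.pl b (i + 1) : F) (x - c.pos i) + half2 (rho b : F) (c.pl b i : F) (-(x - c.pos i)))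

/-- the potential with zero mode `exp (-S)` -/
def v (b : ℕ) (c : Chain) (x : F) : F := (c.S1 b x ^ 2 - c.S2 b x) / 2

def up (b : ℕ) (c : Chain) (a : ℕ) (x : F) : F :=
  (rho b : F) * (sp 10 ((x - c.al b a) / rho b) - sp 10 ((x - c.be b a) / rho b)) /
    (c.be b a - c.al b a)

def r (b : ℕ) (c : Chain) (a : ℕ) (x : F) : F := c.up b a x - c.up b (a + 1) x

def wall (b : ℕ) (c : Chain) (x : F) : F := sp 9 (c.lo b + 9 - x) + sp 9 (x - (c.hi b - 9))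

def cut (b : ℕ) (c : Chain) (x : F) : F := sp 9 (x - (c.lo b - 9)) - sp 9 (x - c.hi b)

end Chain

def zeta (z : F) : F := sp 9 (z + 73) - sp 9 (z - 64)

end generic

namespace Chain

noncomputable def mu (b : ℕ) (c : Chain) (a : ℕ) : ℝ :=
  ∫ x in (c.mb b a : ℝ)..(c.mb b (a + 1) : ℝ), Real.exp (-(2 * c.S b x))

noncomputable def g1 (b : ℕ) (c : Chain) (a : ℕ) (x : ℝ) : ℝ :=
  if (c.mb b a : ℝ) ≤ x ∧ x < c.mb b (a + 1) then Real.exp (-c.S b x) / √(c.mu b a) else 0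

noncomputable def gt1 (b : ℕ) (c : Chain) (a : ℕ) (x : ℝ) : ℝ :=
  c.r b a x * Real.exp (-c.S b x) / √(c.mu b a)

end Chain

noncomputable def muz (b : ℕ) : ℝ := ∫ z in (-32 : ℝ)..32, Real.exp (-(omz b * z ^ 2))

noncomputable def gz (b : ℕ) (z : ℝ) : ℝ :=
  if |z| ≤ 32 then Real.exp (-(omz b * z ^ 2 / 2)) / √(muz b) else 0

noncomputable def gtz (b : ℕ) (z : ℝ) : ℝ :=
  (sp 9 (z + 18) - sp 9 (z - 9)) * Real.exp (-(omz b * z ^ 2 / 2)) / √(muz b)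

/-- clusters `ι` (products of two chains) and sites `S` (a cluster and a group in each chain) -/
structure Lay (ι S : Type) : Type where
  cx : ι → Chain
  cy : ι → Chain
  cl : S → ι
  ax : S → ℕ
  ay : S → ℕ
  eps : S → ℚ

namespace Lay

variable {ι S : Type} [Fintype ι] [Fintype S] [DecidableEq ι]

structure Good (b : ℕ) (L : Lay ι S) : Prop where
  gx : ∀ i, (L.cx i).Good b
  gy : ∀ i, (L.cy i).Good b
  inj : ∀ σ σ', L.cl σ = L.cl σ' → L.ax σ = L.ax σ' → L.ay σ = L.ay σ' → σ = σ'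
  ax_lt : ∀ σ, L.ax σ < (L.cx (L.cl σ)).ng
  ay_lt : ∀ σ, L.ay σ < (L.cy (L.cl σ)).ng
  surj : ∀ i a a', a < (L.cx i).ng → a' < (L.cy i).ng → ∃ σ, L.cl σ = i ∧ L.ax σ = a ∧ L.ay σ = a'
  card_ι : (Fintype.card ι : ℚ) ≤ Pq b
  card_S : (Fintype.card S : ℚ) ≤ 2 * Pq b
  sep : ∀ i i', i ≠ i' →
    (L.cx i).hi b + 9 ≤ (L.cx i').lo b - 9 ∨ (L.cx i').hi b + 9 ≤ (L.cx i).lo b - 9 ∨
    (L.cy i).hi b + 9 ≤ (L.cy i').lo b - 9 ∨ (L.cy i').hi b + 9 ≤ (L.cy i).lo b - 9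
  far : ∀ i i', i ≠ i' → ∀ j < (L.cx i).n, ∀ k < (L.cy i).n, ∀ j' < (L.cx i').n,
    ∀ k' < (L.cy i').n, Pq b ^ 30 ≤ |(L.cx i).pos j - (L.cx i').pos j'| ∨
      Pq b ^ 30 ≤ |(L.cy i).pos k - (L.cy i').pos k'|
  eps_nonneg : ∀ σ, 0 ≤ L.eps σ
  eps_le : ∀ σ, L.eps σ ≤ 1 / Pq b ^ 62900

section generic

variable {F : Type} [Field F] [LinearOrder F]

def V0 (b : ℕ) (L : Lay ι S) (x y : F) : F :=
  ∑ i, (L.cx i).cut b x * (L.cy i).cut b y *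
    ((L.cx i).v b x + (L.cy i).v b y + (W0 b : F) * ((L.cx i).wall b x + (L.cy i).wall b y) - 1)

def Ve (b : ℕ) (L : Lay ι S) (x y : F) : F :=
  ∑ σ, (L.eps σ : F) * ((L.cx (L.cl σ)).r b (L.ax σ) x * (L.cy (L.cl σ)).r b (L.ay σ) y)

def Vloc (b : ℕ) (L : Lay ι S) (x y z : F) : F := zeta z * (L.V0 b x y + L.Ve b x y)

end generic

noncomputable def VlocR (b : ℕ) (L : Lay ι S) (x : E3) : ℝ := L.Vloc b (x 0) (x 1) (x 2)

noncomputable def g3 (b : ℕ) (L : Lay ι S) (σ : S) (x : E3) : ℝ :=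
  (L.cx (L.cl σ)).g1 b (L.ax σ) (x 0) * (L.cy (L.cl σ)).g1 b (L.ay σ) (x 1) * gz b (x 2)

noncomputable def gt3 (b : ℕ) (L : Lay ι S) (σ : S) (x : E3) : ℝ :=
  (L.cx (L.cl σ)).gt1 b (L.ax σ) (x 0) * (L.cy (L.cl σ)).gt1 b (L.ay σ) (x 1) * gtz b (x 2)

/-- the ideal potential, measured from the reference energy -/
noncomputable def Vid (b : ℕ) (L : Lay ι S) (x : E3) : ℝ :=
  (omz b : ℝ) ^ 2 * min (x 2 ^ 2) (128 ^ 2) / 2 - omz b / 2 + 1 + zeta (x 2) * L.V0 b (x 0) (x 1)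

def T0 (b : ℕ) (L : Lay ι S) (σ σ' : S) : ℚ :=
  if L.cl σ = L.cl σ' then
    (if L.ay σ = L.ay σ' then (L.cx (L.cl σ)).lap b (L.ax σ) (L.ax σ') else 0) +
    (if L.ax σ = L.ax σ' then (L.cy (L.cl σ)).lap b (L.ay σ) (L.ay σ') else 0)
  else 0

/-- Coulomb interaction of two dots at relative position `(dx, dy)` -/
noncomputable def kap (b : ℕ) (dx dy : ℚ) : ℝ :=
  if dx = 0 ∧ dy = 0 then uq b else 1 / √((dx : ℝ) ^ 2 + (dy : ℝ) ^ 2)

/-- average of `kap` over the dots of two sites -/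
noncomputable def w1 (b : ℕ) (L : Lay ι S) (σ σ' : S) : ℝ :=
  (∑ j ∈ range (L.cx (L.cl σ)).K, ∑ k ∈ range (L.cy (L.cl σ)).K,
    ∑ j' ∈ range (L.cx (L.cl σ')).K, ∑ k' ∈ range (L.cy (L.cl σ')).K,
      kap b ((L.cx (L.cl σ)).pos (L.ax σ * (L.cx (L.cl σ)).K + j) -
          (L.cx (L.cl σ')).pos (L.ax σ' * (L.cx (L.cl σ')).K + j'))
        ((L.cy (L.cl σ)).pos (L.ay σ * (L.cy (L.cl σ)).K + k) -
          (L.cy (L.cl σ')).pos (L.ay σ' * (L.cy (L.cl σ')).K + k'))) /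
    ((L.cx (L.cl σ)).K * (L.cy (L.cl σ)).K * (L.cx (L.cl σ')).K * (L.cy (L.cl σ')).K)

end Lay

/-- the central box -/
def B0 (b : ℕ) : Set E3 := {x | |x 0| ≤ PR b ^ 64 ∧ |x 1| ≤ PR b ^ 64 ∧ |x 2| ≤ 32}

end Vale.Agent.P370
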