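import Vale.Agent.P370.ParPT

/-! The chain functions are computable in polynomial time at rational points.

Plan.  `sp k`: a sum of ten terms (`Finset.sum_range_succ` or `pt_rangeSum`), `pt_qmax`, `pt_qpow`.
Casts `((q : ℚ) : ℚ)` disappear with `Rat.cast_id`.  `S1`, `S2`: `pt_rangeSum`. -/

namespace Vale.Agent.P370

open Vale.Agent.Lib.H23 Vale.Agent.P338 Vale.Agent.P049

variable {α : Type} [Enc α] {b : α → ℕ} {c : α → Chain} {x : α → ℚ}

structure CPT (c : α → Chain) : Prop where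
  n : PT fun a => (⟨(c a).n⟩ : Un)
  ng : PT fun a => (c a).ng
  K : PT fun a => (c a).K
  kw : PT fun a => (c a).kw
  pos : PT fun p : α × ℕ => (c p.1).pos p.2

theorem CPT.pos' (h : CPT c) {i : α → ℕ} (hi : PT i) : PT fun a => (c a).pos (i a) :=
  (PT.comp (g := fun a => (a, i a)) h.pos (PT.id.pair hi)).congr fun _ => rfl

theorem CPT.comp {β : Type} [Enc β] (h : CPT c) {g : β → α} (hg : PT g) :
    CPT fun y => c (g y) :=
  ⟨PT.comp (f := fun a => (⟨(c a).n⟩ : Un)) h.n hg, PT.comp (f := fun a => (c a).ng) h.ng hg,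
    PT.comp (f := fun a => (c a).K) h.K hg, PT.comp (f := fun a => (c a).kw) h.kw hg,
    (PT.comp (g := fun p : β × ℕ => (g p.1, p.2)) h.pos
      ((PT.comp hg PT.fst').pair PT.snd')).congr fun _ => rfl⟩

theorem CPT.nn (h : CPT c) : PT fun a => (c a).n := PT_unn h.n

theorem chpt_sum (n : ℕ) {f : ℕ → α → ℚ} (hf : ∀ j, PT (f j)) :
    PT fun a => ∑ j ∈ Finset.range n, f j a := by
  induction n with
  | zero => exact (PT.const 0).congr fun _ => Finset.sum_range_zero _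
  | succ n ih => exact (pt_qadd ih (hf n)).congr fun _ => Finset.sum_range_succ _ _

theorem pt_sp (k : ℕ) (hx : PT x) : PT fun a => sp k (x a) :=
  pt_qdiv (chpt_sum 10 fun _ => pt_qmul (PT.const _)
    (pt_qpow (pt_qmax (pt_qsub hx (PT.const _)) (PT.const _)) k)) (PT.const _)

theorem pt_zeta (hx : PT x) : PT fun a => zeta (x a) :=
  pt_qsub (pt_sp 9 (pt_qadd hx (PT.const _))) (pt_sp 9 (pt_qsub hx (PT.const _)))

theorem chpt_half1 {r p : α → ℚ} (hr : PT r) (hp : PT p) (hx : PT x) :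
    PT fun a => half1 (r a) (p a) (x a) := by
  have h := pt_qdiv (pt_qsub hx (PT.const 1)) hr
  exact pt_qadd (pt_qmul (pt_qneg hx) (pt_sp 9 h))
    (pt_qdiv (pt_qmul (pt_qsub hp (pt_qdiv (pt_qpow hx 2) (PT.const 2))) (pt_sp 8 h)) hr)

theorem chpt_half2 {r p : α → ℚ} (hr : PT r) (hp : PT p) (hx : PT x) :
    PT fun a => half2 (r a) (p a) (x a) := by
  have h := pt_qdiv (pt_qsub hx (PT.const 1)) hr
  exact pt_qadd (pt_qsub (pt_qneg (pt_sp 9 h))
    (pt_qdiv (pt_qmul (pt_qmul (PT.const 2) hx) (pt_sp 8 h)) hr))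
    (pt_qdiv (pt_qmul (pt_qsub hp (pt_qdiv (pt_qpow hx 2) (PT.const 2))) (pt_sp 7 h))
      (pt_qpow hr 2))

theorem CPT.pl (hc : CPT c) (hb : BPT b) {i : α → ℕ} (hi : PT i) :
    PT fun a => (c a).pl (b a) (i a) := by
  refine pt_iteP (((pt_neq hi (PT.const 0)).or (pt_neq hi hc.nn)).congr fun a => ?_)
    (hb.plq (PT.mul (PT.const _) hb.nat))
    (pt_iteP (pt_neq (PT_mod hi hc.K) (PT.const 0)) (hb.plq hc.kw) (PT.const 1))
  exact Bool.decide_or _ _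

theorem chpt_wd (hb : BPT b) : PT fun a => Chain.wd (b a) :=
  pt_qadd (PT.const 1) (pt_qmul (PT.const 9) hb.rho)

theorem CPT.lo (hc : CPT c) (hb : BPT b) : PT fun a => (c a).lo (b a) :=
  pt_qsub (pt_qsub (hc.pos' (PT.const 0)) (chpt_wd hb)) (PT.const 18)

theorem CPT.hi (hc : CPT c) (hb : BPT b) : PT fun a => (c a).hi (b a) :=
  pt_qadd (pt_qadd (hc.pos' (PT.sub hc.nn (PT.const 1))) (chpt_wd hb)) (PT.const 18)

theorem CPT.al (hc : CPT c) (hb : BPT b) {i : α → ℕ} (hi : PT i) :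
    PT fun a => (c a).al (b a) (i a) :=
  pt_iteP (pt_neq hi (PT.const 0))
    (pt_qsub (pt_qsub (hc.pos' (PT.const 0)) (chpt_wd hb)) (PT.const 9))
    (pt_qadd (hc.pos' (PT.sub (PT.mul hi hc.K) (PT.const 1))) (chpt_wd hb))

theorem CPT.be (hc : CPT c) (hb : BPT b) {i : α → ℕ} (hi : PT i) :
    PT fun a => (c a).be (b a) (i a) :=
  pt_qsub (pt_iteP (pt_neq hi hc.ng)
    (pt_qadd (pt_qadd (hc.pos' (PT.sub hc.nn (PT.const 1))) (chpt_wd hb)) (PT.const 9))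
    (pt_qsub (hc.pos' (PT.mul hi hc.K)) (chpt_wd hb))) (pt_qmul (PT.const 9) hb.rho)

theorem CPT.S1 (hc : CPT c) (hb : BPT b) (hx : PT x) : PT fun a => (c a).S1 (b a) (x a) := by
  have hc' := hc.comp (PT.fst' (α := α) (β := ℕ))
  have hb' := hb.comp (PT.fst' (α := α) (β := ℕ))
  have hd := pt_qsub (PT.comp hx (PT.fst' (α := α) (β := ℕ))) hc.pos
  exact pt_qmul hb.om (pt_rangeSum hc.n (pt_qsub (pt_qadd hd
    (chpt_half1 hb'.rho (hc'.pl hb' (PT.add PT.snd' (PT.const 1))) hd))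
    (chpt_half1 hb'.rho (hc'.pl hb' PT.snd') (pt_qneg hd))))

theorem CPT.S2 (hc : CPT c) (hb : BPT b) (hx : PT x) : PT fun a => (c a).S2 (b a) (x a) := by
  have hc' := hc.comp (PT.fst' (α := α) (β := ℕ))
  have hb' := hb.comp (PT.fst' (α := α) (β := ℕ))
  have hd := pt_qsub (PT.comp hx (PT.fst' (α := α) (β := ℕ))) hc.pos
  exact pt_qmul hb.om (pt_rangeSum hc.n (pt_qadd (pt_qadd (PT.const 1)
    (chpt_half2 hb'.rho (hc'.pl hb' (PT.add PT.snd' (PT.const 1))) hd))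
    (chpt_half2 hb'.rho (hc'.pl hb' PT.snd') (pt_qneg hd))))

theorem CPT.v (hc : CPT c) (hb : BPT b) (hx : PT x) : PT fun a => (c a).v (b a) (x a) :=
  pt_qdiv (pt_qsub (pt_qpow (hc.S1 hb hx) 2) (hc.S2 hb hx)) (PT.const 2)

theorem CPT.up (hc : CPT c) (hb : BPT b) {i : α → ℕ} (hi : PT i) (hx : PT x) :
    PT fun a => (c a).up (b a) (i a) (x a) :=
  pt_qdiv (pt_qmul hb.rho (pt_qsub (pt_sp 10 (pt_qdiv (pt_qsub hx (hc.al hb hi)) hb.rho))
    (pt_sp 10 (pt_qdiv (pt_qsub hx (hc.be hb hi)) hb.rho))))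
    (pt_qsub (hc.be hb hi) (hc.al hb hi))

theorem CPT.r' (hc : CPT c) (hb : BPT b) {i : α → ℕ} (hi : PT i) (hx : PT x) :
    PT fun a => (c a).r (b a) (i a) (x a) :=
  pt_qsub (hc.up hb hi hx) (hc.up hb (PT.add hi (PT.const 1)) hx)

theorem CPT.r (hc : CPT c) (hb : BPT b) (k : ℕ) (hx : PT x) :
    PT fun a => (c a).r (b a) k (x a) := hc.r' hb (PT.const k) hx

theorem CPT.wall (hc : CPT c) (hb : BPT b) (hx : PT x) : PT fun a => (c a).wall (b a) (x a) :=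
  pt_qadd (pt_sp 9 (pt_qsub (pt_qadd (hc.lo hb) (PT.const 9)) hx))
    (pt_sp 9 (pt_qsub hx (pt_qsub (hc.hi hb) (PT.const 9))))

theorem CPT.cut (hc : CPT c) (hb : BPT b) (hx : PT x) : PT fun a => (c a).cut (b a) (x a) :=
  pt_qsub (pt_sp 9 (pt_qsub hx (pt_qsub (hc.lo hb) (PT.const 9))))
    (pt_sp 9 (pt_qsub hx (hc.hi hb)))

end Vale.Agent.P370
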