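import Vale.Agent.P370.DSd

/-! Part D: auxiliary definitions. -/

namespace Vale.Agent.P370

open Set MeasureTheory

/-- the vertical oscillator, measured from its ground state energy -/
noncomputable def zp (b : ℕ) (z : ℝ) : ℝ := (omz b : ℝ) ^ 2 * z ^ 2 / 2 - omz b / 2

theorem zp_cont (b : ℕ) : Continuous (zp b) := by
  unfold zp
  fun_prop

namespace Chain

/-- the interval of a chain -/
def I (b : ℕ) (c : Chain) : Set ℝ := Icc (c.lo b : ℝ) (c.hi b)

/-- outside the support of the smooth orbitals -/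
def Out (b : ℕ) (c : Chain) (x : ℝ) : Prop := x ≤ (c.lo b : ℝ) + 9 ∨ (c.hi b : ℝ) - 9 ≤ x

noncomputable def lapR (b : ℕ) (c : Chain) (a a' : ℕ) : ℝ := c.lap b a a'

/-- twice the energy in the ground state representation -/
noncomputable def En (b : ℕ) (c : Chain) (ψ ψ' : ℝ → ℝ) (A B : ℝ) : ℝ :=
  ∫ x in A..B, (ψ' x + c.S1 b x * ψ x) ^ 2

noncomputable def co (b : ℕ) (c : Chain) (ψ : ℝ → ℝ) (a : ℕ) : ℝ :=
  ∫ x in c.I b, c.g1 b a x * ψ x

/-- energy of ramp `a` -/
noncomputable def kk (b : ℕ) (c : Chain) (a : ℕ) : ℝ :=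
  Real.exp (-(2 * (om b * c.pl b (a * c.K) : ℝ))) * (∫ x, c.up1 b a x ^ 2) / 2

/-- matrix element of `-d²/2 + v` between smooth orbitals -/
noncomputable def ent (b : ℕ) (c : Chain) (a a' : ℕ) : ℝ :=
  ∫ x, (c.gd b a x * c.gd b a' x / 2 + c.v b x * (c.gt1 b a x * c.gt1 b a' x))

instance (b : ℕ) (c : Chain) : IsFiniteMeasure (volume.restrict (c.I b)) :=
  ⟨by rw [Measure.restrict_apply_univ]; exact measure_Icc_lt_top⟩

end Chain

/-- the vertical interval -/
def Iz : Set ℝ := Icc (-64) 64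

instance : IsFiniteMeasure (volume.restrict Iz) :=
  ⟨by rw [Measure.restrict_apply_univ]; exact measure_Icc_lt_top⟩

theorem int_of_out {f : ℝ → ℝ} (hf : Continuous f) {A B : ℝ} (h : ∀ x, x ≤ A ∨ B ≤ x → f x = 0) :
    Integrable f := by
  refine hf.integrable_of_hasCompactSupport (HasCompactSupport.intro (isCompact_Icc (a := A)
    (b := B)) fun x hx => h x ?_)
  by_contra h1
  push Not at h1
  exact hx ⟨h1.1.le, h1.2.le⟩

theorem int_of_bdd {f : ℝ → ℝ} (hf : Measurable f) {A B C : ℝ} (hC : ∀ x, |f x| ≤ C)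
    (h : ∀ x, f x ≠ 0 → x ∈ Icc A B) : Integrable f := by
  have h1 : IntegrableOn f (Icc A B) :=
    Integrable.of_bound hf.aestronglyMeasurable C (Filter.Eventually.of_forall hC)
  exact (integrableOn_iff_integrable_of_support_subset fun x hx => h x hx).1 h1

end Vale.Agent.P370
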