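import Mathlib

/-! Part D: one-dimensional tools (ground state representation, weighted Poincare inequality).

PLAN.  `susy`: the difference of the integrands is the derivative of `-W ψ φ / 2`
(`intervalIntegral.integral_eq_sub_of_hasDerivAt`).  `link_le`: `u B - u A = ∫ u'`, and Cauchy-Schwarz:
for all `t`, `0 ≤ ∫ p (u' - t / p) ^ 2`, take `t = (∫ u') / ∫ 1 / p` (or the discriminant, `discrim_le_zero`).
`wpoin`: for `x ∈ [A, B]`, `link_le` between `x` and `x0` gives
`(u x - u x0) ^ 2 ≤ (B - A) / min q (p x) * E`, and `p x / min q (p x) ≤ p x / q + 1`; integrate.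
`wmean`: expand the square.  `gauss_trunc`: `integral_gaussian`; outside `[-1, 1]` use
`exp (-ω ξ ^ 2) ≤ exp (1 - ω) * exp (-ξ ^ 2)`, `e * √π ≤ 5`. -/

namespace Vale.Agent.P370

open Set MeasureTheory

variable {W W' ψ ψ' φ φ' p u u' : ℝ → ℝ} {A B : ℝ}

theorem susy (hW : ∀ x, HasDerivAt W (W' x) x) (hW' : Continuous W')
    (hψ : ∀ x, HasDerivAt ψ (ψ' x) x) (hψ' : Continuous ψ')
    (hφ : ∀ x, HasDerivAt φ (φ' x) x) (hφ' : Continuous φ')
    (hA : W A * (ψ A * φ A) = 0) (hB : W B * (ψ B * φ B) = 0) :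
    ∫ x in A..B, (ψ' x * φ' x / 2 + (W x ^ 2 - W' x) / 2 * (ψ x * φ x)) =
      ∫ x in A..B, (ψ' x + W x * ψ x) * (φ' x + W x * φ x) / 2 := by
  have cW : Continuous W := continuous_iff_continuousAt.2 fun x => (hW x).continuousAt
  have cψ : Continuous ψ := continuous_iff_continuousAt.2 fun x => (hψ x).continuousAt
  have cφ : Continuous φ := continuous_iff_continuousAt.2 fun x => (hφ x).continuousAt
  have h := intervalIntegral.integral_eq_sub_of_hasDerivAt (a := A) (b := B)
    (f := fun x => W x * (ψ x * φ x))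
    (f' := fun x => W' x * (ψ x * φ x) + W x * (ψ' x * φ x + ψ x * φ' x))
    (fun x _ => (hW x).mul ((hψ x).mul (hφ x))) (Continuous.intervalIntegrable (by fun_prop) _ _)
  rw [hA, hB, sub_zero] at h
  rw [← sub_eq_zero, ← intervalIntegral.integral_sub (Continuous.intervalIntegrable (by fun_prop) _ _)
    (Continuous.intervalIntegrable (by fun_prop) _ _), ← mul_zero (-1 / 2 : ℝ), ← h,
    ← intervalIntegral.integral_const_mul]
  exact intervalIntegral.integral_congr fun x _ => by ring

theorem link_le (hp : Continuous p) (hp0 : ∀ x, 0 < p x) (hu : ∀ x, HasDerivAt u (u' x) x)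
    (hu' : Continuous u') (hAB : A ≤ B) :
    (u B - u A) ^ 2 ≤ (∫ x in A..B, 1 / p x) * ∫ x in A..B, p x * u' x ^ 2 := by
  have ci : Continuous fun x => 1 / p x := continuous_const.div hp fun x => (hp0 x).ne'
  have hD := intervalIntegral.integral_eq_sub_of_hasDerivAt (a := A) (b := B) (fun x _ => hu x)
    (hu'.intervalIntegrable _ _)
  have key := discrim_le_zero (a := ∫ x in A..B, 1 / p x) (b := -2 * (u B - u A))
    (c := ∫ x in A..B, p x * u' x ^ 2) fun t => by
      have h1 : 0 ≤ ∫ x in A..B, (1 / p x * (t * t) + -2 * t * u' x + p x * u' x ^ 2) :=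
        intervalIntegral.integral_nonneg hAB fun x _ => by
          have h2 : 1 / p x * (t * t) + -2 * t * u' x + p x * u' x ^ 2 =
              (t - p x * u' x) ^ 2 / p x := by
            have := (hp0 x).ne'
            field_simp
            ring
          rw [h2]
          exact div_nonneg (sq_nonneg _) (hp0 x).le
      rw [intervalIntegral.integral_add (Continuous.intervalIntegrable (by fun_prop) _ _)
          (Continuous.intervalIntegrable (by fun_prop) _ _),
        intervalIntegral.integral_add (Continuous.intervalIntegrable (by fun_prop) _ _)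
          (Continuous.intervalIntegrable (by fun_prop) _ _),
        intervalIntegral.integral_mul_const, intervalIntegral.integral_const_mul, hD] at h1
      linarith
  rw [discrim] at key
  linarith

theorem DPoin_step (hp : Continuous p) (hp0 : ∀ x, 0 < p x) (hu : ∀ x, HasDerivAt u (u' x) x)
    (hu' : Continuous u') {a b m : ℝ} (ha : A ≤ a) (hab : a ≤ b) (hb : b ≤ B) (hm0 : 0 < m)
    (hm : ∀ t ∈ Icc a b, m ≤ p t) :
    (u b - u a) ^ 2 ≤ 1 / m * ((B - A) * ∫ x in A..B, p x * u' x ^ 2) := by
  have ci : Continuous fun x => 1 / p x := continuous_const.div hp fun x => (hp0 x).ne'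
  have h0 : ∀ x, 0 ≤ p x * u' x ^ 2 := fun x => mul_nonneg (hp0 x).le (sq_nonneg _)
  have h1 : ∫ x in a..b, 1 / p x ≤ ∫ _ in a..b, 1 / m :=
    intervalIntegral.integral_mono_on hab (ci.intervalIntegrable _ _) intervalIntegrable_const
      fun t ht => one_div_le_one_div_of_le hm0 (hm t ht)
  have h2 : ∫ x in a..b, p x * u' x ^ 2 ≤ ∫ x in A..B, p x * u' x ^ 2 :=
    intervalIntegral.integral_mono_interval ha hab hb (ae_of_all _ h0)
      (Continuous.intervalIntegrable (by fun_prop) _ _)
  rw [intervalIntegral.integral_const, smul_eq_mul, mul_comm] at h1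
  have h3 : 1 / m * (b - a) ≤ 1 / m * (B - A) :=
    mul_le_mul_of_nonneg_left (by linarith) (by positivity)
  rw [← mul_assoc]
  exact (link_le hp hp0 hu hu' hab).trans (mul_le_mul (h1.trans h3) h2
    (intervalIntegral.integral_nonneg hab fun x _ => h0 x)
    (mul_nonneg (by positivity) (by linarith)))

theorem wpoin (hp : Continuous p) (hp0 : ∀ x, 0 < p x) (hu : ∀ x, HasDerivAt u (u' x) x)
    (hu' : Continuous u') {x0 q : ℝ} (hx0 : x0 ∈ Icc A B) (hq : 0 < q)
    (hm : ∀ x ∈ Icc A B, ∀ t ∈ uIcc x x0, min q (p x) ≤ p t) :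
    ∫ x in A..B, p x * (u x - u x0) ^ 2 ≤
      (B - A) * ((∫ x in A..B, p x) / q + (B - A)) * ∫ x in A..B, p x * u' x ^ 2 := by
  have cu : Continuous u := continuous_iff_continuousAt.2 fun x => (hu x).continuousAt
  have hAB : A ≤ B := hx0.1.trans hx0.2
  have hE : 0 ≤ (B - A) * ∫ x in A..B, p x * u' x ^ 2 := mul_nonneg (sub_nonneg.2 hAB)
    (intervalIntegral.integral_nonneg hAB fun x _ => mul_nonneg (hp0 x).le (sq_nonneg _))
  rw [mul_right_comm, mul_comm]
  have h1 : ∀ x ∈ Icc A B, (u x - u x0) ^ 2 ≤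
      1 / min q (p x) * ((B - A) * ∫ x in A..B, p x * u' x ^ 2) := fun x hx => by
    have h2 := hm x hx
    rcases le_total x x0 with h | h
    · rw [uIcc_of_le h] at h2
      rw [sub_sq_comm]
      exact DPoin_step hp hp0 hu hu' hx.1 h hx0.2 (lt_min hq (hp0 x)) h2
    · rw [uIcc_of_ge h] at h2
      exact DPoin_step hp hp0 hu hu' hx0.1 h hx.2 (lt_min hq (hp0 x)) h2
  generalize (B - A) * ∫ x in A..B, p x * u' x ^ 2 = E at hE h1
  calc _ ≤ ∫ x in A..B, (p x / q + 1) * E := by
        refine intervalIntegral.integral_mono_on hAB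
          (Continuous.intervalIntegrable (by fun_prop) _ _)
          (Continuous.intervalIntegrable (by fun_prop) _ _) fun x hx => ?_
        have h3 := hp0 x
        refine (mul_le_mul_of_nonneg_left (h1 x hx) h3.le).trans ?_
        rw [← mul_assoc, mul_one_div]
        refine mul_le_mul_of_nonneg_right ?_ hE
        rcases min_choice q (p x) with h | h <;> rw [h]
        · linarith
        · rw [div_self h3.ne']
          exact le_add_of_nonneg_left (by positivity)
    _ = _ := by
        rw [intervalIntegral.integral_mul_const, intervalIntegral.integral_add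
          (Continuous.intervalIntegrable (by fun_prop) _ _) intervalIntegrable_const,
          intervalIntegral.integral_div, intervalIntegral.integral_const, smul_eq_mul, mul_one]

/-- with `m = ∫ p` and `c = (∫ p u) / √m` -/
theorem wmean (hp : Continuous p) (hp0 : ∀ x, 0 < p x) (hu : Continuous u) (hAB : A < B)
    {m c : ℝ} (hm : m = ∫ x in A..B, p x) (hc : c = (∫ x in A..B, p x * u x) / √m) (k : ℝ) :
    c ^ 2 ≤ ∫ x in A..B, p x * u x ^ 2 ∧
      ∫ x in A..B, p x * (u x - k) ^ 2 =
        (∫ x in A..B, p x * u x ^ 2) - c ^ 2 + (c - √m * k) ^ 2 := by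
  have hm0 : 0 < m := hm ▸ intervalIntegral.intervalIntegral_pos_of_pos
    (hp.intervalIntegrable _ _) hp0 hAB
  have hs : 0 < √m := Real.sqrt_pos.2 hm0
  have hs2 := Real.sq_sqrt hm0.le
  have hc' : ∫ x in A..B, p x * u x = c * √m := by rw [hc, div_mul_cancel₀ _ hs.ne']
  have key : ∀ k : ℝ, ∫ x in A..B, p x * (u x - k) ^ 2 =
      (∫ x in A..B, p x * u x ^ 2) - c ^ 2 + (c - √m * k) ^ 2 := fun k => by
    have h1 : ∀ x, p x * (u x - k) ^ 2 = p x * u x ^ 2 - 2 * k * (p x * u x) + k ^ 2 * p x :=
      fun x => by ring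
    simp only [h1]
    rw [intervalIntegral.integral_add (Continuous.intervalIntegrable (by fun_prop) _ _)
        (Continuous.intervalIntegrable (by fun_prop) _ _),
      intervalIntegral.integral_sub (Continuous.intervalIntegrable (by fun_prop) _ _)
        (Continuous.intervalIntegrable (by fun_prop) _ _),
      intervalIntegral.integral_const_mul, intervalIntegral.integral_const_mul, hc', ← hm]
    linear_combination (-k ^ 2) * hs2
  refine ⟨?_, key k⟩
  have h1 := key (c / √m)
  have h2 : 0 ≤ ∫ x in A..B, p x * (u x - c / √m) ^ 2 :=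
    intervalIntegral.integral_nonneg hAB.le fun x _ => mul_nonneg (hp0 x).le (sq_nonneg _)
  rw [mul_div_cancel₀ _ hs.ne', sub_self] at h1
  linarith

theorem gauss_trunc {ω : ℝ} (hω : 1 ≤ ω) (hA : A ≤ -1) (hB : 1 ≤ B) :
    |(∫ x in A..B, Real.exp (-(ω * x ^ 2))) - √(Real.pi / ω)| ≤ 5 * Real.exp (-ω) := by
  have i1 : Integrable fun x : ℝ => Real.exp (-ω * x ^ 2) :=
    integrable_exp_neg_mul_sq (by linarith)
  have i2 : Integrable fun x : ℝ => Real.exp (1 - ω) * Real.exp (-1 * x ^ 2) :=
    (integrable_exp_neg_mul_sq one_pos).const_mul _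
  have h1 := integral_add_compl (measurableSet_Ioc (a := A) (b := B)) i1
  have h2 : 0 ≤ ∫ x in (Ioc A B)ᶜ, Real.exp (-ω * x ^ 2) :=
    integral_nonneg fun x => (Real.exp_pos _).le
  have h3 : ∫ x in (Ioc A B)ᶜ, Real.exp (-ω * x ^ 2) ≤
      ∫ x in (Ioc A B)ᶜ, Real.exp (1 - ω) * Real.exp (-1 * x ^ 2) := by
    refine setIntegral_mono_on i1.integrableOn i2.integrableOn measurableSet_Ioc.compl
      fun x hx => ?_
    have h4 : 1 ≤ x ^ 2 := by
      rcases not_and_or.1 hx with h | h
      · nlinarith [not_lt.1 h]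
      · nlinarith [not_le.1 h]
    rw [← Real.exp_add]
    exact Real.exp_le_exp.2 (by nlinarith)
  have h4 := setIntegral_le_integral (s := (Ioc A B)ᶜ) i2 (ae_of_all _ fun x => by positivity)
  rw [integral_const_mul, integral_const_mul, integral_gaussian, div_one] at h4
  rw [integral_const_mul] at h3
  rw [integral_gaussian] at h1
  have h5 : √Real.pi ≤ 1.8 := Real.sqrt_le_iff.2 ⟨by norm_num, by linarith [Real.pi_lt_d2]⟩
  have h6 : Real.exp (1 - ω) * √Real.pi ≤ 5 * Real.exp (-ω) := by
    rw [sub_eq_add_neg, Real.exp_add, mul_right_comm]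
    refine mul_le_mul_of_nonneg_right ?_ (Real.exp_pos _).le
    nlinarith [Real.exp_one_lt_d9, Real.sqrt_nonneg Real.pi, Real.exp_pos 1]
  rw [intervalIntegral.integral_of_le (by linarith), ← h1]
  simp only [neg_mul] at h2 h3 h4 ⊢
  rw [abs_le]
  constructor <;> linarith [Real.exp_pos (-ω)]

end Vale.Agent.P370
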