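import Vale.Agent.P370.WShape

/-! Part D: derivatives, continuity and casts of the chain functions (no `Good` needed).

PLAN.  Chain rule with `sp_deriv` (`HasDerivAt.comp`, `.mul`, `HasDerivAt.fun_sum`), `rho b ≠ 0`,
`convert ... using 1; ring` / `field_simp`.  Continuity: unfold, `sp_cont`, `fun_prop` (after
`have := sp_cont 9` etc.) or `continuous_finset_sum`.  `ContDiff 1`: `contDiff_one_iff_deriv`.
Casts: unfold and `push_cast` (`Rat.cast_max`, `Rat.cast_id`), `sp_cast`. -/

namespace Vale.Agent.P370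

open Finset

theorem DSd_sp {k : ℕ} (hk : 1 ≤ k) {f : ℝ → ℝ} {f' x : ℝ} (hf : HasDerivAt f f' x) :
    HasDerivAt (fun y => sp (k + 1) (f y)) (sp k (f x) * f') x :=
  (sp_deriv hk (f x)).comp x hf

theorem DSd_half (ϱ pl : ℝ) {f : ℝ → ℝ} {f' x : ℝ} (hf : HasDerivAt f f' x) :
    HasDerivAt (fun y => half ϱ pl (f y)) (half1 ϱ pl (f x) * f') x := by
  have h1 := (((hf.fun_pow 2).div_const 2).const_sub pl).fun_mul
    (DSd_sp (k := 8) (by norm_num) ((hf.sub_const 1).div_const ϱ))
  refine h1.congr_deriv ?_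
  unfold half1
  ring

theorem DSd_half1 (ϱ pl : ℝ) {f : ℝ → ℝ} {f' x : ℝ} (hf : HasDerivAt f f' x) :
    HasDerivAt (fun y => half1 ϱ pl (f y)) (half2 ϱ pl (f x) * f') x := by
  have h0 := (hf.sub_const 1).div_const ϱ
  have h1 := (hf.fun_neg.fun_mul (DSd_sp (k := 8) (by norm_num) h0)).fun_add
    (((((hf.fun_pow 2).div_const 2).const_sub pl).fun_mul
      (DSd_sp (k := 7) (by norm_num) h0)).div_const ϱ)
  refine h1.congr_deriv ?_
  unfold half2
  ring

theorem DSd_rho (b : ℕ) : ((rho b : ℚ) : ℝ) ≠ 0 := by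
  rw [rho_cast]
  exact one_div_ne_zero (pow_ne_zero _ (pow_ne_zero _ two_ne_zero))

namespace Chain

/-- derivative of `up` -/
noncomputable def up1 (b : ℕ) (c : Chain) (a : ℕ) (x : ℝ) : ℝ :=
  (sp 9 ((x - c.al b a) / rho b) - sp 9 ((x - c.be b a) / rho b)) / (c.be b a - c.al b a)

/-- derivative of `r` -/
noncomputable def r1 (b : ℕ) (c : Chain) (a : ℕ) (x : ℝ) : ℝ := c.up1 b a x - c.up1 b (a + 1) x

/-- derivative of `gt1` -/
noncomputable def gd (b : ℕ) (c : Chain) (a : ℕ) (x : ℝ) : ℝ :=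
  (c.r1 b a x - c.S1 b x * c.r b a x) * Real.exp (-c.S b x) / √(c.mu b a)

variable (b : ℕ) (c : Chain) (a : ℕ)

theorem S_deriv (x : ℝ) : HasDerivAt (c.S b) (c.S1 b x) x := by
  have h0 : ∀ i, HasDerivAt (fun y : ℝ => y - c.pos i) 1 x := fun i =>
    (hasDerivAt_id' x).sub_const _
  refine ((HasDerivAt.fun_sum (u := range c.n) fun i _ =>
    ((((h0 i).fun_pow 2).div_const 2).fun_add
      (DSd_half (rho b) (c.pl b (i + 1)) (h0 i))).fun_add
        (DSd_half (rho b) (c.pl b i) (h0 i).fun_neg)).sub_const _).const_mul _ |>.congr_deriv ?_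
  unfold S1
  congr 1
  exact sum_congr rfl fun i _ => by ring

theorem S1_deriv (x : ℝ) : HasDerivAt (c.S1 b) (c.S2 b x) x := by
  have h0 : ∀ i, HasDerivAt (fun y : ℝ => y - c.pos i) 1 x := fun i =>
    (hasDerivAt_id' x).sub_const _
  refine (HasDerivAt.fun_sum (u := range c.n) fun i _ =>
    ((h0 i).fun_add (DSd_half1 (rho b) (c.pl b (i + 1)) (h0 i))).fun_sub
      (DSd_half1 (rho b) (c.pl b i) (h0 i).fun_neg)).const_mul _ |>.congr_deriv ?_
  unfold S2
  congr 1
  exact sum_congr rfl fun i _ => by ring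

theorem up_deriv (x : ℝ) : HasDerivAt (c.up b a) (c.up1 b a x) x := by
  have h0 : ∀ t : ℝ, HasDerivAt (fun y : ℝ => (y - t) / rho b) (1 / rho b) x := fun t =>
    ((hasDerivAt_id' x).sub_const _).div_const _
  refine (((DSd_sp (k := 9) (by norm_num) (h0 (c.al b a))).fun_sub
    (DSd_sp (k := 9) (by norm_num) (h0 (c.be b a)))).const_mul (rho b : ℝ)).div_const _
      |>.congr_deriv ?_
  have := DSd_rho b
  unfold up1
  congr 1
  field_simp

theorem r_deriv (x : ℝ) : HasDerivAt (c.r b a) (c.r1 b a x) x := by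
  exact (up_deriv b c a x).fun_sub (up_deriv b c (a + 1) x)

theorem gt1_deriv (x : ℝ) : HasDerivAt (c.gt1 b a) (c.gd b a x) x := by
  refine ((r_deriv b c a x).fun_mul (S_deriv b c x).fun_neg.exp).div_const _ |>.congr_deriv ?_
  unfold gd
  ring

theorem S1_cont : Continuous (c.S1 b : ℝ → ℝ) := by
  exact continuous_iff_continuousAt.2 fun x => (S1_deriv b c x).continuousAt

theorem S2_cont : Continuous (c.S2 b : ℝ → ℝ) := by
  have h7 := sp_cont 7
  have h8 := sp_cont 8
  have h9 := sp_cont 9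
  unfold S2 half2
  fun_prop

theorem v_cont : Continuous (c.v b : ℝ → ℝ) := by
  exact (((S1_cont b c).pow 2).sub (S2_cont b c)).div_const 2

theorem up1_cont : Continuous (c.up1 b a) := by
  have h9 := sp_cont 9
  unfold up1
  fun_prop

theorem r_cont : Continuous (c.r b a : ℝ → ℝ) := by
  exact continuous_iff_continuousAt.2 fun x => (r_deriv b c a x).continuousAt

theorem r1_cont : Continuous (c.r1 b a) := by
  exact (up1_cont b c a).sub (up1_cont b c (a + 1))

theorem gt1_cont : Continuous (c.gt1 b a) := by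
  exact continuous_iff_continuousAt.2 fun x => (gt1_deriv b c a x).continuousAt

theorem DSd_S_cont : Continuous (c.S b : ℝ → ℝ) :=
  continuous_iff_continuousAt.2 fun x => (S_deriv b c x).continuousAt

theorem gd_cont : Continuous (c.gd b a) := by
  exact (((r1_cont b c a).sub ((S1_cont b c).mul (r_cont b c a))).mul
    (DSd_S_cont b c).neg.rexp).div_const _

theorem gt1_contDiff : ContDiff ℝ 1 (c.gt1 b a) := by
  refine contDiff_one_iff_deriv.2 ⟨fun x => (gt1_deriv b c a x).differentiableAt, ?_⟩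
  rw [show deriv (c.gt1 b a) = c.gd b a from funext fun x => (gt1_deriv b c a x).deriv]
  exact gd_cont b c a

theorem wall_cont : Continuous (c.wall b : ℝ → ℝ) := by
  have h9 := sp_cont 9
  unfold wall
  fun_prop

theorem cut_cont : Continuous (c.cut b : ℝ → ℝ) := by
  have h9 := sp_cont 9
  unfold cut
  fun_prop

theorem g1_meas' : Measurable (c.g1 b a) := by
  exact Measurable.ite (measurableSet_Ico (a := (c.mb b a : ℝ)) (b := c.mb b (a + 1)))
    ((DSd_S_cont b c).neg.rexp.div_const _).measurable measurable_const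

end Chain

theorem zeta_cont : Continuous (zeta : ℝ → ℝ) := by
  have h9 := sp_cont 9
  unfold zeta
  fun_prop

/-- the cut-off of `gtz` and its derivative -/
noncomputable def zt (z : ℝ) : ℝ := sp 9 (z + 18) - sp 9 (z - 9)

noncomputable def zt1 (z : ℝ) : ℝ := sp 8 (z + 18) - sp 8 (z - 9)

/-- derivative of `gtz` -/
noncomputable def gzd (b : ℕ) (z : ℝ) : ℝ :=
  (zt1 z - omz b * z * zt z) * Real.exp (-(omz b * z ^ 2 / 2)) / √(muz b)

theorem gtz_deriv (b : ℕ) (z : ℝ) : HasDerivAt (gtz b) (gzd b z) z := by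
  have h0 := hasDerivAt_id' z
  refine (((DSd_sp (k := 8) (by norm_num) (h0.add_const 18)).fun_sub
    (DSd_sp (k := 8) (by norm_num) (h0.sub_const 9))).fun_mul
      (((h0.fun_pow 2).const_mul (omz b : ℝ)).div_const 2).fun_neg.exp).div_const _
        |>.congr_deriv ?_
  unfold gzd zt zt1
  ring

theorem gtz_cont (b : ℕ) : Continuous (gtz b) := by
  exact continuous_iff_continuousAt.2 fun x => (gtz_deriv b x).continuousAt

theorem gzd_cont (b : ℕ) : Continuous (gzd b) := by
  have h8 := sp_cont 8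
  have h9 := sp_cont 9
  unfold gzd zt zt1
  fun_prop

theorem gtz_contDiff (b : ℕ) : ContDiff ℝ 1 (gtz b) := by
  refine contDiff_one_iff_deriv.2 ⟨fun x => (gtz_deriv b x).differentiableAt, ?_⟩
  rw [show deriv (gtz b) = gzd b from funext fun x => (gtz_deriv b x).deriv]
  exact gzd_cont b

theorem gz_meas' (b : ℕ) : Measurable (gz b) := by
  exact Measurable.ite (measurableSet_le (by fun_prop) measurable_const) (by fun_prop)
    measurable_const

theorem sp_cast (k : ℕ) (q : ℚ) : ((sp k q : ℚ) : ℝ) = sp k (q : ℝ) := by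
  unfold sp
  push_cast
  rfl

theorem DSd_v_cast (b : ℕ) (c : Chain) (q : ℚ) : ((c.v b q : ℚ) : ℝ) = c.v b (q : ℝ) := by
  unfold Chain.v Chain.S1 Chain.S2 half1 half2
  push_cast [sp_cast, Rat.cast_id]
  rfl

theorem DSd_r_cast (b : ℕ) (c : Chain) (a : ℕ) (q : ℚ) :
    ((c.r b a q : ℚ) : ℝ) = c.r b a (q : ℝ) := by
  unfold Chain.r Chain.up
  push_cast [sp_cast, Rat.cast_id]
  rfl

theorem DSd_wall_cast (b : ℕ) (c : Chain) (q : ℚ) :
    ((c.wall b q : ℚ) : ℝ) = c.wall b (q : ℝ) := by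
  unfold Chain.wall
  push_cast [sp_cast, Rat.cast_id]
  rfl

theorem DSd_cut_cast (b : ℕ) (c : Chain) (q : ℚ) :
    ((c.cut b q : ℚ) : ℝ) = c.cut b (q : ℝ) := by
  unfold Chain.cut
  push_cast [sp_cast, Rat.cast_id]
  rfl

theorem DSd_zeta_cast (q : ℚ) : ((zeta q : ℚ) : ℝ) = zeta (q : ℝ) := by
  unfold zeta
  push_cast [sp_cast]
  rfl

section

variable {ι S : Type} [Fintype ι] [Fintype S]

theorem V0_cont (b : ℕ) (L : Lay ι S) : Continuous fun x : E3 => L.V0 b (x 0) (x 1) := by
  have h0 : Continuous fun x : E3 => x 0 := continuous_apply 0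
  have h1 : Continuous fun x : E3 => x 1 := continuous_apply 1
  exact continuous_finsetSum _ fun i _ =>
    (((Chain.cut_cont b _).comp h0).mul ((Chain.cut_cont b _).comp h1)).mul
      (((((Chain.v_cont b _).comp h0).add ((Chain.v_cont b _).comp h1)).add
        (continuous_const.mul (((Chain.wall_cont b _).comp h0).add
          ((Chain.wall_cont b _).comp h1)))).sub continuous_const)

theorem Ve_cont0 (b : ℕ) (L : Lay ι S) : Continuous fun x : E3 => L.Ve b (x 0) (x 1) := by
  exact continuous_finsetSum _ fun σ _ => continuous_const.mul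
    (((Chain.r_cont b _ _).comp (continuous_apply 0)).mul
      ((Chain.r_cont b _ _).comp (continuous_apply 1)))

theorem Vid_cont' (b : ℕ) (L : Lay ι S) : Continuous (L.Vid b) := by
  have h1 := V0_cont b L
  have h2 := zeta_cont
  unfold Lay.Vid
  refine Continuous.add (by fun_prop) ((h2.comp (continuous_apply 2)).mul h1)

theorem Vloc_cast' (b : ℕ) (L : Lay ι S) (q : ℚ × ℚ × ℚ) :
    ((L.Vloc b q.1 q.2.1 q.2.2 : ℚ) : ℝ) = L.VlocR b (pt q) := by
  unfold Lay.VlocR Lay.Vloc Lay.V0 Lay.Ve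
  push_cast [DSd_v_cast, DSd_r_cast, DSd_wall_cast, DSd_cut_cast, DSd_zeta_cast, Rat.cast_id]
  rfl

end

end Vale.Agent.P370
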