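import Vale.Agent.P370.WDefs

/-! Part W: properties of `kB`, `kA` (task WDens).
Plan.  `kB g t s ≤ ∫ g = 1` (kernel `≤ 1`), and `kB g t s ≤ M ∫ exp (-t² (s - s')²) = M √(π / t²)`
(`integral_gaussian`, `integral_sub_left_eq_self`; `√π ≤ 2`).  Measurability:
`StronglyMeasurable.integral_prod_right'` (or `_left'`) for the jointly measurable integrand.
`kA_sub`: `|kB g t s - kB g' t s| ≤ ∫ |g - g'|`, then `f B - f' B' = (f - f') B + f' (B - B')`.
`l1_le`: `|f - g| ≤ (f - h) + (g - h)`.  `kA_supp`: pointwise bounds of the kernel on the supports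
(`| |s - s'| - |p - p'| | ≤ 2 R`), `integral_mono`, total masses `1`. -/

namespace Vale.Agent.P370

open MeasureTheory

variable {M : ℝ} {f g f' g' : ℝ → ℝ}

theorem Dens.pos (hf : Dens M f) : 0 < M := by
  refine lt_of_not_ge fun h => ?_
  have h1 : f = fun _ => 0 := funext fun x => le_antisymm ((hf.le x).trans h) (hf.nonneg x)
  have h2 := hf.one
  rw [h1, integral_zero] at h2
  exact zero_ne_one h2

theorem Dens.mono (hf : Dens M f) {M' : ℝ} (h : M ≤ M') : Dens M' f := by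
  exact ⟨hf.meas, hf.nonneg, fun x => (hf.le x).trans h, hf.int, hf.one⟩

theorem wdens_int (hf : Integrable f) {φ : ℝ → ℝ} (hm : Measurable φ) (h0 : ∀ x, 0 ≤ φ x)
    (h1 : ∀ x, φ x ≤ 1) : Integrable fun x => f x * φ x :=
  hf.mul_bdd (c := 1) hm.aestronglyMeasurable
    (ae_of_all _ fun x => by rw [Real.norm_of_nonneg (h0 x)]; exact h1 x)

theorem wdens_le (hf : Dens M f) {φ : ℝ → ℝ} (hm : Measurable φ) (h0 : ∀ x, 0 ≤ φ x)
    (h1 : ∀ x, φ x ≤ 1) {b : ℝ} (hb : ∀ x, f x ≠ 0 → φ x ≤ b) : ∫ x, f x * φ x ≤ b := by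
  refine (integral_mono (wdens_int hf.int hm h0 h1) (hf.int.mul_const b) fun x => ?_).trans ?_
  · by_cases hx : f x = 0
    · simp [hx]
    · exact mul_le_mul_of_nonneg_left (hb x hx) (hf.nonneg x)
  · rw [integral_mul_const, hf.one, one_mul]

theorem wdens_ge (hf : Dens M f) {φ : ℝ → ℝ} (hm : Measurable φ) (h0 : ∀ x, 0 ≤ φ x)
    (h1 : ∀ x, φ x ≤ 1) {b : ℝ} (hb : ∀ x, f x ≠ 0 → b ≤ φ x) : b ≤ ∫ x, f x * φ x := by
  refine le_trans ?_ (integral_mono (hf.int.mul_const b) (wdens_int hf.int hm h0 h1) fun x => ?_)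
  · rw [integral_mul_const, hf.one, one_mul]
  · by_cases hx : f x = 0
    · simp [hx]
    · exact mul_le_mul_of_nonneg_left (hb x hx) (hf.nonneg x)

theorem wdens_e1 (t u : ℝ) : Real.exp (-(t ^ 2 * u ^ 2)) ≤ 1 :=
  Real.exp_le_one_iff.2 (neg_nonpos.2 (by positivity))

theorem wdens_em (t s : ℝ) : Measurable fun s' : ℝ => Real.exp (-(t ^ 2 * (s - s') ^ 2)) := by
  fun_prop

theorem wdens_abs (hf : Integrable f) {φ : ℝ → ℝ} (h0 : ∀ x, 0 ≤ φ x)
    (h1 : ∀ x, φ x ≤ 1) : |∫ x, f x * φ x| ≤ ∫ x, |f x| := by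
  refine norm_integral_le_of_norm_le (f := fun x => f x * φ x) hf.abs (ae_of_all _ fun x => ?_)
  rw [Real.norm_eq_abs, abs_mul, abs_of_nonneg (h0 x)]
  exact mul_le_of_le_one_right (abs_nonneg _) (h1 x)

theorem kB_meas (hg : Dens M g) : Measurable fun p : ℝ × ℝ => kB g p.1 p.2 := by
  have hm := hg.meas
  have h : Measurable fun q : (ℝ × ℝ) × ℝ =>
      g q.2 * Real.exp (-(q.1.1 ^ 2 * (q.1.2 - q.2) ^ 2)) := by fun_prop
  exact (h.stronglyMeasurable.integral_prod_right' (ν := volume)).measurable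

theorem kB_nonneg (hg : Dens M g) (t s : ℝ) : 0 ≤ kB g t s := by
  exact integral_nonneg fun x => mul_nonneg (hg.nonneg x) (Real.exp_pos _).le

theorem kB_le_one (hg : Dens M g) (t s : ℝ) : kB g t s ≤ 1 := by
  exact wdens_le hg (wdens_em t s) (fun _ => (Real.exp_pos _).le) (fun _ => wdens_e1 _ _)
    fun _ _ => wdens_e1 _ _

theorem wdens_Bm (hg : Dens M g) (t : ℝ) : Measurable fun s => kB g t s :=
  (kB_meas hg).comp (measurable_const.prodMk measurable_id)

theorem kB_dec (hg : Dens M g) {t : ℝ} (ht : 0 < t) (s : ℝ) : t * kB g t s ≤ 2 * M := by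
  have hM := hg.pos
  have h2 : 0 < t ^ 2 := by positivity
  have hi : Integrable fun s' : ℝ => Real.exp (-t ^ 2 * (s - s') ^ 2) :=
    (integrable_exp_neg_mul_sq h2).comp_sub_left s
  have h3 : kB g t s ≤ ∫ s', M * Real.exp (-t ^ 2 * (s - s') ^ 2) :=
    integral_mono (wdens_int hg.int (wdens_em t s) (fun _ => (Real.exp_pos _).le)
      fun _ => wdens_e1 _ _) (hi.const_mul M) fun x => by
        simp only [neg_mul]
        exact mul_le_mul_of_nonneg_right (hg.le x) (Real.exp_pos _).le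
  rw [integral_const_mul, integral_sub_left_eq_self (fun x => Real.exp (-t ^ 2 * x ^ 2)),
    integral_gaussian, Real.sqrt_div Real.pi_pos.le, Real.sqrt_sq ht.le] at h3
  have h4 : √Real.pi ≤ 2 := Real.sqrt_le_iff.2 ⟨by norm_num, by linarith [Real.pi_le_four]⟩
  refine (mul_le_mul_of_nonneg_left h3 ht.le).trans ?_
  rw [mul_left_comm, mul_div_cancel₀ _ ht.ne', mul_comm]
  exact mul_le_mul_of_nonneg_right h4 hM.le

theorem ker_kB (hg : Dens M g) (s : ℝ) : Ker M fun t => kB g t s := by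
  exact ⟨(kB_meas hg).comp (measurable_id.prodMk measurable_const), fun t => kB_nonneg hg t s,
    fun t => kB_le_one hg t s, fun t ht => kB_dec hg ht s⟩

theorem ker_kA (hf : Dens M f) (hg : Dens M g) : Ker M (kA f g) := by
  refine ⟨?_, fun t => integral_nonneg fun x => mul_nonneg (hf.nonneg x) (kB_nonneg hg t x),
    fun t => wdens_le hf (wdens_Bm hg t) (kB_nonneg hg t) (kB_le_one hg t)
      fun x _ => kB_le_one hg t x, fun t ht => ?_⟩
  · have h : Measurable fun q : ℝ × ℝ => f q.2 * kB g q.1 q.2 :=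
      (hf.meas.comp measurable_snd).mul (kB_meas hg)
    exact (h.stronglyMeasurable.integral_prod_right' (ν := volume)).measurable
  · rw [mul_comm, ← le_div_iff₀ ht]
    refine wdens_le hf (wdens_Bm hg t) (kB_nonneg hg t) (kB_le_one hg t) fun x _ => ?_
    rw [le_div_iff₀ ht, mul_comm]
    exact kB_dec hg ht x

theorem kA_sub (hf : Dens M f) (hg : Dens M g) (hf' : Dens M f') (hg' : Dens M g') (t : ℝ) :
    |kA f g t - kA f' g' t| ≤ (∫ x, |f x - f' x|) + ∫ x, |g x - g' x| := by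
  have hB : ∀ s, |kB g t s - kB g' t s| ≤ ∫ x, |g x - g' x| := fun s => by
    have h := wdens_abs (hg.int.sub hg'.int) (φ := fun s' => Real.exp (-(t ^ 2 * (s - s') ^ 2)))
      (fun _ => (Real.exp_pos _).le) fun _ => wdens_e1 _ _
    simp only [Pi.sub_apply, sub_mul] at h
    rwa [integral_sub (wdens_int hg.int (wdens_em t s) (fun _ => (Real.exp_pos _).le)
      fun _ => wdens_e1 _ _) (wdens_int hg'.int (wdens_em t s) (fun _ => (Real.exp_pos _).le)
      fun _ => wdens_e1 _ _)] at h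
  have i1 := wdens_int hf.int (wdens_Bm hg t) (kB_nonneg hg t) (kB_le_one hg t)
  have i2 := wdens_int hf'.int (wdens_Bm hg t) (kB_nonneg hg t) (kB_le_one hg t)
  have i3 := wdens_int hf'.int (wdens_Bm hg' t) (kB_nonneg hg' t) (kB_le_one hg' t)
  have h1 := wdens_abs (hf.int.sub hf'.int) (kB_nonneg hg t) (kB_le_one hg t)
  simp only [Pi.sub_apply, sub_mul] at h1
  rw [integral_sub i1 i2] at h1
  have h2 : |kA f' g t - kA f' g' t| ≤ ∫ x, |g x - g' x| := by
    rw [kA, kA, ← integral_sub i2 i3]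
    refine (norm_integral_le_of_norm_le (f := fun x => f' x * kB g t x - f' x * kB g' t x)
      (hf'.int.mul_const (∫ x, |g x - g' x|)) (ae_of_all _ fun x => ?_)).trans (le_of_eq ?_)
    · rw [← mul_sub, Real.norm_eq_abs, abs_mul, abs_of_nonneg (hf'.nonneg x)]
      exact mul_le_mul_of_nonneg_left (hB x) (hf'.nonneg x)
    · rw [integral_mul_const, hf'.one, one_mul]
  exact (abs_sub_le _ (kA f' g t) _).trans (add_le_add h1 h2)

theorem l1_le (hf : Dens M f) (hg : Dens M g) {h : ℝ → ℝ} (hi : Integrable h)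
    (h1 : ∀ x, h x ≤ f x) (h2 : ∀ x, h x ≤ g x) : ∫ x, |f x - g x| ≤ 2 * (1 - ∫ x, h x) := by
  have i1 : Integrable fun x => f x - h x := hf.int.sub hi
  have i2 : Integrable fun x => g x - h x := hg.int.sub hi
  have h3 : ∫ x, |f x - g x| ≤ ∫ x, (f x - h x) + (g x - h x) :=
    integral_mono (hf.int.sub hg.int).abs (i1.add i2) fun x =>
      abs_le.2 ⟨by linarith [h1 x, h2 x], by linarith [h1 x, h2 x]⟩
  rw [integral_add i1 i2, integral_sub hf.int hi, integral_sub hg.int hi, hf.one, hg.one] at h3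
  linarith

theorem dens_avg {K : ℕ} (hK : 1 ≤ K) {F : ℕ → ℝ → ℝ} (hF : ∀ j < K, Dens M (F j)) :
    Dens M (avg K F) := by
  have hK0 : (0 : ℝ) < K := by exact_mod_cast hK
  have hF' : ∀ j ∈ Finset.range K, Dens M (F j) := fun j hj => hF j (Finset.mem_range.1 hj)
  refine ⟨(Finset.measurable_fun_sum _ fun j hj => (hF' j hj).meas).div_const _,
    fun x => div_nonneg (Finset.sum_nonneg fun j hj => (hF' j hj).nonneg x) hK0.le, fun x => ?_,
    (integrable_finsetSum _ fun j hj => (hF' j hj).int).div_const _, ?_⟩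
  · rw [avg, div_le_iff₀ hK0]
    refine (Finset.sum_le_card_nsmul _ _ M fun j hj => (hF' j hj).le x).trans (le_of_eq ?_)
    rw [Finset.card_range, nsmul_eq_mul, mul_comm]
  · unfold avg
    rw [integral_div, integral_finsetSum _ fun j hj => (hF' j hj).int,
      Finset.sum_congr rfl fun j hj => (hF' j hj).one]
    simp [hK0.ne']

theorem kA_avg {K K' : ℕ} {F G : ℕ → ℝ → ℝ} (hF : ∀ j < K, Dens M (F j))
    (hG : ∀ j < K', Dens M (G j)) (t : ℝ) : kA (avg K F) (avg K' G) t =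
      (∑ j ∈ Finset.range K, ∑ j' ∈ Finset.range K', kA (F j) (G j') t) / (K * K') := by
  have hF' : ∀ j ∈ Finset.range K, Dens M (F j) := fun j hj => hF j (Finset.mem_range.1 hj)
  have hG' : ∀ j ∈ Finset.range K', Dens M (G j) := fun j hj => hG j (Finset.mem_range.1 hj)
  have hB : ∀ s, kB (avg K' G) t s = (∑ j ∈ Finset.range K', kB (G j) t s) / K' := fun s => by
    unfold kB avg
    rw [← integral_finsetSum _ fun j hj => wdens_int (hG' j hj).int (wdens_em t s)
      (fun _ => (Real.exp_pos _).le) fun _ => wdens_e1 _ _, ← integral_div]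
    refine integral_congr_ae (ae_of_all _ fun x => ?_)
    simp only
    rw [← Finset.sum_mul]
    ring
  have hi : ∀ j ∈ Finset.range K, ∀ j' ∈ Finset.range K',
      Integrable fun s => F j s * kB (G j') t s := fun j hj j' hj' =>
    wdens_int (hF' j hj).int (wdens_Bm (hG' j' hj') t) (kB_nonneg (hG' j' hj') t)
      (kB_le_one (hG' j' hj') t)
  unfold kA
  rw [Finset.sum_congr rfl fun j hj => (integral_finsetSum _ (hi j hj)).symm,
    ← integral_finsetSum _ fun j hj => integrable_finsetSum _ (hi j hj), ← integral_div]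
  refine integral_congr_ae (ae_of_all _ fun x => ?_)
  simp only
  rw [hB, avg, ← Finset.sum_mul_sum, div_mul_div_comm]

theorem kA_supp (hf : Dens M f) (hg : Dens M g) {p p' R : ℝ} (sf : Supp f p R) (sg : Supp g p' R)
    (t : ℝ) : Real.exp (-(t ^ 2 * (|p - p'| + 2 * R) ^ 2)) ≤ kA f g t ∧
      kA f g t ≤ Real.exp (-(t ^ 2 * max (|p - p'| - 2 * R) 0 ^ 2)) := by
  have key : ∀ s s', f s ≠ 0 → g s' ≠ 0 →
      |s - s'| ≤ |p - p'| + 2 * R ∧ max (|p - p'| - 2 * R) 0 ≤ |s - s'| := fun s s' hs hs' => by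
    have h1 := abs_le.1 (sf s hs)
    have h2 := abs_le.1 (sg s' hs')
    have h3 := abs_le.1 (le_refl |p - p'|)
    have h4 := abs_le.1 (le_refl |s - s'|)
    refine ⟨abs_le.2 ⟨by linarith, by linarith⟩, max_le ?_ (abs_nonneg _)⟩
    have h5 : |p - p'| ≤ |s - s'| + 2 * R := abs_le.2 ⟨by linarith, by linarith⟩
    linarith
  have mono : ∀ a b : ℝ, 0 ≤ a → a ≤ b →
      Real.exp (-(t ^ 2 * b ^ 2)) ≤ Real.exp (-(t ^ 2 * a ^ 2)) := fun a b ha hab =>
    Real.exp_le_exp.2 (neg_le_neg (mul_le_mul_of_nonneg_left (pow_le_pow_left₀ ha hab 2)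
      (sq_nonneg t)))
  constructor
  · refine wdens_ge hf (wdens_Bm hg t) (kB_nonneg hg t) (kB_le_one hg t) fun s hs => ?_
    refine wdens_ge hg (wdens_em t s) (fun _ => (Real.exp_pos _).le) (fun _ => wdens_e1 _ _)
      fun s' hs' => ?_
    rw [← sq_abs (s - s')]
    exact mono _ _ (abs_nonneg _) (key s s' hs hs').1
  · refine wdens_le hf (wdens_Bm hg t) (kB_nonneg hg t) (kB_le_one hg t) fun s hs => ?_
    refine wdens_le hg (wdens_em t s) (fun _ => (Real.exp_pos _).le) (fun _ => wdens_e1 _ _)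
      fun s' hs' => ?_
    rw [← sq_abs (s - s')]
    exact mono _ _ (le_max_right _ _) (key s s' hs hs').2

end Vale.Agent.P370
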