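import Vale.Agent.P370.WDefs

/-! Part W: Gaussians and truncated Gaussians (task WGauss).
Plan.  `eG ω R p` is the indicator of `Icc (p - R) (p + R)`; shift with `integral_sub_right_eq_self`,
`integral_indicator`, `intervalIntegral.integral_of_le`, `integral_Icc_eq_integral_Ioc`.
`mG_ge`: pointwise `exp (-ω x²) ≤ eG ω R 0 x + exp (-(ω - 1) R²) * exp (-x²)`, `integral_gaussian`,
`√π ≤ 2`.  `kB_gG`: complete the square,
`ω (s' - p)² + t² (s - s')² = (ω + t²) (s' - m)² + ω t² / (ω + t²) (s - p)²`,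
`m = (ω p + t² s) / (ω + t²)`.  `kA_gG`: again `integral_gaussian`, with
`ω + ω t² / (ω + t²) = ω (ω + 2 t²) / (ω + t²)`; compare squares or use `Real.sqrt_mul`. -/

namespace Vale.Agent.P370

open MeasureTheory

variable {ω R : ℝ}

theorem wgauss_int (hω : 0 < ω) (p : ℝ) :
    Integrable fun x => Real.exp (-(ω * (x - p) ^ 2)) := by
  simpa only [neg_mul] using (integrable_exp_neg_mul_sq hω).comp_sub_right p

theorem wgauss_val (ω p : ℝ) : ∫ x, Real.exp (-(ω * (x - p) ^ 2)) = √(Real.pi / ω) := by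
  rw [integral_sub_right_eq_self (fun x => Real.exp (-(ω * x ^ 2))) p]
  simpa only [neg_mul] using integral_gaussian ω

theorem wgauss_one (hω : 0 < ω) : √(ω / Real.pi) * √(Real.pi / ω) = 1 := by
  have := Real.pi_pos
  rw [← Real.sqrt_mul (by positivity), show ω / Real.pi * (Real.pi / ω) = 1 by field_simp,
    Real.sqrt_one]

theorem eG_meas (ω R p : ℝ) : Measurable (eG ω R p) := by
  unfold eG
  exact Measurable.ite (measurableSet_le (by fun_prop) measurable_const) (by fun_prop)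
    measurable_const

theorem eG_nonneg (ω R p x : ℝ) : 0 ≤ eG ω R p x := by
  unfold eG
  split_ifs
  exacts [(Real.exp_pos _).le, le_rfl]

theorem eG_le (ω R p x : ℝ) : eG ω R p x ≤ Real.exp (-(ω * (x - p) ^ 2)) := by
  unfold eG
  split_ifs
  exacts [le_rfl, (Real.exp_pos _).le]

theorem eG_int (hω : 0 < ω) (R p : ℝ) : Integrable (eG ω R p) :=
  (wgauss_int hω p).mono' (eG_meas ω R p).aestronglyMeasurable (ae_of_all _ fun x => by
    rw [Real.norm_of_nonneg (eG_nonneg _ _ _ _)]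
    exact eG_le _ _ _ _)

theorem eG_integral (hR : 0 ≤ R) (ω p : ℝ) : ∫ x, eG ω R p x = mG ω R := by
  have e : ∀ x, eG ω R p x =
      (Set.Icc (-R) R).indicator (fun z => Real.exp (-(ω * z ^ 2))) (x - p) := fun x => by
    simp only [eG, Set.indicator, Set.mem_Icc, abs_le]
  simp only [e]
  rw [integral_sub_right_eq_self
      ((Set.Icc (-R) R).indicator fun z => Real.exp (-(ω * z ^ 2))) p,
    integral_indicator measurableSet_Icc, mG, intervalIntegral.integral_of_le (by linarith),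
    integral_Icc_eq_integral_Ioc]

theorem mG_le (hω : 0 < ω) (hR : 0 ≤ R) : mG ω R ≤ √(Real.pi / ω) := by
  rw [← eG_integral hR ω 0, ← wgauss_val ω 0]
  exact integral_mono (eG_int hω R 0) (wgauss_int hω 0) (eG_le ω R 0)

theorem wgauss_pi : √Real.pi ≤ 2 := Real.sqrt_le_iff.2 ⟨by norm_num, by linarith [Real.pi_le_four]⟩

theorem mG_ge (hω : 1 ≤ ω) (hR : 0 ≤ R) :
    √(Real.pi / ω) - 2 * Real.exp (-((ω - 1) * R ^ 2)) ≤ mG ω R := by
  have h0 : 0 < ω := by linarith
  have h1 := integral_mono (wgauss_int h0 0)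
    ((eG_int h0 R 0).add ((wgauss_int one_pos 0).const_mul (Real.exp (-((ω - 1) * R ^ 2)))))
    fun x => ?_
  · simp only [Pi.add_apply] at h1
    rw [integral_add (eG_int h0 R 0) ((wgauss_int one_pos 0).const_mul _), integral_const_mul,
      wgauss_val, wgauss_val, eG_integral hR, div_one] at h1
    have h2 := mul_le_mul_of_nonneg_left wgauss_pi (Real.exp_pos (-((ω - 1) * R ^ 2))).le
    linarith
  · simp only [Pi.add_apply, eG]
    split_ifs with h
    · exact le_add_of_nonneg_right (by positivity)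
    · rw [zero_add, ← Real.exp_add, Real.exp_le_exp]
      have h2 : R ^ 2 ≤ (x - 0) ^ 2 := by
        rw [← sq_abs (x - 0)]
        exact pow_le_pow_left₀ hR (not_le.1 h).le 2
      nlinarith

theorem mG_pos (hR : 0 < R) (ω : ℝ) : 0 < mG ω R :=
  intervalIntegral.intervalIntegral_pos_of_pos (Continuous.intervalIntegrable (by fun_prop) _ _)
    (fun _ => Real.exp_pos _) (by linarith)

theorem tG_supp (ω R p : ℝ) : Supp (tG ω R p) p R := by
  intro x hx
  by_contra h
  exact hx (by rw [tG, eG, if_neg h, zero_div])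

theorem wgauss_le_one (hω : 0 < ω) (p x : ℝ) : Real.exp (-(ω * (x - p) ^ 2)) ≤ 1 :=
  Real.exp_le_one_iff.2 (neg_nonpos.2 (by positivity))

theorem wgauss_inv (hω : 0 < ω) (hR : 0 < R) : √(ω / Real.pi) ≤ 1 / mG ω R := by
  rw [le_div_iff₀ (mG_pos hR ω), ← wgauss_one hω]
  exact mul_le_mul_of_nonneg_left (mG_le hω hR.le) (Real.sqrt_nonneg _)

theorem dens_tG (hω : 0 < ω) (hR : 0 < R) (p : ℝ) : Dens (1 / mG ω R) (tG ω R p) := by
  have h := mG_pos hR ω
  refine ⟨(eG_meas ω R p).div_const _, fun x => div_nonneg (eG_nonneg _ _ _ _) h.le,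
    fun x => div_le_div_of_nonneg_right ((eG_le _ _ _ _).trans (wgauss_le_one hω p x)) h.le,
    (eG_int hω R p).div_const _, ?_⟩
  unfold tG
  rw [integral_div, eG_integral hR.le, div_self h.ne']

theorem dens_gG (hω : 0 < ω) (hR : 0 < R) (p : ℝ) : Dens (1 / mG ω R) (gG ω p) := by
  refine ⟨by unfold gG; fun_prop, fun x => by unfold gG; positivity, fun x => ?_,
    (wgauss_int hω p).const_mul _, ?_⟩
  · exact (mul_le_of_le_one_right (Real.sqrt_nonneg _) (wgauss_le_one hω p x)).trans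
      (wgauss_inv hω hR)
  · unfold gG
    rw [integral_const_mul, wgauss_val, wgauss_one hω]

/-- a common minorant of `tG` and `gG` -/
theorem minor_G (hω : 1 ≤ ω) (hR : 0 < R) (p : ℝ) :
    (∀ x, √(ω / Real.pi) * eG ω R p x ≤ tG ω R p x) ∧
    (∀ x, √(ω / Real.pi) * eG ω R p x ≤ gG ω p x) ∧
    1 - ∫ x, √(ω / Real.pi) * eG ω R p x ≤ 2 * √ω * Real.exp (-((ω - 1) * R ^ 2)) := by
  have h0 : 0 < ω := by linarith
  refine ⟨fun x => ?_, fun x => mul_le_mul_of_nonneg_left (eG_le _ _ _ _) (Real.sqrt_nonneg _), ?_⟩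
  · rw [tG, div_eq_mul_one_div (eG ω R p x), mul_comm]
    exact mul_le_mul_of_nonneg_left (wgauss_inv h0 hR) (eG_nonneg _ _ _ _)
  · rw [integral_const_mul, eG_integral hR.le]
    have h1 := mul_le_mul_of_nonneg_left (mG_ge hω hR.le) (Real.sqrt_nonneg (ω / Real.pi))
    rw [mul_sub, wgauss_one h0] at h1
    have h2 : √(ω / Real.pi) ≤ √ω :=
      Real.sqrt_le_sqrt (div_le_self h0.le (by linarith [Real.two_le_pi]))
    have h3 := mul_le_mul_of_nonneg_right h2 (Real.exp_pos (-((ω - 1) * R ^ 2))).le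
    linarith

theorem kB_gG (hω : 0 < ω) (p t s : ℝ) : kB (gG ω p) t s =
    √(ω / (ω + t ^ 2)) * Real.exp (-(ω * t ^ 2 / (ω + t ^ 2) * (s - p) ^ 2)) := by
  have hp := Real.pi_pos
  have h1 : 0 < ω + t ^ 2 := by positivity
  have e : ∀ s', gG ω p s' * Real.exp (-(t ^ 2 * (s - s') ^ 2)) =
      √(ω / Real.pi) * Real.exp (-(ω * t ^ 2 / (ω + t ^ 2) * (s - p) ^ 2)) *
        Real.exp (-((ω + t ^ 2) * (s' - (ω * p + t ^ 2 * s) / (ω + t ^ 2)) ^ 2)) := fun s' => by
    rw [gG, mul_assoc, mul_assoc, ← Real.exp_add, ← Real.exp_add]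
    congr 2
    field_simp
    ring
  unfold kB
  simp only [e]
  rw [integral_const_mul, wgauss_val, mul_right_comm, ← Real.sqrt_mul (by positivity)]
  congr 2
  field_simp

theorem kA_gG (hω : 0 < ω) (p t : ℝ) : kA (gG ω p) (gG ω p) t = √(ω / (ω + 2 * t ^ 2)) := by
  have hp := Real.pi_pos
  have h1 : 0 < ω + t ^ 2 := by positivity
  have e : ∀ s, gG ω p s * kB (gG ω p) t s = √(ω / Real.pi) * √(ω / (ω + t ^ 2)) *
      Real.exp (-((ω + ω * t ^ 2 / (ω + t ^ 2)) * (s - p) ^ 2)) := fun s => by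
    rw [kB_gG hω, gG, mul_mul_mul_comm, ← Real.exp_add]
    congr 2
    ring
  unfold kA
  simp only [e]
  rw [integral_const_mul, wgauss_val, ← Real.sqrt_mul (by positivity),
    ← Real.sqrt_mul (by positivity)]
  congr 1
  field_simp
  ring

end Vale.Agent.P370
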