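import Vale.Agent.P370.WShape
import Vale.Agent.P370.WGauss
import Vale.Agent.P370.WDens

/-! Masses of the cells; the densities `g1 ^ 2`, `gz ^ 2` (helper58). -/

namespace Vale.Agent.P370

open Finset MeasureTheory

variable {b : ℕ}

theorem omz_cast (b : ℕ) : ((omz b : ℚ) : ℝ) = PR b ^ 1510 := by
  rw [omz]
  push_cast
  rw [Pq_cast]

theorem tail_om (hb : 30 ≤ b) : Real.exp (-(((om b : ℝ) - 1) * 1 ^ 2)) ≤ 3 / PR b ^ 1000 := by
  have h1 := (exp_om hb).1
  have h2 : Real.exp 1 ≤ 3 := Real.exp_one_lt_d9.le.trans (by norm_num)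
  rw [show -(((om b : ℝ) - 1) * 1 ^ 2) = 1 + -(om b : ℝ) by ring, Real.exp_add,
    div_eq_mul_one_div]
  exact mul_le_mul h2 h1 (Real.exp_pos _).le (by norm_num)

theorem omz_ge (hb : 30 ≤ b) : PR b ≤ (omz b : ℝ) := by
  rw [omz_cast]
  exact le_self_pow₀ (PR_one b) (by norm_num)

theorem tail_omz (hb : 30 ≤ b) :
    Real.exp (-(((omz b : ℝ) - 1) * 32 ^ 2)) ≤ 1 / PR b ^ 2000 := by
  have h1 := (exp_om hb).1
  have h2 := om_le hb
  have h3 := omz_ge hb
  have h4 : Real.exp (-(((omz b : ℝ) - 1) * 32 ^ 2)) ≤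
      Real.exp (-(om b : ℝ)) * Real.exp (-(om b : ℝ)) := by
    rw [← Real.exp_add]
    exact Real.exp_le_exp.2 (by linarith [h2.1, h2.2])
  refine h4.trans ((mul_le_mul h1 h1 (Real.exp_pos _).le ((Real.exp_pos _).le.trans h1)).trans ?_)
  rw [one_div_mul_one_div, ← pow_add]

theorem sqrt_pi_div {ω s : ℝ} (hs : 0 < s) (h0 : 0 < ω) (h : ω ≤ s ^ 2) :
    1 / s ≤ √(Real.pi / ω) := by
  refine Real.le_sqrt_of_sq_le ?_
  rw [div_pow, one_pow]
  exact div_le_div₀ Real.pi_pos.le (by linarith [Real.pi_gt_three]) h0 h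

theorem mG_om (hb : 30 ≤ b) : 1 / PR b ≤ mG (om b) 1 := by
  have h2 := om_le hb
  have h0 := PR_pos b
  have h1 := mG_ge h2.1 zero_le_one
  have h3 := tail_om hb
  have h4 := sqrt_pi_div (ω := om b) (s := PR b / 2) (by positivity) (by linarith [h2.1])
    (by nlinarith [h2.1, h2.2])
  have h5 := PR_inv_le hb (c := 6) (by norm_num) (j := 1000) (l := 1) (by norm_num)
  rw [pow_one] at h5
  have e1 : 1 / (PR b / 2) = 2 * (1 / PR b) := by field_simp
  have e2 : 6 / PR b ^ 1000 = 2 * (3 / PR b ^ 1000) := by ring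
  linarith

theorem mG_omz (hb : 30 ≤ b) : 1 / PR b ^ 756 ≤ mG (omz b) 32 := by
  have h0 := PR_pos b
  have h2 := (PR_one b).trans (omz_ge hb)
  have h1 := mG_ge h2 (R := 32) (by norm_num)
  have h3 := tail_omz hb
  have h4 := sqrt_pi_div (ω := omz b) (s := PR b ^ 755) (by positivity) (by linarith)
    (by rw [omz_cast, ← pow_mul])
  have h5 := PR_inv_le hb (c := 2) (by norm_num) (j := 2000) (l := 756) (by norm_num)
  have h6 := PR_inv_le hb (c := 2) (by norm_num) (j := 756) (l := 755) (by norm_num)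
  rw [div_eq_mul_one_div] at h5 h6
  linarith

theorem inv_mG_om (hb : 30 ≤ b) : 1 / mG (om b) 1 ≤ PR b :=
  (one_div_le (mG_pos one_pos _) (PR_pos b)).2 (mG_om hb)

theorem inv_mG_omz (hb : 30 ≤ b) : 1 / mG (omz b) 32 ≤ PR b ^ 756 :=
  (one_div_le (mG_pos (by norm_num) _) (pow_pos (PR_pos b) _)).2 (mG_omz hb)

theorem muz_eq (b : ℕ) : muz b = mG (omz b) 32 := rfl

theorem gz_sq (b : ℕ) (z : ℝ) : gz b z ^ 2 = tG (omz b) 32 0 z := by
  have h : 0 < mG (omz b) 32 := mG_pos (by norm_num) _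
  rw [gz, tG, eG, sub_zero, muz_eq]
  split_ifs
  · rw [div_pow, Real.sq_sqrt h.le, ← Real.exp_nat_mul]
    congr 2
    push_cast
    ring
  · simp

theorem l1_G {ω R : ℝ} (hω : 1 ≤ ω) (hR : 0 < R) (p : ℝ) :
    ∫ x, |tG ω R p x - gG ω p x| ≤ 4 * √ω * Real.exp (-((ω - 1) * R ^ 2)) := by
  have h0 : 0 < ω := by linarith
  obtain ⟨h1, h2, h3⟩ := minor_G hω hR p
  have h4 := l1_le (dens_tG h0 hR p) (dens_gG h0 hR p) ((eG_int h0 R p).const_mul _) h1 h2
  linarith

theorem l1_om (hb : 30 ≤ b) (p : ℝ) :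
    ∫ x, |tG (om b) 1 p x - gG (om b) p x| ≤ 1 / PR b ^ 900 := by
  have h2 := om_le hb
  have h0 := PR_pos b
  have h3 : √(om b : ℝ) ≤ PR b := Real.sqrt_le_iff.2 ⟨h0.le, by nlinarith [h2.1, h2.2]⟩
  have h4 := mul_le_mul (mul_le_mul_of_nonneg_left h3 (by norm_num : (0 : ℝ) ≤ 4)) (tail_om hb)
    (Real.exp_pos _).le (by positivity)
  have h5 := PR_div_le hb (c := 12) (by norm_num) (i := 1) (j := 1000) (k := 0) (l := 900)
    (by norm_num)
  rw [pow_one, pow_zero] at h5
  refine (l1_G h2.1 one_pos p).trans (h4.trans (le_trans (le_of_eq ?_) h5))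
  ring

theorem l1_omz (hb : 30 ≤ b) (p : ℝ) :
    ∫ x, |tG (omz b) 32 p x - gG (omz b) p x| ≤ 1 / PR b ^ 900 := by
  have h2 := (PR_one b).trans (omz_ge hb)
  have h0 := PR_pos b
  have h3 : √(omz b : ℝ) ≤ PR b ^ 755 :=
    Real.sqrt_le_iff.2 ⟨by positivity, by rw [omz_cast, ← pow_mul]⟩
  have h4 := mul_le_mul (mul_le_mul_of_nonneg_left h3 (by norm_num : (0 : ℝ) ≤ 4)) (tail_omz hb)
    (Real.exp_pos _).le (by positivity)
  have h5 := PR_div_le hb (c := 4) (by norm_num) (i := 755) (j := 2000) (k := 0) (l := 900)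
    (by norm_num)
  rw [pow_zero] at h5
  refine (l1_G h2 (by norm_num) p).trans (h4.trans (le_trans (le_of_eq ?_) h5))
  rw [mul_one_div]

namespace Chain

variable {c : Chain} {a : ℕ}

/-- the weight `exp (-2 S)` restricted to cell `a` -/
noncomputable def cE (b : ℕ) (c : Chain) (a : ℕ) : ℝ → ℝ :=
  (Set.Ico (c.mb b a : ℝ) (c.mb b (a + 1))).indicator fun x => Real.exp (-(2 * c.S b x))

/-- the Gaussian cores of the dots of group `a` -/
noncomputable def core (b : ℕ) (c : Chain) (a : ℕ) (x : ℝ) : ℝ :=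
  ∑ j ∈ range c.K, eG (om b) 1 (c.pos (a * c.K + j)) x

theorem expS_cont (b : ℕ) (c : Chain) : Continuous fun x : ℝ => Real.exp (-(2 * c.S b x)) := by
  have := S_cont b c
  fun_prop

theorem cE_meas (b : ℕ) (c : Chain) (a : ℕ) : Measurable (c.cE b a) :=
  (expS_cont b c).measurable.indicator measurableSet_Ico

theorem cE_nonneg (b : ℕ) (c : Chain) (a : ℕ) (x : ℝ) : 0 ≤ c.cE b a x :=
  Set.indicator_nonneg (fun _ _ => (Real.exp_pos _).le) x

theorem cE_int (b : ℕ) (c : Chain) (a : ℕ) : Integrable (c.cE b a) :=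
  (integrable_indicator_iff measurableSet_Ico).2
    ((expS_cont b c).integrableOn_Icc.mono_set Set.Ico_subset_Icc_self)

theorem Good.cE_integral (hb : 30 ≤ b) (h : c.Good b) (ha : a < c.ng) :
    ∫ x, c.cE b a x = c.mu b a := by
  rw [cE, integral_indicator measurableSet_Ico, mu,
    intervalIntegral.integral_of_le (h.cell_len hb ha).1.le, integral_Ico_eq_integral_Ioo,
    integral_Ioc_eq_integral_Ioo]

theorem Good.cE_le (hb : 30 ≤ b) (h : c.Good b) (a : ℕ) (x : ℝ) : c.cE b a x ≤ 1 :=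
  Set.indicator_apply_le' (fun _ => Real.exp_le_one_iff.2 (by linarith [h.S_nonneg hb x]))
    fun _ => zero_le_one

theorem core_int (hb : 30 ≤ b) (c : Chain) (a : ℕ) : Integrable (c.core b a) :=
  integrable_finsetSum _ fun _ _ => eG_int (by linarith [(om_le hb).1]) _ _

theorem core_integral (hb : 30 ≤ b) (c : Chain) (a : ℕ) :
    ∫ x, c.core b a x = c.K * mG (om b) 1 := by
  unfold core
  rw [integral_finsetSum _ fun _ _ => eG_int (by linarith [(om_le hb).1]) _ _]
  simp only [eG_integral zero_le_one, sum_const, card_range, nsmul_eq_mul]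

theorem Good.core_eq (hb : 30 ≤ b) (h : c.Good b) (ha : a < c.ng) {j : ℕ} (hj : j < c.K) {x : ℝ}
    (hx : |x - c.pos (a * c.K + j)| ≤ 1) : c.core b a x = c.cE b a x := by
  have h1 := h.cell_in hb ha hj
  have h2 := abs_le.1 hx
  have h3 := PR_pow_ge hb (k := 30) (by norm_num)
  rw [core, sum_eq_single_of_mem j (mem_range.2 hj), cE, Set.indicator_of_mem, eG, if_pos hx,
    h.S_core hb (h.idx_lt ha hj) hx]
  · congr 1
    ring
  · exact ⟨by linarith [h1.1, h2.1], by linarith [h1.2, h2.2, (wd_bd hb).1]⟩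
  · intro i hi hij
    have h4 := h.pos_far (h.idx_lt ha (mem_range.1 hi)) (h.idx_lt ha hj) (by omega)
    rw [eG, if_neg]
    intro h5
    have h6 := abs_le.1 h5
    rcases le_abs.1 h4 with e | e <;> linarith [h6.1, h6.2, h2.1, h2.2]

theorem core_zero {x : ℝ} (hx : ¬ ∃ j < c.K, |x - c.pos (a * c.K + j)| ≤ 1) :
    c.core b a x = 0 :=
  sum_eq_zero fun j hj => if_neg fun h5 => hx ⟨j, mem_range.1 hj, h5⟩

theorem Good.core_le (hb : 30 ≤ b) (h : c.Good b) (ha : a < c.ng) (x : ℝ) :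
    c.core b a x ≤ c.cE b a x := by
  by_cases hx : ∃ j < c.K, |x - c.pos (a * c.K + j)| ≤ 1
  · obtain ⟨j, hj, hx⟩ := hx
    exact (h.core_eq hb ha hj hx).le
  · rw [core_zero hx]
    exact cE_nonneg _ _ _ _

theorem Good.le_core (hb : 30 ≤ b) (h : c.Good b) (ha : a < c.ng) (x : ℝ) :
    c.cE b a x ≤ c.core b a x + (Set.Ico (c.mb b a : ℝ) (c.mb b (a + 1))).indicator
      (fun _ => Real.exp (-(om b : ℝ))) x := by
  by_cases hx : ∃ j < c.K, |x - c.pos (a * c.K + j)| ≤ 1
  · obtain ⟨j, hj, hx⟩ := hx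
    rw [h.core_eq hb ha hj hx]
    exact le_add_of_nonneg_right (Set.indicator_nonneg (fun _ _ => (Real.exp_pos _).le) x)
  · rw [core_zero hx, zero_add]
    refine Set.indicator_le_indicator' fun hm => ?_
    have h1 := h.S_tail hb ((h.cell_cases hb ha hm.1 hm.2.le).resolve_left hx)
    exact Real.exp_le_exp.2 (by linarith)

theorem Good.mu_bd (hb : 30 ≤ b) (h : c.Good b) (ha : a < c.ng) :
    c.K * mG (om b) 1 ≤ c.mu b a ∧ c.mu b a ≤ c.K * mG (om b) 1 + 1 / PR b ^ 935 := by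
  have h0 := PR_pos b
  have hi : Integrable ((Set.Ico (c.mb b a : ℝ) (c.mb b (a + 1))).indicator
      fun _ => Real.exp (-(om b : ℝ))) := (integrable_indicator_iff measurableSet_Ico).2
    (continuous_const.integrableOn_Icc.mono_set Set.Ico_subset_Icc_self)
  have h1 := integral_mono (core_int hb c a) (cE_int b c a) (h.core_le hb ha)
  have h2 := integral_mono (cE_int b c a) ((core_int hb c a).add hi) (h.le_core hb ha)
  simp only [Pi.add_apply] at h2
  have h3 := h.cell_len hb ha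
  rw [integral_add (core_int hb c a) hi, integral_indicator measurableSet_Ico, setIntegral_const,
    Real.volume_real_Ico_of_le h3.1.le, smul_eq_mul] at h2
  rw [h.cE_integral hb ha, core_integral hb] at h1 h2
  have h4 := mul_le_mul h3.2 (exp_om hb).1 (Real.exp_pos _).le (by positivity)
  have e : PR b ^ 65 * (1 / PR b ^ 1000) = 1 / PR b ^ 935 := by
    rw [show 1000 = 65 + 935 from rfl, pow_add, mul_one_div,
      div_mul_cancel_left₀ (by positivity), one_div]
  exact ⟨h1, by linarith⟩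

theorem Good.mu_ge (hb : 30 ≤ b) (h : c.Good b) (ha : a < c.ng) : 1 / PR b ≤ c.mu b a := by
  have h1 : (1 : ℝ) ≤ c.K := by exact_mod_cast h.K_pos
  have h2 := mG_pos one_pos (om b : ℝ)
  nlinarith [mG_om hb, (h.mu_bd hb ha).1]

theorem Good.mu_pos (hb : 30 ≤ b) (h : c.Good b) (ha : a < c.ng) : 0 < c.mu b a :=
  (one_div_pos.2 (PR_pos b)).trans_le (h.mu_ge hb ha)

theorem Good.g1_sq (hb : 30 ≤ b) (h : c.Good b) (ha : a < c.ng) (x : ℝ) :
    c.g1 b a x ^ 2 = c.cE b a x / c.mu b a := by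
  rw [g1, cE, Set.indicator_apply]
  simp only [Set.mem_Ico]
  split_ifs
  · rw [div_pow, Real.sq_sqrt (h.mu_pos hb ha).le, ← Real.exp_nat_mul]
    congr 2
    push_cast
    ring
  · simp

theorem Good.dens_g1 (hb : 30 ≤ b) (h : c.Good b) (ha : a < c.ng) :
    Dens (PR b) fun x => c.g1 b a x ^ 2 := by
  have h0 := h.mu_pos hb ha
  simp only [h.g1_sq hb ha]
  refine ⟨(cE_meas b c a).div_const _, fun x => div_nonneg (cE_nonneg _ _ _ _) h0.le, fun x => ?_,
    (cE_int b c a).div_const _, ?_⟩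
  · exact (div_le_div_of_nonneg_right (h.cE_le hb a x) h0.le).trans
      ((one_div_le h0 (PR_pos b)).2 (h.mu_ge hb ha))
  · rw [integral_div, h.cE_integral hb ha, div_self h0.ne']

/-- the normalised core of dot `j` of group `a` -/
noncomputable def dot (b : ℕ) (c : Chain) (a j : ℕ) : ℝ → ℝ := tG (om b) 1 (c.pos (a * c.K + j))

theorem dens_dot (hb : 30 ≤ b) (c : Chain) (a j : ℕ) : Dens (PR b) (c.dot b a j) :=
  (dens_tG (by linarith [(om_le hb).1]) one_pos _).mono (inv_mG_om hb)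

theorem Good.l1_g1 (hb : 30 ≤ b) (h : c.Good b) (ha : a < c.ng) :
    ∫ x, |c.g1 b a x ^ 2 - avg c.K (c.dot b a) x| ≤ 1 / PR b ^ 900 := by
  have h0 := h.mu_pos hb ha
  have hP := PR_pos b
  have h1 : (1 : ℝ) ≤ c.K := by exact_mod_cast h.K_pos
  have h2 := mG_pos one_pos (om b : ℝ)
  have h3 := h.mu_bd hb ha
  have h4 := l1_le (h.dens_g1 hb ha) (dens_avg h.K_pos fun j _ => dens_dot hb c a j)
    ((core_int hb c a).div_const (c.mu b a)) (fun x => ?_) fun x => ?_
  · rw [integral_div, core_integral hb] at h4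
    refine h4.trans ?_
    have h5 : 1 - c.K * mG (om b) 1 / c.mu b a ≤ 1 / PR b ^ 935 * PR b := by
      rw [one_sub_div h0.ne', div_eq_mul_one_div]
      exact mul_le_mul (by linarith [h3.2]) ((one_div_le h0 hP).2 (h.mu_ge hb ha)) (by positivity)
        (by positivity)
    have h6 := PR_div_le hb (c := 2) (by norm_num) (i := 1) (j := 935) (k := 0) (l := 900)
      (by norm_num)
    rw [pow_one, pow_zero] at h6
    refine le_trans ?_ h6
    rw [mul_div_assoc 2, div_eq_mul_one_div (PR b)]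
    linarith
  · rw [h.g1_sq hb ha]
    exact div_le_div_of_nonneg_right (h.core_le hb ha x) h0.le
  · have e : avg c.K (c.dot b a) x = c.core b a x / (c.K * mG (om b) 1) := by
      simp only [avg, dot, tG, core]
      rw [← sum_div, div_div, mul_comm (mG _ _)]
    rw [e]
    exact div_le_div_of_nonneg_left (sum_nonneg fun _ _ => eG_nonneg _ _ _ _) (by positivity) h3.1

end Chain

end Vale.Agent.P370
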