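import Vale.Agent.P370.DGeo
import Vale.Agent.P370.DSd
import Vale.Agent.P370.DPoin
import Vale.Agent.P370.WMu

/-! Part D: the normalisation constants (from the bounds `mu_bd`, `mG_le`, `mG_ge` of part W). -/

namespace Vale.Agent.P370

variable {b : ℕ} {c : Chain}

theorem DMass_rel {μ K m G L δ η θ : ℝ} (hK : 1 ≤ K) (h1 : K * m ≤ μ) (h2 : μ ≤ K * m + δ)
    (h3 : m ≤ G) (h4 : G - η ≤ m) (h5 : |G * L - 1| ≤ θ) (hL : 0 < L) :
    |μ * L / K - 1| ≤ θ + L * δ + L * η := by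
  have hδ : 0 ≤ δ := by linarith
  have hη : 0 ≤ η := by linarith
  have hK0 : 0 < K := by linarith
  have a1 : m ≤ μ / K := by rw [le_div_iff₀ hK0]; linarith
  have a2 : μ / K ≤ m + δ := by rw [div_le_iff₀ hK0]; nlinarith
  obtain ⟨a3, a4⟩ := abs_le.1 h5
  rw [mul_div_right_comm, abs_le]
  generalize μ / K = y at a1 a2
  constructor <;> nlinarith [mul_nonneg hL.le hδ, mul_nonneg hL.le hη]

theorem DMass_sqrt {κ μ ε : ℝ} (hκ : 0 < κ) (hμ : 0 < μ) (h : |μ / κ - 1| ≤ ε)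
    (hε : ε ≤ 1 / 1000) : |√κ / √μ - 1| ≤ 3 / 5 * ε := by
  have e : √κ / √μ * (√κ / √μ) * (μ / κ) = 1 := by
    rw [div_mul_div_comm, Real.mul_self_sqrt hκ.le, Real.mul_self_sqrt hμ.le]
    field_simp
  have hx : 0 < √κ / √μ := div_pos (Real.sqrt_pos.2 hκ) (Real.sqrt_pos.2 hμ)
  have h0 : 0 ≤ ε := (abs_nonneg _).trans h
  obtain ⟨a1, a2⟩ := abs_le.1 h
  generalize √κ / √μ = x at e hx
  generalize μ / κ = y at e a1 a2
  have b1 : x * x * (1 - ε) ≤ 1 := by nlinarith [mul_pos hx hx]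
  have b2 : 1 ≤ x * x * (1 + ε) := by nlinarith [mul_pos hx hx]
  rw [abs_le]
  constructor
  · by_contra hn
    have c1 : x * x ≤ (1 - 3 / 5 * ε) * (1 - 3 / 5 * ε) :=
      mul_self_le_mul_self hx.le (by linarith)
    have c2 : x * x < 1 := by nlinarith
    have c3 := mul_le_mul_of_nonneg_right c1 (show 0 ≤ 1 + ε by linarith)
    rcases h0.eq_or_lt with rfl | h0'
    · linarith
    · nlinarith [mul_pos h0' h0']
  · by_contra hn
    have c1 : (1 + 3 / 5 * ε) * (1 + 3 / 5 * ε) ≤ x * x :=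
      mul_self_le_mul_self (by linarith) (by linarith)
    have c2 : 1 < x * x := by nlinarith
    have c3 := mul_le_mul_of_nonneg_right c1 (show 0 ≤ 1 - ε by linarith)
    rcases h0.eq_or_lt with rfl | h0'
    · linarith
    · nlinarith [mul_pos h0' h0']

theorem DMass_L (hb : 30 ≤ b) : 62 ≤ √2 * (lamb b : ℝ) ∧ √2 * (lamb b : ℝ) ≤ PR b := by
  obtain ⟨h1, h2⟩ := lamb_le hb
  have h3 : 1 ≤ √2 := Real.one_le_sqrt.2 one_le_two
  have h4 : √2 ≤ 2 := Real.sqrt_le_iff.2 ⟨by norm_num, by norm_num⟩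
  constructor <;> nlinarith

theorem Chain.Good.mu_rel (hb : 30 ≤ b) (hc : c.Good b) {a : ℕ} (ha : a < c.ng) :
    |c.mu b a * (√2 * lamb b) / c.K - 1| ≤ 1 / PR b ^ 900 := by
  obtain ⟨l1, l2⟩ := DMass_L hb
  obtain ⟨o1, -⟩ := om_le hb
  obtain ⟨m1, m2⟩ := hc.mu_bd hb ha
  have t := tail_om hb
  have g := mG_ge o1 zero_le_one
  have h := DMass_rel (η := 2 * (3 / PR b ^ 1000)) hc.K_le'.1 m1 m2
    (mG_le (by linarith) zero_le_one) (by linarith) (sqrt_om hb) (by linarith)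
  have hP := PR_pos b
  have p1 := PR_inv_le hb (c := 3) (by norm_num) (j := 1000) (l := 900) (by norm_num)
  have p2 := PR_div_le hb (c := 3) (by norm_num) (i := 1) (j := 935) (k := 0) (l := 900)
    (by norm_num)
  have p3 := PR_div_le hb (c := 18) (by norm_num) (i := 1) (j := 1000) (k := 0) (l := 900)
    (by norm_num)
  rw [pow_zero, pow_one, mul_div_assoc, div_eq_mul_one_div (PR b)] at p2 p3
  rw [div_eq_mul_one_div 3] at p1 h
  have q1 : 0 ≤ 1 / PR b ^ 935 := (one_div_pos.2 (pow_pos hP _)).le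
  have q2 : 0 ≤ 1 / PR b ^ 1000 := (one_div_pos.2 (pow_pos hP _)).le
  have q3 := mul_le_mul_of_nonneg_right l2 q1
  have q4 := mul_le_mul_of_nonneg_right l2 q2
  generalize 1 / PR b ^ 935 = x at *
  generalize 1 / PR b ^ 1000 = y at *
  generalize 1 / PR b ^ 900 = z at *
  linarith

theorem Chain.Good.mu_mem (hb : 30 ≤ b) (hc : c.Good b) {a : ℕ} (ha : a < c.ng) :
    1 / PR b ≤ c.mu b a ∧ c.mu b a ≤ PR b := by
  refine ⟨hc.mu_ge hb ha, ?_⟩
  have h := (abs_le.1 ((hc.mu_rel hb ha).trans (parb_small hb (by norm_num)))).2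
  obtain ⟨k1, k2⟩ := hc.K_le'
  rw [sub_le_iff_le_add, div_le_iff₀ (by linarith)] at h
  nlinarith [mul_le_mul_of_nonneg_left (DMass_L hb).1 (hc.mu_pos hb ha).le]

theorem DMass_key (hb : 30 ≤ b) (hc : c.Good b) {a : ℕ} (ha : a < c.ng) :
    0 < c.K / (√2 * lamb b) ∧
      |√(c.K / (√2 * lamb b)) / √(c.mu b a) - 1| ≤ 3 / 5 * (1 / PR b ^ 900) := by
  have k : 0 < c.K / (√2 * lamb b) :=
    div_pos (by linarith [hc.K_le'.1]) (by linarith [(DMass_L hb).1])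
  refine ⟨k, DMass_sqrt k (hc.mu_pos hb ha) ?_ (parb_small hb (by norm_num))⟩
  rw [div_div_eq_mul_div]
  exact hc.mu_rel hb ha

/-- `1 / √(mu a * mu a')` is `√2 lamb / K` up to a tiny relative error -/
theorem Chain.Good.mu_inv (hb : 30 ≤ b) (hc : c.Good b) {a a' : ℕ} (ha : a < c.ng)
    (ha' : a' < c.ng) :
    |c.K / (√2 * lamb b) / (√(c.mu b a) * √(c.mu b a')) - 1| ≤ 2 / PR b ^ 900 := by
  obtain ⟨k, h1⟩ := DMass_key hb hc ha
  obtain ⟨-, h2⟩ := DMass_key hb hc ha'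
  have h3 := parb_small hb (j := 900) (by norm_num)
  rw [← Real.mul_self_sqrt k.le, mul_div_mul_comm, div_eq_mul_one_div 2]
  generalize √(c.K / (√2 * lamb b)) / √(c.mu b a) = x at *
  generalize √(c.K / (√2 * lamb b)) / √(c.mu b a') = y at *
  generalize 1 / PR b ^ 900 = z at *
  have h4 := mul_le_mul h1 h2 (abs_nonneg _) ((abs_nonneg _).trans h1)
  rw [← abs_mul] at h4
  obtain ⟨a1, a2⟩ := abs_le.1 h1
  obtain ⟨a3, a4⟩ := abs_le.1 h2
  obtain ⟨a5, a6⟩ := abs_le.1 h4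
  rw [abs_le]
  constructor <;> nlinarith

theorem DMass_inv {μ s : ℝ} (hs : 0 < s) (h : 1 / s ^ 2 ≤ μ) : 0 < √μ ∧ 1 / √μ ≤ s := by
  have h1 : 1 / s ≤ √μ := Real.le_sqrt_of_sq_le (by rwa [div_pow, one_pow])
  have h2 := (one_div_pos.2 hs).trans_le h1
  exact ⟨h2, (one_div_le h2 hs).2 h1⟩

theorem Chain.Good.mu_sqrt (hb : 30 ≤ b) (hc : c.Good b) {a : ℕ} (ha : a < c.ng) :
    0 < √(c.mu b a) ∧ 1 / √(c.mu b a) ≤ PR b ∧
      |√(c.K / (√2 * lamb b)) - √(c.mu b a)| ≤ 2 / PR b ^ 900 * √(c.mu b a) := by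
  have hP := PR_pos b
  obtain ⟨h1, h2⟩ := DMass_inv hP ((one_div_le_one_div_of_le hP
    (le_self_pow₀ (PR_one b) two_ne_zero)).trans (hc.mu_ge hb ha))
  refine ⟨h1, h2, ?_⟩
  have h3 := (DMass_key hb hc ha).2
  rw [div_sub_one h1.ne', abs_div, abs_of_pos h1, div_le_iff₀ h1] at h3
  refine h3.trans (mul_le_mul_of_nonneg_right ?_ h1.le)
  rw [div_eq_mul_one_div 2]
  exact mul_le_mul_of_nonneg_right (by norm_num) (one_div_pos.2 (pow_pos hP _)).le

theorem muz_mem (hb : 30 ≤ b) : 1 / PR b ^ 755 ≤ muz b ∧ muz b ≤ 1 := by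
  have h0 := PR_pos b
  have h1 := omz_ge hb
  have h2 := (PR_one b).trans h1
  rw [muz_eq]
  constructor
  · have h3 := mG_ge h2 (R := 32) (by norm_num)
    have h4 := tail_omz hb
    have h5 : 3 / 2 * (1 / PR b ^ 755) ≤ √(Real.pi / omz b) := by
      refine Real.le_sqrt_of_sq_le ?_
      rw [omz_cast, mul_pow, one_div_pow, ← pow_mul, mul_one_div]
      exact div_le_div_of_nonneg_right (by linarith [Real.pi_gt_three]) (pow_pos h0 _).le
    have h6 := PR_inv_le hb (c := 4) (by norm_num) (j := 2000) (l := 755) (by norm_num)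
    rw [div_eq_mul_one_div] at h6
    linarith
  · refine (mG_le (by linarith) (by norm_num)).trans (Real.sqrt_le_one.2 ?_)
    rw [div_le_one (by linarith)]
    linarith [Real.pi_le_four, PR_ge hb]

theorem muz_sqrt (hb : 30 ≤ b) : 0 < √(muz b) ∧ 1 / √(muz b) ≤ PR b ^ 378 := by
  refine DMass_inv (pow_pos (PR_pos b) _) (le_trans ?_ (muz_mem hb).1)
  rw [← pow_mul]
  exact PR_inv_le hb (by norm_num) (by norm_num)

end Vale.Agent.P370
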