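import Mathlib

/-! Part D: bounded measurable functions, orthonormal families, tensor sums of matrices.

PLAN.  All functions are bounded and measurable on finite measure spaces, hence integrable
(`BM.int`).  `BM.slice_l/r`: `StronglyMeasurable.integral_prod_left/right`, `norm_integral_le_of_norm_le_const`.
`ON.gram`: expand. -/

namespace Vale.Agent.P370

open MeasureTheory Finset

variable {X Y A B : Type} [MeasurableSpace X] [MeasurableSpace Y] [DecidableEq A] [DecidableEq B]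
  {μ : Measure X} {ν : Measure Y} [IsFiniteMeasure μ] [IsFiniteMeasure ν]

/-- bounded and measurable -/
def BM (f : X → ℝ) : Prop := Measurable f ∧ ∃ C, ∀ x, |f x| ≤ C

theorem BM.int {f : X → ℝ} (h : BM f) (μ : Measure X) [IsFiniteMeasure μ] : Integrable f μ := by
  obtain ⟨hm, C, hC⟩ := h
  exact Integrable.of_bound hm.aestronglyMeasurable C
    (Filter.Eventually.of_forall fun x => by simpa [Real.norm_eq_abs] using hC x)

theorem BM.const (c : ℝ) : BM fun _ : X => c := by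
  exact ⟨measurable_const, |c|, fun _ => le_rfl⟩

theorem BM.add {f g : X → ℝ} (hf : BM f) (hg : BM g) : BM fun x => f x + g x := by
  obtain ⟨hm, C, hC⟩ := hf
  obtain ⟨hm', C', hC'⟩ := hg
  exact ⟨hm.add hm', C + C', fun x => (abs_add_le _ _).trans (add_le_add (hC x) (hC' x))⟩

theorem BM.sub {f g : X → ℝ} (hf : BM f) (hg : BM g) : BM fun x => f x - g x := by
  obtain ⟨hm, C, hC⟩ := hf
  obtain ⟨hm', C', hC'⟩ := hg
  exact ⟨hm.sub hm', C + C', fun x => (abs_sub _ _).trans (add_le_add (hC x) (hC' x))⟩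

theorem BM.mul {f g : X → ℝ} (hf : BM f) (hg : BM g) : BM fun x => f x * g x := by
  obtain ⟨hm, C, hC⟩ := hf
  obtain ⟨hm', C', hC'⟩ := hg
  refine ⟨hm.mul hm', C * C', fun x => ?_⟩
  rw [abs_mul]
  exact mul_le_mul (hC x) (hC' x) (abs_nonneg _) ((abs_nonneg _).trans (hC x))

theorem BM.sq {f : X → ℝ} (hf : BM f) : BM fun x => f x ^ 2 := by
  have := hf.mul hf
  simpa [pow_two] using this

theorem BM.sum {ι : Type} (s : Finset ι) {F : ι → X → ℝ} (h : ∀ i ∈ s, BM (F i)) :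
    BM fun x => ∑ i ∈ s, F i x := by
  classical
  induction s using Finset.induction_on with
  | empty => simpa using BM.const (X := X) 0
  | insert a s ha ih =>
    simp only [Finset.sum_insert ha]
    exact (h a (Finset.mem_insert_self _ _)).add
      (ih fun i hi => h i (Finset.mem_insert_of_mem hi))

theorem BM.comp {f : X → ℝ} (hf : BM f) {k : Y → X} (hk : Measurable k) :
    BM fun y => f (k y) := by
  obtain ⟨hm, C, hC⟩ := hf
  exact ⟨hm.comp hk, C, fun y => hC _⟩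

theorem BM.slice_l {Φ : X × Y → ℝ} (h : BM Φ) (μ : Measure X) [IsFiniteMeasure μ] :
    BM fun y => ∫ x, Φ (x, y) ∂μ := by
  obtain ⟨hm, C, hC⟩ := h
  refine ⟨(hm.stronglyMeasurable.integral_prod_left' (μ := μ)).measurable,
    C * μ.real Set.univ, fun y => ?_⟩
  have := norm_integral_le_of_norm_le_const (μ := μ) (f := fun x => Φ (x, y)) (C := C)
    (Filter.Eventually.of_forall fun x => by simpa [Real.norm_eq_abs] using hC (x, y))
  simpa [Real.norm_eq_abs] using this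

theorem BM.slice_r {Φ : X × Y → ℝ} (h : BM Φ) (ν : Measure Y) [IsFiniteMeasure ν] :
    BM fun x => ∫ y, Φ (x, y) ∂ν := by
  obtain ⟨hm, C, hC⟩ := h
  refine ⟨(hm.stronglyMeasurable.integral_prod_right' (ν := ν)).measurable,
    C * ν.real Set.univ, fun x => ?_⟩
  have := norm_integral_le_of_norm_le_const (μ := ν) (f := fun y => Φ (x, y)) (C := C)
    (Filter.Eventually.of_forall fun y => by simpa [Real.norm_eq_abs] using hC (x, y))
  simpa [Real.norm_eq_abs] using this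

/-- orthonormal family -/
def ON (μ : Measure X) (s : Finset A) (e : A → X → ℝ) : Prop :=
  (∀ a ∈ s, BM (e a)) ∧ ∀ a ∈ s, ∀ a' ∈ s, ∫ x, e a x * e a' x ∂μ = if a = a' then 1 else 0

def PSD (s : Finset A) (T : A → A → ℝ) : Prop :=
  ∀ c : A → ℝ, 0 ≤ ∑ a ∈ s, ∑ a' ∈ s, c a * T a a' * c a'

def ten (T : A → A → ℝ) (T' : B → B → ℝ) (p q : A × B) : ℝ :=
  (if p.2 = q.2 then T p.1 q.1 else 0) + if p.1 = q.1 then T' p.2 q.2 else 0

/-- the energy density `ε` of `Φ` dominates the matrix `T`, with error `η` and gap `Γ` -/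
def SL (μ : Measure X) (s : Finset A) (e : A → X → ℝ) (T : A → A → ℝ) (η Γ : ℝ)
    (Φ ε : X → ℝ) : Prop :=
  ∑ a ∈ s, ∑ a' ∈ s, (∫ x, e a x * Φ x ∂μ) * T a a' * (∫ x, e a' x * Φ x ∂μ) -
    η * ∫ x, Φ x ^ 2 ∂μ + Γ * (∫ x, Φ x ^ 2 ∂μ - ∑ a ∈ s, (∫ x, e a x * Φ x ∂μ) ^ 2) ≤
    ∫ x, ε x ∂μ

variable {s : Finset A} {t : Finset B} {e : A → X → ℝ} {f : B → Y → ℝ} {T : A → A → ℝ}
  {T' : B → B → ℝ}

theorem ON.gram (he : ON μ s e) {h h' : X → ℝ} (hh : BM h) (hh' : BM h') :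
    ∫ x, (h x - ∑ a ∈ s, e a x * ∫ y, e a y * h y ∂μ) *
        (h' x - ∑ a ∈ s, e a x * ∫ y, e a y * h' y ∂μ) ∂μ =
      ∫ x, h x * h' x ∂μ - ∑ a ∈ s, (∫ y, e a y * h y ∂μ) * ∫ y, e a y * h' y ∂μ := by
  set c : A → ℝ := fun a => ∫ y, e a y * h y ∂μ with hc
  set c' : A → ℝ := fun a => ∫ y, e a y * h' y ∂μ with hc'
  have hS : BM fun x => ∑ a ∈ s, e a x * c a :=
    BM.sum s fun a ha => (he.1 a ha).mul (BM.const _)
  have hS' : BM fun x => ∑ a ∈ s, e a x * c' a :=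
    BM.sum s fun a ha => (he.1 a ha).mul (BM.const _)
  have key : ∀ (g : X → ℝ) (d : A → ℝ), BM g →
      ∫ x, g x * ∑ a ∈ s, e a x * d a ∂μ = ∑ a ∈ s, (∫ y, e a y * g y ∂μ) * d a := by
    intro g d hg
    have h1 : (fun x => g x * ∑ a ∈ s, e a x * d a) =
        fun x => ∑ a ∈ s, (e a x * g x) * d a := by
      funext x
      rw [Finset.mul_sum]
      exact Finset.sum_congr rfl fun a _ => by ring
    rw [h1, integral_finsetSum s
      fun a ha => (((he.1 a ha).mul hg).mul (BM.const _)).int μ]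
    exact Finset.sum_congr rfl fun a _ => integral_mul_const _ _
  have h1 : (fun x => (h x - ∑ a ∈ s, e a x * c a) * (h' x - ∑ a ∈ s, e a x * c' a)) =
      fun x => (h x * h' x - h x * ∑ a ∈ s, e a x * c' a) -
        (h' x * (∑ a ∈ s, e a x * c a) -
          (∑ a ∈ s, e a x * c a) * ∑ a ∈ s, e a x * c' a) := by
    funext x
    ring
  have h2 : ∀ a ∈ s, ∫ y, e a y * ∑ a' ∈ s, e a' y * c a' ∂μ = c a := by
    intro a ha
    rw [key (e a) c (he.1 a ha)]
    rw [Finset.sum_congr rfl fun a' ha' => by rw [he.2 a' ha' a ha]]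
    simp [ha]
  change ∫ x, (h x - ∑ a ∈ s, e a x * c a) * (h' x - ∑ a ∈ s, e a x * c' a) ∂μ =
    ∫ x, h x * h' x ∂μ - ∑ a ∈ s, c a * c' a
  rw [h1, integral_sub (((hh.mul hh').sub (hh.mul hS')).int μ)
      (((hh'.mul hS).sub (hS.mul hS')).int μ),
    integral_sub ((hh.mul hh').int μ) ((hh.mul hS').int μ),
    integral_sub ((hh'.mul hS).int μ) ((hS.mul hS').int μ),
    key h c' hh, key h' c hh', key _ c' hS]
  have h4 : ∑ a ∈ s, (∫ y, e a y * ∑ a' ∈ s, e a' y * c a' ∂μ) * c' a = ∑ a ∈ s, c a * c' a :=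
    Finset.sum_congr rfl fun a ha => by rw [h2 a ha]
  rw [h4]
  have h3 : ∑ a ∈ s, (∫ y, e a y * h' y ∂μ) * c a = ∑ a ∈ s, c a * c' a :=
    Finset.sum_congr rfl fun a _ => mul_comm _ _
  rw [h3]
  ring

theorem ON.bessel (he : ON μ s e) {h : X → ℝ} (hh : BM h) :
    ∑ a ∈ s, (∫ y, e a y * h y ∂μ) ^ 2 ≤ ∫ x, h x ^ 2 ∂μ := by
  have h1 := he.gram hh hh
  have h2 : 0 ≤ ∫ x, (h x - ∑ a ∈ s, e a x * ∫ y, e a y * h y ∂μ) *
        (h x - ∑ a ∈ s, e a x * ∫ y, e a y * h y ∂μ) ∂μ :=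
    integral_nonneg fun x => mul_self_nonneg _
  rw [h1] at h2
  simp only [pow_two]
  linarith

theorem ON.prod (he : ON μ s e) (hf : ON ν t f) :
    ON (μ.prod ν) (s ×ˢ t) fun p z => e p.1 z.1 * f p.2 z.2 := by
  refine ⟨fun p hp => ?_, fun p hp q hq => ?_⟩
  · rw [Finset.mem_product] at hp
    exact ((he.1 _ hp.1).comp measurable_fst).mul ((hf.1 _ hp.2).comp measurable_snd)
  · rw [Finset.mem_product] at hp hq
    have h1 : (fun z : X × Y => e p.1 z.1 * f p.2 z.2 * (e q.1 z.1 * f q.2 z.2)) =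
        fun z => (e p.1 z.1 * e q.1 z.1) * (f p.2 z.2 * f q.2 z.2) := by
      funext z
      ring
    rw [h1, integral_prod_mul (fun x => e p.1 x * e q.1 x) (fun y => f p.2 y * f q.2 y),
      he.2 _ hp.1 _ hq.1, hf.2 _ hp.2 _ hq.2]
    by_cases h1 : p.1 = q.1 <;> by_cases h2 : p.2 = q.2 <;> simp [h1, h2, Prod.ext_iff]

theorem qf_ten (C : A × B → ℝ) :
    ∑ p ∈ s ×ˢ t, ∑ q ∈ s ×ˢ t, C p * ten T T' p q * C q =
      ∑ k ∈ t, ∑ a ∈ s, ∑ a' ∈ s, C (a, k) * T a a' * C (a', k) +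
        ∑ a ∈ s, ∑ k ∈ t, ∑ k' ∈ t, C (a, k) * T' k k' * C (a, k') := by
  have h1 : ∀ p q : A × B, C p * ten T T' p q * C q =
      (if p.2 = q.2 then C p * T p.1 q.1 * C q else 0) +
        if p.1 = q.1 then C p * T' p.2 q.2 * C q else 0 := by
    intro p q
    unfold ten
    split_ifs <;> ring
  simp only [h1, Finset.sum_add_distrib]
  congr 1
  · rw [Finset.sum_product_right]
    refine Finset.sum_congr rfl fun k hk => Finset.sum_congr rfl fun a _ => ?_
    rw [Finset.sum_product]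
    refine Finset.sum_congr rfl fun a' _ => ?_
    simp [hk]
  · rw [Finset.sum_product]
    refine Finset.sum_congr rfl fun a ha => Finset.sum_congr rfl fun k _ => ?_
    rw [Finset.sum_product_right]
    refine Finset.sum_congr rfl fun k' _ => ?_
    simp [ha]

theorem PSD.ten (hT : PSD s T) (hT' : PSD t T') : PSD (s ×ˢ t) (ten T T') := by
  intro c
  rw [qf_ten]
  exact add_nonneg (Finset.sum_nonneg fun k _ => hT fun a => c (a, k))
    (Finset.sum_nonneg fun a _ => hT' fun k => c (a, k))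

end Vale.Agent.P370
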