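import Vale.Agent.P370.DUp
import Vale.Agent.P370.DMass
import Vale.Agent.P370.DDefs
import Vale.Agent.P370.DTenA

/-! Part D: overlaps of the one-dimensional orbitals.

PLAN.  `exp (-S) ≤ 1` (`S_mem`), `mu_sqrt`, `r_mem`.  `g1 a ^ 2 = indicator (Ico (mb a) (mb (a + 1))) (p / mu a)`
with `p = exp (-(2 S))`; `integral_indicator`, `integral_Ico_eq_integral_Ioo`, `intervalIntegral.integral_of_le`.
One lemma does `gram`, `tri`, `mix`: if `F` is integrable, `F x = δ * g1 a x ^ 2` or (`p x ≤ P ^ (-62800)`),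
`|F| , g1 ^ 2 ≤ p * P ^ 2`, both vanish outside `[lo, hi]` (length `≤ P ^ 65`), then
`|∫ F - δ| ≤ 2 * P ^ 65 * P ^ 2 * P ^ (-62800)`.  Use `r_sharp` for each factor `r`; cells of different
groups are disjoint (`mb_monoR`). -/

namespace Vale.Agent.P370

open MeasureTheory Finset

variable {b : ℕ} {c : Chain} {a a' e : ℕ}

namespace Chain.Good

theorem DGram_u (hb : 30 ≤ b) (hc : c.Good b) (ha : a < c.ng) (x : ℝ) :
    0 ≤ Real.exp (-c.S b x) / √(c.mu b a) ∧
      Real.exp (-c.S b x) / √(c.mu b a) ≤ Real.exp (-c.S b x) * PR b ∧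
      Real.exp (-c.S b x) / √(c.mu b a) ≤ PR b := by
  obtain ⟨h0, h1, -⟩ := hc.mu_sqrt hb ha
  have he := Real.exp_pos (-c.S b x)
  have he1 : Real.exp (-c.S b x) ≤ 1 := Real.exp_le_one_iff.2 (by linarith [(hc.S_mem hb x).1])
  have h2 : Real.exp (-c.S b x) / √(c.mu b a) ≤ Real.exp (-c.S b x) * PR b := by
    rw [div_eq_mul_one_div]
    exact mul_le_mul_of_nonneg_left h1 he.le
  exact ⟨div_nonneg he.le h0.le, h2, h2.trans (mul_le_of_le_one_left (PR_pos b).le he1)⟩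

theorem DGram_exp (x : ℝ) :
    Real.exp (-(2 * c.S b x)) = Real.exp (-c.S b x) * Real.exp (-c.S b x) := by
  rw [← Real.exp_add]
  congr 1
  ring

theorem DGram_g1 (x : ℝ) : c.g1 b a x =
    (if (c.mb b a : ℝ) ≤ x ∧ x < c.mb b (a + 1) then 1 else 0) *
      (Real.exp (-c.S b x) / √(c.mu b a)) := by
  rw [g1]
  split_ifs
  · rw [one_mul]
  · rw [zero_mul]

theorem DGram_gt1 (x : ℝ) :
    c.gt1 b a x = c.r b a x * (Real.exp (-c.S b x) / √(c.mu b a)) := by
  rw [gt1, mul_div_assoc]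

theorem DGram_chi (hb : 30 ≤ b) (hc : c.Good b) (ha : a < c.ng) (ha' : a' < c.ng) (x : ℝ) :
    (if (c.mb b a : ℝ) ≤ x ∧ x < c.mb b (a + 1) then (1 : ℝ) else 0) *
      (if (c.mb b a' : ℝ) ≤ x ∧ x < c.mb b (a' + 1) then 1 else 0) =
    (if a = a' then 1 else 0) *
      (if (c.mb b a : ℝ) ≤ x ∧ x < c.mb b (a + 1) then 1 else 0) := by
  by_cases h : a = a'
  · subst h
    rw [if_pos rfl, one_mul]
    split_ifs
    · rw [one_mul]
    · rw [zero_mul]
  · rw [if_neg h, zero_mul]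
    split_ifs with h1 h2
    · exfalso
      rcases lt_or_gt_of_ne h with h3 | h3
      · have := hc.mb_monoR hb (a := a + 1) (a' := a') h3 ha'.le
        linarith [h1.2, h2.1]
      · have := hc.mb_monoR hb (a := a' + 1) (a' := a) h3 ha.le
        linarith [h1.1, h2.2]
    · rw [mul_zero]
    · rw [zero_mul]
    · rw [zero_mul]

theorem DGram_gt_in (hb : 30 ≤ b) (hc : c.Good b) (ha : a < c.ng) {x : ℝ}
    (h : c.gt1 b a x ≠ 0) : x ∈ c.I b := by
  by_contra h1
  refine h (hc.gt1_out hb ha ?_).1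
  rw [I, Set.mem_Icc, not_and_or, not_le, not_le] at h1
  rcases h1 with h1 | h1
  · exact Or.inl (by linarith)
  · exact Or.inr (by linarith)

theorem g1_abs (hb : 30 ≤ b) (hc : c.Good b) (ha : a < c.ng) (x : ℝ) : |c.g1 b a x| ≤ PR b := by
  obtain ⟨h0, -, h1⟩ := hc.DGram_u hb ha x
  rw [g1]
  split_ifs
  · rwa [abs_of_nonneg h0]
  · rw [abs_zero]
    exact (PR_pos b).le

theorem gt1_abs (hb : 30 ≤ b) (hc : c.Good b) (ha : a < c.ng) (x : ℝ) :
    |c.gt1 b a x| ≤ PR b := by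
  obtain ⟨h0, -, h1⟩ := hc.DGram_u hb ha x
  obtain ⟨r0, r1⟩ := hc.r_mem hb ha x
  rw [DGram_gt1, abs_of_nonneg (mul_nonneg r0 h0)]
  exact (mul_le_of_le_one_left h0 r1).trans h1

theorem g1_in (hb : 30 ≤ b) (hc : c.Good b) (ha : a < c.ng) {x : ℝ} (h : c.g1 b a x ≠ 0) :
    x ∈ c.I b := by
  rw [g1] at h
  split_ifs at h with h1
  · exact ⟨(hc.mb_mem hb ha.le).1.trans h1.1, h1.2.le.trans (hc.mb_mem hb (a := a + 1) ha).2⟩
  · exact absurd rfl h

theorem g1_disj (hb : 30 ≤ b) (hc : c.Good b) (ha : a < c.ng) (ha' : a' < c.ng) (h : a ≠ a')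
    (x : ℝ) : c.g1 b a x * c.g1 b a' x = 0 := by
  rw [DGram_g1, DGram_g1, mul_mul_mul_comm, hc.DGram_chi hb ha ha', if_neg h, zero_mul, zero_mul]

theorem g1_norm (hb : 30 ≤ b) (hc : c.Good b) (ha : a < c.ng) :
    Integrable (fun x => c.g1 b a x * c.g1 b a x) ∧ ∫ x, c.g1 b a x * c.g1 b a x = 1 := by
  have hm : 0 < c.mu b a := Real.sqrt_pos.1 (hc.mu_sqrt hb ha).1
  refine ⟨int_of_bdd (C := PR b * PR b) ((g1_meas' b c a).mul (g1_meas' b c a)) (fun x => ?_)
    fun x hx => hc.g1_in hb ha (left_ne_zero_of_mul hx), ?_⟩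
  · rw [abs_mul]
    exact mul_le_mul (hc.g1_abs hb ha x) (hc.g1_abs hb ha x) (abs_nonneg _) (PR_pos b).le
  · have h1 : ∀ x, c.g1 b a x * c.g1 b a x = (Set.Ico (c.mb b a : ℝ) (c.mb b (a + 1))).indicator
        (fun x => Real.exp (-(2 * c.S b x)) / c.mu b a) x := by
      intro x
      rw [g1, Set.indicator_apply]
      by_cases h : (c.mb b a : ℝ) ≤ x ∧ x < c.mb b (a + 1)
      · rw [if_pos h, if_pos (show x ∈ Set.Ico _ _ from h), div_mul_div_comm,
          Real.mul_self_sqrt hm.le, DGram_exp]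
      · rw [if_neg h, if_neg (show x ∉ Set.Ico _ _ from h), mul_zero]
    simp_rw [h1]
    rw [integral_indicator measurableSet_Ico, integral_Ico_eq_integral_Ioo,
      ← integral_Ioc_eq_integral_Ioo,
      ← intervalIntegral.integral_of_le (hc.mb_monoR hb (Nat.le_succ a) ha),
      intervalIntegral.integral_div]
    exact div_self hm.ne'

theorem g1_ON (hb : 30 ≤ b) (hc : c.Good b) :
    ON (volume.restrict (c.I b)) (range c.ng) (c.g1 b) := by
  refine ⟨fun a ha => ⟨g1_meas' b c a, PR b, hc.g1_abs hb (mem_range.1 ha)⟩, fun a ha a' ha' => ?_⟩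
  rw [mem_range] at ha ha'
  rw [setIntegral_eq_integral_of_forall_compl_eq_zero fun x hx => by_contra fun h =>
    hx (hc.g1_in hb ha (left_ne_zero_of_mul h))]
  by_cases h : a = a'
  · subst h
    rw [if_pos rfl, (hc.g1_norm hb ha).2]
  · simp_rw [hc.g1_disj hb ha ha' h]
    rw [if_neg h, integral_zero]

theorem DGram_main (hb : 30 ≤ b) (hc : c.Good b) (ha : a < c.ng) (ha' : a' < c.ng)
    {F w : ℝ → ℝ} {δ : Prop} [Decidable δ] (hδ : δ → a = a') (hF : Measurable F)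
    (hw : ∀ x, 0 ≤ w x ∧ w x ≤ 1) (hI : ∀ x, F x ≠ 0 → x ∈ c.I b)
    (hFw : ∀ x, F x = w x * (Real.exp (-c.S b x) / √(c.mu b a) *
      (Real.exp (-c.S b x) / √(c.mu b a'))))
    (hs : ∀ x, w x = (if δ then 1 else 0) *
        (if (c.mb b a : ℝ) ≤ x ∧ x < c.mb b (a + 1) then 1 else 0) ∨
      Real.exp (-(2 * c.S b x)) ≤ 1 / PR b ^ 62800) :
    Integrable F ∧ |(∫ x, F x) - if δ then 1 else 0| ≤ 1 / PR b ^ 62700 := by
  have hP := PR_pos b
  have key : ∀ {a a' : ℕ}, a < c.ng → a' < c.ng → ∀ {t x : ℝ}, 0 ≤ t → t ≤ 1 →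
      0 ≤ t * (Real.exp (-c.S b x) / √(c.mu b a) * (Real.exp (-c.S b x) / √(c.mu b a'))) ∧
      t * (Real.exp (-c.S b x) / √(c.mu b a) * (Real.exp (-c.S b x) / √(c.mu b a'))) ≤
        Real.exp (-(2 * c.S b x)) * PR b ^ 2 := by
    intro a a' ha ha' t x h0 h1
    obtain ⟨u0, u1, -⟩ := hc.DGram_u hb ha x
    obtain ⟨v0, v1, -⟩ := hc.DGram_u hb ha' x
    refine ⟨mul_nonneg h0 (mul_nonneg u0 v0),
      (mul_le_of_le_one_left (mul_nonneg u0 v0) h1).trans ((mul_le_mul u1 v1 v0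
        (u0.trans u1)).trans_eq ?_)⟩
    rw [DGram_exp]
    ring
  have hFi : Integrable F := by
    refine int_of_bdd (C := PR b ^ 2) hF (fun x => ?_) hI
    obtain ⟨h0, h1⟩ := key ha ha' (x := x) (hw x).1 (hw x).2
    rw [hFw, abs_of_nonneg h0]
    exact h1.trans (mul_le_of_le_one_left (pow_pos hP 2).le
      (Real.exp_le_one_iff.2 (by linarith [(hc.S_mem hb x).1])))
  refine ⟨hFi, ?_⟩
  obtain ⟨hGi, hG⟩ := hc.g1_norm hb ha
  have hd : (0 : ℝ) ≤ (if δ then 1 else 0) ∧ (if δ then (1 : ℝ) else 0) ≤ 1 := by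
    split_ifs
    · exact ⟨zero_le_one, le_rfl⟩
    · exact ⟨le_rfl, zero_le_one⟩
  have h1 : (∫ x, F x) - (if δ then 1 else 0) =
      ∫ x in c.I b, (F x - (if δ then 1 else 0) * (c.g1 b a x * c.g1 b a x)) := by
    rw [setIntegral_eq_integral_of_forall_compl_eq_zero, integral_sub hFi (hGi.const_mul _),
      integral_const_mul, hG, mul_one]
    intro x hx
    have h2 : F x = 0 := by_contra fun h => hx (hI x h)
    have h3 : c.g1 b a x = 0 := by_contra fun h => hx (hc.g1_in hb ha h)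
    rw [h2, h3, mul_zero, mul_zero, sub_zero]
  have h2 : ∀ x, |F x - (if δ then 1 else 0) * (c.g1 b a x * c.g1 b a x)| ≤
      PR b ^ 2 / PR b ^ 62800 := by
    intro x
    have h3 : (if δ then (1 : ℝ) else 0) * (c.g1 b a x * c.g1 b a x) =
        ((if δ then 1 else 0) * (if (c.mb b a : ℝ) ≤ x ∧ x < c.mb b (a + 1) then 1 else 0)) *
        (Real.exp (-c.S b x) / √(c.mu b a) * (Real.exp (-c.S b x) / √(c.mu b a))) := by
      rw [DGram_g1, mul_mul_mul_comm, hc.DGram_chi hb ha ha, if_pos rfl, one_mul, mul_assoc]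
    rw [h3, hFw]
    rcases hs x with h | h
    · rw [h]
      by_cases hδ' : δ
      · rw [← hδ hδ', sub_self, abs_zero]
        exact (div_pos (pow_pos hP _) (pow_pos hP _)).le
      · rw [if_neg hδ', zero_mul, zero_mul, zero_mul, sub_self, abs_zero]
        exact (div_pos (pow_pos hP _) (pow_pos hP _)).le
    · have hc' : (0 : ℝ) ≤ (if (c.mb b a : ℝ) ≤ x ∧ x < c.mb b (a + 1) then 1 else 0) ∧
          (if (c.mb b a : ℝ) ≤ x ∧ x < c.mb b (a + 1) then (1 : ℝ) else 0) ≤ 1 := by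
        split_ifs
        · exact ⟨zero_le_one, le_rfl⟩
        · exact ⟨le_rfl, zero_le_one⟩
      obtain ⟨a0, a1⟩ := key ha ha' (x := x) (hw x).1 (hw x).2
      obtain ⟨b0, b1⟩ := key ha ha (x := x) (mul_nonneg hd.1 hc'.1)
        (mul_le_one₀ hd.2 hc'.1 hc'.2)
      have h4 : Real.exp (-(2 * c.S b x)) * PR b ^ 2 ≤ PR b ^ 2 / PR b ^ 62800 := by
        rw [div_eq_mul_one_div, mul_comm]
        exact mul_le_mul_of_nonneg_left h (pow_pos hP 2).le
      exact abs_sub_le_iff.2 ⟨(sub_le_self _ b0).trans (a1.trans h4),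
        (sub_le_self _ a0).trans (b1.trans h4)⟩
  obtain ⟨-, l1, -, l2⟩ := hc.lo_hi hb
  have h3 := norm_setIntegral_le_of_norm_le_const (μ := volume) (s := c.I b)
    (f := fun x => F x - (if δ then 1 else 0) * (c.g1 b a x * c.g1 b a x))
    measure_Icc_lt_top fun x _ => h2 x
  rw [h1]
  refine h3.trans ?_
  rw [I, Real.volume_real_Icc_of_le (by linarith)]
  refine (mul_le_mul_of_nonneg_left l2 (div_pos (pow_pos hP _) (pow_pos hP _)).le).trans ?_
  have h4 := PR_div_le hb (c := 1) (by norm_num) (i := 67) (j := 62800) (k := 0) (l := 62700)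
    (by norm_num)
  rw [one_mul, pow_zero] at h4
  rw [div_mul_eq_mul_div, ← pow_add]
  exact h4

theorem gram (hb : 30 ≤ b) (hc : c.Good b) (ha : a < c.ng) (ha' : a' < c.ng) :
    Integrable (fun x => c.gt1 b a x * c.gt1 b a' x) ∧
    |(∫ x, c.gt1 b a x * c.gt1 b a' x) - if a = a' then 1 else 0| ≤ 1 / PR b ^ 62700 := by
  refine hc.DGram_main hb ha ha' (w := fun x => c.r b a x * c.r b a' x) id
    ((gt1_cont b c a).mul (gt1_cont b c a')).measurable (fun x => ?_)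
    (fun x hx => hc.DGram_gt_in hb ha (left_ne_zero_of_mul hx)) (fun x => ?_) fun x => ?_
  · obtain ⟨r0, r1⟩ := hc.r_mem hb ha x
    obtain ⟨s0, s1⟩ := hc.r_mem hb ha' x
    exact ⟨mul_nonneg r0 s0, mul_le_one₀ r1 s0 s1⟩
  · rw [DGram_gt1, DGram_gt1, mul_mul_mul_comm]
  · rcases hc.r_sharp hb ha x with h1 | h1
    · rcases hc.r_sharp hb ha' x with h2 | h2
      · left
        rw [h1, h2, hc.DGram_chi hb ha ha']
      · exact Or.inr h2
    · exact Or.inr h1

theorem tri (hb : 30 ≤ b) (hc : c.Good b) (he : e < c.ng) (ha : a < c.ng) (ha' : a' < c.ng) :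
    Integrable (fun x => c.r b e x * (c.gt1 b a x * c.gt1 b a' x)) ∧
    |(∫ x, c.r b e x * (c.gt1 b a x * c.gt1 b a' x)) - if e = a ∧ a = a' then 1 else 0| ≤
      1 / PR b ^ 62700 := by
  refine hc.DGram_main hb ha ha' (w := fun x => c.r b e x * (c.r b a x * c.r b a' x)) And.right
    ((r_cont b c e).mul ((gt1_cont b c a).mul (gt1_cont b c a'))).measurable (fun x => ?_)
    (fun x hx => hc.DGram_gt_in hb ha (left_ne_zero_of_mul (right_ne_zero_of_mul hx)))
    (fun x => ?_) fun x => ?_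
  · obtain ⟨r0, r1⟩ := hc.r_mem hb ha x
    obtain ⟨s0, s1⟩ := hc.r_mem hb ha' x
    obtain ⟨t0, t1⟩ := hc.r_mem hb he x
    exact ⟨mul_nonneg t0 (mul_nonneg r0 s0),
      mul_le_one₀ t1 (mul_nonneg r0 s0) (mul_le_one₀ r1 s0 s1)⟩
  · rw [DGram_gt1, DGram_gt1, mul_mul_mul_comm, ← mul_assoc]
  · rcases hc.r_sharp hb ha x with h1 | h1
    · rcases hc.r_sharp hb ha' x with h2 | h2
      · rcases hc.r_sharp hb he x with h3 | h3
        · left
          rw [h1, h2, h3, hc.DGram_chi hb ha ha', mul_left_comm, hc.DGram_chi hb he ha]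
          by_cases h4 : e = a
          · subst h4
            simp only [if_true, true_and, one_mul]
          · simp only [h4, if_false, false_and, zero_mul, mul_zero]
        · exact Or.inr h3
      · exact Or.inr h2
    · exact Or.inr h1

theorem mix (hb : 30 ≤ b) (hc : c.Good b) (ha : a < c.ng) :
    Integrable (fun x => c.g1 b a x * c.gt1 b a x) ∧
    |(∫ x, c.g1 b a x * c.gt1 b a x) - 1| ≤ 1 / PR b ^ 62700 := by
  have h := hc.DGram_main hb ha ha (F := fun x => c.g1 b a x * c.gt1 b a x) (δ := a = a)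
    (w := fun x => (if (c.mb b a : ℝ) ≤ x ∧ x < c.mb b (a + 1) then 1 else 0) * c.r b a x) id
    ((g1_meas' b c a).mul (gt1_cont b c a).measurable) (fun x => ?_)
    (fun x hx => hc.g1_in hb ha (left_ne_zero_of_mul hx)) (fun x => ?_) fun x => ?_
  · rwa [if_pos rfl] at h
  · obtain ⟨r0, r1⟩ := hc.r_mem hb ha x
    split_ifs
    · rw [one_mul]
      exact ⟨r0, r1⟩
    · rw [zero_mul]
      exact ⟨le_rfl, zero_le_one⟩
  · rw [DGram_g1, DGram_gt1, mul_mul_mul_comm]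
  · rcases hc.r_sharp hb ha x with h1 | h1
    · left
      rw [h1, hc.DGram_chi hb ha ha]
    · exact Or.inr h1

end Chain.Good

end Vale.Agent.P370
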