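import Vale.Agent.P370.WSp

/-! Part D: calculus of the predicate `Bd`, and `Bd` for the splines.

PLAN.  `iteratedFDeriv_add_apply`, `iteratedFDeriv_const_smul_apply`, `norm_iteratedFDeriv_mul_le`
(sum of binomials is `2 ^ m ≤ 2 ^ n`, `Nat.sum_range_choose`).  `mul_loc`: outside the closed set `K` the
product vanishes in a neighbourhood, so all its derivatives vanish (`Filter.EventuallyEq.iteratedFDeriv`
or `iteratedFDeriv_congr`-type lemma).  `aff`, `proj`: `ContinuousLinearMap.iteratedFDeriv_comp_right`,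
`ContinuousMultilinearMap.norm_compContinuousLinearMap_le`, `iteratedFDeriv_comp_add_right`; on `ℝ` use
`norm_iteratedFDeriv_eq_norm_iteratedDeriv`, `iteratedDeriv_succ'`, `iteratedDeriv_comp_const_mul`.
`norm_exp_neg_le`: `norm_iteratedFDeriv_comp_le` with outer function `t ↦ exp (-t)`.
`sp_abs_le`: zero outside `[0, 9]` for `k ≤ 8`, in `[0, 1]` for `k = 9`; on `[0, 9]` the sum is at most
`512 * 9 ^ k / k!` (check `k ≤ 8` by cases).  `Bd_sp`: induction on `m` with `Bd.of_deriv`. -/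

namespace Vale.Agent.P370

section

variable {E : Type} [NormedAddCommGroup E] [NormedSpace ℝ E] {n : ℕ} {A B : ℝ} {f g : E → ℝ}

theorem Bd.mono (h : Bd n A f) (hAB : A ≤ B) : Bd n B f :=
  ⟨h.1, fun m hm x => (h.2 m hm x).trans hAB⟩

theorem Bd.of_le (h : Bd n A f) {m : ℕ} (hm : m ≤ n) : Bd m A f :=
  ⟨h.1.of_le (by exact_mod_cast hm), fun k hk x => h.2 k (hk.trans hm) x⟩

theorem Bd.abs_le (h : Bd n A f) (x : E) : |f x| ≤ A := by
  have := h.2 0 (Nat.zero_le _) x
  rwa [norm_iteratedFDeriv_zero, Real.norm_eq_abs] at this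

theorem Bd.nonneg (h : Bd n A f) : 0 ≤ A := (abs_nonneg _).trans (h.abs_le 0)

theorem Bd.const (n : ℕ) (c : ℝ) : Bd n |c| fun _ : E => c := by
  refine ⟨contDiff_const, fun m _ x => ?_⟩
  rcases eq_or_ne m 0 with rfl | hm
  · rw [norm_iteratedFDeriv_zero, Real.norm_eq_abs]
  · rw [iteratedFDeriv_const_of_ne hm, Pi.zero_apply, norm_zero]
    exact abs_nonneg c

theorem Bd.add (hf : Bd n A f) (hg : Bd n B g) : Bd n (A + B) fun x => f x + g x := by
  refine ⟨hf.1.add hg.1, fun m hm x => ?_⟩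
  rw [fun_iteratedFDeriv_add_apply (hf.of_le hm).1.contDiffAt (hg.of_le hm).1.contDiffAt]
  exact (norm_add_le _ _).trans (add_le_add (hf.2 m hm x) (hg.2 m hm x))

theorem Bd.const_mul (hf : Bd n A f) (c : ℝ) : Bd n (|c| * A) fun x => c * f x := by
  refine ⟨contDiff_const.mul hf.1, fun m hm x => ?_⟩
  have := iteratedFDeriv_const_smul_apply' (a := c) (x := x) (hf.of_le hm).1.contDiffAt
  simp only [smul_eq_mul] at this
  rw [this, norm_smul, Real.norm_eq_abs]
  exact mul_le_mul_of_nonneg_left (hf.2 m hm x) (abs_nonneg c)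

theorem Bd.sub (hf : Bd n A f) (hg : Bd n B g) : Bd n (A + B) fun x => f x - g x := by
  simpa only [abs_neg, abs_one, one_mul, neg_mul, ← sub_eq_add_neg] using
    hf.add (hg.const_mul (-1))

theorem Bd.sum {ι : Type} (s : Finset ι) {F : ι → E → ℝ} (h : ∀ i ∈ s, Bd n A (F i)) :
    Bd n (s.card * A) fun x => ∑ i ∈ s, F i x := by
  classical
  induction s using Finset.induction_on with
  | empty => simpa using Bd.const n 0
  | insert a s ha ih =>
    simp only [Finset.sum_insert ha, Finset.card_insert_of_notMem ha]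
    refine ((h a (Finset.mem_insert_self _ _)).add
      (ih fun i hi => h i (Finset.mem_insert_of_mem hi))).mono (le_of_eq ?_)
    push_cast
    ring

theorem DBd_mul {x : E} (hf : ContDiff ℝ n f) (hg : ContDiff ℝ n g)
    (hA : ∀ m ≤ n, ‖iteratedFDeriv ℝ m f x‖ ≤ A) (hB : ∀ m ≤ n, ‖iteratedFDeriv ℝ m g x‖ ≤ B)
    {m : ℕ} (hm : m ≤ n) : ‖iteratedFDeriv ℝ m (fun x => f x * g x) x‖ ≤ 2 ^ n * A * B := by
  have hA0 : 0 ≤ A := (norm_nonneg _).trans (hA 0 (Nat.zero_le _))
  have hB0 : 0 ≤ B := (norm_nonneg _).trans (hB 0 (Nat.zero_le _))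
  refine (norm_iteratedFDeriv_mul_le hf hg x (by exact_mod_cast hm)).trans ?_
  refine (Finset.sum_le_sum (g := fun i => (m.choose i : ℝ) * A * B) fun i hi => ?_).trans ?_
  · have hi' := Nat.lt_succ_iff.1 (Finset.mem_range.1 hi)
    exact mul_le_mul (mul_le_mul_of_nonneg_left (hA i (hi'.trans hm)) (Nat.cast_nonneg _))
      (hB _ ((Nat.sub_le _ _).trans hm)) (norm_nonneg _) (by positivity)
  · rw [← Finset.sum_mul, ← Finset.sum_mul, ← Nat.cast_sum, Nat.sum_range_choose, Nat.cast_pow,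
      Nat.cast_ofNat]
    exact mul_le_mul_of_nonneg_right
      (mul_le_mul_of_nonneg_right (pow_le_pow_right₀ one_le_two hm) hA0) hB0

theorem Bd.mul (hf : Bd n A f) (hg : Bd n B g) : Bd n (2 ^ n * A * B) fun x => f x * g x :=
  ⟨hf.1.mul hg.1, fun _ hm x =>
    DBd_mul hf.1 hg.1 (fun k hk => hf.2 k hk x) (fun k hk => hg.2 k hk x) hm⟩

/-- `f` vanishes outside `K`, and `g` is controlled on `K` only -/
theorem Bd.mul_loc {K : Set E} (hK : IsClosed K) (hf : Bd n A f) (h0 : ∀ x, x ∉ K → f x = 0)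
    (hg : ContDiff ℝ n g) (hB0 : 0 ≤ B)
    (hB : ∀ x ∈ K, ∀ m ≤ n, ‖iteratedFDeriv ℝ m g x‖ ≤ B) :
    Bd n (2 ^ n * A * B) fun x => f x * g x := by
  refine ⟨hf.1.mul hg, fun m hm x => ?_⟩
  by_cases hx : x ∈ K
  · exact DBd_mul hf.1 hg (fun k hk => hf.2 k hk x) (hB x hx) hm
  · have e : (fun x => f x * g x) =ᶠ[nhds x] fun _ => 0 := by
      filter_upwards [hK.isOpen_compl.mem_nhds hx] with y hy
      rw [h0 y hy, zero_mul]
    have := hf.nonneg
    rw [(e.iteratedFDeriv ℝ m).eq_of_nhds, iteratedFDeriv_fun_zero, Pi.zero_apply, norm_zero]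
    positivity

theorem norm_exp_neg_le (hf : ContDiff ℝ n f) {x : E} (h0 : 0 ≤ f x) {D : ℝ} (hD : 1 ≤ D)
    (h : ∀ i, 1 ≤ i → i ≤ n → ‖iteratedFDeriv ℝ i f x‖ ≤ D ^ i) {m : ℕ} (hm : m ≤ n) :
    ‖iteratedFDeriv ℝ m (fun y => Real.exp (-f y)) x‖ ≤ n.factorial * D ^ n := by
  have h1 := norm_iteratedFDeriv_comp_le (g := fun t : ℝ => Real.exp (-1 * t)) (N := n)
    (by fun_prop) hf (n := m) (by exact_mod_cast hm) x (C := 1) (D := D) (fun i _ => ?_)
    fun i h1 h2 => h i h1 (h2.trans hm)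
  · simp only [Function.comp_def, neg_mul, one_mul, mul_one] at h1
    exact h1.trans (mul_le_mul (by exact_mod_cast Nat.factorial_le hm) (pow_le_pow_right₀ hD hm)
      (by positivity) (Nat.cast_nonneg _))
  · rw [norm_iteratedFDeriv_eq_norm_iteratedDeriv, iteratedDeriv_exp_const_mul, norm_mul, norm_pow,
      norm_neg, norm_one, one_pow, one_mul, Real.norm_of_nonneg (Real.exp_pos _).le]
    exact Real.exp_le_one_iff.2 (by linarith)

end

variable {n : ℕ} {A : ℝ} {f f' : ℝ → ℝ}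

theorem Bd.aff (h : Bd n A f) {k D : ℝ} (hk : |k| ≤ D) (hD : 1 ≤ D) (d : ℝ) :
    Bd n (A * D ^ n) fun x => f (k * x + d) := by
  refine ⟨h.1.comp (by fun_prop), fun m hm x => ?_⟩
  have h1 : ContDiff ℝ m fun z => f (z + d) := (h.of_le hm).1.comp (by fun_prop)
  have h2 := h.2 m hm (k * x + d)
  rw [norm_iteratedFDeriv_eq_norm_iteratedDeriv] at h2
  rw [norm_iteratedFDeriv_eq_norm_iteratedDeriv, iteratedDeriv_comp_const_mul h1 k,
    iteratedDeriv_comp_add_const, norm_mul, norm_pow, Real.norm_eq_abs, mul_comm]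
  exact mul_le_mul h2 ((pow_le_pow_left₀ (abs_nonneg k) hk m).trans (pow_le_pow_right₀ hD hm))
    (by positivity) h.nonneg

theorem Bd.proj (h : Bd n A f) (k : Fin 3) : Bd n A fun x : E3 => f (x k) := by
  refine ⟨h.1.comp (by fun_prop), fun m hm x => ?_⟩
  have h1 : ‖(ContinuousLinearMap.proj k : E3 →L[ℝ] ℝ)‖ ≤ 1 :=
    ContinuousLinearMap.opNorm_le_bound _ zero_le_one fun y => by
      rw [one_mul]
      exact norm_le_pi_norm y k
  have h2 := (ContinuousLinearMap.proj k : E3 →L[ℝ] ℝ).iteratedFDeriv_comp_right h.1 x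
    (i := m) (by exact_mod_cast hm)
  refine (le_of_eq (congrArg norm h2)).trans
    ((ContinuousMultilinearMap.norm_compContinuousLinearMap_le _ _).trans ?_)
  exact (mul_le_of_le_one_right (norm_nonneg _)
    (Finset.prod_le_one (fun _ _ => norm_nonneg _) fun _ _ => h1)).trans (h.2 m hm _)

theorem norm_iter_succ (hd : ∀ x, HasDerivAt f (f' x) x) (m : ℕ) (x : ℝ) :
    ‖iteratedFDeriv ℝ (m + 1) f x‖ = ‖iteratedFDeriv ℝ m f' x‖ := by
  rw [norm_iteratedFDeriv_eq_norm_iteratedDeriv, norm_iteratedFDeriv_eq_norm_iteratedDeriv,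
    iteratedDeriv_succ', funext fun x => (hd x).deriv]

theorem Bd.of_deriv (hd : ∀ x, HasDerivAt f (f' x) x) (h : Bd n A f') (h0 : ∀ x, |f x| ≤ A) :
    Bd (n + 1) A f := by
  refine ⟨?_, fun m hm x => ?_⟩
  · rw [Nat.cast_succ, contDiff_succ_iff_deriv, funext fun x => (hd x).deriv]
    exact ⟨fun x => (hd x).differentiableAt, by simp, h.1⟩
  · cases m with
    | zero => rw [norm_iteratedFDeriv_zero]; exact h0 x
    | succ m => rw [norm_iter_succ hd]; exact h.2 m (Nat.le_of_succ_le_succ hm) x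

theorem norm_quad_le (p q r : ℝ) {R x : ℝ} (hR : 1 ≤ R) (hx : |x| ≤ R) (m : ℕ) :
    ‖iteratedFDeriv ℝ m (fun t : ℝ => p + q * t + r * t ^ 2) x‖ ≤
      |p| + |q| * R + 2 * |r| * R ^ 2 := by
  have d1 : ∀ t : ℝ, HasDerivAt (fun t : ℝ => p + q * t + r * t ^ 2) (q + 2 * r * t) t := fun t =>
    ((((hasDerivAt_id' t).const_mul q).const_add p).fun_add
      ((hasDerivAt_pow 2 t).const_mul r)).congr_deriv (by push_cast; ring)
  have d2 : ∀ t : ℝ, HasDerivAt (fun t : ℝ => q + 2 * r * t) (2 * r) t := fun t =>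
    (((hasDerivAt_id' t).const_mul (2 * r)).const_add q).congr_deriv (mul_one _)
  have hp := abs_nonneg p
  have hq := abs_nonneg q
  have hr := abs_nonneg r
  have h1 : |q| ≤ |q| * R := le_mul_of_one_le_right hq hR
  have h2 : R ≤ R ^ 2 := by nlinarith
  have h3 : |r| * |x| ≤ |r| * R ^ 2 := mul_le_mul_of_nonneg_left (hx.trans h2) hr
  have h4 : |r| ≤ |r| * R ^ 2 := le_mul_of_one_le_right hr (hR.trans h2)
  rcases m with _ | _ | m
  · rw [norm_iteratedFDeriv_zero, Real.norm_eq_abs]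
    refine (abs_add_le _ _).trans ((add_le_add_left (abs_add_le _ _) _).trans ?_)
    rw [abs_mul, abs_mul, abs_pow]
    have h5 := mul_le_mul_of_nonneg_left hx hq
    have h6 := mul_le_mul_of_nonneg_left (pow_le_pow_left₀ (abs_nonneg x) hx 2) hr
    linarith
  · rw [norm_iter_succ d1, norm_iteratedFDeriv_zero, Real.norm_eq_abs]
    refine (abs_add_le _ _).trans ?_
    rw [abs_mul, abs_mul, abs_two]
    linarith
  · rw [norm_iter_succ d1, norm_iter_succ d2]
    refine ((Bd.const m (2 * r)).2 m le_rfl x).trans ?_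
    rw [abs_mul, abs_two]
    linarith

theorem sp_abs_le {k : ℕ} (h1 : 1 ≤ k) (h9 : k ≤ 9) (x : ℝ) : |sp k x| ≤ 2 ^ 20 := by
  rcases le_total 9 x with hx | hx
  · rcases h9.eq_or_lt with rfl | h8
    · rw [sp9_one hx]
      norm_num
    · rw [sp_nine (by omega) hx]
      norm_num
  · rw [sp, abs_div, Nat.abs_cast, div_le_iff₀ (by positivity)]
    refine (Finset.abs_sum_le_sum_abs _ _).trans ((Finset.sum_le_sum
      (g := fun j => (Nat.choose 9 j : ℝ) * 9 ^ k) fun j _ => ?_).trans ?_)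
    · have h2 : max (x - j) 0 ≤ 9 := max_le (by linarith [Nat.cast_nonneg (α := ℝ) j]) (by norm_num)
      rw [abs_mul, abs_mul, abs_pow, abs_neg, abs_one, one_pow, one_mul, Nat.abs_cast,
        abs_of_nonneg (pow_nonneg (le_max_right _ _) _)]
      exact mul_le_mul_of_nonneg_left (pow_le_pow_left₀ (le_max_right _ _) h2 k)
        (Nat.cast_nonneg _)
    · rw [← Finset.sum_mul, ← Nat.cast_sum, Nat.sum_range_choose 9]
      interval_cases k <;> norm_num [Nat.factorial]

theorem Bd_sp {m k : ℕ} (hm : m < k) (h9 : k ≤ 9) : Bd m (2 ^ 20) (sp k : ℝ → ℝ) := by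
  induction m generalizing k with
  | zero =>
    refine ⟨contDiff_zero.2 (sp_cont k), fun j hj x => ?_⟩
    rw [Nat.le_zero.1 hj, norm_iteratedFDeriv_zero]
    exact sp_abs_le hm h9 x
  | succ m ih =>
    obtain ⟨k, rfl⟩ : ∃ j, k = j + 1 := ⟨k - 1, by omega⟩
    exact Bd.of_deriv (sp_deriv (by omega)) (ih (by omega) (by omega)) (sp_abs_le (by omega) h9)

end Vale.Agent.P370
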