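import Vale.Agent.P370.DUp
import Vale.Agent.P370.DMass
import Vale.Agent.P370.DDefs
import Vale.Agent.P370.DTenA
import Vale.Agent.P370.DBd

/-! Part D: the vertical orbitals.

PLAN.  `muz_sqrt`, `muz_mem`, `zt_mem`, `zt_in`, `zt_out`, `gtz_out`.  For `|z| ≤ 9` one has `gtz = gz`;
for `|z| ≥ 9`, `exp (-(omz z ^ 2)) ≤ exp (-omz) ≤ P ^ (-70000)` (`exp_omz`); everything vanishes for
`|z| > 32`.  `entz`: `susy` with `W z = omz * z` on `[-18, 18]` (boundary terms vanish by `gtz_out`),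
`gzd + W * gtz = zt1 * exp (..) / √muz`, `|zt1| ≤ 2 ^ 21` (`sp_abs_le`). -/

namespace Vale.Agent.P370

open MeasureTheory

variable {b : ℕ}

theorem DZa_om (b : ℕ) : 0 < (omz b : ℝ) := by
  rw [omz_eq]
  exact pow_pos (PR_pos b) _

theorem DZa_abs (hb : 30 ≤ b) (z : ℝ) :
    |Real.exp (-(omz b * z ^ 2 / 2)) / √(muz b)| ≤ PR b ^ 378 := by
  obtain ⟨h1, h2⟩ := muz_sqrt hb
  have h3 := DZa_om b
  rw [abs_of_pos (div_pos (Real.exp_pos _) h1)]
  exact (div_le_div_of_nonneg_right (Real.exp_le_one_iff.2 (neg_nonpos.2 (by positivity)))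
    h1.le).trans h2

/-- the Gaussian is tiny away from the centre -/
theorem DZa_tail (hb : 30 ≤ b) {z : ℝ} (h : 9 ≤ |z|) :
    (Real.exp (-(omz b * z ^ 2 / 2)) / √(muz b)) ^ 2 ≤ PR b ^ 756 / PR b ^ 70000 := by
  obtain ⟨h1, h2⟩ := muz_sqrt hb
  have h3 := DZa_om b
  have h4 : 1 ≤ z ^ 2 := by nlinarith [sq_abs z]
  have h5 : Real.exp (-(omz b * z ^ 2 / 2)) ^ 2 ≤ 1 / PR b ^ 70000 := by
    refine le_trans ?_ (exp_omz hb)
    rw [← Real.exp_nat_mul]
    refine Real.exp_le_exp.2 ?_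
    push_cast
    nlinarith
  have h6 : (1 / √(muz b)) ^ 2 ≤ PR b ^ 756 :=
    (pow_le_pow_left₀ (one_div_pos.2 h1).le h2 2).trans_eq (pow_mul _ 378 2).symm
  rw [div_eq_mul_one_div, mul_pow, div_eq_mul_one_div (PR b ^ 756), mul_comm (PR b ^ 756)]
  exact mul_le_mul h5 h6 (sq_nonneg _) ((sq_nonneg _).trans h5)

theorem gz_abs (hb : 30 ≤ b) (z : ℝ) : |gz b z| ≤ PR b ^ 378 := by
  rw [gz]
  split_ifs
  · exact DZa_abs hb z
  · rw [abs_zero]
    exact (pow_pos (PR_pos b) _).le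

theorem DZa_gtz (b : ℕ) (z : ℝ) : gtz b z = zt z * gz b z := by
  rw [gz]
  split_ifs with h
  · rw [gtz, zt, mul_div_assoc]
  · rw [(gtz_out b (by linarith [not_le.1 h])).1, mul_zero]

theorem gtz_abs (hb : 30 ≤ b) (z : ℝ) : |gtz b z| ≤ PR b ^ 378 := by
  rw [DZa_gtz, abs_mul, abs_of_nonneg (zt_mem z).1]
  exact (mul_le_of_le_one_left (abs_nonneg _) (zt_mem z).2).trans (gz_abs hb z)

theorem gz_in {z : ℝ} (h : gz b z ≠ 0) : |z| ≤ 32 := by
  by_contra h1
  exact h (if_neg h1)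

theorem gz_norm (_hb : 30 ≤ b) :
    Integrable (fun z => gz b z * gz b z) ∧ ∫ z, gz b z * gz b z = 1 := by
  have h := dens_tG (DZa_om b) (R := 32) (by norm_num) 0
  simp only [← pow_two, gz_sq]
  exact ⟨h.int, h.one⟩

theorem gz_ON (hb : 30 ≤ b) : ON (volume.restrict Iz) ({()} : Finset Unit) fun _ => gz b := by
  refine ⟨fun _ _ => ⟨gz_meas' b, _, gz_abs hb⟩, fun _ _ _ _ => ?_⟩
  rw [if_pos rfl, setIntegral_eq_integral_of_forall_compl_eq_zero, (gz_norm hb).2]
  intro z hz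
  by_contra h
  obtain ⟨h1, h2⟩ := abs_le.1 (gz_in (left_ne_zero_of_mul h))
  exact hz ⟨by linarith, by linarith⟩

theorem DZa_gen (hb : 30 ≤ b) {f : ℝ → ℝ} (hf : Measurable f) (h0 : ∀ z, 0 ≤ f z)
    (h1 : ∀ z, f z ≤ 1) (h9 : ∀ z, |z| ≤ 9 → f z = 1) :
    Integrable (fun z => gz b z * gz b z * f z) ∧
      |(∫ z, gz b z * gz b z * f z) - 1| ≤ 1 / PR b ^ 62700 := by
  obtain ⟨i1, i2⟩ := gz_norm hb
  have i3 : Integrable fun z => gz b z * gz b z * f z :=
    i1.mul_bdd (c := 1) hf.aestronglyMeasurable (ae_of_all _ fun z => by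
      rw [Real.norm_of_nonneg (h0 z)]; exact h1 z)
  refine ⟨i3, ?_⟩
  have hP := PR_pos b
  rw [show (∫ z, gz b z * gz b z * f z) - 1 = _ from congrArg _ i2.symm, ← integral_sub i3 i1,
    ← setIntegral_eq_integral_of_forall_compl_eq_zero (s := Set.Icc (-32) 32) fun z hz => by
      rw [show gz b z = 0 from if_neg fun h => hz (abs_le.1 h)]; ring]
  rw [← Real.norm_eq_abs]
  refine (norm_setIntegral_le_of_norm_le_const (C := PR b ^ 756 / PR b ^ 70000) measure_Icc_lt_top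
    fun z _ => ?_).trans ?_
  · rcases le_total |z| 9 with h | h
    · rw [h9 z h, mul_one, sub_self, norm_zero]
      exact (div_pos (pow_pos hP _) (pow_pos hP _)).le
    · rw [← mul_sub_one, Real.norm_eq_abs, abs_mul, abs_mul_self, abs_sub_comm,
        abs_of_nonneg (sub_nonneg.2 (h1 z))]
      refine (mul_le_of_le_one_right (mul_self_nonneg _) (sub_le_self _ (h0 z))).trans ?_
      rw [gz]
      split_ifs
      · rw [← pow_two]
        exact DZa_tail hb h
      · rw [mul_zero]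
        exact (div_pos (pow_pos hP _) (pow_pos hP _)).le
  · have h := PR_div_le hb (c := 64) (by norm_num) (i := 756) (j := 70000) (k := 0) (l := 62700)
      (by norm_num)
    rw [pow_zero, mul_div_assoc] at h
    rw [Real.volume_real_Icc_of_le (by norm_num), mul_comm,
      show (32 : ℝ) - -32 = 64 by norm_num]
    exact h

theorem DZa_meas : Measurable zt := by
  have h9 := sp_cont 9
  unfold zt
  fun_prop

theorem gramz (hb : 30 ≤ b) : Integrable (fun z => gtz b z * gtz b z) ∧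
    |(∫ z, gtz b z * gtz b z) - 1| ≤ 1 / PR b ^ 62700 := by
  have e : ∀ z, gtz b z * gtz b z = gz b z * gz b z * (zt z * zt z) := fun z => by
    rw [DZa_gtz]; ring
  simp only [e]
  exact DZa_gen hb (DZa_meas.mul DZa_meas) (fun z => mul_self_nonneg _)
    (fun z => mul_le_one₀ (zt_mem z).2 (zt_mem z).1 (zt_mem z).2)
    fun z h => by rw [(zt_in h).1, mul_one]

theorem mixz (hb : 30 ≤ b) : Integrable (fun z => gz b z * gtz b z) ∧
    |(∫ z, gz b z * gtz b z) - 1| ≤ 1 / PR b ^ 62700 := by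
  have e : ∀ z, gz b z * gtz b z = gz b z * gz b z * zt z := fun z => by
    rw [DZa_gtz]; ring
  simp only [e]
  exact DZa_gen hb DZa_meas (fun z => (zt_mem z).1) (fun z => (zt_mem z).2) fun z h => (zt_in h).1

theorem DZa_zt1 (hb : 30 ≤ b) (z : ℝ) : zt1 z ^ 2 ≤ PR b ^ 2 := by
  rw [← sq_abs]
  refine pow_le_pow_left₀ (abs_nonneg _) ((abs_sub _ _).trans ?_) 2
  linarith [sp_abs_le (k := 8) (by norm_num) (by norm_num) (z + 18),
    sp_abs_le (k := 8) (by norm_num) (by norm_num) (z - 9), PR_ge hb]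

theorem entz (hb : 30 ≤ b) :
    Integrable (fun z => gzd b z * gzd b z / 2 + zp b z * (gtz b z * gtz b z)) ∧
    |∫ z, (gzd b z * gzd b z / 2 + zp b z * (gtz b z * gtz b z))| ≤ 1 / PR b ^ 63100 := by
  have c1 := gtz_cont b
  have c2 := gzd_cont b
  have c3 := zp_cont b
  have hP := PR_pos b
  have o : ∀ z : ℝ, z ≤ -18 ∨ 18 ≤ z →
      gzd b z * gzd b z / 2 + zp b z * (gtz b z * gtz b z) = 0 := fun z hz => by
    obtain ⟨h1, h2⟩ := gtz_out b (z := z) (le_abs.2 (hz.symm.imp id fun h => by linarith))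
    rw [h1, h2]
    ring
  refine ⟨int_of_out (by fun_prop) o, ?_⟩
  have s := susy (W := fun z => omz b * z) (W' := fun _ => omz b) (A := -18) (B := 18)
    (fun x => hasDerivAt_const_mul _) continuous_const (gtz_deriv b) c2 (gtz_deriv b) c2
    (by rw [(gtz_out b (by norm_num)).1]; ring) (by rw [(gtz_out b (by norm_num)).1]; ring)
  have e : ∀ z : ℝ, ((omz b * z) ^ 2 - omz b) / 2 = zp b z := fun z => by rw [zp]; ring
  have e2 : ∀ z : ℝ, (gzd b z + omz b * z * gtz b z) * (gzd b z + omz b * z * gtz b z) / 2 =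
      zt1 z ^ 2 * (Real.exp (-(omz b * z ^ 2 / 2)) / √(muz b)) ^ 2 / 2 := fun z => by
    rw [gzd, gtz, ← zt]
    ring
  simp only [e, e2] at s
  rw [← intervalIntegral.integral_eq_integral_of_support_subset (a := -18) (b := 18)
    fun z hz => by
      by_contra h
      rw [Set.mem_Ioc, not_and_or, not_lt, not_le] at h
      exact hz (o z (h.imp id le_of_lt)), s, ← Real.norm_eq_abs]
  refine (intervalIntegral.norm_integral_le_of_norm_le_const
    (C := PR b ^ 2 * (PR b ^ 756 / PR b ^ 70000) / 2) fun z _ => ?_).trans ?_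
  · rw [Real.norm_of_nonneg (div_nonneg (mul_nonneg (sq_nonneg _) (sq_nonneg _)) two_pos.le)]
    refine div_le_div_of_nonneg_right ?_ two_pos.le
    rcases le_total |z| 9 with h | h
    · rw [(zt_in h).2, zero_pow two_ne_zero, zero_mul]
      exact (mul_pos (pow_pos hP _) (div_pos (pow_pos hP _) (pow_pos hP _))).le
    · exact mul_le_mul (DZa_zt1 hb z) (DZa_tail hb h) (sq_nonneg _) (sq_nonneg _)
  · have h := PR_div_le hb (c := 18) (by norm_num) (i := 2 + 756) (j := 70000) (k := 0)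
      (l := 63100) (by norm_num)
    rw [pow_zero, mul_div_assoc, pow_add, mul_div_assoc] at h
    rw [show |(18 : ℝ) - -18| = 36 by norm_num]
    generalize PR b ^ 2 * (PR b ^ 756 / PR b ^ 70000) = y at h ⊢
    generalize 1 / PR b ^ 63100 = w at h ⊢
    linarith

end Vale.Agent.P370
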