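import Vale.Agent.P370.DPot
import Vale.Agent.P370.DGram
import Vale.Agent.P370.DZa

/-! Part D: the orbitals form a `Basis`.

PLAN.  `ideal_basis'`: `g1_abs`, `gz_abs`, `g1_in`, `lo_hi`, `g1_disj`, `Box_disj`, `g1_norm`, `gz_norm`,
`test1_mul3`; `close`: `(g - t) ^ 2 = g g - 2 g t + t t`, each a product; `mix`, `mixz`, `gram`, `gramz`;
a product of three numbers within `ε ≤ 1` of `1` is within `7 ε` of `1`. -/

namespace Vale.Agent.P370

open MeasureTheory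

variable {b : ℕ} {ι S : Type} [Fintype ι] [Fintype S] {L : Lay ι S}

private theorem DBasis_two {a c ε δ : ℝ} (h1 : |a - 1| ≤ ε) (h2 : |c - 1| ≤ δ) (hδ : δ ≤ 1) :
    |a * c - 1| ≤ 2 * ε + δ := by
  have h3 : |c| ≤ 2 := by
    rw [abs_le] at h2 ⊢
    constructor <;> linarith [h2.1, h2.2]
  calc |a * c - 1| = |(a - 1) * c + (c - 1)| := by ring_nf
    _ ≤ |a - 1| * |c| + |c - 1| := by
        rw [← abs_mul]
        exact abs_add_le _ _
    _ ≤ ε * 2 + δ := add_le_add (mul_le_mul h1 h3 (abs_nonneg _) ((abs_nonneg _).trans h1)) h2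
    _ = _ := by ring

private theorem DBasis_three {a c d ε : ℝ} (h1 : |a - 1| ≤ ε) (h2 : |c - 1| ≤ ε) (h3 : |d - 1| ≤ ε)
    (hε : ε ≤ 1) : |a * c * d - 1| ≤ 7 * ε :=
  (DBasis_two (DBasis_two h1 h2 hε) h3 hε).trans_eq (by ring)

private theorem DBasis_bd {u v w : ℝ} (hu : |u| ≤ PR b) (hv : |v| ≤ PR b) (hw : |w| ≤ PR b ^ 378) :
    |u * v * w| ≤ PR b ^ 400 := by
  have := PR_pos b
  calc |u * v * w| = |u| * |v| * |w| := by rw [abs_mul, abs_mul]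
    _ ≤ PR b ^ 1 * PR b ^ 1 * PR b ^ 378 := by
        rw [pow_one]
        gcongr
    _ = PR b ^ (1 + 1 + 378) := by rw [pow_add, pow_add]
    _ ≤ _ := pow_le_pow_right₀ (PR_one b) (by norm_num)

private theorem DBasis_in {c : Chain} (hb : 30 ≤ b) (hc : c.Good b) {x : ℝ} (h : x ∈ c.I b) :
    |x| ≤ PR b ^ 64 := by
  obtain ⟨h1, -, h2, -⟩ := hc.lo_hi hb
  rw [abs_le]
  constructor <;> linarith [h.1, h.2]

private theorem DBasis_out {c : Chain} (hb : 30 ≤ b) (hc : c.Good b) {a : ℕ} (ha : a < c.ng) {x : ℝ}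
    (h : PR b ^ 64 < |x|) : c.gt1 b a x = 0 := by
  by_contra h0
  exact absurd (DBasis_in hb hc (hc.DGram_gt_in hb ha h0)) h.not_ge

theorem ideal_basis' (hb : 30 ≤ b) (hL : L.Good b) :
    Basis (L.g3 b) (L.gt3 b) (PR b ^ 400) (1 / PR b ^ 31000) := by
  have h32 : (32 : ℝ) ≤ PR b ^ 64 := le_trans (by norm_num) (PR_pow_ge hb (by norm_num))
  have hx := fun σ => hL.gx (L.cl σ)
  have hy := fun σ => hL.gy (L.cl σ)
  have hn : ∀ σ, Integrable (fun x => L.g3 b σ x * L.g3 b σ x) ∧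
      ∫ x, L.g3 b σ x * L.g3 b σ x = 1 := fun σ => by
    obtain ⟨i1, e1⟩ := (hx σ).g1_norm hb (hL.ax_lt σ)
    obtain ⟨i2, e2⟩ := (hy σ).g1_norm hb (hL.ay_lt σ)
    obtain ⟨i3, e3⟩ := gz_norm hb
    simp only [Lay.g3, mul_mul_mul_comm _ (gz b _), mul_mul_mul_comm _ (Chain.g1 b (L.cy _) _ _)]
    refine ⟨integrable_mul3 i1 i2 i3, ?_⟩
    have e := congrArg₂ (· * ·) (congrArg₂ (· * ·) e1 e2) e3
    rwa [← integral_mul3, one_mul, one_mul] at e
  refine ⟨fun σ => ?_, fun σ x => ?_, fun σ x => ?_, ⟨PR b ^ 64, fun σ x h k => ?_⟩,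
    fun σ σ' h x => ?_, fun σ => ?_, fun σ => ?_, fun σ => ?_⟩
  · exact (((Chain.g1_meas' b _ _).comp (measurable_pi_apply 0)).mul
      ((Chain.g1_meas' b _ _).comp (measurable_pi_apply 1))).mul
      ((gz_meas' b).comp (measurable_pi_apply 2))
  · exact DBasis_bd ((hx σ).g1_abs hb (hL.ax_lt σ) _) ((hy σ).g1_abs hb (hL.ay_lt σ) _)
      (gz_abs hb _)
  · exact DBasis_bd ((hx σ).gt1_abs hb (hL.ax_lt σ) _) ((hy σ).gt1_abs hb (hL.ay_lt σ) _)
      (gtz_abs hb _)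
  · obtain ⟨h1, h3⟩ := mul_ne_zero_iff.1 h
    obtain ⟨h1, h2⟩ := mul_ne_zero_iff.1 h1
    fin_cases k
    · exact DBasis_in hb (hx σ) ((hx σ).g1_in hb (hL.ax_lt σ) h1)
    · exact DBasis_in hb (hy σ) ((hy σ).g1_in hb (hL.ay_lt σ) h2)
    · exact (gz_in h3).trans h32
  · by_contra h0
    obtain ⟨h1, h1'⟩ := mul_ne_zero_iff.1 h0
    obtain ⟨h1, h2⟩ := mul_ne_zero_iff.1 (mul_ne_zero_iff.1 h1).1
    obtain ⟨h1', h2'⟩ := mul_ne_zero_iff.1 (mul_ne_zero_iff.1 h1').1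
    by_cases hc : L.cl σ = L.cl σ'
    · have a1 := hL.ax_lt σ'
      have a2 := hL.ay_lt σ'
      rw [← hc] at a1 a2 h1' h2'
      refine h (hL.inj σ σ' hc ?_ ?_)
      · by_contra hne
        exact mul_ne_zero h1 h1' ((hx σ).g1_disj hb (hL.ax_lt σ) a1 hne _)
      · by_contra hne
        exact mul_ne_zero h2 h2' ((hy σ).g1_disj hb (hL.ay_lt σ) a2 hne _)
    · exact (Set.disjoint_left.1 (Box_disj hb hL hc)) (a := (x 0, x 1))
        ⟨(hx σ).g1_in hb (hL.ax_lt σ) h1, (hy σ).g1_in hb (hL.ay_lt σ) h2⟩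
        ⟨(hx σ').g1_in hb (hL.ax_lt σ') h1', (hy σ').g1_in hb (hL.ay_lt σ') h2'⟩
  · simpa only [pow_two] using (hn σ).2
  · exact test1_mul3 (Chain.gt1_contDiff b _ _) (Chain.gt1_contDiff b _ _) (gtz_contDiff b)
      (R := PR b ^ 64) fun t ht => ⟨DBasis_out hb (hx σ) (hL.ax_lt σ) ht,
        DBasis_out hb (hy σ) (hL.ay_lt σ) ht, (gtz_out b (by linarith)).1⟩
  · have hε : 1 / PR b ^ 62700 ≤ 1 := (parb_small hb (by norm_num)).trans (by norm_num)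
    obtain ⟨i1, e1⟩ := (hx σ).mix hb (hL.ax_lt σ)
    obtain ⟨i2, e2⟩ := (hy σ).mix hb (hL.ay_lt σ)
    obtain ⟨i3, e3⟩ := mixz hb
    obtain ⟨j1, f1⟩ := (hx σ).gram hb (hL.ax_lt σ) (hL.ax_lt σ)
    obtain ⟨j2, f2⟩ := (hy σ).gram hb (hL.ay_lt σ) (hL.ay_lt σ)
    obtain ⟨j3, f3⟩ := gramz hb
    rw [if_pos rfl] at f1 f2
    have hm := DBasis_three e1 e2 e3 hε
    have ht := DBasis_three f1 f2 f3 hε
    rw [← integral_mul3] at hm ht
    have im := integrable_mul3 i1 i2 i3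
    have it := integrable_mul3 j1 j2 j3
    have e : ∫ x, (L.g3 b σ x - L.gt3 b σ x) ^ 2 = _ := (integral_congr_ae
      (Filter.Eventually.of_forall fun x => ?_)).trans (integral_add
        ((hn σ).1.sub (im.const_mul 2)) it)
    · have h7 : 21 / PR b ^ 62700 ≤ 1 / PR b ^ (31000 * 2) :=
        PR_inv_le hb (by norm_num) (by norm_num)
      rw [e, one_div_pow, ← pow_mul]
      simp only [Pi.sub_apply]
      rw [integral_sub (hn σ).1 (im.const_mul 2), integral_const_mul, (hn σ).2]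
      rw [div_eq_mul_one_div 21] at h7
      linarith [(abs_le.1 hm).1, (abs_le.1 ht).2]
    · simp only [Pi.sub_apply, Lay.g3, Lay.gt3]
      ring

end Vale.Agent.P370
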