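import Vale.Agent.P370.WShape

/-! Part D: geometry of a chain (real statements).

PLAN.  Unfold `lo hi al be mb wd pl`, `split_ifs`, `push_cast`, `linarith` with the lemmas of `WShape.lean`
(`pos_add`, `pos_mono`, `pos_abs`, `wd_bd`, `cell_len`, ...).
Indices: for `a < ng`, `j < K` one has `a * K + j < n`, `(a + 1) * K - 1 = a * K + (K - 1)`.
`exp_omz`: `omz = P ^ 1510 ≥ 70000 b` and `exp (-70000 b) ≤ 2 ^ (-70000 b)`.
`exp_pl`: `exp_plq`. -/

namespace Vale.Agent.P370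

variable {b : ℕ} {c : Chain}

theorem omz_eq (b : ℕ) : (omz b : ℝ) = PR b ^ 1510 := by
  rw [omz]
  push_cast
  rw [Pq_cast]

theorem W0_eq (b : ℕ) : (W0 b : ℝ) = PR b ^ 300 := by
  rw [W0]
  push_cast
  rw [Pq_cast]

theorem DGeo_exp (k : ℕ) : Real.exp (-(k * b : ℝ)) ≤ 1 / PR b ^ k := by
  have h1 : (2 : ℝ) ≤ Real.exp 1 := by linarith [Real.add_one_le_exp (1 : ℝ)]
  rw [Real.exp_neg, ← one_div, PR, ← pow_mul, ← Nat.cast_mul, ← mul_one ((k * b : ℕ) : ℝ),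
    Real.exp_nat_mul, mul_comm b k]
  exact one_div_le_one_div_of_le (by positivity) (pow_le_pow_left₀ (by norm_num) h1 _)

theorem exp_omz (hb : 30 ≤ b) : Real.exp (-(omz b : ℝ)) ≤ 1 / PR b ^ 70000 := by
  refine le_trans (Real.exp_le_exp.2 ?_) (DGeo_exp 70000)
  have h1 : PR b ≤ PR b ^ 1510 := le_self_pow₀ (PR_one b) (by norm_num)
  have h2 := b_le_PR hb
  have h3 : (0 : ℝ) ≤ b := Nat.cast_nonneg _
  rw [omz_eq]
  push_cast
  linarith

theorem lamb_le (hb : 30 ≤ b) : (62 : ℝ) ≤ lamb b ∧ 1000 * (lamb b : ℝ) ≤ PR b := by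
  have h1 := lamb_bd hb
  have h2 : (lamb b : ℝ) ≤ 3 * b := by exact_mod_cast h1.2.2.2
  have h3 : (0 : ℝ) ≤ b := Nat.cast_nonneg _
  exact ⟨by exact_mod_cast h1.2.2.1, by linarith [b_le_PR hb]⟩

namespace Chain.Good

theorem n_le (hc : c.Good b) : (c.n : ℝ) ≤ 3 * PR b := by
  have h1 : (c.ng : ℝ) ≤ 3 := by exact_mod_cast hc.ng_le
  have h2 : (c.K : ℝ) ≤ PR b := by
    rw [← Pq_cast]
    exact_mod_cast hc.K_le
  rw [n, Nat.cast_mul]
  exact mul_le_mul h1 h2 (Nat.cast_nonneg _) (by norm_num)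

theorem K_le' (hc : c.Good b) : 1 ≤ (c.K : ℝ) ∧ (c.K : ℝ) ≤ PR b := by
  refine ⟨by exact_mod_cast hc.K_pos, ?_⟩
  rw [← Pq_cast]
  exact_mod_cast hc.K_le

/-- inside a group the plateaus have height one -/
theorem pl_in (hc : c.Good b) {a j : ℕ} (ha : a < c.ng) (h0 : j ≠ 0) (hj : j < c.K) :
    c.pl b (a * c.K + j) = 1 := by
  have h1 := hc.idx_lt ha hj
  rw [pl, if_neg (by omega), if_neg]
  rw [Nat.mul_add_mod', Nat.mod_eq_of_lt hj]
  exact h0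

theorem DGeo_plq (hb : 30 ≤ b) {k l : ℕ} (h1 : l * b ≤ k) (h2 : k ≤ 63100 * b) :
    Real.exp (-(2 * (om b * plq b k : ℝ))) ≤ 1 / PR b ^ l := by
  have h3 := (abs_le.1 (exp_plq hb h2)).2
  have h4 := PR_pow_ge hb (k := 1000) (by norm_num)
  have h5 : 1 / PR b ^ 1000 ≤ 1 / 4 :=
    one_div_le_one_div_of_le (by norm_num) (le_trans (by norm_num) h4)
  have h6 : (5 / 4 : ℝ) ≤ √2 := Real.le_sqrt_of_sq_le (by norm_num)
  have h7 : PR b ^ l ≤ 2 ^ k := by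
    rw [PR, ← pow_mul, mul_comm b l]
    exact pow_le_pow_right₀ (by norm_num) h1
  have h0 := pow_pos (PR_pos b) l
  rw [mul_assoc] at h3
  rw [le_div_iff₀ h0]
  have h8 := Real.exp_pos (-(2 * (om b * plq b k : ℝ)))
  have h9 := mul_le_mul_of_nonneg_left (mul_le_mul h6 h7 h0.le (Real.sqrt_nonneg _)) h8.le
  generalize PR b ^ l = x at *
  generalize 1 / PR b ^ 1000 = y at *
  nlinarith

/-- weight of the plateau to the left of group `a` -/
theorem exp_pl (hb : 30 ≤ b) (hc : c.Good b) {a : ℕ} (ha : a ≤ c.ng) :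
    Real.exp (-(2 * (om b * c.pl b (a * c.K) : ℝ))) ≤ 1 / PR b ^ 62800 ∧
    (a = 0 ∨ a = c.ng → Real.exp (-(2 * (om b * c.pl b (a * c.K) : ℝ))) ≤ 1 / PR b ^ 63100) ∧
    (a ≠ 0 → a ≠ c.ng →
      |Real.exp (-(2 * (om b * c.pl b (a * c.K) : ℝ))) * (√2 * 2 ^ c.kw) - 1| ≤
        1 / PR b ^ 1000) := by
  have hK := hc.K_pos
  have e1 : a = 0 ∨ a = c.ng → c.pl b (a * c.K) = plq b (63100 * b) := by
    rintro (rfl | rfl)
    · rw [pl, if_pos (Or.inl (zero_mul _))]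
    · exact if_pos (Or.inr rfl)
  have e2 : a ≠ 0 → a ≠ c.ng → c.pl b (a * c.K) = plq b c.kw := by
    intro h0 h1
    rw [pl, if_neg, if_pos (Nat.mul_mod_left _ _)]
    rintro (h | h)
    · exact absurd h (Nat.mul_ne_zero h0 (by omega))
    · exact h1 (Nat.eq_of_mul_eq_mul_right hK h)
  refine ⟨?_, fun h => ?_, fun h0 h1 => ?_⟩
  · by_cases h : a = 0 ∨ a = c.ng
    · rw [e1 h]
      exact DGeo_plq hb (by omega) le_rfl
    · rw [not_or] at h
      rw [e2 h.1 h.2]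
      exact DGeo_plq hb hc.kw_ge hc.kw_le
  · rw [e1 h]
    exact DGeo_plq hb le_rfl le_rfl
  · rw [e2 h0 h1, ← mul_assoc 2]
    exact exp_plq hb hc.kw_le

theorem DGeo_lo (b : ℕ) (c : Chain) : (c.lo b : ℝ) = c.pos 0 - wd b - 18 := by
  rw [lo]
  push_cast
  rfl

theorem DGeo_hi (b : ℕ) (c : Chain) : (c.hi b : ℝ) = c.pos (c.n - 1) + wd b + 18 := by
  rw [hi]
  push_cast
  rfl

theorem DGeo_al0 (b : ℕ) (c : Chain) : (c.al b 0 : ℝ) = c.pos 0 - wd b - 9 := by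
  rw [al, if_pos rfl]
  push_cast
  rfl

theorem DGeo_al (b : ℕ) (c : Chain) {a : ℕ} (h : a ≠ 0) :
    (c.al b a : ℝ) = c.pos (a * c.K - 1) + wd b := by
  rw [al, if_neg h]
  push_cast
  rfl

theorem DGeo_be1 (b : ℕ) (c : Chain) :
    (c.be b c.ng : ℝ) + 9 * rho b = c.pos (c.n - 1) + wd b + 9 := by
  rw [be, if_pos rfl]
  push_cast
  ring

theorem DGeo_be (b : ℕ) (c : Chain) {a : ℕ} (h : a ≠ c.ng) :
    (c.be b a : ℝ) + 9 * rho b = c.pos (a * c.K) - wd b := by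
  rw [be, if_neg h]
  push_cast
  ring

theorem lo_hi (hb : 30 ≤ b) (hc : c.Good b) :
    -(PR b ^ 64) ≤ (c.lo b : ℝ) - 9 ∧ (c.lo b : ℝ) + 38 ≤ c.hi b ∧
      (c.hi b : ℝ) + 9 ≤ PR b ^ 64 ∧ (c.hi b : ℝ) - c.lo b ≤ PR b ^ 65 := by
  have hn := hc.n_pos
  have h1 := abs_le.1 (hc.pos_abs hn)
  have h2 := abs_le.1 (hc.pos_abs (i := c.n - 1) (by omega))
  have h3 := hc.pos_mono (i := 0) (j := c.n - 1) (Nat.zero_le _) (by omega)
  have h4 := wd_bd hb
  have h5 := PR_mul_le hb (c := 2) (by norm_num) (i := 64) (j := 65) (by norm_num)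
  have h6 := PR_pow_ge hb (k := 64) (by norm_num)
  rw [DGeo_lo, DGeo_hi]
  refine ⟨?_, ?_, ?_, ?_⟩ <;> linarith [h1.1, h1.2, h2.1, h2.2, h4.1, h4.2]

theorem mb_lo (_hc : c.Good b) : c.mb b 0 = c.lo b := by
  rw [mb, if_pos rfl]

theorem mb_hi (hc : c.Good b) : c.mb b c.ng = c.hi b := by
  have := hc.ng_pos
  rw [mb, if_neg (by omega), if_pos rfl]

theorem mb_monoR (hb : 30 ≤ b) (hc : c.Good b) {a a' : ℕ} (h : a ≤ a') (ha : a' ≤ c.ng) :
    (c.mb b a : ℝ) ≤ c.mb b a' := by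
  induction a', h using Nat.le_induction with
  | base => exact le_rfl
  | succ j _ ih => exact (ih (by omega)).trans (hc.cell_len hb ha).1.le

theorem mb_mem (hb : 30 ≤ b) (hc : c.Good b) {a : ℕ} (ha : a ≤ c.ng) :
    (c.lo b : ℝ) ≤ c.mb b a ∧ (c.mb b a : ℝ) ≤ c.hi b := by
  rw [← hc.mb_lo, ← hc.mb_hi]
  exact ⟨hc.mb_monoR hb (Nat.zero_le _) ha, hc.mb_monoR hb ha le_rfl⟩

theorem al_be (hb : 30 ≤ b) (hc : c.Good b) {a : ℕ} (ha : a ≤ c.ng) :
    (c.lo b : ℝ) + 9 ≤ c.al b a ∧ (c.al b a : ℝ) + 8 ≤ c.be b a ∧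
      (c.be b a : ℝ) + 9 * rho b ≤ c.hi b - 9 := by
  have hn := hc.n_pos
  have hK := hc.K_pos
  have h1 : a * c.K ≤ c.n := Nat.mul_le_mul_right _ ha
  have h4 := wd_bd hb
  have h5 := rho_bd hb
  have h6 := PR_pow_ge hb (k := 30) (by norm_num)
  have h7 : a ≠ c.ng → a * c.K < c.n := fun h => by
    simpa using hc.idx_lt (lt_of_le_of_ne ha h) hK
  rw [DGeo_lo, DGeo_hi]
  refine ⟨?_, ?_, ?_⟩
  · by_cases h : a = 0
    · rw [h, DGeo_al0]
      linarith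
    · rw [DGeo_al b c h]
      have := hc.pos_mono (i := 0) (j := a * c.K - 1) (Nat.zero_le _) (by omega)
      linarith [h4.1]
  · by_cases h : a = 0
    · have h8 := DGeo_be b c (a := 0) (by have := hc.ng_pos; omega)
      rw [zero_mul] at h8
      rw [h, DGeo_al0]
      linarith [h5.2]
    · rw [DGeo_al b c h]
      by_cases h' : a = c.ng
      · have h8 := DGeo_be1 b c
        rw [h', show c.ng * c.K = c.n from rfl]
        linarith [h5.2]
      · have h8 := DGeo_be b c h'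
        have h9 : 0 < a * c.K := Nat.mul_pos (Nat.pos_of_ne_zero h) hK
        have := hc.pos_add (i := a * c.K - 1) (j := a * c.K) (by omega) (h7 h')
        linarith [h4.2, h5.2]
  · by_cases h' : a = c.ng
    · rw [h', DGeo_be1]
      linarith
    · rw [DGeo_be b c h']
      have := hc.pos_mono (i := a * c.K) (j := c.n - 1) (by have := h7 h'; omega) (by omega)
      linarith [h4.1]

/-- the ramp lies inside the plateau -/
theorem ramp_in (hc : c.Good b) {a : ℕ} (ha : a ≤ c.ng) :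
    (a ≠ 0 → (c.al b a : ℝ) = c.pos (a * c.K - 1) + wd b) ∧
      (a ≠ c.ng → (c.be b a : ℝ) + 9 * rho b = c.pos (a * c.K) - wd b) := by
  exact ⟨fun h => DGeo_al b c h, fun h => DGeo_be b c h⟩

theorem be_al (hb : 30 ≤ b) (hc : c.Good b) {a a' : ℕ} (h : a < a') (ha : a' ≤ c.ng) :
    (c.be b a : ℝ) + 9 * rho b ≤ c.al b a' := by
  have hK := hc.K_pos
  have h1 : a' * c.K ≤ c.n := Nat.mul_le_mul_right _ ha
  have h2 : (a + 1) * c.K ≤ a' * c.K := Nat.mul_le_mul_right _ h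
  rw [add_mul, one_mul] at h2
  rw [DGeo_be b c (by omega), DGeo_al b c (by omega)]
  have := hc.pos_mono (i := a * c.K) (j := a' * c.K - 1) (by omega) (by omega)
  linarith [(wd_bd hb).1]

theorem mb_al (hb : 30 ≤ b) (hc : c.Good b) {a : ℕ} (ha : a ≤ c.ng) :
    (a ≠ c.ng → (c.mb b a : ℝ) ≤ c.al b a) ∧ (a ≠ 0 → (c.al b a : ℝ) ≤ c.mb b a) := by
  refine ⟨fun h => ?_, fun h => ?_⟩
  · by_cases h0 : a = 0
    · rw [h0, mb_zero, DGeo_al0]
      linarith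
    · rw [mb_mid b h0 h, DGeo_al b c h0]
  · by_cases h0 : a = c.ng
    · rw [DGeo_al b c h, h0, hc.mb_ng, show c.ng * c.K = c.n from rfl]
      linarith
    · rw [mb_mid b h h0, DGeo_al b c h]

theorem tau_bd (hb : 30 ≤ b) (hc : c.Good b) {a : ℕ} (ha : a + 1 < c.ng) :
    0 < (c.tau b a : ℝ) ∧ (c.tau b a : ℝ) ≤ 1 / PR b ^ 62914 ∧
      (c.tau b a : ℝ) = lamb b / (2 ^ c.kw *
        (2 * c.K * (c.pos ((a + 1) * c.K) - c.pos ((a + 1) * c.K - 1) - 2))) := by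
  have e : (c.tau b a : ℝ) = lamb b / (2 ^ c.kw *
      (2 * c.K * (c.pos ((a + 1) * c.K) - c.pos ((a + 1) * c.K - 1) - 2))) := by
    rw [tau]
    push_cast
    rfl
  have hK := hc.K_pos
  have h1 : 0 < (a + 1) * c.K := Nat.mul_pos (Nat.succ_pos _) hK
  have h2 := hc.pos_add (i := (a + 1) * c.K - 1) (j := (a + 1) * c.K) (by omega)
    (by simpa using hc.idx_lt ha hK)
  have h3 := PR_pow_ge hb (k := 30) (by norm_num)
  have h4 : (0 : ℝ) < c.pos ((a + 1) * c.K) - c.pos ((a + 1) * c.K - 1) - 2 := by linarith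
  have h5 := (lamb_le hb).1
  have h6 := hc.K_le'.1
  refine ⟨?_, ?_, e⟩
  · rw [e]
    positivity
  · have := hc.tau_le a ha
    rw [← Pq_cast]
    exact_mod_cast this

end Chain.Good

end Vale.Agent.P370
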