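import Vale.Agent.P370.DBd
import Vale.Agent.P370.DGeo
import Vale.Agent.P370.DSd

/-! Part D: derivative bounds for `S1`, `S2`, `v`.

PLAN.  `1 / rho = P ^ 104`.  `Bd.aff` gives `Bd n (2 ^ 20 * (P ^ 104) ^ n)` for `ξ ↦ sp k ((± ξ - 1) / rho)`,
`n ≤ 6`, `7 ≤ k ≤ 9`.  Write the term of one dot (a function of `ξ`, then `Bd.aff` with `k = 1`, `D = 1`) as
`(1 - θr - θl) * ξ + sp 8 (..) / rho * (pr - ξ ^ 2 / 2) - sp 8 (..) / rho * (pl - ξ ^ 2 / 2)`, resp.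
`(1 - θr - θl) - 2 sp 8 (..) / rho * ξ + sp 7 (..) / rho ^ 2 * (pr - ξ ^ 2 / 2) + …`; the first factors vanish
outside `[-2, 2]` (`sp_zero`, `sp9_one`, `sp_nine`); `Bd.mul_loc` with `norm_quad_le` (`R = 2`), `pl_bd`.
One dot: `P ^ (104 n + 106)`, resp. `P ^ (104 n + 211)`.  `Bd.sum` (`n_le`), `om_le`. -/

namespace Vale.Agent.P370

variable {b n : ℕ} {c : Chain}

section aux

variable {D A : ℝ}

theorem DBd1_T (hD : 1 ≤ D) {k : ℕ} (hk : n < k) (h9 : k ≤ 9) {s : ℝ} (hs : |s| = 1) :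
    Bd n (2 ^ 20 * D ^ n) fun ξ : ℝ => sp k ((s * ξ - 1) / (1 / D)) := by
  have h := (Bd_sp hk h9).aff (k := s * D) (D := D)
    (by rw [abs_mul, hs, one_mul, abs_of_pos (by linarith)]) hD (-D)
  have e : (fun ξ : ℝ => sp k ((s * ξ - 1) / (1 / D))) = fun ξ : ℝ => sp k (s * D * ξ + -D) := by
    funext ξ
    congr 1
    rw [div_div_eq_mul_div, div_one]
    ring
  rw [e]
  exact h

theorem DBd1_out (hD : 1000 ≤ D) {s ξ : ℝ} (hs : s = 1 ∨ s = -1) (hξ : ξ ∉ Set.Icc (-2 : ℝ) 2) :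
    (0 < s * ξ ∧ 9 ≤ (s * ξ - 1) / (1 / D)) ∨ (s * ξ < 0 ∧ (s * ξ - 1) / (1 / D) ≤ 0) := by
  rw [Set.mem_Icc, not_and_or, not_le, not_le] at hξ
  rw [div_div_eq_mul_div, div_one]
  rcases hs with rfl | rfl <;> rcases hξ with h | h
  · exact Or.inr ⟨by linarith, by nlinarith⟩
  · exact Or.inl ⟨by linarith, by nlinarith⟩
  · exact Or.inl ⟨by linarith, by nlinarith⟩
  · exact Or.inr ⟨by linarith, by nlinarith⟩

theorem DBd1_zero (hD : 1000 ≤ D) {k : ℕ} (h1 : 1 ≤ k) (h8 : k ≤ 8) {s ξ : ℝ}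
    (hs : s = 1 ∨ s = -1) (hξ : ξ ∉ Set.Icc (-2 : ℝ) 2) : sp k ((s * ξ - 1) / (1 / D)) = 0 := by
  rcases DBd1_out hD hs hξ with h | h
  · exact sp_nine h8 h.2
  · exact sp_zero h1 h.2

theorem DBd1_loc {f : ℝ → ℝ} (hn : n ≤ 6) (hf : Bd n A f)
    (h0 : ∀ x, x ∉ Set.Icc (-2 : ℝ) 2 → f x = 0) {p q r : ℝ} (hp : |p| ≤ 64) (hq : |q| ≤ 2)
    (hr : |r| ≤ 1 / 2) : Bd n (2 ^ 13 * A) fun x => f x * (p + q * x + r * x ^ 2) := by
  have h := hf.mul_loc (g := fun x : ℝ => p + q * x + r * x ^ 2) (B := 72) isClosed_Icc h0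
    (by fun_prop) (by norm_num) fun x hx m _ =>
      (norm_quad_le p q r (R := 2) (by norm_num) (abs_le.2 hx) m).trans (by linarith)
  refine h.mono ?_
  have h1 : (2 : ℝ) ^ n ≤ 2 ^ 6 := pow_le_pow_right₀ one_le_two hn
  have h2 := hf.nonneg
  nlinarith

theorem DBd1_mid (hD : 1000 ≤ D) (hn : n ≤ 6) :
    Bd n (3 * (2 ^ 20 * D ^ n)) (fun ξ : ℝ => 1 - sp 9 ((1 * ξ - 1) / (1 / D)) -
      sp 9 ((-1 * ξ - 1) / (1 / D))) ∧ ∀ ξ, ξ ∉ Set.Icc (-2 : ℝ) 2 →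
        1 - sp 9 ((1 * ξ - 1) / (1 / D)) - sp 9 ((-1 * ξ - 1) / (1 / D)) = 0 := by
  have hD1 : 1 ≤ D := by linarith
  refine ⟨(((Bd.const n 1).sub (DBd1_T hD1 (k := 9) (by omega) le_rfl abs_one)).sub
    (DBd1_T hD1 (k := 9) (by omega) le_rfl (s := -1) (by simp))).mono ?_, fun ξ hξ => ?_⟩
  · have := one_le_pow₀ (n := n) hD1
    rw [abs_one]
    nlinarith
  · rcases DBd1_out hD (Or.inl rfl) hξ with h | h <;>
      rcases DBd1_out hD (Or.inr rfl) hξ with h' | h'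
    · linarith [h.1, h'.1]
    · rw [sp9_one h.2, sp_zero (by norm_num) h'.2]
      ring
    · rw [sp9_one h'.2, sp_zero (by norm_num) h.2]
      ring
    · linarith [h.1, h'.1]

theorem DBd1_side (hD : 1000 ≤ D) (hn : n ≤ 6) {k : ℕ} (h7 : 7 ≤ k) (h8 : k ≤ 8) {s : ℝ}
    (hs : s = 1 ∨ s = -1) {p q r : ℝ} (hp : |p| ≤ 64) (hq : |q| ≤ 2) (hr : |r| ≤ 1 / 2) :
    Bd n (2 ^ 13 * (2 ^ 20 * D ^ n))
      fun ξ : ℝ => sp k ((s * ξ - 1) / (1 / D)) * (p + q * ξ + r * ξ ^ 2) :=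
  DBd1_loc hn (DBd1_T (by linarith) (by omega) (by omega) (by rcases hs with rfl | rfl <;> simp))
    (fun _ hξ => DBd1_zero hD (by omega) h8 hs hξ) hp hq hr

theorem DBd1_dot1 (hD : 1000 ≤ D) (hn : n ≤ 6) {pr pl : ℝ} (hr : |pr| ≤ 64) (hl : |pl| ≤ 64) :
    Bd n (2 ^ 36 * D ^ (n + 1)) fun ξ : ℝ => ξ + half1 (1 / D) pr ξ - half1 (1 / D) pl (-ξ) := by
  have hD0 : 0 < D := by linarith
  have h1 := DBd1_loc hn (DBd1_mid hD hn).1 (DBd1_mid hD hn).2 (p := 0) (q := 1) (r := 0)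
    (by simp) (by simp) (by simp)
  have h2 := (DBd1_side hD hn (k := 8) (by norm_num) le_rfl (Or.inl rfl) hr (q := 0)
    (r := -(1 / 2)) (by simp) (by rw [abs_neg, abs_of_pos (by norm_num)])).const_mul D
  have h3 := (DBd1_side hD hn (k := 8) (by norm_num) le_rfl (Or.inr rfl) hl (q := 0)
    (r := -(1 / 2)) (by simp) (by rw [abs_neg, abs_of_pos (by norm_num)])).const_mul D
  have h := ((h1.add h2).sub h3).mono (B := 2 ^ 36 * D ^ (n + 1)) (by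
    have h4 := pow_pos hD0 n
    rw [abs_of_pos hD0, pow_succ D n]
    nlinarith)
  convert h using 2 with ξ
  simp only [half1, one_mul, neg_one_mul, div_div_eq_mul_div, div_one]
  ring

theorem DBd1_dot2 (hD : 1000 ≤ D) (hn : n ≤ 6) {pr pl : ℝ} (hr : |pr| ≤ 64) (hl : |pl| ≤ 64) :
    Bd n (2 ^ 36 * D ^ (n + 2)) fun ξ : ℝ => 1 + half2 (1 / D) pr ξ + half2 (1 / D) pl (-ξ) := by
  have hD0 : 0 < D := by linarith
  have h1 := (DBd1_mid hD hn).1
  have h2 := (DBd1_side hD hn (k := 8) (by norm_num) le_rfl (Or.inl rfl) (p := 0) (q := -2)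
    (r := 0) (by simp) (by simp) (by simp)).const_mul D
  have h3 := (DBd1_side hD hn (k := 8) (by norm_num) le_rfl (Or.inr rfl) (p := 0) (q := 2)
    (r := 0) (by simp) (by simp) (by simp)).const_mul D
  have h4 := (DBd1_side hD hn (k := 7) le_rfl (by norm_num) (Or.inl rfl) hr (q := 0)
    (r := -(1 / 2)) (by simp) (by rw [abs_neg, abs_of_pos (by norm_num)])).const_mul (D ^ 2)
  have h5 := (DBd1_side hD hn (k := 7) le_rfl (by norm_num) (Or.inr rfl) hl (q := 0)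
    (r := -(1 / 2)) (by simp) (by rw [abs_neg, abs_of_pos (by norm_num)])).const_mul (D ^ 2)
  have h := ((((h1.add h2).add h3).add h4).add h5).mono (B := 2 ^ 36 * D ^ (n + 2)) (by
    have h6 := pow_pos hD0 n
    have h7 : D ≤ D ^ 2 := by nlinarith
    have h8 := mul_le_mul_of_nonneg_left h7 h6.le
    have h9 : D ^ n ≤ D ^ n * D := le_mul_of_one_le_right h6.le (by linarith)
    rw [abs_of_pos hD0, abs_of_pos (pow_pos hD0 2), pow_add D n]
    nlinarith)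
  convert h using 2 with ξ
  simp only [half2, one_mul, neg_one_mul, div_pow, one_pow, div_div_eq_mul_div, div_one]
  ring

end aux

theorem DBd1_D (hb : 30 ≤ b) : 1000 ≤ PR b ^ 104 :=
  le_trans (by norm_num) (PR_pow_ge hb (by norm_num))

theorem DBd1_sum (hb : 30 ≤ b) (hc : c.Good b) {j : ℕ} {F : ℕ → ℝ → ℝ}
    (hF : ∀ i, Bd n (2 ^ 36 * PR b ^ j) (F i)) :
    Bd n (PR b ^ (j + 4)) fun x => (om b : ℝ) * ∑ i ∈ Finset.range c.n, F i (x - c.pos i) := by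
  have h1 : ∀ i ∈ Finset.range c.n, Bd n (2 ^ 36 * PR b ^ j) fun x => F i (x - c.pos i) :=
    fun i _ => by
      have h := (hF i).aff (k := 1) (D := 1) (by simp) le_rfl (-(c.pos i : ℝ))
      simpa only [one_pow, mul_one, one_mul, ← sub_eq_add_neg] using h
  refine ((Bd.sum _ h1).const_mul (om b : ℝ)).mono ?_
  have h2 := om_le hb
  have h3 := hc.n_le
  have h4 := pow_pos (PR_pos b) j
  have h5 := PR_pos b
  have h6 := PR_mul_le hb (c := 2 ^ 30) le_rfl (i := j + 2) (j := j + 4) (by omega)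
  rw [Finset.card_range, abs_of_pos (by linarith [h2.1])]
  refine le_trans ?_ h6
  have h7 : (om b : ℝ) * c.n ≤ PR b / 1000 * (3 * PR b) :=
    mul_le_mul (by linarith [h2.2]) h3 (Nat.cast_nonneg _) (by positivity)
  have h8 := mul_le_mul_of_nonneg_right h7 h4.le
  have h9 := mul_pos (mul_pos h5 h5) h4
  rw [pow_add, pow_two]
  generalize PR b ^ j = X at *
  nlinarith

theorem DBd1_pl (hb : 30 ≤ b) (hc : c.Good b) (i : ℕ) : |(c.pl b i : ℝ)| ≤ 64 :=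
  abs_le.2 ⟨by linarith [(hc.pl_bd hb i).1], (hc.pl_bd hb i).2⟩

namespace Chain.Good

theorem Bd_S1 (hb : 30 ≤ b) (hc : c.Good b) (hn : n ≤ 6) :
    Bd n (PR b ^ (104 * n + 110)) (c.S1 b : ℝ → ℝ) := by
  have h := DBd1_sum hb hc (n := n) (j := 104 * (n + 1))
    (F := fun i ξ => ξ + half1 (rho b : ℝ) (c.pl b (i + 1)) ξ - half1 (rho b : ℝ) (c.pl b i) (-ξ))
    fun i => by
      rw [rho_cast, pow_mul]
      exact DBd1_dot1 (DBd1_D hb) hn (DBd1_pl hb hc _) (DBd1_pl hb hc _)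
  exact h.mono (pow_le_pow_right₀ (PR_one b) (by omega))

theorem Bd_S2 (hb : 30 ≤ b) (hc : c.Good b) (hn : n ≤ 6) :
    Bd n (PR b ^ (104 * n + 215)) (c.S2 b : ℝ → ℝ) := by
  have h := DBd1_sum hb hc (n := n) (j := 104 * (n + 2))
    (F := fun i ξ => 1 + half2 (rho b : ℝ) (c.pl b (i + 1)) ξ + half2 (rho b : ℝ) (c.pl b i) (-ξ))
    fun i => by
      rw [rho_cast, pow_mul]
      exact DBd1_dot2 (DBd1_D hb) hn (DBd1_pl hb hc _) (DBd1_pl hb hc _)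
  exact h.mono (pow_le_pow_right₀ (PR_one b) (by omega))

theorem Bd_v (hb : 30 ≤ b) (hc : c.Good b) (hn : n ≤ 6) :
    Bd n (PR b ^ (208 * n + 222)) (c.v b : ℝ → ℝ) := by
  have h1 := hc.Bd_S1 hb hn
  have h := (((h1.mul h1).sub (hc.Bd_S2 hb hn)).const_mul (1 / 2)).mono
    (B := PR b ^ (208 * n + 222)) (by
      have h2 : (2 : ℝ) ^ n ≤ 2 ^ 6 := pow_le_pow_right₀ one_le_two hn
      have h3 := PR_mul_le hb (c := 2 ^ 6) (by norm_num) (i := 208 * n + 220)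
        (j := 208 * n + 222) (by omega)
      have h4 : PR b ^ (104 * n + 215) ≤ PR b ^ (208 * n + 222) :=
        pow_le_pow_right₀ (PR_one b) (by omega)
      have h5 := mul_le_mul_of_nonneg_right h2 (pow_pos (PR_pos b) (208 * n + 220)).le
      rw [mul_assoc, ← pow_add, show 104 * n + 110 + (104 * n + 110) = 208 * n + 220 by omega,
        abs_of_pos (by norm_num)]
      generalize PR b ^ (208 * n + 220) = X at *
      generalize PR b ^ (208 * n + 222) = Y at *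
      generalize PR b ^ (104 * n + 215) = Z at *
      linarith)
  convert h using 2 with x
  rw [v]
  ring

theorem v_abs (hb : 30 ≤ b) (hc : c.Good b) (x : ℝ) : |c.v b x| ≤ PR b ^ 222 :=
  (hc.Bd_v hb (n := 0) (by norm_num)).abs_le x

end Chain.Good

end Vale.Agent.P370
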