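import Vale.Agent.P370.DS
import Vale.Agent.P370.DSd

/-! Part D: ramps, cut-offs and walls.

PLAN.  `sp_zero`, `sp9_one`, `sp10_lin`, `sp9_mono`, `al_be`, `be_al`.  `up` is monotone since `up1 ≥ 0`
(`monotone_of_deriv_nonneg`), so `0 ≤ up ≤ 1`.  `up1_sq`: `∫ up1 = 1` over `[al, be + 9 rho]` (FTC);
upper bound from `up1 ≤ 1 / (be - al)`, lower bound from `0 ≤ ∫ (up1 - 1 / len) ^ 2`; pass from `∫` over `ℝ`
to the interval with `intervalIntegral.integral_eq_integral_of_support_subset` or `setIntegral_eq_integral_of_forall_compl_eq_zero`.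
`r_mem`: if `x ≤ al (a + 1)` then `up (a + 1) = 0`, else `up a = 1` (`be_al`).
`r_sharp`: if `x` is on ramp `a` or ramp `a + 1` use `S_ramp`, `exp_pl`; if `x ≤ lo + 18` or
`x ≥ hi - 18` use `S_plateau` with `i = 0` or `i = n` (`exp_pl` with `a = 0`, `a = ng`); otherwise compare
with `mb_al`. -/

namespace Vale.Agent.P370

open MeasureTheory

variable {b : ℕ} {c : Chain} {a : ℕ} {x : ℝ}

theorem DUp_mem {s t : ℝ} (h : t ≤ s) : 0 ≤ sp 9 s - sp 9 t ∧ sp 9 s - sp 9 t ≤ 1 :=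
  ⟨sub_nonneg.2 (sp9_mono h), by linarith [sp9_le_one s, sp9_nonneg t]⟩

theorem DUp_zero {k : ℕ} (hk : 1 ≤ k) {s ϱ : ℝ} (h0 : 0 < ϱ) (h : s ≤ 0) : sp k (s / ϱ) = 0 :=
  sp_zero hk (div_nonpos_of_nonpos_of_nonneg h h0.le)

theorem DUp_nine {s ϱ : ℝ} (h0 : 0 < ϱ) (h : 9 * ϱ ≤ s) : 9 ≤ s / ϱ := (le_div_iff₀ h0).2 h

theorem DUp_al0 (b : ℕ) (c : Chain) : (c.al b 0 : ℝ) = c.lo b + 9 := by
  rw [Chain.al, if_pos rfl, Chain.lo]
  push_cast
  ring

theorem DUp_be (b : ℕ) (c : Chain) : (c.be b c.ng : ℝ) + 9 * rho b = c.hi b - 9 := by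
  rw [Chain.be, if_pos rfl, Chain.hi]
  push_cast
  ring

theorem DUp_lo (b : ℕ) (c : Chain) : (c.lo b : ℝ) + 18 = c.pos 0 - Chain.wd b := by
  rw [Chain.lo]
  push_cast
  ring

theorem DUp_hi (b : ℕ) (c : Chain) : (c.hi b : ℝ) - 18 = c.pos (c.n - 1) + Chain.wd b := by
  rw [Chain.hi]
  push_cast
  ring

namespace Chain.Good

theorem up1_mem (hb : 30 ≤ b) (hc : c.Good b) (ha : a ≤ c.ng) (x : ℝ) :
    0 ≤ c.up1 b a x ∧ c.up1 b a x ≤ 1 / (c.be b a - c.al b a) := by
  have h0 := (rho_bd hb).1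
  have h1 := (hc.al_be hb ha).2.1
  have h2 : (0 : ℝ) < c.be b a - c.al b a := by linarith
  have h3 := DUp_mem (s := (x - c.al b a) / rho b) (t := (x - c.be b a) / rho b)
    (div_le_div_of_nonneg_right (by linarith) h0.le)
  exact ⟨div_nonneg h3.1 h2.le, div_le_div_of_nonneg_right h3.2 h2.le⟩


theorem up1_out (hb : 30 ≤ b) (hc : c.Good b) (ha : a ≤ c.ng)
    (h : x ≤ c.al b a ∨ (c.be b a : ℝ) + 9 * rho b ≤ x) : c.up1 b a x = 0 := by
  have h0 := (rho_bd hb).1
  have h1 := (hc.al_be hb ha).2.1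
  rcases h with h | h
  · rw [up1, DUp_zero (by norm_num) h0 (by linarith), DUp_zero (by norm_num) h0 (by linarith),
      sub_self, zero_div]
  · rw [up1, sp9_one (DUp_nine h0 (by linarith)), sp9_one (DUp_nine h0 (by linarith)), sub_self,
      zero_div]


theorem up_left (hb : 30 ≤ b) (hc : c.Good b) (ha : a ≤ c.ng) (h : x ≤ c.al b a) :
    c.up b a x = 0 := by
  have h0 := (rho_bd hb).1
  have h1 := (hc.al_be hb ha).2.1
  rw [up, DUp_zero (by norm_num) h0 (by linarith), DUp_zero (by norm_num) h0 (by linarith),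
    sub_self, mul_zero, zero_div]


theorem up_right (hb : 30 ≤ b) (hc : c.Good b) (ha : a ≤ c.ng)
    (h : (c.be b a : ℝ) + 9 * rho b ≤ x) : c.up b a x = 1 := by
  have h0 := (rho_bd hb).1
  have h1 := (hc.al_be hb ha).2.1
  have h2 : (0 : ℝ) < c.be b a - c.al b a := by linarith
  rw [up, sp10_lin (DUp_nine h0 (by linarith)), sp10_lin (DUp_nine h0 (by linarith)),
    div_eq_one_iff_eq h2.ne']
  field_simp
  ring


theorem up_mem (hb : 30 ≤ b) (hc : c.Good b) (ha : a ≤ c.ng) (x : ℝ) :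
    0 ≤ c.up b a x ∧ c.up b a x ≤ 1 := by
  have hm : Monotone (c.up b a : ℝ → ℝ) := monotone_of_deriv_nonneg
    (fun x => (up_deriv b c a x).differentiableAt) fun x => by
      rw [(up_deriv b c a x).deriv]
      exact (hc.up1_mem hb ha x).1
  constructor
  · rw [← hc.up_left hb ha (min_le_right x _)]
    exact hm (min_le_left _ _)
  · rw [← hc.up_right hb ha (le_max_right x _)]
    exact hm (le_max_left _ _)


theorem up1_sq (hb : 30 ≤ b) (hc : c.Good b) (ha : a ≤ c.ng) :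
    Integrable (fun x => c.up1 b a x ^ 2) ∧
    1 / ((c.be b a : ℝ) - c.al b a + 9 * rho b) ≤ ∫ x, c.up1 b a x ^ 2 ∧
      ∫ x, c.up1 b a x ^ 2 ≤ 1 / (c.be b a - c.al b a) := by
  have h0 := (rho_bd hb).1
  have h1 := (hc.al_be hb ha).2.1
  have hab : (c.al b a : ℝ) ≤ c.be b a + 9 * rho b := by linarith
  have hu := up1_cont b c a
  have hs : Function.support (fun x => c.up1 b a x ^ 2) ⊆
      Set.Ioc (c.al b a : ℝ) (c.be b a + 9 * rho b) := fun x hx => by
    by_contra h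
    refine hx ?_
    rw [Set.mem_Ioc, not_and_or, not_lt, not_le] at h
    beta_reduce
    rw [hc.up1_out hb ha (h.imp id le_of_lt), zero_pow two_ne_zero]
  have h2 : ∫ x in (c.al b a : ℝ)..(c.be b a + 9 * rho b), c.up1 b a x = 1 := by
    rw [intervalIntegral.integral_eq_sub_of_hasDerivAt (fun x _ => up_deriv b c a x)
      (hu.intervalIntegrable _ _), hc.up_right hb ha le_rfl, hc.up_left hb ha le_rfl, sub_zero]
  refine ⟨(hu.pow 2).integrable_of_hasCompactSupport
    (HasCompactSupport.of_support_subset_isCompact isCompact_Icc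
      (hs.trans Set.Ioc_subset_Icc_self)), ?_, ?_⟩
  · rw [← intervalIntegral.integral_eq_integral_of_support_subset hs]
    generalize hk : 1 / ((c.be b a : ℝ) - c.al b a + 9 * rho b) = k
    have h3 : k * (c.be b a + 9 * rho b - c.al b a) = 1 := by
      rw [← hk, one_div_mul_eq_div, div_eq_one_iff_eq (by linarith)]
      ring
    have h4 := intervalIntegral.integral_mono_on (μ := volume)
      (f := fun x => 2 * k * c.up1 b a x - k ^ 2) (g := fun x => c.up1 b a x ^ 2) hab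
      (((hu.const_mul (2 * k)).sub (continuous_const (y := k ^ 2))).intervalIntegrable _ _)
      ((hu.pow 2).intervalIntegrable _ _) fun x _ => by nlinarith [sq_nonneg (c.up1 b a x - k)]
    rw [intervalIntegral.integral_sub ((hu.const_mul (2 * k)).intervalIntegrable _ _)
      (continuous_const.intervalIntegrable _ _), intervalIntegral.integral_const_mul, h2,
      intervalIntegral.integral_const, smul_eq_mul] at h4
    refine le_trans (le_of_eq ?_) h4
    linear_combination k * h3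
  · rw [← intervalIntegral.integral_eq_integral_of_support_subset hs]
    have h4 := intervalIntegral.integral_mono_on (μ := volume) (f := fun x => c.up1 b a x ^ 2) hab
      ((hu.pow 2).intervalIntegrable _ _)
      ((hu.const_mul (1 / (c.be b a - c.al b a))).intervalIntegrable _ _) fun x _ => by
        rw [pow_two]
        exact mul_le_mul_of_nonneg_right (hc.up1_mem hb ha x).2 (hc.up1_mem hb ha x).1
    rwa [intervalIntegral.integral_const_mul, h2, mul_one] at h4


theorem up1_mul (hb : 30 ≤ b) (hc : c.Good b) {a' : ℕ} (ha : a ≤ c.ng) (ha' : a' ≤ c.ng)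
    (h : a ≠ a') (x : ℝ) : c.up1 b a x * c.up1 b a' x = 0 := by
  have key : ∀ {a a' : ℕ}, a ≤ c.ng → a' ≤ c.ng → a < a' → c.up1 b a x * c.up1 b a' x = 0 := by
    intro a a' ha ha' h
    rcases le_total x (c.al b a') with h1 | h1
    · rw [hc.up1_out hb ha' (Or.inl h1), mul_zero]
    · rw [hc.up1_out hb ha (Or.inr ((hc.be_al hb h ha').trans h1)), zero_mul]
  rcases lt_or_gt_of_ne h with h | h
  · exact key ha ha' h
  · rw [mul_comm]
    exact key ha' ha h


theorem r_mem (hb : 30 ≤ b) (hc : c.Good b) (ha : a < c.ng) (x : ℝ) :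
    0 ≤ c.r b a x ∧ c.r b a x ≤ 1 := by
  rcases le_total x (c.al b (a + 1)) with h1 | h1
  · rw [r, hc.up_left hb ha h1, sub_zero]
    exact hc.up_mem hb ha.le x
  · have h2 := hc.up_mem hb (a := a + 1) ha x
    rw [r, hc.up_right hb ha.le ((hc.be_al hb (Nat.lt_succ_self a) ha).trans h1)]
    constructor <;> linarith [h2.1, h2.2]


theorem r_out (hb : 30 ≤ b) (hc : c.Good b) (ha : a < c.ng)
    (h : x ≤ (c.lo b : ℝ) + 9 ∨ (c.hi b : ℝ) - 9 ≤ x) : c.r b a x = 0 ∧ c.r1 b a x = 0 := by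
  have h1 := hc.al_be hb ha.le
  have h2 := hc.al_be hb (a := a + 1) ha
  rcases h with h | h
  · rw [r, r1, hc.up_left hb ha.le (h.trans h1.1), hc.up_left hb ha (h.trans h2.1),
      hc.up1_out hb ha.le (Or.inl (h.trans h1.1)), hc.up1_out hb ha (Or.inl (h.trans h2.1)),
      sub_self]
    exact ⟨rfl, rfl⟩
  · rw [r, r1, hc.up_right hb ha.le (h1.2.2.trans h), hc.up_right hb ha (h2.2.2.trans h),
      hc.up1_out hb ha.le (Or.inr (h1.2.2.trans h)), hc.up1_out hb ha (Or.inr (h2.2.2.trans h)),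
      sub_self, sub_self]
    exact ⟨rfl, rfl⟩


theorem gt1_out (hb : 30 ≤ b) (hc : c.Good b) (ha : a < c.ng)
    (h : x ≤ (c.lo b : ℝ) + 9 ∨ (c.hi b : ℝ) - 9 ≤ x) : c.gt1 b a x = 0 ∧ c.gd b a x = 0 := by
  obtain ⟨h1, h2⟩ := hc.r_out hb ha h
  rw [gt1, gd, h1, h2, mul_zero, sub_zero, zero_mul, zero_div]
  exact ⟨rfl, rfl⟩


theorem r_sharp (hb : 30 ≤ b) (hc : c.Good b) (ha : a < c.ng) (x : ℝ) :
    c.r b a x = (if (c.mb b a : ℝ) ≤ x ∧ x < c.mb b (a + 1) then 1 else 0) ∨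
      Real.exp (-(2 * c.S b x)) ≤ 1 / PR b ^ 62800 := by
  have h0 := (rho_bd hb).1
  have ramp : ∀ {a : ℕ}, a ≤ c.ng → c.S b x = om b * c.pl b (a * c.K) →
      Real.exp (-(2 * c.S b x)) ≤ 1 / PR b ^ 62800 := fun ha h => by
    rw [h]
    exact (hc.exp_pl hb ha).1
  rcases le_or_gt x (c.lo b + 18) with k1 | k1
  · refine Or.inr (ramp (Nat.zero_le _) ?_)
    rw [zero_mul]
    exact hc.S_plateau hb (Nat.zero_le _) (fun h => absurd rfl h) fun _ => k1.trans_eq (DUp_lo b c)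
  rcases le_or_gt ((c.hi b : ℝ) - 18) x with k2 | k2
  · exact Or.inr (ramp le_rfl (hc.S_plateau hb le_rfl (fun _ => (DUp_hi b c).symm.trans_le k2)
      fun h => absurd rfl h))
  have h1 := hc.al_be hb ha.le
  have h2 := hc.al_be hb (a := a + 1) ha
  have h3 := hc.be_al hb (Nat.lt_succ_self a) ha
  have h4 := hc.mb_al hb ha.le
  have h5 := hc.mb_al hb (a := a + 1) ha
  rcases lt_or_ge x (c.al b a) with l1 | l1
  · have a0 : a ≠ 0 := by
      rintro rfl
      linarith [DUp_al0 b c]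
    rw [r, hc.up_left hb ha.le l1.le, hc.up_left hb ha (by linarith [h1.2.1]), sub_self,
      if_neg fun h => by linarith [h.1, h4.2 a0]]
    exact Or.inl rfl
  rcases le_or_gt x (c.be b a + 9 * rho b) with l2 | l2
  · exact Or.inr (ramp ha.le (hc.S_ramp hb ha.le l1 l2))
  rcases lt_or_ge x (c.al b (a + 1)) with l3 | l3
  · rw [r, hc.up_right hb ha.le l2.le, hc.up_left hb ha l3.le, sub_zero,
      if_pos ⟨(h4.1 ha.ne).trans l1, l3.trans_le (h5.2 (Nat.succ_ne_zero a))⟩]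
    exact Or.inl rfl
  rcases le_or_gt x (c.be b (a + 1) + 9 * rho b) with l4 | l4
  · exact Or.inr (ramp ha (hc.S_ramp hb ha l3 l4))
  have a1 : a + 1 ≠ c.ng := fun e => by
    rw [e] at l4
    linarith [DUp_be b c]
  rw [r, hc.up_right hb ha.le l2.le, hc.up_right hb ha l4.le, sub_self,
    if_neg fun h => by linarith [h.2, h5.1 a1]]
  exact Or.inl rfl


end Chain.Good

theorem cut_mem (b : ℕ) (c : Chain) (h : (c.lo b : ℝ) ≤ c.hi b) (x : ℝ) :
    0 ≤ c.cut b x ∧ c.cut b x ≤ 1 := by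
  exact DUp_mem (by linarith)


theorem cut_one (h1 : (c.lo b : ℝ) ≤ x) (h2 : x ≤ c.hi b) : c.cut b x = 1 := by
  rw [Chain.cut, sp9_one (by linarith), sp_zero (by norm_num) (by linarith), sub_zero]


theorem cut_out (h0 : (c.lo b : ℝ) ≤ c.hi b) (h : x ≤ (c.lo b : ℝ) - 9 ∨ (c.hi b : ℝ) + 9 ≤ x) :
    c.cut b x = 0 := by
  rcases h with h | h
  · rw [Chain.cut, sp_zero (by norm_num) (by linarith), sp_zero (by norm_num) (by linarith),
      sub_self]
  · rw [Chain.cut, sp9_one (by linarith), sp9_one (by linarith), sub_self]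


theorem wall_nonneg (b : ℕ) (c : Chain) (x : ℝ) : 0 ≤ c.wall b x := by
  exact add_nonneg (sp9_nonneg _) (sp9_nonneg _)


theorem wall_zero (h1 : (c.lo b : ℝ) + 9 ≤ x) (h2 : x ≤ c.hi b - 9) : c.wall b x = 0 := by
  rw [Chain.wall, sp_zero (by norm_num) (by linarith), sp_zero (by norm_num) (by linarith),
    add_zero]


theorem wall_ge (h : x ≤ c.lo b ∨ (c.hi b : ℝ) ≤ x) : 1 ≤ c.wall b x := by
  rcases h with h | h
  · rw [Chain.wall, sp9_one (x := c.lo b + 9 - x) (by linarith)]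
    exact le_add_of_nonneg_right (sp9_nonneg _)
  · rw [Chain.wall, sp9_one (x := x - (c.hi b - 9)) (by linarith)]
    exact le_add_of_nonneg_left (sp9_nonneg _)


theorem zeta_mem (z : ℝ) : 0 ≤ zeta z ∧ zeta z ≤ 1 := by
  exact DUp_mem (by linarith)


theorem zeta_one {z : ℝ} (h : |z| ≤ 64) : zeta z = 1 := by
  obtain ⟨h1, h2⟩ := abs_le.1 h
  rw [zeta, sp9_one (by linarith), sp_zero (by norm_num) (by linarith), sub_zero]


theorem zeta_out {z : ℝ} (h : 73 ≤ |z|) : zeta z = 0 := by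
  rcases le_abs.1 h with h | h
  · rw [zeta, sp9_one (by linarith), sp9_one (by linarith), sub_self]
  · rw [zeta, sp_zero (by norm_num) (by linarith), sp_zero (by norm_num) (by linarith), sub_self]


theorem zt_mem (z : ℝ) : 0 ≤ zt z ∧ zt z ≤ 1 := by
  exact DUp_mem (by linarith)


theorem zt_in {z : ℝ} (h : |z| ≤ 9) : zt z = 1 ∧ zt1 z = 0 := by
  obtain ⟨h1, h2⟩ := abs_le.1 h
  rw [zt, zt1, sp9_one (by linarith), sp_zero (by norm_num) (by linarith),
    sp_nine le_rfl (by linarith), sp_zero (by norm_num) (by linarith), sub_zero, sub_zero]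
  exact ⟨rfl, rfl⟩


theorem zt_out {z : ℝ} (h : 18 ≤ |z|) : zt z = 0 ∧ zt1 z = 0 := by
  rcases le_abs.1 h with h | h
  · rw [zt, zt1, sp9_one (by linarith), sp9_one (by linarith), sp_nine le_rfl (by linarith),
      sp_nine le_rfl (by linarith), sub_self, sub_self]
    exact ⟨rfl, rfl⟩
  · rw [zt, zt1, sp_zero (by norm_num) (by linarith), sp_zero (by norm_num) (by linarith),
      sp_zero (by norm_num) (by linarith), sp_zero (by norm_num) (by linarith), sub_self]
    exact ⟨rfl, rfl⟩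


theorem gtz_out (b : ℕ) {z : ℝ} (h : 18 ≤ |z|) : gtz b z = 0 ∧ gzd b z = 0 := by
  obtain ⟨h1, h2⟩ := zt_out h
  rw [gtz, gzd, ← zt, h1, h2, mul_zero, sub_zero, zero_mul, zero_div]
  exact ⟨rfl, rfl⟩


end Vale.Agent.P370
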