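import Vale.Agent.P370.DBd1
import Vale.Agent.P370.DUp
import Vale.Agent.P370.DMass

/-! Part D: derivative bounds for the cut-offs and the orbitals. -/

namespace Vale.Agent.P370

variable {b a : ℕ} {c : Chain}

theorem DBd2_sub {m : ℕ} (hm : m < 9) (d : ℝ) : Bd m (2 ^ 20) fun x : ℝ => sp 9 (x - d) := by
  simpa only [one_pow, mul_one, one_mul, ← sub_eq_add_neg] using
    (Bd_sp hm le_rfl).aff (k := 1) (D := 1) (by simp) le_rfl (-d)

theorem DBd2_add {m : ℕ} (hm : m < 9) (d : ℝ) : Bd m (2 ^ 20) fun x : ℝ => sp 9 (x + d) := by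
  simpa only [sub_neg_eq_add] using DBd2_sub hm (-d)

theorem DBd2_rev {m : ℕ} (hm : m < 9) (d : ℝ) : Bd m (2 ^ 20) fun x : ℝ => sp 9 (d - x) := by
  simpa only [one_pow, mul_one, neg_one_mul, neg_add_eq_sub] using
    (Bd_sp hm le_rfl).aff (k := -1) (D := 1) (by simp) le_rfl d

theorem Bd_cut (b : ℕ) (c : Chain) : Bd 6 (2 ^ 21) (c.cut b : ℝ → ℝ) :=
  ((DBd2_sub (by norm_num) _).sub (DBd2_sub (by norm_num) _)).mono (by norm_num)

theorem Bd_wall (b : ℕ) (c : Chain) : Bd 6 (2 ^ 21) (c.wall b : ℝ → ℝ) :=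
  ((DBd2_rev (by norm_num) _).add (DBd2_sub (by norm_num) _)).mono (by norm_num)

theorem Bd_zeta : Bd 6 (2 ^ 21) (zeta : ℝ → ℝ) :=
  ((DBd2_add (by norm_num) _).sub (DBd2_sub (by norm_num) _)).mono (by norm_num)

theorem DBd2_sc (b : ℕ) (d : ℝ) :
    Bd 5 (2 ^ 20 * PR b ^ 520) fun x : ℝ => sp 9 ((x - d) / rho b) := by
  have h := (Bd_sp (m := 5) (by norm_num) le_rfl).aff (k := PR b ^ 104) (D := PR b ^ 104)
    (abs_of_pos (pow_pos (PR_pos b) _)).le (one_le_pow₀ (PR_one b)) (-(PR b ^ 104 * d))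
  rw [← pow_mul] at h
  simpa only [rho_cast, div_div_eq_mul_div, div_one, mul_comm _ (PR b ^ 104), mul_sub,
    ← sub_eq_add_neg] using h

theorem DBd2_up (hb : 30 ≤ b) (hc : c.Good b) (ha : a ≤ c.ng) :
    Bd 6 (PR b ^ 521) (c.up b a : ℝ → ℝ) := by
  have h1 := (hc.al_be hb ha).2.1
  have h2 : Bd 5 (PR b ^ 521) (c.up1 b a) := by
    have h := ((DBd2_sc b (c.al b a)).sub (DBd2_sc b (c.be b a))).const_mul
      (1 / (c.be b a - c.al b a))
    have h3 : |1 / ((c.be b a : ℝ) - c.al b a)| ≤ 1 := by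
      rw [abs_of_pos (one_div_pos.2 (by linarith)), div_le_one (by linarith)]
      linarith
    have h4 := PR_mul_le hb (c := 2 ^ 21) (by norm_num) (show 520 < 521 by norm_num)
    have h5 := pow_pos (PR_pos b) 520
    simp only [one_div_mul_eq_div] at h
    exact h.mono ((mul_le_of_le_one_left (by linarith) h3).trans (by linarith))
  refine Bd.of_deriv (c.up_deriv b a) h2 fun x => ?_
  rw [abs_of_nonneg (hc.up_mem hb ha x).1]
  exact (hc.up_mem hb ha x).2.trans (one_le_pow₀ (PR_one b))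

theorem Chain.Good.Bd_r (hb : 30 ≤ b) (hc : c.Good b) (ha : a < c.ng) :
    Bd 6 (PR b ^ 630) (c.r b a : ℝ → ℝ) :=
  ((DBd2_up hb hc ha.le).sub (DBd2_up hb hc (a := a + 1) ha)).mono
    ((two_mul _).symm.trans_le (PR_mul_le hb (by norm_num) (by norm_num)))

theorem Chain.Good.Bd_expS (hb : 30 ≤ b) (hc : c.Good b) :
    Bd 4 (PR b ^ 445) fun x : ℝ => Real.exp (-c.S b x) := by
  have h1 : ContDiff ℝ (4 : ℕ) (c.S b : ℝ → ℝ) := by
    refine (Bd.of_deriv (c.S_deriv b) (hc.Bd_S1 hb (n := 3) (by norm_num)) fun x => ?_).1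
    obtain ⟨h1, h2⟩ := hc.S_mem hb x
    obtain ⟨h3, h4⟩ := om_le hb
    rw [abs_of_nonneg h1]
    exact (show c.S b x ≤ PR b by linarith).trans (le_self_pow₀ (PR_one b) (by norm_num))
  refine ⟨h1.neg.exp, fun m hm x => (norm_exp_neg_le h1 (hc.S_mem hb x).1 (D := PR b ^ 110)
    (one_le_pow₀ (PR_one b)) (fun i h2 h3 => ?_) hm).trans ?_⟩
  · obtain ⟨j, rfl⟩ : ∃ j, i = j + 1 := ⟨i - 1, by omega⟩
    rw [norm_iter_succ (c.S_deriv b), ← pow_mul]
    exact ((hc.Bd_S1 hb (n := j) (by omega)).2 j le_rfl x).trans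
      (pow_le_pow_right₀ (PR_one b) (by omega))
  · rw [← pow_mul]
    exact PR_mul_le hb (by norm_num [Nat.factorial]) (by norm_num)

theorem Chain.Good.Bd_gt1 (hb : 30 ≤ b) (hc : c.Good b) (ha : a < c.ng) :
    Bd 4 (PR b ^ 1100) (c.gt1 b a) := by
  obtain ⟨h1, h2, -⟩ := hc.mu_sqrt hb ha
  have h0 := PR_pos b
  have h := (((hc.Bd_r hb ha).of_le (m := 4) (by norm_num)).mul (hc.Bd_expS hb)).const_mul
    (1 / √(c.mu b a))
  simp only [one_div_mul_eq_div] at h
  refine h.mono ?_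
  rw [abs_of_pos (one_div_pos.2 h1), mul_assoc, ← pow_add]
  refine (mul_le_mul_of_nonneg_right h2 (by positivity)).trans ?_
  rw [mul_left_comm, ← pow_succ']
  exact PR_mul_le hb (by norm_num) (by norm_num)

theorem Bd_gtz (hb : 30 ≤ b) : Bd 4 (PR b ^ 6450) (gtz b) := by
  obtain ⟨h1, h2⟩ := muz_sqrt hb
  have h0 := PR_pos b
  have hz : (0 : ℝ) < omz b := by rw [omz_eq]; exact pow_pos h0 _
  have hq : ContDiff ℝ (4 : ℕ) fun z : ℝ => (omz b : ℝ) * z ^ 2 / 2 := by fun_prop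
  have e : (fun z : ℝ => (omz b : ℝ) * z ^ 2 / 2) =
      fun t : ℝ => 0 + 0 * t + omz b / 2 * t ^ 2 := funext fun t => by ring
  have h3 : Bd 4 (2 ^ 20 + 2 ^ 20) zt := (DBd2_add (by norm_num) _).sub (DBd2_sub (by norm_num) _)
  have h := (h3.mul_loc (K := Set.Icc (-18) 18) isClosed_Icc
    (fun x hx => (zt_out (not_lt.1 fun h => hx (abs_le.1 h.le))).1) hq.neg.exp
    (B := (Nat.factorial 4 : ℝ) * (PR b ^ 1511) ^ 4) (by positivity) fun x hx m hm =>
      norm_exp_neg_le hq (by positivity) (one_le_pow₀ (PR_one b)) (fun i h4 _ => by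
        rw [e]
        refine (norm_quad_le _ _ _ (R := 18) (by norm_num) (abs_le.2 hx) i).trans
          (le_trans ?_ (le_self_pow₀ (one_le_pow₀ (PR_one b)) (by omega)))
        have h5 := PR_mul_le hb (c := 324) (by norm_num) (show 1510 < 1511 by norm_num)
        rw [← omz_eq] at h5
        rw [abs_zero, abs_of_pos (half_pos hz)]
        linarith) hm).const_mul (1 / √(muz b))
  simp only [one_div_mul_eq_div] at h
  refine h.mono ?_
  rw [abs_of_pos (one_div_pos.2 h1), ← pow_mul, ← mul_assoc _ (Nat.factorial 4 : ℝ)]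
  refine (mul_le_mul_of_nonneg_right h2 (by positivity)).trans ?_
  rw [mul_left_comm, ← pow_add]
  exact PR_mul_le hb (by norm_num [Nat.factorial]) (by norm_num)

end Vale.Agent.P370
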