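import Vale.Agent.P370.DBd2

/-! Part D: derivative bounds in three dimensions.

PLAN.  Three dimensions: `Bd.proj`, `Bd.mul`, `Bd.sum`,
`card_ι`, `card_S`, `eps_le`; the cluster term of `V0` is `≤ 2 ^ 56 P ^ 1470`. -/

namespace Vale.Agent.P370

variable {b : ℕ} {ι S : Type} [Fintype ι] [Fintype S] {L : Lay ι S}

private theorem DBd3_V0 (hb : 30 ≤ b) (hL : L.Good b) :
    Bd 6 (PR b ^ 1473) fun x : E3 => (L.V0 b (x 0) (x 1) : ℝ) := by
  have hP := PR_pos b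
  have hv : ∀ {c : Chain}, c.Good b → Bd 6 (PR b ^ 1470) (c.v b : ℝ → ℝ) := fun hc =>
    hc.Bd_v hb le_rfl
  have hW : ((W0 b : ℚ) : ℝ) = PR b ^ 300 := by rw [W0, Rat.cast_pow, Pq_cast]
  have h1 : ∀ i ∈ Finset.univ, Bd 6 (PR b ^ 1472) fun x : E3 =>
      ((L.cx i).cut b (x 0) * (L.cy i).cut b (x 1) * ((L.cx i).v b (x 0) + (L.cy i).v b (x 1) +
        (W0 b : ℝ) * ((L.cx i).wall b (x 0) + (L.cy i).wall b (x 1)) - 1) : ℝ) := by
    intro i _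
    refine ((((Bd_cut b _).proj 0).mul ((Bd_cut b _).proj 1)).mul
      (((((hv (hL.gx i)).proj 0).add ((hv (hL.gy i)).proj 1)).add
        ((((Bd_wall b _).proj 0).add ((Bd_wall b _).proj 1)).const_mul _)).sub
          (Bd.const 6 1))).mono ?_
    have e1 : 2 ^ 22 * PR b ^ 300 ≤ PR b ^ 1470 := PR_mul_le hb (by norm_num) (by norm_num)
    have e2 : 1 ≤ PR b ^ 1470 := one_le_pow₀ (PR_one b)
    have e3 : 2 ^ 28 * PR b ^ 1470 ≤ PR b ^ 1471 := PR_mul_le hb (by norm_num) (by norm_num)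
    have e4 : 2 ^ 28 * PR b ^ 1471 ≤ PR b ^ 1472 := PR_mul_le hb (by norm_num) (by norm_num)
    rw [hW, abs_of_pos (pow_pos hP _), abs_one]
    generalize PR b ^ 300 = p1 at *
    generalize PR b ^ 1470 = p2 at *
    generalize PR b ^ 1471 = p3 at *
    generalize PR b ^ 1472 = p4 at *
    norm_num at e1 e3 e4 ⊢
    linarith
  refine (Bd.sum Finset.univ h1).mono ?_
  have h2 : ((Finset.univ : Finset ι).card : ℝ) ≤ PR b := by
    rw [← Pq_cast]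
    exact_mod_cast hL.card_ι
  rw [pow_succ' (PR b) 1472]
  exact mul_le_mul_of_nonneg_right h2 (pow_pos hP _).le

private theorem DBd3_Ve (hb : 30 ≤ b) (hL : L.Good b) :
    Bd 6 (PR b ^ 1473) fun x : E3 => (L.Ve b (x 0) (x 1) : ℝ) := by
  have hP := PR_pos b
  have h1 : ∀ σ ∈ Finset.univ, Bd 6 (PR b ^ 1261) fun x : E3 =>
      ((L.eps σ : ℝ) * ((L.cx (L.cl σ)).r b (L.ax σ) (x 0) *
        (L.cy (L.cl σ)).r b (L.ay σ) (x 1)) : ℝ) := by
    intro σ _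
    refine (((((hL.gx _).Bd_r hb (hL.ax_lt σ)).proj 0).mul
      (((hL.gy _).Bd_r hb (hL.ay_lt σ)).proj 1)).const_mul _).mono ?_
    have e0 : (0 : ℝ) ≤ L.eps σ := by exact_mod_cast hL.eps_nonneg σ
    have e1 : (L.eps σ : ℝ) ≤ 1 := by
      have h2 : (L.eps σ : ℝ) ≤ ((1 / Pq b ^ 62900 : ℚ) : ℝ) := Rat.cast_le.2 (hL.eps_le σ)
      rw [Rat.cast_div, Rat.cast_pow, Pq_cast, Rat.cast_one] at h2
      exact h2.trans ((div_le_one (pow_pos hP _)).2 (one_le_pow₀ (PR_one b)))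
    rw [abs_of_nonneg e0, mul_assoc, ← pow_add (PR b)]
    exact (mul_le_of_le_one_left (by positivity) e1).trans
      (PR_mul_le hb (by norm_num) (by norm_num))
  refine (Bd.sum Finset.univ h1).mono ?_
  have h2 : ((Finset.univ : Finset S).card : ℝ) ≤ 2 * PR b := by
    rw [← Pq_cast]
    exact_mod_cast hL.card_S
  refine (mul_le_mul_of_nonneg_right h2 (pow_pos hP _).le).trans ?_
  rw [mul_assoc, ← pow_succ']
  exact PR_mul_le hb (by norm_num) (by norm_num)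

private theorem DBd3_gt (hb : 30 ≤ b) (hL : L.Good b) (σ : S) :
    Bd 4 (PR b ^ 8651) (L.gt3 b σ) := by
  refine (((((hL.gx _).Bd_gt1 hb (hL.ax_lt σ)).proj 0).mul
    (((hL.gy _).Bd_gt1 hb (hL.ay_lt σ)).proj 1)).mul ((Bd_gtz hb).proj 2)).mono ?_
  rw [mul_assoc (2 ^ 4 : ℝ) (PR b ^ 1100), ← pow_add (PR b), ← mul_assoc (2 ^ 4 : ℝ) (2 ^ 4 : ℝ),
    mul_assoc (2 ^ 4 * 2 ^ 4 : ℝ), ← pow_add (PR b)]
  exact PR_mul_le hb (by norm_num) (by norm_num)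

theorem Vloc_bd' (hb : 30 ≤ b) (hL : L.Good b) : Bd 6 (PR b ^ 1500) (L.VlocR b) := by
  refine ((Bd_zeta.proj 2).mul ((DBd3_V0 hb hL).add (DBd3_Ve hb hL))).mono ?_
  rw [← two_mul, ← mul_assoc]
  exact PR_mul_le hb (by norm_num) (by norm_num)

theorem gt_bd4' (hb : 30 ≤ b) (hL : L.Good b) (σ σ' : S) :
    Bd 4 (PR b ^ 18000) fun x => L.gt3 b σ x * L.gt3 b σ' x := by
  refine ((DBd3_gt hb hL σ).mul (DBd3_gt hb hL σ')).mono ?_
  rw [mul_assoc, ← pow_add (PR b)]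
  exact PR_mul_le hb (by norm_num) (by norm_num)

end Vale.Agent.P370
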