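import Vale.Agent.P370.Defs

/-! Part D: `ℝ³` as a product, slices, product functions.

PLAN.  `e3` is the inverse of a measurable equivalence built from `MeasurableEquiv.piFinSuccAbove`
(index `2`), `MeasurableEquiv.finTwoArrow`, `prodComm` (`volume_preserving_piFinSuccAbove`,
`volume_preserving_finTwoArrow`); or use `Measure.pi_eq` on rectangles.  `integral_mul3`:
`integral_prod_mul` twice (no integrability needed).  Slices: chain rule,
`HasFDerivAt.comp_hasDerivAt`, `hasDerivAt_pi`. -/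

namespace Vale.Agent.P370

open MeasureTheory Set

def e3 (p : (ℝ × ℝ) × ℝ) : E3 := ![p.1.1, p.1.2, p.2]

@[simp] theorem e3_zero (p : (ℝ × ℝ) × ℝ) : e3 p 0 = p.1.1 := rfl
@[simp] theorem e3_one (p : (ℝ × ℝ) × ℝ) : e3 p 1 = p.1.2 := rfl
@[simp] theorem e3_two (p : (ℝ × ℝ) × ℝ) : e3 p 2 = p.2 := rfl

theorem e3_cont : Continuous e3 := by
  refine continuous_pi fun i => ?_
  fin_cases i
  · exact continuous_fst.fst
  · exact continuous_fst.snd
  · exact continuous_snd

private theorem DFub_eta (x : E3) : e3 ((x 0, x 1), x 2) = x := by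
  funext i
  fin_cases i <;> rfl

private def DFub_homeo : (ℝ × ℝ) × ℝ ≃ₜ E3 where
  toFun := e3
  invFun x := ((x 0, x 1), x 2)
  left_inv _ := rfl
  right_inv := DFub_eta
  continuous_toFun := e3_cont
  continuous_invFun := by fun_prop

theorem e3_emb : MeasurableEmbedding e3 := by
  exact DFub_homeo.measurableEmbedding

theorem e3_mp : MeasurePreserving e3 volume volume := by
  refine ⟨e3_cont.measurable, ?_⟩
  symm
  refine Measure.pi_eq fun s hs => ?_
  have h1 : e3 ⁻¹' (Set.pi univ s) = (s 0 ×ˢ s 1) ×ˢ s 2 := by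
    ext p
    simp only [mem_preimage, mem_univ_pi, Fin.forall_fin_succ, mem_prod]
    simp [and_assoc]
  rw [Measure.map_apply e3_cont.measurable (MeasurableSet.univ_pi hs), h1, Measure.volume_eq_prod,
    Measure.prod_prod, Measure.volume_eq_prod, Measure.prod_prod, Fin.prod_univ_three]

theorem integral_e3 (f : E3 → ℝ) : ∫ x, f x = ∫ p, f (e3 p) := by
  exact (e3_mp.integral_comp e3_emb f).symm

/-- the column over `O` -/
def Col (O : Set (ℝ × ℝ)) (I : Set ℝ) : Set E3 := {x | (x 0, x 1) ∈ O ∧ x 2 ∈ I}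

theorem Col_meas {O : Set (ℝ × ℝ)} {I : Set ℝ} (hO : MeasurableSet O) (hI : MeasurableSet I) :
    MeasurableSet (Col O I) := by
  exact ((by fun_prop : Measurable fun x : E3 => (x 0, x 1)) hO).inter (measurable_pi_apply 2 hI)

theorem integral_Col (O : Set (ℝ × ℝ)) (I : Set ℝ) (f : E3 → ℝ) :
    ∫ x in Col O I, f x = ∫ p, f (e3 p) ∂(volume.restrict O).prod (volume.restrict I) := by
  rw [Measure.prod_restrict, ← e3_mp.setIntegral_preimage_emb e3_emb]
  rfl

theorem integral_Col_prod (I1 I2 I3 : Set ℝ) (f : E3 → ℝ) :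
    ∫ x in Col (I1 ×ˢ I2) I3, f x =
      ∫ p, f (e3 p) ∂((volume.restrict I1).prod (volume.restrict I2)).prod (volume.restrict I3) := by
  rw [integral_Col, Measure.prod_restrict I1 I2]
  rfl

/-- a pointwise inequality between `z`-integrals integrates over a column -/
theorem Col_mono {O : Set (ℝ × ℝ)} {I : Set ℝ} {f g : E3 → ℝ} (hf : Integrable f)
    (hg : Integrable g) (h : ∀ w, ∫ z in I, f (e3 (w, z)) ≤ ∫ z in I, g (e3 (w, z))) :
    ∫ x in Col O I, f x ≤ ∫ x in Col O I, g x := by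
  have key : ∀ {f : E3 → ℝ}, Integrable f →
      Integrable (fun p => f (e3 p)) ((volume.restrict O).prod (volume.restrict I)) := by
    intro f hf
    rw [Measure.prod_restrict]
    exact (e3_mp.integrable_comp_of_integrable hf).integrableOn
  rw [integral_Col, integral_Col, integral_prod _ (key hf), integral_prod _ (key hg)]
  exact integral_mono (key hf).integral_prod_left (key hg).integral_prod_left h

variable {f g h f' g' h' : ℝ → ℝ} {ψ : E3 → ℝ}

theorem integral_mul3 (f g h : ℝ → ℝ) :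
    ∫ x : E3, f (x 0) * g (x 1) * h (x 2) = (∫ t, f t) * (∫ t, g t) * ∫ t, h t := by
  rw [integral_e3]
  simp only [e3_zero, e3_one, e3_two]
  rw [Measure.volume_eq_prod, integral_prod_mul (fun w : ℝ × ℝ => f w.1 * g w.2) h,
    Measure.volume_eq_prod, integral_prod_mul]

theorem integrable_mul3 (hf : Integrable f) (hg : Integrable g) (hh : Integrable h) :
    Integrable fun x : E3 => f (x 0) * g (x 1) * h (x 2) := by
  refine (e3_mp.integrable_comp_emb e3_emb).1 ?_
  exact (hf.mul_prod hg).mul_prod hh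

private theorem DFub_slice {x : E3} (hψ : DifferentiableAt ℝ ψ x) (k : Fin 3) :
    HasDerivAt (fun t => ψ (Function.update x k t)) (grad ψ x k) (x k) := by
  have h1 : HasFDerivAt ψ (fderiv ℝ ψ x) (Function.update x k (x k)) := by
    rw [Function.update_eq_self]
    exact hψ.hasFDerivAt
  exact h1.comp_hasDerivAt (x k) (hasDerivAt_update x k (x k))

theorem slice0 (hψ : ContDiff ℝ 1 ψ) (x y z : ℝ) :
    HasDerivAt (fun t => ψ (e3 ((t, y), z))) (grad ψ (e3 ((x, y), z)) 0) x := by
  have h1 := DFub_slice (x := e3 ((x, y), z)) (hψ.differentiable one_ne_zero _) 0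
  have h2 : ∀ t, Function.update (e3 ((x, y), z)) 0 t = e3 ((t, y), z) := fun t => by
    funext i
    fin_cases i <;> rfl
  simpa only [h2, e3_zero] using h1

theorem slice1 (hψ : ContDiff ℝ 1 ψ) (x y z : ℝ) :
    HasDerivAt (fun t => ψ (e3 ((x, t), z))) (grad ψ (e3 ((x, y), z)) 1) y := by
  have h1 := DFub_slice (x := e3 ((x, y), z)) (hψ.differentiable one_ne_zero _) 1
  have h2 : ∀ t, Function.update (e3 ((x, y), z)) 1 t = e3 ((x, t), z) := fun t => by
    funext i
    fin_cases i <;> rfl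
  simpa only [h2, e3_one] using h1

theorem slice2 (hψ : ContDiff ℝ 1 ψ) (w : ℝ × ℝ) (z : ℝ) :
    HasDerivAt (fun t => ψ (e3 (w, t))) (grad ψ (e3 (w, z)) 2) z := by
  have h1 := DFub_slice (x := e3 (w, z)) (hψ.differentiable one_ne_zero _) 2
  have h2 : ∀ t, Function.update (e3 (w, z)) 2 t = e3 (w, t) := fun t => by
    funext i
    fin_cases i <;> rfl
  simpa only [h2, e3_two] using h1

theorem grad_cont (hψ : ContDiff ℝ 1 ψ) (k : Fin 3) : Continuous fun x => grad ψ x k := by
  exact (hψ.continuous_fderiv one_ne_zero).clm_apply continuous_const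

theorem Test1.bdd (hψ : Test1 ψ) : ∃ C, ∀ x, |ψ x| ≤ C ∧ ∀ k, |grad ψ x k| ≤ C := by
  obtain ⟨M, hM⟩ := hψ.1.continuous.bounded_above_of_compact_support hψ.2
  have h1 : ∀ k, ∃ C, ∀ x, ‖grad ψ x k‖ ≤ C := fun k =>
    (grad_cont hψ.1 k).bounded_above_of_compact_support (hψ.2.fderiv_apply (𝕜 := ℝ) _)
  choose C hC using h1
  refine ⟨max M (max (C 0) (max (C 1) (C 2))), fun x => ⟨(hM x).trans (le_max_left _ _), fun k => ?_⟩⟩
  refine (hC k x).trans ?_
  fin_cases k <;> simp

theorem Test1.int_sq {V : E3 → ℝ} (hψ : Test1 ψ) (hV : Continuous V) :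
    Integrable fun x => V x * ψ x ^ 2 := by
  have h1 : Continuous fun x => V x * ψ x ^ 2 := hV.mul (hψ.1.continuous.pow 2)
  refine h1.integrable_of_hasCompactSupport (hψ.2.mono fun x hx h0 => hx ?_)
  simp only [h0, ne_eq, OfNat.ofNat_ne_zero, not_false_eq_true, zero_pow, mul_zero]

theorem Test1.int_grad (hψ : Test1 ψ) (k : Fin 3) : Integrable fun x => grad ψ x k ^ 2 := by
  have h1 : Continuous fun x => grad ψ x k ^ 2 := (grad_cont hψ.1 k).pow 2
  have h2 : HasCompactSupport fun x => grad ψ x k := hψ.2.fderiv_apply (𝕜 := ℝ) _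
  refine h1.integrable_of_hasCompactSupport (h2.mono fun x hx h0 => hx ?_)
  have h3 : grad ψ x k = 0 := h0
  simp only [h3, ne_eq, OfNat.ofNat_ne_zero, not_false_eq_true, zero_pow]

theorem grad_mul3 (hf : ∀ x, HasDerivAt f (f' x) x) (hg : ∀ x, HasDerivAt g (g' x) x)
    (hh : ∀ x, HasDerivAt h (h' x) x) (x : E3) :
    grad (fun x => f (x 0) * g (x 1) * h (x 2)) x 0 = f' (x 0) * g (x 1) * h (x 2) ∧
    grad (fun x => f (x 0) * g (x 1) * h (x 2)) x 1 = f (x 0) * g' (x 1) * h (x 2) ∧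
    grad (fun x => f (x 0) * g (x 1) * h (x 2)) x 2 = f (x 0) * g (x 1) * h' (x 2) := by
  have hd : DifferentiableAt ℝ (fun x : E3 => f (x 0) * g (x 1) * h (x 2)) x :=
    (((hf _).differentiableAt.comp x (differentiableAt_apply 0 x)).mul
      ((hg _).differentiableAt.comp x (differentiableAt_apply 1 x))).mul
      ((hh _).differentiableAt.comp x (differentiableAt_apply 2 x))
  refine ⟨(DFub_slice hd 0).unique ?_, (DFub_slice hd 1).unique ?_, (DFub_slice hd 2).unique ?_⟩
  · exact ((hf (x 0)).mul_const (g (x 1))).mul_const (h (x 2))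
  · exact ((hg (x 1)).const_mul (f (x 0))).mul_const (h (x 2))
  · exact (hh (x 2)).const_mul (f (x 0) * g (x 1))

theorem test1_mul3 (hf : ContDiff ℝ 1 f) (hg : ContDiff ℝ 1 g) (hh : ContDiff ℝ 1 h) {R : ℝ}
    (h0 : ∀ t, R < |t| → f t = 0 ∧ g t = 0 ∧ h t = 0) :
    Test1 fun x => f (x 0) * g (x 1) * h (x 2) := by
  refine ⟨((hf.comp (contDiff_apply ℝ ℝ 0)).mul (hg.comp (contDiff_apply ℝ ℝ 1))).mul
    (hh.comp (contDiff_apply ℝ ℝ 2)), ?_⟩
  refine HasCompactSupport.intro (isCompact_closedBall (0 : E3) |R|) fun x hx => ?_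
  rw [mem_closedBall_zero_iff, pi_norm_le_iff_of_nonneg (abs_nonneg _)] at hx
  push Not at hx
  obtain ⟨k, hk⟩ := hx
  have h1 := h0 (x k) ((le_abs_self R).trans_lt hk)
  fin_cases k
  · have : f (x 0) = 0 := h1.1
    rw [this, zero_mul, zero_mul]
  · have : g (x 1) = 0 := h1.2.1
    rw [this, mul_zero, zero_mul]
  · have : h (x 2) = 0 := h1.2.2
    rw [this, mul_zero]

end Vale.Agent.P370
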