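import Vale.Agent.P370.DGeo
import Vale.Agent.P370.DDefs
import Vale.Agent.P370.DTenA

/-! Part D: the matrix `T0`.

PLAN.  `ng ∈ {1, 2, 3}`: `lap_qf`, `lap_row` by cases on `ng` (`interval_cases`, `Finset.sum_range_succ`,
`simp [Chain.lap]`, `tau_bd`).  `sum_sites`: `Finset.sum_sigma'` and `Finset.sum_bij` / `sum_nbij` with
`inj`, `surj`, `ax_lt`, `ay_lt`.  `qf_T0`: `T0 σ σ'` is a function of `(cl, ax, ay)` of both sites; apply
`sum_sites` twice, `Finset.sum_ite_eq`.  `T0_psd'`: for arbitrary `u` put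
`C i p = ∑ σ, if cl σ = i ∧ (ax σ, ay σ) = p then u σ else 0`, so that `C (cl σ) (ax σ, ay σ) = u σ`;
`PSD.ten`.  Upper bound: `u σ * T * u σ' ≤ |T| * (u σ ^ 2 + u σ' ^ 2) / 2`, `T0_row'`, `T0_symm'`. -/

namespace Vale.Agent.P370

open Finset

variable {b : ℕ} {c : Chain}

theorem lap_symm (b : ℕ) (c : Chain) (a a' : ℕ) : c.lap b a a' = c.lap b a' a := by
  unfold Chain.lap
  by_cases h : a = a'
  · rw [h]
  · rw [if_neg h, if_neg (Ne.symm h)]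
    split_ifs <;> first | rfl | omega

theorem Chain.Good.lap_qf (hc : c.Good b) (u : ℕ → ℝ) :
    ∑ a ∈ range c.ng, ∑ a' ∈ range c.ng, u a * c.lapR b a a' * u a' =
      ∑ a ∈ range (c.ng - 1), (c.tau b a : ℝ) * (u a - u (a + 1)) ^ 2 := by
  have h1 := hc.ng_pos
  have h3 := hc.ng_le
  obtain ⟨n, hn⟩ : ∃ n, c.ng = n := ⟨_, rfl⟩
  simp only [Chain.lapR, Chain.lap, hn] at h1 h3 ⊢
  interval_cases n <;> simp [sum_range_succ] <;> ring

theorem Chain.Good.lap_psd (hb : 30 ≤ b) (hc : c.Good b) : PSD (range c.ng) (c.lapR b) := by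
  intro u
  rw [hc.lap_qf u]
  exact sum_nonneg fun a ha => mul_nonneg
    (hc.tau_bd hb (by have := mem_range.1 ha; omega)).1.le (sq_nonneg _)

theorem Chain.Good.lap_row (hb : 30 ≤ b) (hc : c.Good b) {a : ℕ} (ha : a < c.ng) :
    ∑ a' ∈ range c.ng, |c.lapR b a a'| ≤ 4 / PR b ^ 62914 := by
  have h1 := hc.ng_pos
  have h3 := hc.ng_le
  have h0 : 0 < 1 / PR b ^ 62914 := one_div_pos.2 (pow_pos (PR_pos b) _)
  have t : ∀ a, a + 1 < c.ng → 0 < (c.tau b a : ℝ) ∧ (c.tau b a : ℝ) ≤ 1 / PR b ^ 62914 :=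
    fun a ha => ⟨(hc.tau_bd hb ha).1, (hc.tau_bd hb ha).2.1⟩
  have t0 := t 0
  have t1 := t 1
  rw [div_eq_mul_one_div 4]
  generalize 1 / PR b ^ 62914 = x at *
  obtain ⟨n, hn⟩ : ∃ n, c.ng = n := ⟨_, rfl⟩
  simp only [Chain.lapR, Chain.lap, hn] at h1 h3 ha t0 t1 ⊢
  interval_cases n
  · interval_cases a
    simp [h0.le]
  · have s0 := t0 (by norm_num)
    interval_cases a <;> simp [sum_range_succ, abs_of_pos s0.1] <;> linarith [s0.2]
  · have s0 := t0 (by norm_num)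
    have s1 := t1 (by norm_num)
    interval_cases a <;>
      simp [sum_range_succ, abs_of_pos s0.1, abs_of_pos s1.1, abs_of_pos (add_pos s0.1 s1.1)] <;>
      linarith [s0.2, s1.2]

theorem Chain.Good.lap_abs (hb : 30 ≤ b) (hc : c.Good b) {a a' : ℕ} (ha : a < c.ng)
    (ha' : a' < c.ng) : |c.lapR b a a'| ≤ 4 / PR b ^ 62914 := by
  exact (single_le_sum (f := fun a' => |c.lapR b a a'|) (fun _ _ => abs_nonneg _)
    (mem_range.2 ha')).trans (hc.lap_row hb ha)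

variable {ι S : Type} [Fintype ι] [Fintype S] [DecidableEq ι] {L : Lay ι S}

/-- the sites of cluster `i` -/
def Lay.st (L : Lay ι S) (i : ι) : Finset (ℕ × ℕ) := range (L.cx i).ng ×ˢ range (L.cy i).ng

theorem sum_sites (hL : L.Good b) (F : ι → ℕ × ℕ → ℝ) :
    ∑ σ, F (L.cl σ) (L.ax σ, L.ay σ) = ∑ i, ∑ p ∈ L.st i, F i p := by
  rw [sum_sigma']
  refine sum_bij (fun σ _ => (⟨L.cl σ, (L.ax σ, L.ay σ)⟩ : Σ _ : ι, ℕ × ℕ)) (fun σ _ => ?_)
    (fun σ _ σ' _ h => ?_) (fun p hp => ?_) fun _ _ => rfl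
  · simp [Lay.st, hL.ax_lt σ, hL.ay_lt σ]
  · simp only [Sigma.mk.injEq, heq_eq_eq, Prod.mk.injEq] at h
    exact hL.inj _ _ h.1 h.2.1 h.2.2
  · obtain ⟨i, a, a'⟩ := p
    simp only [mem_sigma, mem_univ, true_and, Lay.st, mem_product, mem_range] at hp
    obtain ⟨σ, rfl, rfl, rfl⟩ := hL.surj i a a' hp.1 hp.2
    exact ⟨σ, mem_univ _, rfl⟩

theorem T0_same {σ σ' : S} (h : L.cl σ = L.cl σ') : (L.T0 b σ σ' : ℝ) =
    ten ((L.cx (L.cl σ)).lapR b) ((L.cy (L.cl σ)).lapR b) (L.ax σ, L.ay σ) (L.ax σ', L.ay σ') := by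
  rw [Lay.T0, if_pos h, ten]
  simp only [Chain.lapR]
  split_ifs <;> simp

theorem DSite_T0 (σ σ' : S) : (L.T0 b σ σ' : ℝ) = if L.cl σ = L.cl σ' then
    ten ((L.cx (L.cl σ)).lapR b) ((L.cy (L.cl σ)).lapR b) (L.ax σ, L.ay σ) (L.ax σ', L.ay σ')
    else 0 := by
  split_ifs with h
  · exact T0_same h
  · rw [Lay.T0, if_neg h, Rat.cast_zero]

theorem qf_T0 (hL : L.Good b) (C : ι → ℕ × ℕ → ℝ) :
    qf (fun σ σ' => (L.T0 b σ σ' : ℝ)) (fun σ => C (L.cl σ) (L.ax σ, L.ay σ)) =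
      ∑ i, ∑ p ∈ L.st i, ∑ q ∈ L.st i,
        C i p * ten ((L.cx i).lapR b) ((L.cy i).lapR b) p q * C i q := by
  rw [qf, ← sum_sites hL fun i p => ∑ q ∈ L.st i,
    C i p * ten ((L.cx i).lapR b) ((L.cy i).lapR b) p q * C i q]
  refine sum_congr rfl fun σ _ => ?_
  simp only [DSite_T0]
  rw [sum_sites hL fun i q => C (L.cl σ) (L.ax σ, L.ay σ) * (if L.cl σ = i then
    ten ((L.cx (L.cl σ)).lapR b) ((L.cy (L.cl σ)).lapR b) (L.ax σ, L.ay σ) q else 0) * C i q,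
    sum_eq_single (L.cl σ)]
  · simp only [if_true]
  · intro i _ hi
    simp [hi.symm]
  · simp

theorem T0_symm' (b : ℕ) (L : Lay ι S) (σ σ' : S) : L.T0 b σ σ' = L.T0 b σ' σ := by
  unfold Lay.T0
  by_cases h : L.cl σ = L.cl σ'
  · rw [if_pos h, if_pos h.symm, ← h, lap_symm b _ (L.ax σ), lap_symm b _ (L.ay σ)]
    simp only [eq_comm]
  · rw [if_neg h, if_neg (Ne.symm h)]

theorem T0_row' (hb : 30 ≤ b) (hL : L.Good b) (σ : S) :
    ∑ σ', |(L.T0 b σ σ' : ℝ)| ≤ 8 / PR b ^ 62914 := by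
  simp only [DSite_T0]
  rw [sum_sites hL fun i q => |if L.cl σ = i then
    ten ((L.cx (L.cl σ)).lapR b) ((L.cy (L.cl σ)).lapR b) (L.ax σ, L.ay σ) q else 0|,
    sum_eq_single (L.cl σ)]
  · have h1 := (hL.gx _).lap_row hb (hL.ax_lt σ)
    have h2 := (hL.gy _).lap_row hb (hL.ay_lt σ)
    have h3 : ∀ q ∈ L.st (L.cl σ), |if L.cl σ = L.cl σ then
        ten ((L.cx (L.cl σ)).lapR b) ((L.cy (L.cl σ)).lapR b) (L.ax σ, L.ay σ) q else 0| ≤
        (if L.ay σ = q.2 then |(L.cx (L.cl σ)).lapR b (L.ax σ) q.1| else 0) +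
          if L.ax σ = q.1 then |(L.cy (L.cl σ)).lapR b (L.ay σ) q.2| else 0 := by
      intro q _
      rw [if_pos rfl, ten]
      refine (abs_add_le _ _).trans (le_of_eq ?_)
      simp only [apply_ite abs, abs_zero]
    refine (sum_le_sum h3).trans ?_
    rw [sum_add_distrib, Lay.st, sum_product, sum_product_right]
    simp only [sum_ite_eq, mem_range, hL.ax_lt σ, hL.ay_lt σ, if_true]
    rw [show (8 : ℝ) = 4 + 4 by norm_num, add_div]
    exact add_le_add h1 h2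
  · intro i _ hi
    simp [hi.symm]
  · simp

theorem T0_psd' (hb : 30 ≤ b) (hL : L.Good b) (u : S → ℝ) :
    0 ≤ qf (fun σ σ' => (L.T0 b σ σ' : ℝ)) u ∧
      qf (fun σ σ' => (L.T0 b σ σ' : ℝ)) u ≤ 8 / PR b ^ 62914 * ∑ a, u a ^ 2 := by
  constructor
  · obtain ⟨C, hC⟩ : ∃ C : ι → ℕ × ℕ → ℝ, u = fun σ => C (L.cl σ) (L.ax σ, L.ay σ) := by
      refine ⟨fun i p => ∑ τ, if L.cl τ = i ∧ (L.ax τ, L.ay τ) = p then u τ else 0, ?_⟩
      funext σ
      beta_reduce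
      rw [sum_eq_single σ]
      · simp
      · intro τ _ h
        refine if_neg fun h' => h ?_
        rw [Prod.mk.injEq] at h'
        exact hL.inj _ _ h'.1 h'.2.1 h'.2.2
      · simp
    rw [hC, qf_T0 hL]
    exact sum_nonneg fun i _ => ((hL.gx i).lap_psd hb).ten ((hL.gy i).lap_psd hb) _
  · have h1 : ∀ σ σ', u σ * (L.T0 b σ σ' : ℝ) * u σ' ≤
        |(L.T0 b σ σ' : ℝ)| * u σ ^ 2 / 2 + |(L.T0 b σ' σ : ℝ)| * u σ' ^ 2 / 2 := by
      intro σ σ'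
      rw [T0_symm' b L σ' σ]
      generalize (L.T0 b σ σ' : ℝ) = x
      rcases abs_cases x with c | c <;> rw [c.1] <;>
        nlinarith [sq_nonneg (u σ - u σ'), sq_nonneg (u σ + u σ'), c.2]
    have h2 : ∑ σ, ∑ σ', |(L.T0 b σ σ' : ℝ)| * u σ ^ 2 / 2 ≤
        8 / PR b ^ 62914 * (∑ a, u a ^ 2) / 2 := by
      rw [mul_sum, sum_div]
      refine sum_le_sum fun σ _ => ?_
      rw [← sum_div, ← sum_mul]
      exact div_le_div_of_nonneg_right
        (mul_le_mul_of_nonneg_right (T0_row' hb hL σ) (sq_nonneg _)) (by norm_num)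
    refine (sum_le_sum fun σ _ => sum_le_sum fun σ' _ => h1 σ σ').trans ?_
    simp only [sum_add_distrib]
    rw [sum_comm (f := fun σ σ' => |(L.T0 b σ' σ : ℝ)| * u σ' ^ 2 / 2)]
    linarith

end Vale.Agent.P370
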