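import Vale.Agent.P370.DLowA
import Vale.Agent.P370.DSite

/-! Part D: lower bound for a chain.

PLAN.  `E = En lo hi`, `N = ∫ ψ ^ 2 ≥ ∑ co ^ 2` (`cell_le`, `n2_cells`), `Π = P ^ 2867`, `δ = 2 / P ^ 900`,
`e = 1 / P ^ 131`, `t = 1 / P ^ 62914`, `m = K / (√2 lamb)`.  `N - ∑ co ^ 2 ≤ Π E` (`En_cells`).
For the link `a` with end values `ψl`, `ψr` (dots `a K + (K - 1)` and `(a + 1) K + 0`) put
`A = co a - √(mu a) ψl`, `B = co (a + 1) - √(mu (a + 1)) ψr`; `A ^ 2, B ^ 2 ≤ Π E`;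
`co a - co (a + 1) = √m (ψl - ψr) + err`, `|err| ≤ 2 |A| + 2 |B| + δ |co a| + δ |co (a + 1)|` (`mu_sqrt`),
`err ^ 2 ≤ 32 Π E + 4 δ ^ 2 N`, `(x + y) ^ 2 ≤ (1 + e) x ^ 2 + (1 + 1 / e) y ^ 2`.  With `link_bd`, `En_links`
(at most two links) `Q = ∑ tau (co a - co (a + 1)) ^ 2 ≤ (1 + 2 e) / 2 * E + 16 t δ ^ 2 / e * N`, and
`Q ≤ 4 t N`.  `Q = (1 - 3 e) Q + 3 e Q ≤ (1 - e) / 2 * E + P ^ (-63043) N`, and `Γ Π ≤ e / 2`.
State the real-number steps as lemmas over abstract reals.  `lap_qf`, `form_eq`. -/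

namespace Vale.Agent.P370

open MeasureTheory Finset

variable {b : ℕ} {c : Chain} {ψ ψ' : ℝ → ℝ}

theorem DLowB_key {sm s c l δ X N : ℝ} (hδ : δ ≤ 1) (hδ0 : 0 ≤ δ) (k1 : |sm - s| ≤ δ * s)
    (k2 : (c - s * l) ^ 2 ≤ X) (k3 : c ^ 2 ≤ N) : ((s - sm) * l) ^ 2 ≤ 2 * X + 2 * (δ ^ 2 * N) := by
  have hX : 0 ≤ X := (sq_nonneg _).trans k2
  have hδ2 : δ ^ 2 ≤ 1 := pow_le_one₀ hδ0 hδ
  have k4 : (sm - s) ^ 2 ≤ (δ * s) ^ 2 := sq_le_sq' (abs_le.1 k1).1 (abs_le.1 k1).2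
  have k5 : (s * l) ^ 2 ≤ 2 * X + 2 * N := by
    generalize s * l = y at k2
    linarith [sq_nonneg (c - y + c)]
  have k6 := mul_le_mul_of_nonneg_right k4 (sq_nonneg l)
  have k7 := mul_le_mul_of_nonneg_left k5 (sq_nonneg δ)
  have k8 := mul_le_mul_of_nonneg_right hδ2 hX
  linarith

theorem DLowB_sq {e : ℝ} (he : 0 < e) (he1 : e ≤ 1) (x y : ℝ) :
    (x + y) ^ 2 ≤ (1 + e) * x ^ 2 + 2 / e * y ^ 2 := by
  have k2 : e * x ^ 2 + 1 / e * y ^ 2 - 2 * x * y = (e * x - y) ^ 2 / e := by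
    field_simp
    ring
  have k3 : 0 ≤ (e * x - y) ^ 2 / e := by positivity
  have k5 := mul_le_mul_of_nonneg_right (one_le_one_div he he1) (sq_nonneg y)
  have k6 : 2 / e * y ^ 2 = 1 / e * y ^ 2 + 1 / e * y ^ 2 := by ring
  rw [k6]
  generalize 1 / e * y ^ 2 = u at k2 k5
  linarith

theorem DLowB_link {τ t sm s1 s2 c1 c2 l r e δ X N L : ℝ} (hτ : 0 ≤ τ) (ht : τ ≤ t) (he : 0 < e)
    (he1 : e ≤ 1) (hδ : δ ≤ 1) (hδ0 : 0 ≤ δ) (h1 : |sm - s1| ≤ δ * s1) (h2 : |sm - s2| ≤ δ * s2)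
    (hA : (c1 - s1 * l) ^ 2 ≤ X) (hB : (c2 - s2 * r) ^ 2 ≤ X) (hN1 : c1 ^ 2 ≤ N)
    (hN2 : c2 ^ 2 ≤ N) (hL : τ * sm ^ 2 * (r - l) ^ 2 ≤ L) :
    τ * (c1 - c2) ^ 2 ≤ (1 + e) * L + t * (2 / e) * (24 * X + 16 * δ ^ 2 * N) := by
  have d1 := DLowB_key hδ hδ0 h1 hA hN1
  have d2 := DLowB_key hδ hδ0 h2 hB hN2
  have e0 : c1 - c2 = sm * (l - r) +
      ((c1 - s1 * l) - (c2 - s2 * r) + (s1 - sm) * l - (s2 - sm) * r) := by ring
  have e1 : τ * sm ^ 2 * (r - l) ^ 2 = τ * (sm * (l - r)) ^ 2 := by ring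
  rw [e0, mul_assoc 16]
  rw [e1] at hL
  generalize c1 - s1 * l = A at hA
  generalize c2 - s2 * r = B at hB
  generalize (s1 - sm) * l = D1 at d1
  generalize (s2 - sm) * r = D2 at d2
  generalize δ ^ 2 * N = M at d1 d2
  generalize sm * (l - r) = x at hL
  have hy : (A - B + D1 - D2) ^ 2 ≤ 24 * X + 16 * M := by
    linarith [sq_nonneg (A + B), sq_nonneg (A - D1), sq_nonneg (A + D2), sq_nonneg (B + D1),
      sq_nonneg (B - D2), sq_nonneg (D1 + D2)]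
  generalize A - B + D1 - D2 = y at hy
  have k1 := mul_le_mul_of_nonneg_left (DLowB_sq he he1 x y) hτ
  have k2 := mul_le_mul_of_nonneg_left hL (show 0 ≤ 1 + e by positivity)
  have k3 : τ * (2 / e * y ^ 2) ≤ t * (2 / e) * (24 * X + 16 * M) := by
    rw [mul_assoc]
    exact mul_le_mul ht (mul_le_mul_of_nonneg_left hy (by positivity)) (by positivity)
      (hτ.trans ht)
  rw [mul_add] at k1
  linarith

theorem DLowB_fin {E N e ε t δ Y Γ η k El D Q : ℝ} (hE : 0 ≤ E) (hN : 0 ≤ N) (he : 0 < e)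
    (he1 : 4 * e ≤ 1) (hε : 0 ≤ ε) (ht : 0 ≤ t) (hY : 0 ≤ Y) (hΓ : 0 ≤ Γ) (hk : k ≤ 2)
    (hEl : El ≤ E) (hD : D ≤ Y * E)
    (h1 : Q ≤ (1 + e) * ((1 + ε) / 2 * El) + k * (t * (2 / e) * (24 * (Y * E) + 16 * δ ^ 2 * N)))
    (h2 : Q ≤ k * (t * (4 * N))) (n1 : 4 * ε ≤ e) (n2 : 768 * t * Y / e ≤ e)
    (n3 : 2 * (Γ * Y) ≤ e) (n4 : 64 * t * δ ^ 2 / e + 24 * e * t ≤ η) :
    Q - η * N + Γ * D ≤ E / 2 := by
  have k1 : (1 + e) * ((1 + ε) / 2 * El) ≤ (1 + e) * ((1 + ε) / 2 * E) := by gcongr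
  have k2 : k * (t * (2 / e) * (24 * (Y * E) + 16 * δ ^ 2 * N)) ≤
      768 * t * Y / e / 8 * E + 64 * t * δ ^ 2 / e * N := by
    refine (mul_le_mul_of_nonneg_right hk (by positivity)).trans (le_of_eq ?_)
    ring
  have k3 : k * (t * (4 * N)) ≤ 2 * (t * (4 * N)) := mul_le_mul_of_nonneg_right hk (by positivity)
  have k4 := mul_le_mul_of_nonneg_right n2 hE
  have k5 := mul_le_mul_of_nonneg_right n4 hN
  have k6 := mul_le_mul_of_nonneg_right n3 hE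
  have k7 := mul_le_mul_of_nonneg_left hD hΓ
  have hκ : 0 ≤ 64 * t * δ ^ 2 / e * N := by positivity
  generalize 768 * t * Y / e = u at k2 k4
  generalize 64 * t * δ ^ 2 / e = κ at k2 k5 hκ
  have k8 : (1 + e) * ((1 + ε) / 2) ≤ (1 + 3 / 2 * e) / 2 := by nlinarith
  have k9 := mul_le_mul_of_nonneg_right k8 hE
  have q1 : Q ≤ (1 + 2 * e) / 2 * E + κ * N := by nlinarith [mul_nonneg he.le hE]
  have q2 := mul_le_mul_of_nonneg_left q1 (show 0 ≤ 1 - 3 * e by linarith)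
  have q3 := mul_le_mul_of_nonneg_left (h2.trans k3) (show 0 ≤ 3 * e by linarith)
  nlinarith [mul_nonneg he.le hκ, mul_nonneg (sq_nonneg e) hE]

theorem Chain.Good.chain_low (hb : 30 ≤ b) (hc : c.Good b) (hψ : ∀ x, HasDerivAt ψ (ψ' x) x)
    (hψ' : Continuous ψ') :
    SL (volume.restrict (c.I b)) (range c.ng) (c.g1 b) (c.lapR b) (1 / PR b ^ 63043)
      (1 / PR b ^ 3012) ψ fun x => ψ' x ^ 2 / 2 + c.v b x * ψ x ^ 2 := by
  have hP := PR_pos b
  have hψc : Continuous ψ := continuous_iff_continuousAt.2 fun x => (hψ x).continuousAt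
  have hK : c.K - 1 < c.K := Nat.sub_lt hc.K_pos one_pos
  have hcell : ∀ a < c.ng, 0 ≤ c.En b ψ ψ' (c.mb b a) (c.mb b (a + 1)) := fun a ha =>
    En_nonneg b c ψ ψ' (hc.cell_len hb ha).1.le
  have hEc := hc.En_cells hψc hψ'
  have hNc := hc.n2_cells hb hψc
  have hEl := hc.En_links hb hψc hψ'
  unfold SL
  rw [hc.lap_qf, hc.form_eq hb hψ hψ']
  change ∑ a ∈ range (c.ng - 1), (c.tau b a : ℝ) * (c.co b ψ a - c.co b ψ (a + 1)) ^ 2 -
    1 / PR b ^ 63043 * (∫ x in c.I b, ψ x ^ 2) + 1 / PR b ^ 3012 *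
      ((∫ x in c.I b, ψ x ^ 2) - ∑ a ∈ range c.ng, c.co b ψ a ^ 2) ≤ _
  generalize c.En b ψ ψ' (c.lo b) (c.hi b) = E at hEc hEl ⊢
  generalize ∫ x in c.I b, ψ x ^ 2 = N at hNc ⊢
  have hE : 0 ≤ E := hEc ▸ sum_nonneg fun a ha => hcell a (mem_range.1 ha)
  have hcE : ∀ a < c.ng, c.En b ψ ψ' (c.mb b a) (c.mb b (a + 1)) ≤ E := fun a ha =>
    hEc ▸ single_le_sum (f := fun a => c.En b ψ ψ' (c.mb b a) (c.mb b (a + 1)))
      (fun a ha => hcell a (mem_range.1 ha)) (mem_range.2 ha)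
  have hS : ∑ a ∈ range c.ng, c.co b ψ a ^ 2 ≤ N :=
    hNc ▸ sum_le_sum fun a ha => (hc.cell_le hb hψ hψ' (mem_range.1 ha) hK).1
  have hcN : ∀ a < c.ng, c.co b ψ a ^ 2 ≤ N := fun a ha =>
    (single_le_sum (f := fun a => c.co b ψ a ^ 2) (fun a _ => sq_nonneg _)
      (mem_range.2 ha)).trans hS
  have hN : 0 ≤ N := (sq_nonneg _).trans (hcN 0 hc.ng_pos)
  have hD : N - ∑ a ∈ range c.ng, c.co b ψ a ^ 2 ≤ PR b ^ 2867 * E := by
    rw [← hNc, ← hEc, ← sum_sub_distrib, mul_sum]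
    refine sum_le_sum fun a ha => ?_
    have := (hc.cell_le hb hψ hψ' (mem_range.1 ha) hK).2
    exact le_trans (le_add_of_nonneg_right (sq_nonneg _)) this
  have hX : ∀ a < c.ng, ∀ j < c.K, (c.co b ψ a - √(c.mu b a) * ψ (c.pos (a * c.K + j))) ^ 2 ≤
      PR b ^ 2867 * E := fun a ha j hj => by
    obtain ⟨k1, k2⟩ := hc.cell_le hb hψ hψ' ha hj
    have k3 := mul_le_mul_of_nonneg_left (hcE a ha) (pow_pos hP 2867).le
    linarith
  have he : (0 : ℝ) < 1 / PR b ^ 131 := by positivity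
  have he1 : 4 * (1 / PR b ^ 131) ≤ 1 := by
    have := PR_inv_le hb (c := 4) (by norm_num) (show 0 < 131 by norm_num)
    rwa [pow_zero, div_one, div_eq_mul_one_div] at this
  have hδ1 : 2 / PR b ^ 900 ≤ 1 := by
    have := PR_inv_le hb (c := 2) (by norm_num) (show 0 < 900 by norm_num)
    rwa [pow_zero, div_one] at this
  have hcard : ((c.ng - 1 : ℕ) : ℝ) ≤ 2 := by
    have := hc.ng_le
    exact_mod_cast (by omega : c.ng - 1 ≤ 2)
  have hm : (0 : ℝ) ≤ c.K / (√2 * lamb b) := by positivity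
  have hQ1 := sum_le_sum (s := range (c.ng - 1)) fun a ha => by
    have ha' : a + 1 < c.ng := by
      have := mem_range.1 ha
      omega
    have k1 := hX a (by omega) _ hK
    have k2 := hX (a + 1) ha' 0 hc.K_pos
    rw [show a * c.K + (c.K - 1) = (a + 1) * c.K - 1 by
      have := hc.K_pos
      rw [add_mul, one_mul]
      omega] at k1
    rw [add_zero] at k2
    have k3 := hc.link_bd hb hψ hψ' ha'
    rw [← Real.sq_sqrt hm] at k3
    exact DLowB_link (hc.tau_bd hb ha').1.le (hc.tau_bd hb ha').2.1 he (by linarith)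
      hδ1 (by positivity) (hc.mu_sqrt hb (by omega)).2.2 (hc.mu_sqrt hb ha').2.2 k1 k2
      (hcN a (by omega)) (hcN (a + 1) ha') k3
  rw [sum_add_distrib, ← mul_sum, ← mul_sum, sum_const, card_range, nsmul_eq_mul] at hQ1
  have hQ2 := sum_le_sum (s := range (c.ng - 1))
    (f := fun a => (c.tau b a : ℝ) * (c.co b ψ a - c.co b ψ (a + 1)) ^ 2)
    (g := fun _ => 1 / PR b ^ 62914 * (4 * N)) fun a ha => by
    have ha' : a + 1 < c.ng := by
      have := mem_range.1 ha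
      omega
    refine mul_le_mul (hc.tau_bd hb ha').2.1 ?_ (sq_nonneg _) (by positivity)
    have k1 := hcN a (by omega)
    have k2 := hcN (a + 1) ha'
    nlinarith [sq_nonneg (c.co b ψ a + c.co b ψ (a + 1))]
  rw [sum_const, card_range, nsmul_eq_mul] at hQ2
  refine DLowB_fin (e := 1 / PR b ^ 131) (ε := 1 / PR b ^ 900) (t := 1 / PR b ^ 62914)
    (δ := 2 / PR b ^ 900) hE hN he he1 (by positivity) (by positivity) (by positivity)
    (by positivity) hcard hEl hD hQ1 hQ2 ?_ ?_ ?_ ?_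
  · rw [← div_eq_mul_one_div]
    exact PR_inv_le hb (by norm_num) (by norm_num)
  · have := PR_div_le hb (c := 768) (by norm_num) (i := 2998) (j := 62914) (k := 0) (l := 131)
      (by norm_num)
    rw [pow_zero] at this
    refine le_of_eq_of_le ?_ this
    rw [show 2998 = 2867 + 131 from rfl, pow_add]
    generalize PR b ^ 2867 = x
    have h1 := pow_pos hP 131
    have h2 := pow_pos hP 62914
    generalize PR b ^ 131 = y at h1
    generalize PR b ^ 62914 = z at h2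
    field_simp
  · have := PR_div_le hb (c := 2) (by norm_num) (i := 2867) (j := 3012) (k := 0) (l := 131)
      (by norm_num)
    rw [pow_zero] at this
    refine le_of_eq_of_le ?_ this
    ring
  · have k1 := PR_div_le hb (c := 512) (by norm_num) (i := 131) (j := 62914 + 900 * 2) (k := 0)
      (l := 63043) (by norm_num)
    have k2 := PR_inv_le hb (c := 48) (by norm_num) (j := 131 + 62914) (l := 63043) (by norm_num)
    rw [pow_zero, pow_add, pow_mul] at k1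
    rw [pow_add] at k2
    have h1 := pow_pos hP 131
    have h2 := pow_pos hP 62914
    have h3 := pow_pos hP 900
    generalize PR b ^ 131 = y at h1 k1 k2
    generalize PR b ^ 62914 = z at h2 k1 k2
    generalize PR b ^ 900 = w at h3 k1
    have e1 : 64 * (1 / z) * (2 / w) ^ 2 / (1 / y) + 24 * (1 / y) * (1 / z) =
        (512 * y / (z * w ^ 2) + 48 / (y * z)) / 2 := by
      field_simp
      ring
    rw [e1]
    linarith

end Vale.Agent.P370
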