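import Vale.Agent.P370.DZa

/-! Part D: lower bound for the vertical oscillator on `[-64, 64]` with free boundary.

PLAN.  `ω = omz b = P ^ 1510`, `m z = (z / 64) ^ 86`, `W z = ω z (1 - m z)` (so `W (±64) = 0`),
`W' = ω (1 - 87 m)`, `St z = ω (z ^ 2 / 2 - 64 ^ 2 (z / 64) ^ 88 / 88)`, `St' = W`.  On `[-64, 64]`:
`2 zp - (W ^ 2 - W') = ω ^ 2 z ^ 2 (2 m - m ^ 2) - 87 ω m ≥ m (ω ^ 2 z ^ 2 - 87 ω) ≥ -87 ω / ω ^ 43`
(if `ω z ^ 2 ≤ 87` then `m = (z ^ 2 / 4096) ^ 43 ≤ (1 / ω) ^ 43`), and `ω ^ 42 = P ^ 63420`.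
`susy` gives `form ≥ E / 2 - 44 P ^ (-63420) N`, `N = ∫ ψ ^ 2`, `E = ∫ w u' ^ 2`, `u = ψ exp St`,
`w = exp (-2 St)`.  This proves `z_low0`.  `St` is even and monotone on `[0, 64]`, `w ≤ 1`, so `wpoin`
(`x0 = 0`, `q = 1`) gives `∫ w (u - u 0) ^ 2 ≤ 2 ^ 15 E`; `wmean` with `∫ w ≥ muz ≥ P ^ (-755)` gives
`u 0 ^ 2 ≤ P ^ 755 (2 N + 2 ^ 16 E)`.  With `c = ∫ gz ψ`, `α = √muz * u 0` and `gz_ON`:
`N - c ^ 2 ≤ ∫ (ψ - α gz) ^ 2 ≤ 2 ∫ w (u - u 0) ^ 2 + 2 (u 0) ^ 2 Δ`,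
`Δ = ∫ (exp (-St) - √muz * gz) ^ 2 ≤ 128 P ^ (-67000)`: for `|z| ≤ P ^ (-400)` the difference is in
`[0, ω z ^ 88]` (`1 - exp (-t) ≤ t`); otherwise it is in `[0, exp (-St)]`, `St ≥ ω z ^ 2 / 4 ≥ P ^ 710 / 4`.
Prove the steps for a general real `ω` in separate lemmas. -/

namespace Vale.Agent.P370

open MeasureTheory

variable {b : ℕ} {ψ ψ' : ℝ → ℝ}

noncomputable def DZb_S (ω z : ℝ) : ℝ := ω * (z ^ 2 / 2 - 64 ^ 2 * (z / 64) ^ 88 / 88)
noncomputable def DZb_W (ω z : ℝ) : ℝ := ω * (z - 64 * (z / 64) ^ 87)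
noncomputable def DZb_W1 (ω z : ℝ) : ℝ := ω * (1 - 87 * (z / 64) ^ 86)

theorem DZb_dS (ω z : ℝ) : HasDerivAt (DZb_S ω) (DZb_W ω z) z := by
  have h0 := hasDerivAt_id' z
  refine (((((h0.fun_pow 2).div_const 2).fun_sub
    ((((h0.div_const 64).fun_pow 88).const_mul (64 ^ 2)).div_const 88)).const_mul ω)).congr_deriv ?_
  simp only [DZb_W, Nat.cast_ofNat, Nat.reduceSub]
  generalize (z / 64) ^ 87 = y
  ring

theorem DZb_dW (ω z : ℝ) : HasDerivAt (DZb_W ω) (DZb_W1 ω z) z := by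
  have h0 := hasDerivAt_id' z
  refine ((h0.fun_sub (((h0.div_const 64).fun_pow 87).const_mul 64)).const_mul ω).congr_deriv ?_
  simp only [DZb_W1, Nat.cast_ofNat, Nat.reduceSub]
  generalize (z / 64) ^ 86 = y
  ring

theorem DZb_cS (ω : ℝ) : Continuous (DZb_S ω) := by unfold DZb_S; fun_prop
theorem DZb_cW (ω : ℝ) : Continuous (DZb_W ω) := by unfold DZb_W; fun_prop
theorem DZb_cW1 (ω : ℝ) : Continuous (DZb_W1 ω) := by unfold DZb_W1; fun_prop

theorem DZb_int (f : ℝ → ℝ) : ∫ z in Iz, f z = ∫ z in (-64 : ℝ)..64, f z := by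
  rw [Iz, integral_Icc_eq_integral_Ioc, intervalIntegral.integral_of_le (by norm_num)]

theorem DZb_sq {z : ℝ} (hz : z ∈ Set.Icc (-64 : ℝ) 64) : z ^ 2 / 4096 ≤ 1 := by
  rw [div_le_one (by norm_num)]
  nlinarith [hz.1, hz.2]

theorem DZb_pow (z : ℝ) (k : ℕ) : (z / 64) ^ (2 * k) = (z ^ 2 / 4096) ^ k := by
  rw [pow_mul, div_pow]
  norm_num

theorem DZb_m {z : ℝ} (hz : z ∈ Set.Icc (-64 : ℝ) 64) :
    0 ≤ (z / 64) ^ 86 ∧ (z / 64) ^ 86 ≤ 1 := by
  rw [show 86 = 2 * 43 from rfl, DZb_pow]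
  exact ⟨by positivity, pow_le_one₀ (by positivity) (DZb_sq hz)⟩

theorem DZb_pt {ω z : ℝ} (hω : 0 < ω) (hz : z ∈ Set.Icc (-64 : ℝ) 64) :
    (DZb_W ω z ^ 2 - DZb_W1 ω z) / 2 - 44 / ω ^ 42 ≤ ω ^ 2 * z ^ 2 / 2 - ω / 2 := by
  obtain ⟨m0, m1⟩ := DZb_m hz
  have e : DZb_W ω z = ω * z * (1 - (z / 64) ^ 86) := by
    rw [DZb_W, pow_succ (z / 64) 86]
    generalize (z / 64) ^ 86 = y
    ring
  have h1 : ω * z ^ 2 ≤ 87 → ω * (z / 64) ^ 86 ≤ 1 / ω ^ 42 := by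
    intro h
    have h2 : z ^ 2 / 4096 ≤ 1 / ω := by
      rw [div_le_div_iff₀ (by norm_num) hω]
      linarith
    have h3 := pow_le_pow_left₀ (by positivity) h2 43
    rw [← DZb_pow, one_div_pow, pow_succ' ω 42] at h3
    have h4 := mul_le_mul_of_nonneg_left h3 hω.le
    rwa [mul_one_div, div_mul_cancel_left₀ hω.ne', ← one_div] at h4
  have h5 : 0 < 1 / ω ^ 42 := by positivity
  rw [e, DZb_W1, div_eq_mul_one_div 44]
  generalize (z / 64) ^ 86 = m at *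
  generalize 1 / ω ^ 42 = y at *
  have h6 : 0 ≤ ω ^ 2 * z ^ 2 * (m * (1 - m)) := mul_nonneg (by positivity) (by nlinarith)
  rcases le_total (ω * z ^ 2) 87 with h | h
  · have h7 := h1 h
    have h8 : 0 ≤ ω ^ 2 * z ^ 2 * m := by positivity
    nlinarith
  · have h8 : 0 ≤ ω * m * (ω * z ^ 2 - 87) := mul_nonneg (by positivity) (by linarith)
    nlinarith

theorem DZb_form {ω : ℝ} (hω : 0 < ω) (hψ : ∀ x, HasDerivAt ψ (ψ' x) x) (hψ' : Continuous ψ') :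
    (∫ z in (-64 : ℝ)..64, (ψ' z + DZb_W ω z * ψ z) ^ 2) / 2 -
      44 / ω ^ 42 * ∫ z in (-64 : ℝ)..64, ψ z ^ 2 ≤
      ∫ z in (-64 : ℝ)..64, (ψ' z ^ 2 / 2 + (ω ^ 2 * z ^ 2 / 2 - ω / 2) * ψ z ^ 2) := by
  have cψ : Continuous ψ := continuous_iff_continuousAt.2 fun x => (hψ x).continuousAt
  have cW := DZb_cW ω
  have cW1 := DZb_cW1 ω
  have h := susy (A := -64) (B := 64) (DZb_dW ω) cW1 hψ hψ' hψ hψ' (by norm_num [DZb_W])
    (by norm_num [DZb_W])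
  simp only [← pow_two] at h
  rw [← intervalIntegral.integral_div, ← h, ← intervalIntegral.integral_const_mul,
    ← intervalIntegral.integral_sub (Continuous.intervalIntegrable (by fun_prop) _ _)
      (Continuous.intervalIntegrable (by fun_prop) _ _)]
  refine intervalIntegral.integral_mono_on (by norm_num)
    (Continuous.intervalIntegrable (by fun_prop) _ _)
    (Continuous.intervalIntegrable (by fun_prop) _ _) fun z hz => ?_
  have := mul_le_mul_of_nonneg_right (DZb_pt hω hz) (sq_nonneg (ψ z))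
  linarith

theorem DZb_S_bd {ω z : ℝ} (hω : 0 ≤ ω) (hz : z ∈ Set.Icc (-64 : ℝ) 64) :
    ω * z ^ 2 / 4 ≤ DZb_S ω z ∧ DZb_S ω z ≤ ω * z ^ 2 / 2 ∧
      ω * z ^ 2 / 2 - ω * z ^ 88 ≤ DZb_S ω z := by
  obtain ⟨m0, m1⟩ := DZb_m hz
  have e : DZb_S ω z = ω * z ^ 2 / 2 - ω * z ^ 2 * (z / 64) ^ 86 / 88 := by
    rw [DZb_S, show 88 = 86 + 2 from rfl, pow_add]
    generalize (z / 64) ^ 86 = y
    ring
  have h1 : (z / 64) ^ 86 ≤ z ^ 86 := by
    rw [div_pow]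
    exact div_le_self (Even.pow_nonneg (by decide) z) (one_le_pow₀ (by norm_num))
  have h0 : 0 ≤ ω * z ^ 2 := by positivity
  have e2 : ω * z ^ 88 = ω * z ^ 2 * z ^ 86 := by ring
  rw [e, e2]
  have h2 := mul_le_mul_of_nonneg_left h1 h0
  have h3 := mul_le_mul_of_nonneg_left m1 h0
  have h4 := mul_nonneg h0 m0
  refine ⟨by linarith, by linarith, by linarith⟩

theorem DZb_mono {ω x t : ℝ} (hω : 0 ≤ ω) (hx : x ∈ Set.Icc (-64 : ℝ) 64) (ht : t ∈ Set.uIcc x 0) :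
    DZb_S ω t ≤ DZb_S ω x := by
  have h1 : t ^ 2 ≤ x ^ 2 := by
    rcases Set.mem_uIcc.1 ht with h | h <;> nlinarith [h.1, h.2]
  have h2 := DZb_sq hx
  have h3 := abs_pow_sub_pow_le (x ^ 2 / 4096) (t ^ 2 / 4096) 44
  have h4 : max |x ^ 2 / 4096| |t ^ 2 / 4096| ^ (44 - 1) ≤ 1 := by
    refine pow_le_one₀ (le_max_of_le_left (abs_nonneg _)) (max_le ?_ ?_)
    · rwa [abs_of_nonneg (by positivity)]
    · rw [abs_of_nonneg (by positivity)]; linarith
  have h5 : 0 ≤ x ^ 2 / 4096 - t ^ 2 / 4096 := by linarith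
  rw [abs_of_nonneg h5] at h3
  have h6 := (le_abs_self _).trans (h3.trans (mul_le_of_le_one_right (by positivity) h4))
  rw [DZb_S, DZb_S, show 88 = 2 * 44 from rfl, DZb_pow, DZb_pow]
  refine mul_le_mul_of_nonneg_left ?_ hω
  generalize (x ^ 2 / 4096) ^ 44 = p at h6 ⊢
  generalize (t ^ 2 / 4096) ^ 44 = q at h6 ⊢
  push_cast at h6 ⊢
  linarith

theorem DZb_gap {ω s δ m : ℝ} {g : ℝ → ℝ} (hω : 0 ≤ ω) (hψ : ∀ x, HasDerivAt ψ (ψ' x) x)
    (hψ' : Continuous ψ') (hg : BM g) (hg1 : ∫ z in Iz, g z * g z = 1) (hm : 0 < m)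
    (hm' : m ≤ ∫ z in (-64 : ℝ)..64, Real.exp (-(2 * DZb_S ω z))) (hδ : 0 ≤ δ)
    (hD : ∀ z ∈ Iz, (Real.exp (-DZb_S ω z) - s * g z) ^ 2 ≤ δ) :
    (∫ z in Iz, ψ z ^ 2) - (∫ z in Iz, g z * ψ z) ^ 2 ≤
      2 ^ 16 * (∫ z in (-64 : ℝ)..64, (ψ' z + DZb_W ω z * ψ z) ^ 2) + 256 * (δ / m) *
        (2 * (∫ z in Iz, ψ z ^ 2) +
          2 ^ 16 * ∫ z in (-64 : ℝ)..64, (ψ' z + DZb_W ω z * ψ z) ^ 2) := by
  have cψ : Continuous ψ := continuous_iff_continuousAt.2 fun x => (hψ x).continuousAt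
  have cW := DZb_cW ω
  have cS := DZb_cS ω
  obtain ⟨w, hw⟩ : ∃ w : ℝ → ℝ, w = fun z => Real.exp (-(2 * DZb_S ω z)) := ⟨_, rfl⟩
  obtain ⟨u, hu⟩ : ∃ u : ℝ → ℝ, u = fun z => ψ z * Real.exp (DZb_S ω z) := ⟨_, rfl⟩
  have cw : Continuous w := by rw [hw]; fun_prop
  have cu : Continuous u := by rw [hu]; fun_prop
  have w0 : ∀ z, 0 < w z := fun z => by rw [hw]; exact Real.exp_pos _
  have ew : ∀ z, w z = Real.exp (-DZb_S ω z) ^ 2 := fun z => by
    rw [hw, ← Real.exp_nat_mul]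
    exact congrArg Real.exp (by push_cast; ring)
  have e1 : ∀ z, Real.exp (-DZb_S ω z) * Real.exp (DZb_S ω z) = 1 := fun z => by
    rw [← Real.exp_add, neg_add_cancel, Real.exp_zero]
  have eψ : ∀ z, ψ z = Real.exp (-DZb_S ω z) * u z := fun z => by
    rw [hu]
    linear_combination (-ψ z) * e1 z
  have du : ∀ z, HasDerivAt u ((ψ' z + DZb_W ω z * ψ z) * Real.exp (DZb_S ω z)) z := fun z => by
    rw [hu]
    exact ((hψ z).fun_mul (DZb_dS ω z).exp).congr_deriv (by ring)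
  have hp := wpoin (A := -64) (B := 64) cw w0 du (by fun_prop) (x0 := 0) (q := 1)
    ⟨by norm_num, by norm_num⟩ one_pos (fun x hx t ht => (min_le_right _ _).trans (by
      rw [hw]
      exact Real.exp_le_exp.2 (by linarith [DZb_mono hω hx ht])))
  have e2 : ∀ z, w z * ((ψ' z + DZb_W ω z * ψ z) * Real.exp (DZb_S ω z)) ^ 2 =
      (ψ' z + DZb_W ω z * ψ z) ^ 2 := fun z => by
    rw [ew, ← mul_pow, mul_left_comm, e1, mul_one]
  simp only [e2] at hp
  have hE : 0 ≤ ∫ z in (-64 : ℝ)..64, (ψ' z + DZb_W ω z * ψ z) ^ 2 :=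
    intervalIntegral.integral_nonneg (by norm_num) fun _ _ => sq_nonneg _
  have hw1 : ∫ z in (-64 : ℝ)..64, w z ≤ 128 := by
    have := intervalIntegral.integral_mono_on (μ := volume) (a := -64) (b := 64) (by norm_num)
      (cw.intervalIntegrable _ _) (continuous_const (y := (1 : ℝ)).intervalIntegrable _ _)
      fun z hz => by
        rw [hw, Real.exp_le_one_iff]
        have h1 := (DZb_S_bd hω hz).1
        have h2 : 0 ≤ ω * z ^ 2 / 4 := by positivity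
        linarith
    norm_num at this
    exact this
  rw [← hw] at hm'
  generalize (∫ z in (-64 : ℝ)..64, (ψ' z + DZb_W ω z * ψ z) ^ 2) = E at *
  have hp' : ∫ z in (-64 : ℝ)..64, w z * (u z - u 0) ^ 2 ≤ 2 ^ 15 * E :=
    hp.trans (mul_le_mul_of_nonneg_right (by linarith) hE)
  have h0 : u 0 ^ 2 * ∫ z in (-64 : ℝ)..64, w z ≤ 2 * (∫ z in Iz, ψ z ^ 2) +
      2 * ∫ z in (-64 : ℝ)..64, w z * (u z - u 0) ^ 2 := by
    rw [DZb_int, ← intervalIntegral.integral_const_mul, ← intervalIntegral.integral_const_mul,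
      ← intervalIntegral.integral_const_mul,
      ← intervalIntegral.integral_add (Continuous.intervalIntegrable (by fun_prop) _ _)
        (Continuous.intervalIntegrable (by fun_prop) _ _)]
    refine intervalIntegral.integral_mono_on (by norm_num)
      (Continuous.intervalIntegrable (by fun_prop) _ _)
      (Continuous.intervalIntegrable (by fun_prop) _ _) fun z _ => ?_
    rw [eψ z, mul_pow, ← ew]
    nlinarith [mul_nonneg (w0 z).le (sq_nonneg (2 * u z - u 0))]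
  have h1 : u 0 ^ 2 ≤ (2 * (∫ z in Iz, ψ z ^ 2) + 2 ^ 16 * E) / m := by
    rw [le_div_iff₀ hm]
    have := mul_le_mul_of_nonneg_left hm' (sq_nonneg (u 0))
    linarith
  have ci : ∀ f : ℝ → ℝ, Continuous f → Integrable f (volume.restrict Iz) := fun f hf =>
    hf.integrableOn_Icc
  have i1 := ci (fun z => ψ z ^ 2) (by fun_prop)
  have i2 : Integrable (fun z => g z * ψ z) (volume.restrict Iz) := by
    obtain ⟨hg2, C, hC⟩ := hg
    exact (ci ψ cψ).bdd_mul hg2.aestronglyMeasurable (Filter.Eventually.of_forall hC)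
  have i3 := (hg.mul hg).int (volume.restrict Iz)
  have i4 := ci (fun z => w z * (u z - u 0) ^ 2) (by fun_prop)
  have h2 : ∫ z in Iz, (ψ z ^ 2 - 2 * (s * u 0) * (g z * ψ z) + (s * u 0) ^ 2 * (g z * g z)) ≤
      ∫ z in Iz, (2 * (w z * (u z - u 0) ^ 2) + 2 * (u 0 ^ 2 * δ)) := by
    refine setIntegral_mono_on ((i1.sub (i2.const_mul _)).add (i3.const_mul _))
      ((i4.const_mul _).add (integrable_const _)) measurableSet_Icc fun z hz => ?_
    have h3 := mul_le_mul_of_nonneg_left (hD z hz) (sq_nonneg (u 0))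
    rw [ew, eψ z]
    generalize Real.exp (-DZb_S ω z) = a at h3 ⊢
    nlinarith [sq_nonneg (a * (u z - u 0) - u 0 * (a - s * g z))]
  have i5 : Integrable (fun z => ψ z ^ 2 - 2 * (s * u 0) * (g z * ψ z)) (volume.restrict Iz) :=
    i1.sub (i2.const_mul _)
  rw [integral_add i5 (i3.const_mul _), integral_sub i1 (i2.const_mul _),
    integral_add (i4.const_mul _) (integrable_const _), integral_const_mul, integral_const_mul,
    integral_const_mul, hg1, DZb_int fun z => w z * (u z - u 0) ^ 2,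
    DZb_int fun _ => 2 * (u 0 ^ 2 * δ), intervalIntegral.integral_const, smul_eq_mul] at h2
  have h4 := mul_le_mul_of_nonneg_right h1 hδ
  have e3 : (2 * (∫ z in Iz, ψ z ^ 2) + 2 ^ 16 * E) / m * δ =
      δ / m * (2 * (∫ z in Iz, ψ z ^ 2) + 2 ^ 16 * E) := by ring
  rw [e3] at h4
  nlinarith [sq_nonneg ((∫ z in Iz, g z * ψ z) - s * u 0)]

theorem DZb_D {ω ζ δ z y : ℝ} (hω : 0 ≤ ω) (hζ : 0 ≤ ζ) (hζ1 : ζ ≤ 32) (h1 : (ω * ζ ^ 88) ^ 2 ≤ δ)
    (h2 : Real.exp (-(ω * ζ ^ 2 / 2)) ≤ δ) (hz : z ∈ Iz)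
    (hy : y = if |z| ≤ 32 then Real.exp (-(ω * z ^ 2 / 2)) else 0) :
    (Real.exp (-DZb_S ω z) - y) ^ 2 ≤ δ := by
  obtain ⟨a1, a2, a3⟩ := DZb_S_bd hω hz
  have a0 : 0 ≤ ω * z ^ 2 / 4 := by positivity
  have b1 : Real.exp (-(ω * z ^ 2 / 2)) ≤ Real.exp (-DZb_S ω z) := Real.exp_le_exp.2 (by linarith)
  rcases le_total |z| ζ with h | h
  · rw [if_pos (h.trans hζ1)] at hy
    have b2 : z ^ 88 ≤ ζ ^ 88 := by
      rw [← Even.pow_abs (by decide) z]
      exact pow_le_pow_left₀ (abs_nonneg _) h _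
    have b3 := mul_le_mul_of_nonneg_left b2 hω
    have b4 : Real.exp (-DZb_S ω z) ≤ 1 := Real.exp_le_one_iff.2 (by linarith)
    have b5 : Real.exp (-(ω * z ^ 2 / 2)) =
        Real.exp (-DZb_S ω z) * Real.exp (-(ω * z ^ 2 / 2 - DZb_S ω z)) := by
      rw [← Real.exp_add]
      exact congrArg Real.exp (by ring)
    have b6 := Real.add_one_le_exp (-(ω * z ^ 2 / 2 - DZb_S ω z))
    have b7 := mul_le_mul_of_nonneg_left b6 (Real.exp_pos (-DZb_S ω z)).le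
    have b8 := mul_le_mul_of_nonneg_right b4 (sub_nonneg.2 a2)
    refine (pow_le_pow_left₀ (by rw [hy]; linarith) ?_ 2).trans h1
    rw [hy]
    generalize z ^ 88 = p at *
    generalize ζ ^ 88 = q at *
    nlinarith
  · have b2 : ζ ^ 2 ≤ z ^ 2 := by
      rw [← sq_abs z]
      exact pow_le_pow_left₀ hζ h _
    have b3 := mul_le_mul_of_nonneg_left b2 hω
    have b4 : 0 ≤ y ∧ y ≤ Real.exp (-DZb_S ω z) := by
      rw [hy]
      split_ifs
      · exact ⟨(Real.exp_pos _).le, b1⟩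
      · exact ⟨le_rfl, (Real.exp_pos _).le⟩
    refine (pow_le_pow_left₀ (by linarith [b4.2]) (sub_le_self _ b4.1) 2).trans (le_trans ?_ h2)
    rw [← Real.exp_nat_mul]
    exact Real.exp_le_exp.2 (by push_cast; linarith)

theorem DZb_mass {ω : ℝ} (hω : 0 ≤ ω) : ∫ z in (-32 : ℝ)..32, Real.exp (-(ω * z ^ 2)) ≤
    ∫ z in (-64 : ℝ)..64, Real.exp (-(2 * DZb_S ω z)) := by
  have cS := DZb_cS ω
  refine le_trans (intervalIntegral.integral_mono_interval (c := -64) (d := 64) (by norm_num)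
    (by norm_num) (by norm_num) (Filter.Eventually.of_forall fun z => (Real.exp_pos _).le)
    (Continuous.intervalIntegrable (by fun_prop) _ _)) ?_
  refine intervalIntegral.integral_mono_on (by norm_num)
    (Continuous.intervalIntegrable (by fun_prop) _ _)
    (Continuous.intervalIntegrable (by fun_prop) _ _) fun z hz => ?_
  exact Real.exp_le_exp.2 (by linarith [(DZb_S_bd hω hz).2.1])

theorem DZb_form' (b : ℕ) (hψ : ∀ x, HasDerivAt ψ (ψ' x) x) (hψ' : Continuous ψ') :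
    (∫ z in (-64 : ℝ)..64, (ψ' z + DZb_W (omz b) z * ψ z) ^ 2) / 2 -
      44 / PR b ^ 63420 * ∫ z in Iz, ψ z ^ 2 ≤ ∫ z in Iz, (ψ' z ^ 2 / 2 + zp b z * ψ z ^ 2) := by
  have h := DZb_form (ω := omz b) (by rw [omz_eq]; exact pow_pos (PR_pos b) _) hψ hψ'
  have e : (omz b : ℝ) ^ 42 = PR b ^ 63420 := by rw [omz_eq, ← pow_mul]
  rw [e] at h
  rw [DZb_int, DZb_int]
  exact h

theorem z_low0 (hb : 30 ≤ b) (hψ : ∀ x, HasDerivAt ψ (ψ' x) x) (hψ' : Continuous ψ') :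
    -(1 / PR b ^ 63100) * ∫ z in Iz, ψ z ^ 2 ≤ ∫ z in Iz, (ψ' z ^ 2 / 2 + zp b z * ψ z ^ 2) := by
  have h := DZb_form' b hψ hψ'
  have hE : 0 ≤ ∫ z in (-64 : ℝ)..64, (ψ' z + DZb_W (omz b) z * ψ z) ^ 2 :=
    intervalIntegral.integral_nonneg (by norm_num) fun _ _ => sq_nonneg _
  have hN : 0 ≤ ∫ z in Iz, ψ z ^ 2 := integral_nonneg fun _ => sq_nonneg _
  have h1 := mul_le_mul_of_nonneg_right
    (PR_inv_le hb (c := 44) (j := 63420) (l := 63100) (by norm_num) (by norm_num)) hN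
  generalize 44 / PR b ^ 63420 = p at h h1
  generalize 1 / PR b ^ 63100 = q at h1 ⊢
  linarith

theorem z_low (hb : 30 ≤ b) (hψ : ∀ x, HasDerivAt ψ (ψ' x) x) (hψ' : Continuous ψ') :
    SL (volume.restrict Iz) ({()} : Finset Unit) (fun _ => gz b) (fun _ _ => 0)
      (1 / PR b ^ 63100) (1 / PR b ^ 3012) ψ fun z => ψ' z ^ 2 / 2 + zp b z * ψ z ^ 2 := by
  have h := DZb_form' b hψ hψ'
  have hE : 0 ≤ ∫ z in (-64 : ℝ)..64, (ψ' z + DZb_W (omz b) z * ψ z) ^ 2 :=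
    intervalIntegral.integral_nonneg (by norm_num) fun _ _ => sq_nonneg _
  have hN : 0 ≤ ∫ z in Iz, ψ z ^ 2 := integral_nonneg fun _ => sq_nonneg _
  have P0 := PR_pos b
  have hω : (0 : ℝ) ≤ omz b := by rw [omz_eq]; exact (pow_pos P0 _).le
  have hON := gz_ON hb
  have hs := (muz_sqrt hb).1
  have d1 : ((omz b : ℝ) * (1 / PR b ^ 400) ^ 88) ^ 2 ≤ 1 / PR b ^ 67000 := by
    have := PR_div_le hb (c := 1) (i := 1510 * 2) (j := 400 * 88 * 2) (k := 0) (l := 67000)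
      (by norm_num) (by norm_num)
    rwa [pow_zero, one_mul, pow_mul, pow_mul, pow_mul, ← div_pow, ← omz_eq, div_eq_mul_one_div,
      ← one_div_pow] at this
  have d2 : Real.exp (-((omz b : ℝ) * (1 / PR b ^ 400) ^ 2 / 2)) ≤ 1 / PR b ^ 67000 := by
    refine le_trans (Real.exp_le_exp.2 ?_) (DGeo_exp (b := b) 67000)
    have e : (omz b : ℝ) * (1 / PR b ^ 400) ^ 2 = PR b ^ 710 := by
      rw [omz_eq, one_div_pow, ← pow_mul, show 1510 = 710 + 400 * 2 from rfl, pow_add, mul_one_div,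
        mul_div_cancel_right₀ _ (pow_pos P0 _).ne']
    have h1 := b_le_PR hb
    have h2 : PR b ≤ PR b ^ 710 := le_self_pow₀ (PR_one b) (by norm_num)
    have h3 : (0 : ℝ) ≤ b := Nat.cast_nonneg b
    rw [e]
    generalize PR b ^ 710 = y at h2
    push_cast
    linarith
  have hg := DZb_gap (s := √(muz b)) (δ := 1 / PR b ^ 67000) (m := 1 / PR b ^ 755) (g := gz b) hω
    hψ hψ' (hON.1 () (by simp)) (by simpa using hON.2 () (by simp) () (by simp))
    (one_div_pos.2 (pow_pos P0 _)) ((muz_mem hb).1.trans (DZb_mass hω))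
    (one_div_pos.2 (pow_pos P0 _)).le (fun z hz => DZb_D hω (one_div_pos.2 (pow_pos P0 400)).le
      ((parb_small hb (by norm_num)).trans (by norm_num)) d1 d2 hz (by
        rw [gz]
        split_ifs
        · rw [mul_div_cancel₀ _ hs.ne']
        · rw [mul_zero]))
  have k1 : 1 / PR b ^ 67000 / (1 / PR b ^ 755) ≤ 1 / PR b ^ 66000 := by
    have := PR_div_le hb (c := 1) (i := 755) (j := 67000) (k := 0) (l := 66000)
      (by norm_num) (by norm_num)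
    rw [pow_zero] at this
    rwa [div_div_eq_mul_div, div_one, div_mul_eq_mul_div]
  have k0 : 0 ≤ 1 / PR b ^ 67000 / (1 / PR b ^ 755) :=
    div_nonneg (one_div_pos.2 (pow_pos P0 _)).le (one_div_pos.2 (pow_pos P0 _)).le
  have k2 := parb_small hb (j := 66000) (by norm_num)
  have k3 := PR_inv_le hb (c := 1024) (j := 66000) (l := 63100) (by norm_num) (by norm_num)
  have k4 := PR_inv_le hb (c := 88) (j := 63420) (l := 63100) (by norm_num) (by norm_num)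
  have k5 := PR_inv_le hb (c := 2 ^ 18) (j := 3012) (l := 0) (by norm_num) (by norm_num)
  have k6 := one_div_pos.2 (pow_pos P0 3012)
  rw [pow_zero, div_eq_mul_one_div] at k5
  rw [div_eq_mul_one_div] at k3 k4
  rw [div_eq_mul_one_div 44] at h
  simp only [SL, Finset.sum_singleton, mul_zero, zero_mul]
  generalize 1 / PR b ^ 67000 / (1 / PR b ^ 755) = a at *
  generalize 1 / PR b ^ 66000 = a1 at *
  generalize 1 / PR b ^ 63420 = a2 at *
  generalize 1 / PR b ^ 63100 = η at *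
  generalize 1 / PR b ^ 3012 = Γ at *
  generalize (∫ z in (-64 : ℝ)..64, (ψ' z + DZb_W (omz b) z * ψ z) ^ 2) = E at *
  generalize (∫ z in Iz, ψ z ^ 2) = N at *
  generalize (∫ z in Iz, gz b z * ψ z) ^ 2 = c at *
  have m1 : a * E ≤ 1 / 1000 * E := mul_le_mul_of_nonneg_right (k1.trans k2) hE
  have m2 : a * N ≤ a1 * N := mul_le_mul_of_nonneg_right k1 hN
  have m3 : N - c ≤ 2 ^ 17 * E + 512 * (a1 * N) := by linarith
  have m4 := mul_le_mul_of_nonneg_left m3 k6.le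
  have m5 := mul_le_mul_of_nonneg_right k5 hE
  have m6 : Γ * (a1 * N) ≤ 1 * (a1 * N) :=
    mul_le_mul_of_nonneg_right (by linarith) (mul_nonneg (k0.trans k1) hN)
  have m7 := mul_le_mul_of_nonneg_right k3 hN
  have m8 := mul_le_mul_of_nonneg_right k4 hN
  linarith

end Vale.Agent.P370
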