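import Vale.Agent.P370.DTenB
import Vale.Agent.P370.DFub
import Vale.Agent.P370.DLowB
import Vale.Agent.P370.DZb
import Vale.Agent.P370.DGram

/-! Part D: lower bound on the box of one cluster and on a column.

PLAN.  `Φ p = ψ (e3 p)`, `εx p = grad ψ (e3 p) 0 ^ 2 / 2 + v p.1.1 * Φ p ^ 2`, etc.; all are `BM` (continuous
with compact support on `E3`, composed with `e3`; `Continuous.bounded_above_of_compact_support`).
For fixed `z`, `tensor` with `chain_low` twice (`slice0`, `slice1`, `grad_cont`, `g1_ON`, `lap_psd`); then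
`tensor` for `(ℝ × ℝ) × ℝ` with `z_low` (`slice2`, `ON.prod`, `PSD.ten`, `gz_ON`).  Unfold `SL`, remove the
`Unit` factor (`Finset.sum_product`, `Finset.sum_singleton`, `ten`), `integral_Col_prod`; the coefficient
integrals over the column equal those over `E3` (`setIntegral_eq_integral_of_forall_compl_eq_zero`,
`g1_in`, `gz_in`); `2 / P ^ 63043 + 1 / P ^ 63100 ≤ 1 / P ^ 63042`.
`col_low`: `Col_mono`, `z_low0`, `integral_const_mul`. -/

namespace Vale.Agent.P370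

open MeasureTheory Finset

variable {b : ℕ} {cx cy : Chain} {ψ : E3 → ℝ}

noncomputable def cf (b : ℕ) (cx cy : Chain) (ψ : E3 → ℝ) (p : ℕ × ℕ) : ℝ :=
  ∫ x : E3, cx.g1 b p.1 (x 0) * cy.g1 b p.2 (x 1) * gz b (x 2) * ψ x

theorem DBox_BM {F : E3 → ℝ} (hF : Continuous F) (hc : HasCompactSupport F) :
    BM fun p => F (e3 p) := by
  obtain ⟨C, hC⟩ := hF.bounded_above_of_compact_support hc
  exact ⟨(hF.comp e3_cont).measurable, C, fun p => hC _⟩

theorem DBox_eps (hψ : Test1 ψ) (k : Fin 3) {V : E3 → ℝ} (hV : Continuous V) :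
    BM fun p => grad ψ (e3 p) k ^ 2 / 2 + V (e3 p) * ψ (e3 p) ^ 2 := by
  have h1 := DBox_BM (grad_cont hψ.1 k) (hψ.2.fderiv_apply (𝕜 := ℝ) _)
  have h2 := DBox_BM (F := fun x => V x * ψ x) (hV.mul hψ.1.continuous) hψ.2.mul_left
  have h3 := (h1.sq.mul (BM.const (1 / 2))).add (h2.mul (DBox_BM hψ.1.continuous hψ.2))
  refine (congrArg BM (funext fun p => ?_)).mp h3
  ring

theorem DBox_num {x y z : ℝ} (h1 : 4 * x ≤ z) (h2 : 2 * y ≤ z) : x + x + y ≤ z := by linarith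

theorem box_low (hb : 30 ≤ b) (hx : cx.Good b) (hy : cy.Good b) (hψ : Test1 ψ) :
    ∑ p ∈ range cx.ng ×ˢ range cy.ng, ∑ q ∈ range cx.ng ×ˢ range cy.ng,
        cf b cx cy ψ p * ten (cx.lapR b) (cy.lapR b) p q * cf b cx cy ψ q -
      1 / PR b ^ 63042 * (∫ x in Col (cx.I b ×ˢ cy.I b) Iz, ψ x ^ 2) +
      1 / PR b ^ 3012 * ((∫ x in Col (cx.I b ×ˢ cy.I b) Iz, ψ x ^ 2) -
        ∑ p ∈ range cx.ng ×ˢ range cy.ng, cf b cx cy ψ p ^ 2) ≤
    ∫ x in Col (cx.I b ×ˢ cy.I b) Iz, (1 / 2 * ∑ k, grad ψ x k ^ 2 +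
      (cx.v b (x 0) + cy.v b (x 1) + zp b (x 2)) * ψ x ^ 2) := by
  have hΦ : BM fun p => ψ (e3 p) := DBox_BM hψ.1.continuous hψ.2
  have h0 := DBox_eps hψ 0 ((Chain.v_cont b cx).comp (continuous_apply 0))
  have h1 := DBox_eps hψ 1 ((Chain.v_cont b cy).comp (continuous_apply 1))
  have h2 := DBox_eps hψ 2 ((zp_cont b).comp (continuous_apply 2))
  have hΓ : 0 ≤ 1 / PR b ^ 3012 := (one_div_pos.2 (pow_pos (PR_pos b) _)).le
  have hA : ∀ z : ℝ, SL ((volume.restrict (cx.I b)).prod (volume.restrict (cy.I b)))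
      (range cx.ng ×ˢ range cy.ng) (fun p w => cx.g1 b p.1 w.1 * cy.g1 b p.2 w.2)
      (ten (cx.lapR b) (cy.lapR b)) (1 / PR b ^ 63043 + 1 / PR b ^ 63043) (1 / PR b ^ 3012)
      (fun w => ψ (e3 (w, z))) fun w =>
        (grad ψ (e3 (w, z)) 0 ^ 2 / 2 + cx.v b w.1 * ψ (e3 (w, z)) ^ 2) +
        (grad ψ (e3 (w, z)) 1 ^ 2 / 2 + cy.v b w.2 * ψ (e3 (w, z)) ^ 2) := fun z =>
    tensor (hx.g1_ON hb) (hy.g1_ON hb) (hx.lap_psd hb) (hy.lap_psd hb) hΓ
      (hΦ.comp (k := fun w : ℝ × ℝ => (w, z)) measurable_prodMk_right)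
      (h0.comp (k := fun w : ℝ × ℝ => (w, z)) measurable_prodMk_right)
      (h1.comp (k := fun w : ℝ × ℝ => (w, z)) measurable_prodMk_right)
      (fun y => hx.chain_low hb (fun x => slice0 hψ.1 x y z)
        ((grad_cont hψ.1 0).comp (e3_cont.comp (by fun_prop))))
      fun x => hy.chain_low hb (fun y => slice1 hψ.1 x y z)
        ((grad_cont hψ.1 1).comp (e3_cont.comp (by fun_prop)))
  have hB := tensor ((hx.g1_ON hb).prod (hy.g1_ON hb)) (gz_ON hb)
    ((hx.lap_psd hb).ten (hy.lap_psd hb)) (T' := fun _ _ => 0) (fun c => by simp) hΓ hΦ (h0.add h1)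
    h2 hA fun w => z_low hb (fun z => slice2 hψ.1 w z)
      ((grad_cont hψ.1 2).comp (e3_cont.comp (by fun_prop)))
  have hc : ∀ p ∈ range cx.ng ×ˢ range cy.ng,
      ∫ z, cx.g1 b p.1 z.1.1 * cy.g1 b p.2 z.1.2 * gz b z.2 * ψ (e3 z)
        ∂((volume.restrict (cx.I b)).prod (volume.restrict (cy.I b))).prod (volume.restrict Iz) =
      cf b cx cy ψ p := by
    intro p hp
    obtain ⟨p1, p2⟩ := mem_product.1 hp
    refine (integral_Col_prod _ _ _
      fun x => cx.g1 b p.1 (x 0) * cy.g1 b p.2 (x 1) * gz b (x 2) * ψ x).symm.trans ?_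
    refine setIntegral_eq_integral_of_forall_compl_eq_zero fun x hx' => by_contra fun h => hx' ?_
    have h3 := left_ne_zero_of_mul h
    have h4 := abs_le.1 (gz_in (right_ne_zero_of_mul h3))
    exact ⟨⟨hx.g1_in hb (mem_range.1 p1) (left_ne_zero_of_mul (left_ne_zero_of_mul h3)),
      hy.g1_in hb (mem_range.1 p2) (right_ne_zero_of_mul (left_ne_zero_of_mul h3))⟩,
      by linarith [h4.1], by linarith [h4.2]⟩
  rw [SL, qf_ten fun p : (ℕ × ℕ) × Unit => ∫ z, cx.g1 b p.1.1 z.1.1 * cy.g1 b p.1.2 z.1.2 *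
    gz b z.2 * ψ (e3 z) ∂((volume.restrict (cx.I b)).prod (volume.restrict (cy.I b))).prod
      (volume.restrict Iz), sum_product (range cx.ng ×ˢ range cy.ng)] at hB
  simp only [sum_singleton, mul_zero, zero_mul, sum_const_zero, add_zero] at hB
  rw [sum_congr rfl fun p hp => sum_congr rfl fun q hq => by rw [hc p hp, hc q hq],
    sum_congr rfl fun p hp => congrArg (fun t : ℝ => t ^ 2) (hc p hp),
    ← integral_Col_prod _ _ _ fun x => ψ x ^ 2] at hB
  have h5 : ∫ x in Col (cx.I b ×ˢ cy.I b) Iz, (1 / 2 * ∑ k, grad ψ x k ^ 2 +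
      (cx.v b (x 0) + cy.v b (x 1) + zp b (x 2)) * ψ x ^ 2) = _ := integral_Col_prod _ _ _ _
  have h6 : 0 ≤ ∫ x in Col (cx.I b ×ˢ cy.I b) Iz, ψ x ^ 2 := integral_nonneg fun _ => sq_nonneg _
  have h7 : 1 / PR b ^ 63043 + 1 / PR b ^ 63043 + 1 / PR b ^ 63100 ≤ 1 / PR b ^ 63042 := by
    have a1 := PR_inv_le hb (c := 4) (by norm_num) (j := 63043) (l := 63042) (by norm_num)
    have a2 := PR_inv_le hb (c := 2) (by norm_num) (j := 63100) (l := 63042) (by norm_num)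
    rw [div_eq_mul_one_div] at a1 a2
    exact DBox_num a1 a2
  refine le_trans (add_le_add_left (sub_le_sub_left (mul_le_mul_of_nonneg_right h7 h6) _) _)
    (hB.trans (le_of_eq ?_))
  rw [h5]
  congr 1
  funext p
  rw [Fin.sum_univ_three, Function.comp, Function.comp, Function.comp]
  ring

theorem col_low (hb : 30 ≤ b) (hψ : Test1 ψ) (O : Set (ℝ × ℝ)) :
    -(1 / PR b ^ 63100) * ∫ x in Col O Iz, ψ x ^ 2 ≤
      ∫ x in Col O Iz, (grad ψ x 2 ^ 2 / 2 + zp b (x 2) * ψ x ^ 2) := by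
  rw [← integral_const_mul]
  refine Col_mono (hψ.int_sq continuous_const) (((hψ.int_grad 2).div_const 2).add
    (hψ.int_sq ((zp_cont b).comp (continuous_apply 2)))) fun w => ?_
  rw [integral_const_mul]
  exact z_low0 hb (fun z => slice2 hψ.1 w z) ((grad_cont hψ.1 2).comp (e3_cont.comp (by fun_prop)))

end Vale.Agent.P370
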