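import Vale.Agent.P370.DUp
import Vale.Agent.P370.DPoin
import Vale.Agent.P370.DDefs

/-! Part D: matrix elements between smooth orbitals, exact formula.

PLAN.  The integrand vanishes outside `[lo, hi]` (`gt1_out`; `int_of_out`); `susy` with `W = S1` on
`[lo, hi]`; `gd a + S1 * gt1 a = r1 a * exp (-S) / √(mu a)`.  Pointwise
`exp (-S) ^ 2 * (up1 e * up1 e') = if e = e' then exp (-(2 om pl (e K))) * up1 e ^ 2 else 0`
(`up1_mul`, `up1_out`, `S_ramp`); expand `r1 a * r1 a'` into four such products, integrate (`up1_sq`). -/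

namespace Vale.Agent.P370

open MeasureTheory

variable {b : ℕ} {c : Chain} {a a' : ℕ}

/-- products of ramp derivatives -/
noncomputable def DEntA_P (b : ℕ) (c : Chain) (e e' : ℕ) (x : ℝ) : ℝ :=
  Real.exp (-c.S b x) ^ 2 * (c.up1 b e x * c.up1 b e' x) / 2

theorem DEntA_pt (hb : 30 ≤ b) (hc : c.Good b) {e e' : ℕ} (he : e ≤ c.ng) (he' : e' ≤ c.ng) :
    DEntA_P b c e e' = fun x => if e = e' then
      Real.exp (-(2 * (om b * c.pl b (e * c.K) : ℝ))) * c.up1 b e x ^ 2 / 2 else 0 := by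
  funext x
  rw [DEntA_P]
  split_ifs with h
  · subst h
    by_cases h1 : x ≤ c.al b e ∨ (c.be b e : ℝ) + 9 * rho b ≤ x
    · rw [hc.up1_out hb he h1]
      ring
    · rw [not_or, not_le, not_le] at h1
      rw [hc.S_ramp hb he h1.1.le h1.2.le, ← Real.exp_nat_mul, ← pow_two]
      congr 3
      push_cast
      ring
  · rw [hc.up1_mul hb he he' h, mul_zero, zero_div]

theorem DEntA_int (hb : 30 ≤ b) (hc : c.Good b) {e e' : ℕ} (he : e ≤ c.ng) (he' : e' ≤ c.ng) :
    Integrable (DEntA_P b c e e') ∧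
      ∫ x, DEntA_P b c e e' x = if e = e' then c.kk b e else 0 := by
  rw [DEntA_pt hb hc he he']
  by_cases h : e = e'
  · simp only [if_pos h]
    refine ⟨((hc.up1_sq hb he).1.const_mul _).div_const _, ?_⟩
    rw [integral_div, integral_const_mul, Chain.kk]
  · simp only [if_neg h]
    exact ⟨integrable_zero _ _ _, integral_zero _ _⟩

theorem DEntA_supp {f : ℝ → ℝ} {A B : ℝ} (h : ∀ x, x ≤ A + 9 ∨ B - 9 ≤ x → f x = 0) :
    ∫ x in A..B, f x = ∫ x, f x := by
  refine intervalIntegral.integral_eq_integral_of_support_subset fun x hx => ?_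
  have h1 := mt (h x) hx
  rw [not_or, not_le, not_le] at h1
  constructor <;> linarith [h1.1, h1.2]

theorem Chain.Good.ent_int (hb : 30 ≤ b) (hc : c.Good b) (ha : a < c.ng) (ha' : a' < c.ng) :
    Integrable fun x => c.gd b a x * c.gd b a' x / 2 + c.v b x * (c.gt1 b a x * c.gt1 b a' x) := by
  refine int_of_out (A := (c.lo b : ℝ) + 9) (B := (c.hi b : ℝ) - 9)
    ((((Chain.gd_cont b c a).mul (Chain.gd_cont b c a')).div_const 2).add
      ((Chain.v_cont b c).mul ((Chain.gt1_cont b c a).mul (Chain.gt1_cont b c a')))) fun x hx => ?_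
  rw [(hc.gt1_out hb ha hx).1, (hc.gt1_out hb ha hx).2]
  ring

theorem Chain.Good.ent_eq (hb : 30 ≤ b) (hc : c.Good b) (ha : a < c.ng) (ha' : a' < c.ng) :
    c.ent b a a' = (if a = a' then c.kk b a + c.kk b (a + 1) else if a + 1 = a' then -c.kk b a'
      else if a' + 1 = a then -c.kk b a else 0) / (√(c.mu b a) * √(c.mu b a')) := by
  have h1 := susy (A := c.lo b) (B := c.hi b) (Chain.S1_deriv b c) (Chain.S2_cont b c)
    (Chain.gt1_deriv b c a) (Chain.gd_cont b c a) (Chain.gt1_deriv b c a') (Chain.gd_cont b c a')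
    (by rw [(hc.gt1_out hb ha (Or.inl (by linarith))).1, zero_mul, mul_zero])
    (by rw [(hc.gt1_out hb ha (Or.inr (by linarith))).1, zero_mul, mul_zero])
  rw [DEntA_supp fun x hx => ?_, DEntA_supp fun x hx => ?_] at h1
  rotate_left
  · rw [(hc.gt1_out hb ha hx).1, (hc.gt1_out hb ha hx).2]
    ring
  · rw [(hc.gt1_out hb ha hx).1, (hc.gt1_out hb ha hx).2]
    ring
  have h2 : ∀ x, (c.gd b a x + c.S1 b x * c.gt1 b a x) * (c.gd b a' x + c.S1 b x * c.gt1 b a' x) / 2 =
      (DEntA_P b c a a' x - DEntA_P b c a (a' + 1) x - DEntA_P b c (a + 1) a' x +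
        DEntA_P b c (a + 1) (a' + 1) x) / (√(c.mu b a) * √(c.mu b a')) := fun x => by
    simp only [Chain.gd, Chain.gt1, Chain.r1, DEntA_P]
    ring
  obtain ⟨i1, e1⟩ := DEntA_int hb hc ha.le ha'.le
  obtain ⟨i2, e2⟩ := DEntA_int hb hc (e' := a' + 1) ha.le ha'
  obtain ⟨i3, e3⟩ := DEntA_int hb hc (e := a + 1) ha ha'.le
  obtain ⟨i4, e4⟩ := DEntA_int hb hc (e := a + 1) (e' := a' + 1) ha ha'
  have i5 : Integrable fun x => DEntA_P b c a a' x - DEntA_P b c a (a' + 1) x := i1.sub i2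
  have i6 : Integrable fun x =>
      DEntA_P b c a a' x - DEntA_P b c a (a' + 1) x - DEntA_P b c (a + 1) a' x := i5.sub i3
  simp only [h2] at h1
  rw [integral_div, integral_add i6 i4, integral_sub i5 i3, integral_sub i1 i2, e1, e2, e3,
    e4] at h1
  refine Eq.trans h1 ?_
  congr 1
  by_cases k1 : a = a'
  · subst k1
    simp
  · by_cases k2 : a + 1 = a'
    · subst k2
      rw [if_neg k1, if_neg (by omega), if_pos rfl, if_neg (by omega), if_neg k1, if_pos rfl]
      ring
    · by_cases k3 : a' + 1 = a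
      · rw [if_neg k1, if_pos k3.symm, if_neg k2, if_neg (by omega), if_neg k1, if_neg k2, if_pos k3]
        ring
      · rw [if_neg k1, if_neg (Ne.symm k3), if_neg k2, if_neg (by omega), if_neg k1, if_neg k2,
          if_neg k3]
        ring

end Vale.Agent.P370
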