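import Vale.Agent.P370.DEntA
import Vale.Agent.P370.DMass

/-! Part D: matrix elements between smooth orbitals, estimates.

PLAN.  `kk_end`: `exp_pl`, `up1_sq`, `al_be` (`be - al ≥ 8`).  `kk_in`: with
`d = pos ((a + 1) K) - pos ((a + 1) K - 1) - 2 ≥ P ^ 30 - 2`, `ramp_in` gives `be - al = d - 27 rho`, so
`J = ∫ up1 ^ 2` has `1 ≤ J d ≤ 1 + 28 / P ^ 134`; `kk / (√mu √mu') = tau * (w √2 2 ^ kw) * (J d) * (m / (√mu √mu'))`
with `m = K / (√2 lamb)`; `exp_pl`, `mu_inv`, `tau_bd`.  `ent_bd`: `ent_eq`, cases as in `Chain.lap`;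
end terms are `≤ P ^ (-63100) * P ^ 2` (`mu_sqrt`). -/

namespace Vale.Agent.P370

variable {b : ℕ} {c : Chain} {a a' : ℕ}

private theorem DEntB_mul {x y e f : ℝ} (h1 : |x - 1| ≤ e) (h2 : |y - 1| ≤ f) :
    |x * y - 1| ≤ e + f + e * f := by
  have e1 : x * y - 1 = (x - 1) + (y - 1) + (x - 1) * (y - 1) := by ring
  rw [e1]
  refine (abs_add_three _ _ _).trans (add_le_add (add_le_add h1 h2) ?_)
  rw [abs_mul]
  exact mul_le_mul h1 h2 (abs_nonneg _) ((abs_nonneg _).trans h1)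

private theorem DEntB_three {x y z e : ℝ} (he : e ≤ 1 / 1000) (h1 : |x - 1| ≤ e)
    (h2 : |y - 1| ≤ 28 * e) (h3 : |z - 1| ≤ e) : |x * y * z - 1| ≤ 40 * e := by
  have h0 : 0 ≤ e := (abs_nonneg _).trans h1
  have h4 : |x * y - 1| ≤ 30 * e := (DEntB_mul h1 h2).trans (by nlinarith)
  exact (DEntB_mul h4 h3).trans (by nlinarith)

private theorem DEntB_J {d ρ Q J : ℝ} (hQ : 1000 ≤ Q) (hd : Q - 2 ≤ d) (h0 : 0 < ρ)
    (h0' : ρ ≤ 1 / 1000) (h1 : 1 / (d - 27 * ρ + 9 * ρ) ≤ J) (h2 : J ≤ 1 / (d - 27 * ρ)) :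
    |J * d - 1| ≤ 28 * (ρ * (1 / Q)) := by
  have h3 : 0 < d - 27 * ρ := by linarith
  have h4 : 0 < Q := by linarith
  have h5 : 0 ≤ J := le_trans (by positivity) h1
  rw [div_le_iff₀ (by linarith)] at h1
  have h6 : J * (d - 27 * ρ) ≤ 1 := (le_div_iff₀ h3).1 h2
  have h7 : 27 * J ≤ 28 * (1 / Q) := by
    rw [mul_one_div, le_div_iff₀ h4]
    nlinarith [mul_le_mul_of_nonneg_left (show 27 * Q ≤ 28 * (d - 27 * ρ) by linarith) h5]
  have h8 := mul_le_mul_of_nonneg_left h7 h0.le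
  have h9 := mul_nonneg h5 h0.le
  rw [abs_of_nonneg (by nlinarith)]
  nlinarith

theorem Chain.Good.kk_end (hb : 30 ≤ b) (hc : c.Good b) (ha : a = 0 ∨ a = c.ng) :
    0 ≤ c.kk b a ∧ c.kk b a ≤ 1 / PR b ^ 63100 := by
  have h0 : a ≤ c.ng := by omega
  have h1 := (hc.exp_pl hb h0).2.1 ha
  have h2 := (hc.up1_sq hb h0).2.2
  have h3 := (hc.al_be hb h0).2.1
  have h4 : 0 ≤ ∫ x, c.up1 b a x ^ 2 := MeasureTheory.integral_nonneg fun x => sq_nonneg _
  have h5 : ∫ x, c.up1 b a x ^ 2 ≤ 1 := h2.trans ((div_le_one (by linarith)).2 (by linarith))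
  have h6 := mul_le_of_le_one_right (Real.exp_pos (-(2 * (om b * c.pl b (a * c.K) : ℝ)))).le h5
  have h7 := mul_nonneg (Real.exp_pos (-(2 * (om b * c.pl b (a * c.K) : ℝ)))).le h4
  unfold Chain.kk
  constructor <;> linarith

theorem Chain.Good.kk_in (hb : 30 ≤ b) (hc : c.Good b) (ha : a + 1 < c.ng) {e e' : ℕ}
    (he : e < c.ng) (he' : e' < c.ng) :
    |c.kk b (a + 1) / (√(c.mu b e) * √(c.mu b e')) - c.tau b a| ≤ 1 / PR b ^ 63047 := by
  obtain ⟨t0, t1, t2⟩ := hc.tau_bd hb ha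
  have h1 := (hc.exp_pl hb ha.le).2.2 (by omega) ha.ne
  have h2 := hc.mu_inv hb he he'
  obtain ⟨-, h3, h4⟩ := hc.up1_sq hb ha.le
  obtain ⟨r1, r2⟩ := hc.ramp_in ha.le
  have hK := hc.K_pos
  have k1 : 0 < (a + 1) * c.K := Nat.mul_pos (Nat.succ_pos _) hK
  have k2 := hc.pos_add (i := (a + 1) * c.K - 1) (j := (a + 1) * c.K) (by omega)
    (by simpa using hc.idx_lt ha hK)
  have k3 := PR_pow_ge hb (k := 30) (by norm_num)
  have e1 : (c.be b (a + 1) : ℝ) - c.al b (a + 1) =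
      c.pos ((a + 1) * c.K) - c.pos ((a + 1) * c.K - 1) - 2 - 27 * rho b := by
    linarith [r1 (by omega), r2 ha.ne, wd_cast b]
  rw [e1] at h3 h4
  have h5 := DEntB_J (Q := PR b ^ 30) (by linarith) (by linarith) (rho_bd hb).1 (rho_bd hb).2 h3 h4
  rw [rho_cast, div_mul_div_comm, ← pow_add, mul_one] at h5
  have h6 := DEntB_three (parb_small hb (by norm_num))
    (h1.trans (PR_inv_le hb (by norm_num) (by norm_num))) h5
    (h2.trans (PR_inv_le hb (by norm_num) (by norm_num)))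
  have s1 := (hc.mu_sqrt hb he).1
  have s2 := (hc.mu_sqrt hb he').1
  have s3 := (lamb_le hb).1
  have s4 := hc.K_le'.1
  have s5 : (0 : ℝ) < c.pos ((a + 1) * c.K) - c.pos ((a + 1) * c.K - 1) - 2 := by linarith
  have h7 := mul_le_mul t1 h6 (abs_nonneg _) (t0.le.trans t1)
  rw [← abs_of_pos t0, ← abs_mul, mul_left_comm _ 40, one_div_mul_one_div, ← pow_add,
    mul_one_div] at h7
  refine le_trans (le_of_eq ?_) (h7.trans (PR_inv_le hb (by norm_num) (by norm_num)))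
  congr 1
  rw [Chain.kk, mul_sub, mul_one, t2]
  congr 1
  generalize (c.pos ((a + 1) * c.K) : ℝ) - c.pos ((a + 1) * c.K - 1) - 2 = d at s5
  have s6 : (0 : ℝ) < lamb b := by linarith
  have s7 : (0 : ℝ) < c.K := by linarith
  field_simp

theorem Chain.Good.ent_bd (hb : 30 ≤ b) (hc : c.Good b) (ha : a < c.ng) (ha' : a' < c.ng) :
    |c.ent b a a' - c.lapR b a a'| ≤ 1 / PR b ^ 63046 := by
  have hend : ∀ e, e = 0 ∨ e = c.ng →
      |c.kk b e / (√(c.mu b a) * √(c.mu b a)) - 0| ≤ 1 / PR b ^ 63047 := by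
    intro e he
    obtain ⟨h1, h2⟩ := hc.kk_end hb he
    obtain ⟨h3, h4, -⟩ := hc.mu_sqrt hb ha
    have h5 := mul_le_mul h4 h4 (by positivity) (PR_pos b).le
    have h6 := PR_div_le hb (c := 1) (by norm_num) (i := 2) (j := 63100) (k := 0) (l := 63047)
      (by norm_num)
    rw [div_mul_div_comm, mul_one, ← pow_two (PR b)] at h5
    rw [pow_zero, one_mul, div_eq_mul_one_div, mul_comm] at h6
    rw [sub_zero, abs_of_nonneg (by positivity), div_eq_mul_one_div]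
    exact (mul_le_mul h2 h5 (by positivity) (h1.trans h2)).trans h6
  have hw : 1 / PR b ^ 63047 ≤ 1 / PR b ^ 63046 := PR_inv_le hb (by norm_num) (by norm_num)
  rw [hc.ent_eq hb ha ha', Chain.lapR, Chain.lap]
  by_cases h1 : a = a'
  · subst h1
    have h2 : |c.kk b a / (√(c.mu b a) * √(c.mu b a)) -
        ((if a = 0 then 0 else c.tau b (a - 1) : ℚ) : ℝ)| ≤ 1 / PR b ^ 63047 := by
      split_ifs with h
      · rw [Rat.cast_zero]
        exact hend a (Or.inl h)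
      · have h3 := hc.kk_in hb (a := a - 1) (by omega) ha ha
        rwa [Nat.sub_add_cancel (by omega)] at h3
    have h3 : |c.kk b (a + 1) / (√(c.mu b a) * √(c.mu b a)) -
        ((if a + 1 < c.ng then c.tau b a else 0 : ℚ) : ℝ)| ≤ 1 / PR b ^ 63047 := by
      split_ifs with h
      · exact hc.kk_in hb h ha ha
      · rw [Rat.cast_zero]
        exact hend _ (Or.inr (by omega))
    have h4 : 2 / PR b ^ 63047 ≤ 1 / PR b ^ 63046 := PR_inv_le hb (by norm_num) (by norm_num)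
    rw [if_pos rfl, if_pos rfl, Rat.cast_add, add_div, add_sub_add_comm]
    refine (abs_add_le _ _).trans ((add_le_add h2 h3).trans ?_)
    rwa [← add_div, one_add_one_eq_two]
  rw [if_neg h1, if_neg h1]
  split_ifs with h2 h3
  · subst h2
    rw [Rat.cast_neg, neg_div, neg_sub_neg, abs_sub_comm]
    exact (hc.kk_in hb ha' ha ha').trans hw
  · subst h3
    rw [Rat.cast_neg, neg_div, neg_sub_neg, abs_sub_comm]
    exact (hc.kk_in hb ha ha ha').trans hw
  · rw [zero_div, Rat.cast_zero, sub_zero, abs_zero]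
    exact (one_div_pos.2 (pow_pos (PR_pos b) _)).le

end Vale.Agent.P370
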