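import Vale.Agent.P370.DS
import Vale.Agent.P370.DMass
import Vale.Agent.P370.DDefs

/-! Part D: cell and link inequalities for a chain.  With `u = ψ exp S`, `p = exp (-(2 S))` one has
`p u ^ 2 = ψ ^ 2` and `p u' ^ 2 = (ψ' + S1 ψ) ^ 2`; at a dot `S = 0`, so `u = ψ`. -/

namespace Vale.Agent.P370

open MeasureTheory Finset

variable {b : ℕ} {c : Chain} {a j : ℕ} {ψ ψ' : ℝ → ℝ}

theorem En_nonneg (b : ℕ) (c : Chain) (ψ ψ' : ℝ → ℝ) {A B : ℝ} (h : A ≤ B) :
    0 ≤ c.En b ψ ψ' A B :=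
  intervalIntegral.integral_nonneg h fun _ _ => sq_nonneg _

theorem DLowA_sq (s y : ℝ) : Real.exp (-(2 * s)) * (y * Real.exp s) ^ 2 = y ^ 2 := by
  rw [mul_pow, ← Real.exp_nat_mul, mul_left_comm, ← Real.exp_add]
  simp

theorem DLowA_deriv (b : ℕ) (c : Chain) (hψ : ∀ x, HasDerivAt ψ (ψ' x) x) (x : ℝ) :
    HasDerivAt (fun x => ψ x * Real.exp (c.S b x))
      ((ψ' x + c.S1 b x * ψ x) * Real.exp (c.S b x)) x := by
  exact ((hψ x).mul (c.S_deriv b x).exp).congr_deriv (by ring)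

theorem DLowA_cont (b : ℕ) (c : Chain) (hψ : Continuous ψ) (hψ' : Continuous ψ') :
    Continuous fun x => (ψ' x + c.S1 b x * ψ x) * Real.exp (c.S b x) :=
  (hψ'.add ((c.S1_cont b).mul hψ)).mul (Real.continuous_exp.comp (c.S_cont b))

theorem DLowA_int (b : ℕ) (c : Chain) (hψ : Continuous ψ) (hψ' : Continuous ψ') (A B : ℝ) :
    IntervalIntegrable (fun x => (ψ' x + c.S1 b x * ψ x) ^ 2) volume A B :=
  ((hψ'.add ((c.S1_cont b).mul hψ)).pow 2).intervalIntegrable _ _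

theorem DLowA_add (b : ℕ) (c : Chain) (hψ : Continuous ψ) (hψ' : Continuous ψ') (A B C : ℝ) :
    c.En b ψ ψ' A B + c.En b ψ ψ' B C = c.En b ψ ψ' A C :=
  intervalIntegral.integral_add_adjacent_intervals (DLowA_int b c hψ hψ' _ _)
    (DLowA_int b c hψ hψ' _ _)

theorem DLowA_le {f : ℝ → ℝ} (hf : Continuous f) {A B M : ℝ} (h : A ≤ B)
    (hM : ∀ x ∈ Set.Icc A B, f x ≤ M) : ∫ x in A..B, f x ≤ (B - A) * M := by
  have := intervalIntegral.integral_mono_on h (hf.intervalIntegrable (μ := volume) _ _)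
    (continuous_const.intervalIntegrable _ _) hM
  rwa [intervalIntegral.integral_const, smul_eq_mul] at this

theorem DLowA_exp (hb : 30 ≤ b) : Real.exp (2 * om b) ≤ PR b ^ 2800 := by
  have h := (exp_om hb).2
  rwa [Real.exp_neg, ← one_div, one_div_le_one_div (pow_pos (PR_pos b) _) (Real.exp_pos _)] at h

namespace Chain.Good

theorem DLowA_dot (hb : 30 ≤ b) (hc : c.Good b) {i : ℕ} (hi : i < c.n) :
    Real.exp (c.S b (c.pos i : ℝ)) = 1 := by
  rw [hc.S_core hb hi (by simp)]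
  simp

theorem form_eq (hb : 30 ≤ b) (hc : c.Good b) (hψ : ∀ x, HasDerivAt ψ (ψ' x) x)
    (hψ' : Continuous ψ') :
    ∫ x in c.I b, (ψ' x ^ 2 / 2 + c.v b x * ψ x ^ 2) = c.En b ψ ψ' (c.lo b) (c.hi b) / 2 := by
  have h := susy (A := c.lo b) (B := c.hi b) (c.S1_deriv b) (c.S2_cont b) hψ hψ' hψ hψ'
    (by rw [(hc.S1_out hb (Or.inl (by linarith))).1, zero_mul])
    (by rw [(hc.S1_out hb (Or.inr (by linarith))).1, zero_mul])
  rw [Chain.I, integral_Icc_eq_integral_Ioc,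
    ← intervalIntegral.integral_of_le (by linarith [(hc.lo_hi hb).2.1]), Chain.En,
    ← intervalIntegral.integral_div]
  simpa only [Chain.v, ← pow_two] using h

theorem co_eq (hb : 30 ≤ b) (hc : c.Good b) (ha : a < c.ng) (ψ : ℝ → ℝ) :
    c.co b ψ a = (∫ x in (c.mb b a : ℝ)..(c.mb b (a + 1) : ℝ), Real.exp (-c.S b x) * ψ x) /
      √(c.mu b a) := by
  have h : (fun x => c.g1 b a x * ψ x) = (Set.Ico (c.mb b a : ℝ) (c.mb b (a + 1))).indicator
      fun x => Real.exp (-c.S b x) * ψ x / √(c.mu b a) := by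
    funext x
    simp only [Chain.g1, Set.indicator_apply, Set.mem_Ico]
    split_ifs
    · ring
    · exact zero_mul _
  rw [Chain.co, h, setIntegral_indicator measurableSet_Ico, Chain.I, Set.inter_eq_right.2
    (Set.Ico_subset_Icc_self.trans
      (Set.Icc_subset_Icc (hc.mb_mem hb ha.le).1 (hc.mb_mem hb (a := a + 1) ha).2)),
    integral_Ico_eq_integral_Ioc, ← intervalIntegral.integral_of_le (hc.cell_len hb ha).1.le,
    intervalIntegral.integral_div]

theorem cell_le (hb : 30 ≤ b) (hc : c.Good b) (hψ : ∀ x, HasDerivAt ψ (ψ' x) x)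
    (hψ' : Continuous ψ') (ha : a < c.ng) (hj : j < c.K) :
    c.co b ψ a ^ 2 ≤ ∫ x in (c.mb b a : ℝ)..(c.mb b (a + 1) : ℝ), ψ x ^ 2 ∧
    (∫ x in (c.mb b a : ℝ)..(c.mb b (a + 1) : ℝ), ψ x ^ 2) - c.co b ψ a ^ 2 +
        (c.co b ψ a - √(c.mu b a) * ψ (c.pos (a * c.K + j))) ^ 2 ≤
      PR b ^ 2867 * c.En b ψ ψ' (c.mb b a) (c.mb b (a + 1)) := by
  have hψc : Continuous ψ := continuous_iff_continuousAt.2 fun x => (hψ x).continuousAt
  obtain ⟨hl1, hl2⟩ := hc.cell_len hb ha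
  obtain ⟨hi1, hi2⟩ := hc.cell_in hb ha hj
  have h1 := wmean (u := fun x => ψ x * Real.exp (c.S b x)) (c.expS_cont b)
    (fun _ => Real.exp_pos _) (hψc.mul (Real.continuous_exp.comp (c.S_cont b))) hl1
    (m := c.mu b a) (c := c.co b ψ a) rfl (by
      rw [hc.co_eq hb ha]
      congr 2
      funext x
      rw [mul_left_comm, ← Real.exp_add, mul_comm]
      congr 2
      ring) (ψ (c.pos (a * c.K + j)))
  have h2 := wpoin (c.expS_cont b) (fun _ => Real.exp_pos _) (DLowA_deriv b c hψ)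
    (DLowA_cont b c hψc hψ') (A := c.mb b a) (B := c.mb b (a + 1)) (x0 := c.pos (a * c.K + j))
    ⟨by linarith, by linarith [(wd_bd hb).1]⟩ (Real.exp_pos (-(2 * om b))) fun x hx t ht => by
      rcases le_max_iff.1 (hc.S_between hb ha hj hx ht) with h | h
      · exact (min_le_left _ _).trans (Real.exp_le_exp.2 (by linarith))
      · exact (min_le_right _ _).trans (Real.exp_le_exp.2 (by linarith))
  simp only [DLowA_sq, hc.DLowA_dot hb (hc.idx_lt ha hj), mul_one] at h1 h2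
  refine ⟨h1.1, h1.2 ▸ h2.trans (mul_le_mul_of_nonneg_right ?_ (En_nonneg b c ψ ψ' hl1.le))⟩
  have h3 : c.mu b a / Real.exp (-(2 * om b)) ≤ PR b ^ 2801 := by
    rw [Real.exp_neg, div_inv_eq_mul, pow_succ' (PR b) 2800]
    exact mul_le_mul (hc.mu_mem hb ha).2 (DLowA_exp hb) (Real.exp_pos _).le (PR_pos b).le
  have h4 : PR b ^ 65 ≤ PR b ^ 2801 := pow_le_pow_right₀ (PR_one b) (by norm_num)
  have h5 := PR_mul_le hb (c := 2) (by norm_num) (show 65 + 2801 < 2867 by norm_num)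
  have h6 : 0 ≤ c.mu b a / Real.exp (-(2 * om b)) :=
    div_nonneg (hc.mu_pos hb ha).le (Real.exp_pos _).le
  rw [pow_add, mul_left_comm] at h5
  exact (mul_le_mul hl2 (by linarith) (add_nonneg h6 (by linarith))
    (pow_pos (PR_pos b) _).le).trans h5

theorem DLowA_link (hb : 30 ≤ b) (hc : c.Good b) {i : ℕ} (h0 : i ≠ 0) (hi : i < c.n) :
    ∫ x in (c.pos (i - 1) : ℝ)..(c.pos i : ℝ), 1 / Real.exp (-(2 * c.S b x)) ≤
      (c.pos i - c.pos (i - 1) - 2) * Real.exp (2 * (om b * c.pl b i)) + 2 * PR b ^ 2800 := by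
  have hf : Continuous fun x : ℝ => Real.exp (2 * c.S b x) :=
    Real.continuous_exp.comp (continuous_const.mul (c.S_cont b))
  have hg := hc.pos_add (show i - 1 < i by omega) hi
  have hP := PR_pow_ge hb (k := 30) (by norm_num)
  have hom := (om_le hb).1
  have core : ∀ l < c.n, ∀ x : ℝ, |x - c.pos l| ≤ 1 → Real.exp (2 * c.S b x) ≤ PR b ^ 2800 :=
    fun l hl x hx => by
      refine (Real.exp_le_exp.2 ?_).trans (DLowA_exp hb)
      have : (x - c.pos l) ^ 2 ≤ 1 := by rwa [sq_le_one_iff_abs_le_one]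
      rw [hc.S_core hb hl hx]
      nlinarith
  have h1 := DLowA_le hf (A := c.pos (i - 1)) (B := c.pos (i - 1) + 1) (by linarith) fun x hx =>
    core (i - 1) (by omega) x (abs_le.2 ⟨by linarith [hx.1], by linarith [hx.2]⟩)
  have h2 := DLowA_le hf (A := c.pos (i - 1) + 1) (B := c.pos i - 1) (by linarith)
    (M := Real.exp (2 * (om b * c.pl b i))) fun x hx => Real.exp_le_exp.2 (by
      linarith [hc.S_link hb h0 hi (x := x) (by linarith [hx.1]) (by linarith [hx.2])])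
  have h3 := DLowA_le hf (A := c.pos i - 1) (B := c.pos i) (by linarith) fun x hx =>
    core i hi x (abs_le.2 ⟨by linarith [hx.1], by linarith [hx.2]⟩)
  simp only [Real.exp_neg, one_div, inv_inv]
  rw [← intervalIntegral.integral_add_adjacent_intervals (b := (c.pos (i - 1) : ℝ) + 1)
    (hf.intervalIntegrable _ _) (hf.intervalIntegrable _ _),
    ← intervalIntegral.integral_add_adjacent_intervals (a := (c.pos (i - 1) : ℝ) + 1)
    (b := (c.pos i : ℝ) - 1) (hf.intervalIntegrable _ _) (hf.intervalIntegrable _ _)]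
  generalize PR b ^ 2800 = y at *
  linarith

theorem DLowA_num {K L Z d E y θ η : ℝ} (hK : 0 < K) (hL : 0 < L) (hZ : 0 < Z) (hd : 1 ≤ d)
    (hE : 0 < E) (h1 : |E⁻¹ * (√2 * Z) - 1| ≤ θ) (hθ : θ ≤ 1 / 2) (h2 : 4 * θ ≤ η)
    (hy : 0 ≤ y) (h3 : 4 * y / Z ≤ η) :
    L / (Z * (2 * K * d)) * (K / (√2 * L)) * (d * E + 2 * y) ≤ (1 + η) / 2 := by
  have hs : 1 ≤ √2 := Real.one_le_sqrt.2 (by norm_num)
  have e : L / (Z * (2 * K * d)) * (K / (√2 * L)) * (d * E + 2 * y) =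
      (E / (√2 * Z) + 2 * y / Z / (√2 * d)) / 2 := by
    field_simp
  have h4 : E / (√2 * Z) ≤ 1 + 2 * θ := by
    have h5 := (abs_le.1 h1).1
    have h6 := (abs_nonneg _).trans h1
    rw [show E / (√2 * Z) = 1 / (E⁻¹ * (√2 * Z)) by field_simp, div_le_iff₀ (by positivity)]
    nlinarith
  have h5 : 2 * y / Z / (√2 * d) ≤ 2 * y / Z := div_le_self (by positivity) (by nlinarith)
  have h6 : 4 * y / Z = 2 * (2 * y / Z) := by ring
  rw [e]
  linarith

theorem link_bd (hb : 30 ≤ b) (hc : c.Good b) (hψ : ∀ x, HasDerivAt ψ (ψ' x) x)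
    (hψ' : Continuous ψ') (ha : a + 1 < c.ng) :
    c.tau b a * (c.K / (√2 * lamb b)) *
        (ψ (c.pos ((a + 1) * c.K)) - ψ (c.pos ((a + 1) * c.K - 1))) ^ 2 ≤
      (1 + 1 / PR b ^ 900) / 2 *
        c.En b ψ ψ' (c.pos ((a + 1) * c.K - 1)) (c.pos ((a + 1) * c.K)) := by
  have hψc : Continuous ψ := continuous_iff_continuousAt.2 fun x => (hψ x).continuousAt
  have hi : (a + 1) * c.K < c.n := hc.idx_lt ha hc.K_pos
  have h0 : (a + 1) * c.K ≠ 0 := (Nat.mul_pos a.succ_pos hc.K_pos).ne'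
  have hg := hc.pos_add (show (a + 1) * c.K - 1 < (a + 1) * c.K by omega) hi
  have hP := PR_pow_ge hb (k := 30) (by norm_num)
  have hle : (c.pos ((a + 1) * c.K - 1) : ℝ) ≤ c.pos ((a + 1) * c.K) := by linarith
  have h1 := link_le (c.expS_cont b) (fun _ => Real.exp_pos _) (DLowA_deriv b c hψ)
    (DLowA_cont b c hψc hψ') hle
  simp only [DLowA_sq, hc.DLowA_dot hb hi,
    hc.DLowA_dot hb (show (a + 1) * c.K - 1 < c.n by omega), mul_one] at h1
  have hE := En_nonneg b c ψ ψ' hle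
  have h2 := h1.trans (mul_le_mul_of_nonneg_right (hc.DLowA_link hb h0 hi) hE)
  obtain ⟨h3, -, h4⟩ := hc.tau_bd hb ha
  have hK := hc.K_le'.1
  have hL := (lamb_le hb).1
  have h5 := (hc.exp_pl hb ha.le).2.2 a.succ_ne_zero ha.ne
  rw [Real.exp_neg] at h5
  have h6 : 4 * PR b ^ 2800 / 2 ^ c.kw ≤ 1 / PR b ^ 900 := by
    have h7 := PR_div_le hb (c := 4) (by norm_num) (i := 2800) (j := 62800) (k := 0) (l := 900)
      (by norm_num)
    rw [pow_zero] at h7
    refine le_trans (div_le_div_of_nonneg_left (mul_pos four_pos (pow_pos (PR_pos b) _)).le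
      (pow_pos (PR_pos b) _) ?_) h7
    rw [← parb_pow]
    exact pow_le_pow_right₀ one_le_two hc.kw_ge
  have h7 := DLowA_num (K := c.K) (L := lamb b) (by linarith) (by linarith) (by positivity)
    (d := c.pos ((a + 1) * c.K) - c.pos ((a + 1) * c.K - 1) - 2) (by linarith) (Real.exp_pos _) h5
    ((parb_small hb (by norm_num)).trans (by norm_num))
    (by rw [mul_one_div]; exact PR_inv_le hb (by norm_num) (by norm_num))
    (pow_pos (PR_pos b) 2800).le h6
  rw [← h4] at h7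
  refine (mul_le_mul_of_nonneg_left h2 (by positivity)).trans ?_
  rw [← mul_assoc]
  exact mul_le_mul_of_nonneg_right h7 hE

theorem En_cells (hc : c.Good b) (hψ : Continuous ψ) (hψ' : Continuous ψ') :
    ∑ a ∈ range c.ng, c.En b ψ ψ' (c.mb b a) (c.mb b (a + 1)) =
      c.En b ψ ψ' (c.lo b) (c.hi b) := by
  rw [← hc.mb_lo, ← hc.mb_hi]
  exact intervalIntegral.sum_integral_adjacent_intervals (a := fun a => (c.mb b a : ℝ))
    fun _ _ => DLowA_int b c hψ hψ' _ _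

theorem n2_cells (hb : 30 ≤ b) (hc : c.Good b) (hψ : Continuous ψ) :
    ∑ a ∈ range c.ng, ∫ x in (c.mb b a : ℝ)..(c.mb b (a + 1) : ℝ), ψ x ^ 2 =
      ∫ x in c.I b, ψ x ^ 2 := by
  rw [Chain.I, integral_Icc_eq_integral_Ioc,
    ← intervalIntegral.integral_of_le (by linarith [(hc.lo_hi hb).2.1]), ← hc.mb_lo, ← hc.mb_hi]
  exact intervalIntegral.sum_integral_adjacent_intervals (a := fun a => (c.mb b a : ℝ))
    fun _ _ => (hψ.pow 2).intervalIntegrable _ _

theorem En_links (hb : 30 ≤ b) (hc : c.Good b) (hψ : Continuous ψ) (hψ' : Continuous ψ') :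
    ∑ a ∈ range (c.ng - 1), c.En b ψ ψ' (c.pos ((a + 1) * c.K - 1)) (c.pos ((a + 1) * c.K)) ≤
      c.En b ψ ψ' (c.lo b) (c.hi b) := by
  have hK := hc.K_pos
  have hw := (wd_bd hb).1
  have key : ∀ k < c.ng, ∑ a ∈ range k,
      c.En b ψ ψ' (c.pos ((a + 1) * c.K - 1)) (c.pos ((a + 1) * c.K)) ≤
        c.En b ψ ψ' (c.lo b) (c.pos (k * c.K)) := fun k hk => by
    induction k with
    | zero =>
      rw [sum_range_zero, zero_mul]
      exact En_nonneg b c ψ ψ' (by linarith [DGeo_lo b c])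
    | succ k ih =>
      have hi : (k + 1) * c.K < c.n := hc.idx_lt hk hc.K_pos
      have h1 := En_nonneg b c ψ ψ' (hc.pos_mono (i := k * c.K) (j := (k + 1) * c.K - 1)
        (by rw [add_mul]; omega) (by omega))
      rw [sum_range_succ, ← DLowA_add b c hψ hψ' (c.lo b) (c.pos ((k + 1) * c.K - 1)),
        ← DLowA_add b c hψ hψ' (c.lo b) (c.pos (k * c.K))]
      linarith [ih (by omega)]
  have hn : c.ng - 1 < c.ng := by have := hc.ng_pos; omega
  have hi : (c.ng - 1) * c.K < c.n := hc.idx_lt hn hc.K_pos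
  have h1 := hc.pos_mono (i := (c.ng - 1) * c.K) (j := c.n - 1) (by omega) (by omega)
  rw [← DLowA_add b c hψ hψ' _ (c.pos ((c.ng - 1) * c.K))]
  exact (key _ hn).trans (le_add_of_nonneg_right
    (En_nonneg b c ψ ψ' (by linarith [DGeo_hi b c])))

end Chain.Good

end Vale.Agent.P370
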