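import Vale.Agent.P370.DBd1
import Vale.Agent.P370.DUp
import Vale.Agent.P370.DDefs
import Vale.Agent.P370.DFub

/-! Part D: pointwise facts on the potential.

PLAN.  `sep` and `lo_hi` give `cut_other`, `Box_disj`, `out_or`.  `V0_in`: `Finset.sum_eq_single`,
`cut_one`.  `V0_out`: every term is `≥ 0`: outside the box one wall is `≥ 1` (`wall_ge`), and
`W0 = P ^ 300 ≥ 2 P ^ 222 + 1` (`v_abs`).  `V0_low`: each term is `≥ -(2 P ^ 222 + 1)`, `card_ι`.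
`min (z ^ 2) (128 ^ 2) = z ^ 2` for `|z| ≤ 64`, `≥ 64 ^ 2` otherwise; `omz = P ^ 1510`.
Supports: `cut_out`, `r_out`, `gt1_out`, `gtz_out`, `zeta_out`, `lo_hi`. -/

namespace Vale.Agent.P370

variable {b : ℕ} {ι S : Type} [Fintype ι] [Fintype S] {L : Lay ι S}

/-- the rectangle of cluster `i` -/
def Lay.Box (b : ℕ) (L : Lay ι S) (i : ι) : Set (ℝ × ℝ) := (L.cx i).I b ×ˢ (L.cy i).I b

theorem DPot_sep (hL : L.Good b) {i i' : ι} (h : i ≠ i') :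
    ((L.cx i).hi b : ℝ) + 9 ≤ (L.cx i').lo b - 9 ∨ ((L.cx i').hi b : ℝ) + 9 ≤ (L.cx i).lo b - 9 ∨
    ((L.cy i).hi b : ℝ) + 9 ≤ (L.cy i').lo b - 9 ∨
    ((L.cy i').hi b : ℝ) + 9 ≤ (L.cy i).lo b - 9 := by
  rcases hL.sep i i' h with h | h | h | h
  · exact Or.inl (by exact_mod_cast h)
  · exact Or.inr (Or.inl (by exact_mod_cast h))
  · exact Or.inr (Or.inr (Or.inl (by exact_mod_cast h)))
  · exact Or.inr (Or.inr (Or.inr (by exact_mod_cast h)))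

theorem DPot_lh (hb : 30 ≤ b) {c : Chain} (hc : c.Good b) : (c.lo b : ℝ) ≤ c.hi b := by
  have := (Chain.Good.lo_hi hb hc).2.1
  linarith

omit [Fintype ι] [Fintype S] in
theorem DPot_box {i : ι} {x y : ℝ} : (x, y) ∈ L.Box b i ↔
    (((L.cx i).lo b : ℝ) ≤ x ∧ x ≤ (L.cx i).hi b) ∧
      (((L.cy i).lo b : ℝ) ≤ y ∧ y ≤ (L.cy i).hi b) := Iff.rfl

theorem cut_other (hb : 30 ≤ b) (hL : L.Good b) {i i' : ι} (h : i ≠ i') {x y : ℝ}
    (hi : (x, y) ∈ L.Box b i) : (L.cx i').cut b x * (L.cy i').cut b y = 0 := by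
  obtain ⟨⟨h1, h2⟩, h3, h4⟩ := DPot_box.1 hi
  rcases DPot_sep hL h with h | h | h | h
  · rw [cut_out (DPot_lh hb (hL.gx i')) (Or.inl (by linarith)), zero_mul]
  · rw [cut_out (DPot_lh hb (hL.gx i')) (Or.inr (by linarith)), zero_mul]
  · rw [cut_out (c := L.cy i') (DPot_lh hb (hL.gy i')) (Or.inl (by linarith)), mul_zero]
  · rw [cut_out (c := L.cy i') (DPot_lh hb (hL.gy i')) (Or.inr (by linarith)), mul_zero]

theorem Box_disj (hb : 30 ≤ b) (hL : L.Good b) {i i' : ι} (h : i ≠ i') :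
    Disjoint (L.Box b i) (L.Box b i') := by
  rw [Set.disjoint_left]
  rintro ⟨x, y⟩ hi hi'
  have h0 := cut_other hb hL h hi
  obtain ⟨⟨h1, h2⟩, h3, h4⟩ := DPot_box.1 hi'
  rw [cut_one h1 h2, cut_one h3 h4, one_mul] at h0
  exact one_ne_zero h0

theorem out_or (hb : 30 ≤ b) (hL : L.Good b) {i i' : ι} (h : i ≠ i') (x y : ℝ) :
    ((L.cx i).Out b x ∨ (L.cy i).Out b y) ∨ ((L.cx i').Out b x ∨ (L.cy i').Out b y) := by
  have _ := hb
  unfold Chain.Out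
  rcases DPot_sep hL h with h | h | h | h
  · rcases le_total x (((L.cx i).hi b : ℝ) - 9) with h1 | h1
    · exact Or.inr (Or.inl (Or.inl (by linarith)))
    · exact Or.inl (Or.inl (Or.inr h1))
  · rcases le_total x (((L.cx i').hi b : ℝ) - 9) with h1 | h1
    · exact Or.inl (Or.inl (Or.inl (by linarith)))
    · exact Or.inr (Or.inl (Or.inr h1))
  · rcases le_total y (((L.cy i).hi b : ℝ) - 9) with h1 | h1
    · exact Or.inr (Or.inr (Or.inl (by linarith)))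
    · exact Or.inl (Or.inr (Or.inr h1))
  · rcases le_total y (((L.cy i').hi b : ℝ) - 9) with h1 | h1
    · exact Or.inl (Or.inr (Or.inl (by linarith)))
    · exact Or.inr (Or.inr (Or.inr h1))

theorem V0_in (hb : 30 ≤ b) (hL : L.Good b) {i : ι} {x y : ℝ} (hi : (x, y) ∈ L.Box b i) :
    L.V0 b x y = (L.cx i).v b x + (L.cy i).v b y +
      W0 b * ((L.cx i).wall b x + (L.cy i).wall b y) - 1 := by
  obtain ⟨⟨h1, h2⟩, h3, h4⟩ := DPot_box.1 hi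
  unfold Lay.V0
  rw [Finset.sum_eq_single i]
  · rw [cut_one h1 h2, cut_one h3 h4, one_mul, one_mul]
  · intro i' _ h
    rw [cut_other hb hL (Ne.symm h) hi, zero_mul]
  · intro h
    exact absurd (Finset.mem_univ i) h

theorem DPot_cc (hb : 30 ≤ b) (hL : L.Good b) (i : ι) (x y : ℝ) :
    0 ≤ (L.cx i).cut b x * (L.cy i).cut b y ∧ (L.cx i).cut b x * (L.cy i).cut b y ≤ 1 := by
  obtain ⟨h1, h2⟩ := cut_mem b (L.cx i) (DPot_lh hb (hL.gx i)) x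
  obtain ⟨h3, h4⟩ := cut_mem b (L.cy i) (DPot_lh hb (hL.gy i)) y
  exact ⟨mul_nonneg h1 h3, mul_le_one₀ h2 h3 h4⟩

theorem DPot_aux1 {p W u v s t : ℝ} (hp : 1 ≤ p) (hW : 3 * p ≤ W) (hu : |u| ≤ p) (hv : |v| ≤ p)
    (hst : 1 ≤ s + t) : 0 ≤ u + v + W * (s + t) - 1 := by
  have h1 := (abs_le.1 hu).1
  have h2 := (abs_le.1 hv).1
  have h3 : W * 1 ≤ W * (s + t) := mul_le_mul_of_nonneg_left hst (by linarith)
  linarith

theorem DPot_aux2 {p W u v s t k : ℝ} (hp : 1 ≤ p) (hW : 0 ≤ W) (hu : |u| ≤ p) (hv : |v| ≤ p)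
    (hs : 0 ≤ s) (ht : 0 ≤ t) (h0 : 0 ≤ k) (h1 : k ≤ 1) :
    -(3 * p) ≤ k * (u + v + W * (s + t) - 1) := by
  have h2 := (abs_le.1 hu).1
  have h3 := (abs_le.1 hv).1
  have h4 : 0 ≤ W * (s + t) := mul_nonneg hW (by linarith)
  have h5 : k * (-(3 * p)) ≤ k * (u + v + W * (s + t) - 1) :=
    mul_le_mul_of_nonneg_left (by linarith) h0
  have h6 : k * (3 * p) ≤ 1 * (3 * p) := mul_le_mul_of_nonneg_right h1 (by linarith)
  linarith

theorem V0_out (hb : 30 ≤ b) (hL : L.Good b) {x y : ℝ} (h : ∀ i, (x, y) ∉ L.Box b i) :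
    0 ≤ L.V0 b x y := by
  unfold Lay.V0
  refine Finset.sum_nonneg fun i _ => mul_nonneg (DPot_cc hb hL i x y).1 ?_
  have hw : 1 ≤ (L.cx i).wall b x + (L.cy i).wall b y := by
    have h1 := wall_nonneg b (L.cx i) x
    have h2 := wall_nonneg b (L.cy i) y
    have h3 := h i
    rw [DPot_box] at h3
    by_contra hc
    apply h3
    have h4 : ¬ (x ≤ (L.cx i).lo b ∨ ((L.cx i).hi b : ℝ) ≤ x) := fun h4 => by
      have := wall_ge h4
      exact hc (by linarith)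
    have h5 : ¬ (y ≤ (L.cy i).lo b ∨ ((L.cy i).hi b : ℝ) ≤ y) := fun h5 => by
      have := wall_ge h5
      exact hc (by linarith)
    rw [not_or, not_le, not_le] at h4 h5
    exact ⟨⟨h4.1.le, h4.2.le⟩, h5.1.le, h5.2.le⟩
  refine DPot_aux1 (one_le_pow₀ (PR_one b)) ?_ (Chain.Good.v_abs hb (hL.gx i) x)
    (Chain.Good.v_abs hb (hL.gy i) y) hw
  rw [W0_eq]
  exact PR_mul_le hb (by norm_num) (by norm_num)

theorem V0_low (hb : 30 ≤ b) (hL : L.Good b) (x y : ℝ) : -(PR b ^ 230) ≤ L.V0 b x y := by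
  have hW : (0 : ℝ) ≤ W0 b := by
    rw [W0_eq]
    exact (pow_pos (PR_pos b) _).le
  have h1 : ∑ _i : ι, -(3 * PR b ^ 222) ≤ L.V0 b x y := by
    unfold Lay.V0
    exact Finset.sum_le_sum fun i _ => DPot_aux2 (one_le_pow₀ (PR_one b)) hW
      (Chain.Good.v_abs hb (hL.gx i) x) (Chain.Good.v_abs hb (hL.gy i) y) (wall_nonneg _ _ _)
      (wall_nonneg _ _ _)
      (DPot_cc hb hL i x y).1 (DPot_cc hb hL i x y).2
  refine le_trans ?_ h1
  rw [Finset.sum_const, Finset.card_univ, nsmul_eq_mul, mul_neg, neg_le_neg_iff]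
  have hc : (Fintype.card ι : ℝ) ≤ PR b := by
    rw [← Pq_cast]
    exact_mod_cast hL.card_ι
  calc (Fintype.card ι : ℝ) * (3 * PR b ^ 222) ≤ PR b * (3 * PR b ^ 222) :=
        mul_le_mul_of_nonneg_right hc (mul_pos three_pos (pow_pos (PR_pos b) _)).le
    _ = 3 * PR b ^ (222 + 1) := by rw [pow_succ (PR b) 222, mul_comm, mul_assoc]
    _ ≤ PR b ^ 230 := PR_mul_le hb (by norm_num) (by norm_num)

theorem DPot_min {z : ℝ} (h : |z| ≤ 64) : min (z ^ 2) (128 ^ 2) = z ^ 2 := by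
  obtain ⟨h1, h2⟩ := abs_le.1 h
  exact min_eq_left (by nlinarith)

omit [Fintype S] in
theorem DPot_Vid {x : E3} (h : |x 2| ≤ 64) :
    L.Vid b x = zp b (x 2) + 1 + L.V0 b (x 0) (x 1) := by
  unfold Lay.Vid zp
  rw [DPot_min h, zeta_one h, one_mul]

theorem Vid_box (hb : 30 ≤ b) (hL : L.Good b) {i : ι} {x : E3} (h : x ∈ Col (L.Box b i) Iz) :
    (L.cx i).v b (x 0) + (L.cy i).v b (x 1) + zp b (x 2) ≤ L.Vid b x := by
  have hW : (0 : ℝ) ≤ W0 b := by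
    rw [W0_eq]
    exact (pow_pos (PR_pos b) _).le
  have h1 := mul_nonneg hW
    (add_nonneg (wall_nonneg b (L.cx i) (x 0)) (wall_nonneg b (L.cy i) (x 1)))
  rw [DPot_Vid (abs_le.2 h.2), V0_in hb hL h.1]
  linarith

theorem Vid_col (hb : 30 ≤ b) (hL : L.Good b) {x : E3} (h : ∀ i, (x 0, x 1) ∉ L.Box b i)
    (hz : x 2 ∈ Iz) : zp b (x 2) + 1 ≤ L.Vid b x := by
  have h1 := V0_out hb hL h
  rw [DPot_Vid (abs_le.2 hz)]
  linarith

theorem DPot_zV (hb : 30 ≤ b) (hL : L.Good b) (x y z : ℝ) :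
    -((omz b : ℝ) / 2) ≤ zeta z * L.V0 b x y := by
  obtain ⟨h1, h2⟩ := zeta_mem z
  have h3 : 2 * PR b ^ 230 ≤ (omz b : ℝ) := by
    rw [omz_eq]
    exact PR_mul_le hb (by norm_num) (by norm_num)
  have h4 := V0_low hb hL x y
  have h5 : (0 : ℝ) ≤ PR b ^ 230 := (pow_pos (PR_pos b) _).le
  generalize PR b ^ 230 = p at h3 h4 h5
  have h6 : zeta z * (-p) ≤ zeta z * L.V0 b x y := mul_le_mul_of_nonneg_left h4 h1
  have h7 : zeta z * p ≤ 1 * p := mul_le_mul_of_nonneg_right h2 h5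
  linarith

theorem DPot_omz (b : ℕ) : (1 : ℝ) ≤ omz b := by
  rw [omz_eq]
  exact one_le_pow₀ (PR_one b)

theorem Vid_far (hb : 30 ≤ b) (hL : L.Good b) {x : E3} (hz : x 2 ∉ Iz) : 1 ≤ L.Vid b x := by
  have h1 : (64 : ℝ) ^ 2 ≤ min (x 2 ^ 2) (128 ^ 2) := by
    refine le_min ?_ (by norm_num)
    have h2 : ¬ |x 2| ≤ 64 := fun h => hz (abs_le.1 h)
    rw [← sq_abs (x 2)]
    exact pow_le_pow_left₀ (by norm_num) (not_le.1 h2).le 2
  have h2 := DPot_zV hb hL (x 0) (x 1) (x 2)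
  have h3 := DPot_omz b
  unfold Lay.Vid
  generalize (omz b : ℝ) = w at h2 h3 ⊢
  generalize min (x 2 ^ 2) ((128 : ℝ) ^ 2) = m at h1 ⊢
  have h4 : w ^ 2 * 64 ^ 2 ≤ w ^ 2 * m := mul_le_mul_of_nonneg_left h1 (sq_nonneg w)
  have h5 : w ≤ w ^ 2 := by nlinarith
  linarith

theorem Vid_low' (hb : 30 ≤ b) (hL : L.Good b) (x : E3) : -(omz b : ℝ) ≤ L.Vid b x := by
  have h1 : (0 : ℝ) ≤ min (x 2 ^ 2) (128 ^ 2) := le_min (sq_nonneg _) (sq_nonneg _)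
  have h2 := DPot_zV hb hL (x 0) (x 1) (x 2)
  unfold Lay.Vid
  generalize (omz b : ℝ) = w at h2 ⊢
  generalize min (x 2 ^ 2) ((128 : ℝ) ^ 2) = m at h1 ⊢
  have h4 : 0 ≤ w ^ 2 * m := mul_nonneg (sq_nonneg w) h1
  linarith

/-- on the support of the smooth orbitals the potential is separable -/
theorem Vid_gt (hb : 30 ≤ b) (hL : L.Good b) {i : ι} {x : E3} (h0 : ¬(L.cx i).Out b (x 0))
    (h1 : ¬(L.cy i).Out b (x 1)) (h2 : |x 2| < 18) :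
    L.Vid b x = (L.cx i).v b (x 0) + (L.cy i).v b (x 1) + zp b (x 2) := by
  unfold Chain.Out at h0 h1
  rw [not_or, not_le, not_le] at h0 h1
  have hi : (x 0, x 1) ∈ L.Box b i :=
    DPot_box.2 ⟨⟨by linarith [h0.1], by linarith [h0.2]⟩, by linarith [h1.1], by linarith [h1.2]⟩
  rw [DPot_Vid (by linarith), V0_in hb hL hi, wall_zero h0.1.le h0.2.le,
    wall_zero h1.1.le h1.2.le]
  ring

theorem Ve_bd' (hb : 30 ≤ b) (hL : L.Good b) (x : E3) :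
    0 ≤ zeta (x 2) * L.Ve b (x 0) (x 1) ∧ zeta (x 2) * L.Ve b (x 0) (x 1) ≤ 1 / PR b ^ 62890 := by
  obtain ⟨h1, h2⟩ := zeta_mem (x 2)
  have hrr : ∀ σ, 0 ≤ (L.cx (L.cl σ)).r b (L.ax σ) (x 0) * (L.cy (L.cl σ)).r b (L.ay σ) (x 1) ∧
      (L.cx (L.cl σ)).r b (L.ax σ) (x 0) * (L.cy (L.cl σ)).r b (L.ay σ) (x 1) ≤ 1 := fun σ => by
    obtain ⟨h3, h4⟩ := Chain.Good.r_mem hb (hL.gx _) (hL.ax_lt σ) (x 0)
    obtain ⟨h5, h6⟩ := Chain.Good.r_mem hb (hL.gy _) (hL.ay_lt σ) (x 1)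
    exact ⟨mul_nonneg h3 h5, mul_le_one₀ h4 h5 h6⟩
  have he0 : ∀ σ, (0 : ℝ) ≤ L.eps σ := fun σ => by exact_mod_cast hL.eps_nonneg σ
  have he1 : ∀ σ, (L.eps σ : ℝ) ≤ 1 / PR b ^ 62900 := fun σ => by
    have h3 : ((L.eps σ : ℚ) : ℝ) ≤ ((1 / Pq b ^ 62900 : ℚ) : ℝ) := Rat.cast_le.2 (hL.eps_le σ)
    rwa [Rat.cast_div, Rat.cast_pow, Pq_cast, Rat.cast_one] at h3
  have h3 : 0 ≤ L.Ve b (x 0) (x 1) :=
    Finset.sum_nonneg fun σ _ => mul_nonneg (he0 σ) (hrr σ).1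
  refine ⟨mul_nonneg h1 h3, (mul_le_of_le_one_left h3 h2).trans ?_⟩
  have h4 : L.Ve b (x 0) (x 1) ≤ ∑ _σ : S, 1 / PR b ^ 62900 :=
    Finset.sum_le_sum fun σ _ => (mul_le_of_le_one_right (he0 σ) (hrr σ).2).trans (he1 σ)
  refine h4.trans ?_
  rw [Finset.sum_const, Finset.card_univ, nsmul_eq_mul, mul_one_div]
  have hc : (Fintype.card S : ℝ) ≤ 2 * PR b ^ 1 := by
    rw [pow_one, ← Pq_cast]
    exact_mod_cast hL.card_S
  have h5 := PR_div_le hb (c := 2) (by norm_num) (i := 1) (j := 62900) (k := 0) (l := 62890)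
    (by norm_num)
  rw [pow_zero] at h5
  exact (div_le_div_of_nonneg_right hc (pow_pos (PR_pos b) _).le).trans h5

theorem DPot_far (hb : 30 ≤ b) {c : Chain} (hc : c.Good b) {x : ℝ} (h : ¬ |x| ≤ PR b ^ 64) :
    x ≤ (c.lo b : ℝ) - 9 ∨ (c.hi b : ℝ) + 9 ≤ x := by
  obtain ⟨h1, -, h2, -⟩ := Chain.Good.lo_hi hb hc
  rcases lt_abs.1 (not_le.1 h) with h3 | h3
  · exact Or.inr (h2.trans h3.le)
  · exact Or.inl ((lt_neg.1 h3).le.trans h1)

theorem DPot_far' (hb : 30 ≤ b) {c : Chain} (hc : c.Good b) {x : ℝ} (h : ¬ |x| ≤ PR b ^ 64) :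
    x ≤ (c.lo b : ℝ) + 9 ∨ (c.hi b : ℝ) - 9 ≤ x := by
  rcases DPot_far hb hc h with h1 | h1
  · exact Or.inl (h1.trans (by linarith))
  · exact Or.inr (le_trans (by linarith) h1)

theorem Vloc_supp' (hb : 30 ≤ b) (hL : L.Good b) (x : E3) (h : L.VlocR b x ≠ 0) :
    |x 0| ≤ PR b ^ 64 ∧ |x 1| ≤ PR b ^ 64 ∧ |x 2| ≤ 73 := by
  unfold Lay.VlocR Lay.Vloc at h
  refine ⟨?_, ?_, ?_⟩
  · by_contra h1
    apply h
    have h2 : L.V0 b (x 0) (x 1) = 0 := Finset.sum_eq_zero fun i _ => by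
      rw [cut_out (DPot_lh hb (hL.gx i)) (DPot_far hb (hL.gx i) h1), zero_mul, zero_mul]
    have h3 : L.Ve b (x 0) (x 1) = 0 := Finset.sum_eq_zero fun σ _ => by
      rw [(Chain.Good.r_out hb (hL.gx _) (hL.ax_lt σ) (DPot_far' hb (hL.gx _) h1)).1, zero_mul, mul_zero]
    rw [h2, h3, add_zero, mul_zero]
  · by_contra h1
    apply h
    have h2 : L.V0 b (x 0) (x 1) = 0 := Finset.sum_eq_zero fun i _ => by
      rw [cut_out (DPot_lh hb (hL.gy i)) (DPot_far hb (hL.gy i) h1), mul_zero, zero_mul]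
    have h3 : L.Ve b (x 0) (x 1) = 0 := Finset.sum_eq_zero fun σ _ => by
      rw [(Chain.Good.r_out hb (hL.gy _) (hL.ay_lt σ) (DPot_far' hb (hL.gy _) h1)).1, mul_zero, mul_zero]
    rw [h2, h3, add_zero, mul_zero]
  · by_contra h1
    apply h
    rw [zeta_out (not_le.1 h1).le, zero_mul]

theorem gt_supp' (hb : 30 ≤ b) (hL : L.Good b) (σ : S) (x : E3) (h : L.gt3 b σ x ≠ 0) :
    x ∈ B0 b := by
  unfold Lay.gt3 at h
  refine ⟨?_, ?_, ?_⟩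
  · by_contra h1
    apply h
    rw [(Chain.Good.gt1_out hb (hL.gx _) (hL.ax_lt σ) (DPot_far' hb (hL.gx _) h1)).1, zero_mul, zero_mul]
  · by_contra h1
    apply h
    rw [(Chain.Good.gt1_out hb (hL.gy _) (hL.ay_lt σ) (DPot_far' hb (hL.gy _) h1)).1, mul_zero, zero_mul]
  · by_contra h1
    apply h
    rw [(gtz_out b (le_trans (by norm_num) (not_le.1 h1).le)).1, mul_zero]

end Vale.Agent.P370
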