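import Vale.Agent.P370.DBox
import Vale.Agent.P370.DPot

/-! Part D: the lower bound on `ℝ³`.

PLAN.  `split3`: the sets `Col (Box i) Iz`, `Col (⋃ i, Box i)ᶜ Iz`, `{x | x 2 ∉ Iz}` partition `E3`
(`integral_add_compl`, `integral_iUnion_fintype` or `integral_finset_biUnion`, `Box_disj`).  Apply it to the
energy density and to `ψ ^ 2`; on each piece `setIntegral_mono_on` with `Vid_box`, `Vid_col`, `Vid_far`
(`Test1.int_sq`, `Test1.int_grad`), then `box_low`, `col_low`.  `coef (g3) ψ σ = cf (cl σ) (ax σ, ay σ)` by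
`rfl`; `qf_T0`, `sum_sites`. -/

namespace Vale.Agent.P370

open MeasureTheory

variable {b : ℕ} {ι S : Type} [Fintype ι] [Fintype S] [DecidableEq ι] {L : Lay ι S}

theorem dl_Iz : MeasurableSet Iz := measurableSet_Icc

omit [Fintype ι] [Fintype S] [DecidableEq ι] in
theorem dl_Box (b : ℕ) (L : Lay ι S) (i : ι) : MeasurableSet (L.Box b i) :=
  measurableSet_Icc.prod measurableSet_Icc

omit [DecidableEq ι] in
theorem split3 (hb : 30 ≤ b) (hL : L.Good b) {f : E3 → ℝ} (hf : Integrable f) :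
    ∫ x, f x = ∑ i, (∫ x in Col (L.Box b i) Iz, f x) + (∫ x in Col (⋃ i, L.Box b i)ᶜ Iz, f x) +
      ∫ x in {x : E3 | x 2 ∉ Iz}, f x := by
  have hU : MeasurableSet (⋃ i, L.Box b i) := MeasurableSet.iUnion (dl_Box b L)
  have h1 : MeasurableSet {x : E3 | x 2 ∈ Iz} := measurable_pi_apply 2 dl_Iz
  have e1 : {x : E3 | x 2 ∈ Iz} = (⋃ i, Col (L.Box b i) Iz) ∪ Col (⋃ i, L.Box b i)ᶜ Iz := by
    ext x
    simp only [Col, Set.mem_ofPred_eq, Set.mem_union, Set.mem_iUnion, Set.mem_compl_iff,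
      exists_and_right]
    tauto
  have d1 : Disjoint (⋃ i, Col (L.Box b i) Iz) (Col (⋃ i, L.Box b i)ᶜ Iz) := by
    rw [Set.disjoint_left]
    intro x hx hx'
    obtain ⟨i, hi⟩ := Set.mem_iUnion.1 hx
    exact hx'.1 (Set.mem_iUnion.2 ⟨i, hi.1⟩)
  rw [← integral_add_compl h1 hf]
  congr 1
  rw [e1, setIntegral_union d1 (Col_meas hU.compl dl_Iz) hf.integrableOn hf.integrableOn,
    integral_iUnion_fintype (fun i => Col_meas (dl_Box b L i) dl_Iz)
      (fun i i' h => Set.disjoint_left.2 fun x hx hx' =>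
        Set.disjoint_left.1 (Box_disj hb hL h) hx.1 hx'.1) fun _ => hf.integrableOn]

theorem ideal_lower (hb : 30 ≤ b) (hL : L.Good b) {ψ : E3 → ℝ} (hψ : Test1 ψ) :
    qf (fun σ σ' => (L.T0 b σ σ' : ℝ)) (coef (L.g3 b) ψ) - 1 / PR b ^ 63042 * n2 ψ +
      1 / PR b ^ 3012 * (n2 ψ - ∑ σ, coef (L.g3 b) ψ σ ^ 2) ≤ form1 (L.Vid b) ψ ψ := by
  have hP := PR_pos b
  have hU : MeasurableSet (⋃ i, L.Box b i) := MeasurableSet.iUnion (dl_Box b L)
  have i0 : Integrable fun x => ψ x ^ 2 := by simpa using hψ.int_sq (V := fun _ => 1) continuous_const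
  have ik : Integrable fun x => 1 / 2 * ∑ k, grad ψ x k ^ 2 :=
    (integrable_finsetSum _ fun k _ => hψ.int_grad k).const_mul _
  have iE : ∀ {V : E3 → ℝ}, Continuous V →
      Integrable fun x => 1 / 2 * ∑ k, grad ψ x k ^ 2 + V x * ψ x ^ 2 :=
    fun hV => ik.add (hψ.int_sq hV)
  have hk : ∀ x, 0 ≤ 1 / 2 * ∑ k, grad ψ x k ^ 2 := fun x => by positivity
  have eF : form1 (L.Vid b) ψ ψ = ∫ x, (1 / 2 * ∑ k, grad ψ x k ^ 2 + L.Vid b x * ψ x ^ 2) := by
    simp only [form1, pow_two]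
  have ec : coef (L.g3 b) ψ =
      fun σ => cf b (L.cx (L.cl σ)) (L.cy (L.cl σ)) ψ (L.ax σ, L.ay σ) := rfl
  have b1 : ∀ i, _ ≤ ∫ x in Col (L.Box b i) Iz,
      (1 / 2 * ∑ k, grad ψ x k ^ 2 + L.Vid b x * ψ x ^ 2) := fun i =>
    (box_low hb (hL.gx i) (hL.gy i) hψ).trans (setIntegral_mono_on
      (iE ((((L.cx i).v_cont b).comp (continuous_apply 0)).add
        (((L.cy i).v_cont b).comp (continuous_apply 1)) |>.add
        ((zp_cont b).comp (continuous_apply 2)))).integrableOn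
      (iE (Vid_cont' b L)).integrableOn (Col_meas (dl_Box b L i) dl_Iz) fun x hx =>
        add_le_add le_rfl (mul_le_mul_of_nonneg_right (Vid_box hb hL hx) (sq_nonneg _)))
  have b2 : -(1 / PR b ^ 63100) * (∫ x in Col (⋃ i, L.Box b i)ᶜ Iz, ψ x ^ 2) +
      (∫ x in Col (⋃ i, L.Box b i)ᶜ Iz, ψ x ^ 2) ≤ ∫ x in Col (⋃ i, L.Box b i)ᶜ Iz,
      (1 / 2 * ∑ k, grad ψ x k ^ 2 + L.Vid b x * ψ x ^ 2) := by
    have j1 : Integrable fun x => grad ψ x 2 ^ 2 / 2 + zp b (x 2) * ψ x ^ 2 :=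
      ((hψ.int_grad 2).div_const _).add (hψ.int_sq ((zp_cont b).comp (continuous_apply 2)))
    refine (add_le_add (col_low hb hψ _) le_rfl).trans ?_
    rw [← integral_add j1.integrableOn i0.integrableOn]
    refine setIntegral_mono_on (j1.add i0).integrableOn (iE (Vid_cont' b L)).integrableOn
      (Col_meas hU.compl dl_Iz) fun x hx => ?_
    have k1 := mul_le_mul_of_nonneg_right (Vid_col hb hL
      (fun i hi => hx.1 (Set.mem_iUnion.2 ⟨i, hi⟩)) hx.2) (sq_nonneg (ψ x))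
    rw [Fin.sum_univ_three]
    nlinarith [sq_nonneg (grad ψ x 0), sq_nonneg (grad ψ x 1)]
  have hz : MeasurableSet {x : E3 | x 2 ∉ Iz} :=
    (measurable_pi_apply (X := fun _ : Fin 3 => ℝ) 2 dl_Iz).compl
  have b3 : ∫ x in {x : E3 | x 2 ∉ Iz}, ψ x ^ 2 ≤ ∫ x in {x : E3 | x 2 ∉ Iz},
      (1 / 2 * ∑ k, grad ψ x k ^ 2 + L.Vid b x * ψ x ^ 2) :=
    setIntegral_mono_on i0.integrableOn (iE (Vid_cont' b L)).integrableOn
      hz fun x hx => by
        have k1 := mul_le_mul_of_nonneg_right (Vid_far hb hL hx) (sq_nonneg (ψ x))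
        linarith [hk x]
  have s1 := Finset.sum_le_sum fun i (_ : i ∈ Finset.univ) => b1 i
  have p2 : 0 ≤ ∫ x in Col (⋃ i, L.Box b i)ᶜ Iz, ψ x ^ 2 := integral_nonneg fun _ => sq_nonneg _
  have p3 : 0 ≤ ∫ x in {x : E3 | x 2 ∉ Iz}, ψ x ^ 2 := integral_nonneg fun _ => sq_nonneg _
  have q1 : 1 / PR b ^ 63100 ≤ 1 / PR b ^ 63042 := PR_inv_le hb (by norm_num) (by norm_num)
  have q2 : 1 / PR b ^ 3012 ≤ 1 := div_le_one_of_le₀ (one_le_pow₀ (PR_one b)) (by positivity)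
  have q3 : 0 ≤ 1 / PR b ^ 63042 := by positivity
  rw [eF, split3 hb hL (iE (Vid_cont' b L)), n2, split3 hb hL i0, ec,
    qf_T0 hL fun i p => cf b (L.cx i) (L.cy i) ψ p,
    sum_sites hL fun i p => cf b (L.cx i) (L.cy i) ψ p ^ 2]
  simp only [Finset.sum_add_distrib, Finset.sum_sub_distrib, ← Finset.mul_sum] at s1
  have r1 := mul_le_mul_of_nonneg_right q1 p2
  have r2 := mul_le_mul_of_nonneg_right q2 p2
  have r3 := mul_le_mul_of_nonneg_right q2 p3
  have r4 := mul_nonneg q3 p3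
  simp only [Lay.st, Lay.Box] at *
  linarith

end Vale.Agent.P370
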