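import Vale.Agent.P370.DGeo

/-! Part D: the shape of `S`.

PLAN.  Use `WShape.lean` (`sig_*`, `Chain.S_loc`, `exists_near`, `exists_loc`, `S_core`, `mb_le`, `le_mb`).
`sig_mono`: for `0 ≤ ξ ≤ ξ' ≤ 1 + 9 ϱ`, with `θ ≤ θ'` in `[0, 1]` and `ξ ^ 2 / 2 ≤ 1 ≤ pr`,
`ξ ^ 2 / 2 + (pr - ξ ^ 2 / 2) θ ≤ ξ ^ 2 / 2 (1 - θ') + pr θ'`; for `ξ' ≥ 1 + 9 ϱ` the right side is `pr`.
Hence `sig ≤ pr` for `ξ ≥ 0` and `sig ≤ pl` for `ξ ≤ 0`.
`S_mid`: take `i` from `exists_near`; it lies in the group; the side of dot `i` on which `x` lies has an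
inner plateau (`pl_in`) unless `x` is the first or last dot.  `S_between`: left of the first dot `S` is
antitone on the cell (`S_loc` with the first dot, `le_mb`), right of the last dot monotone (`S_loc` with
the last dot, `mb_le`, or `mb_mid`), in the middle `≤ om`.
`S1_out`: termwise, `half1`, `half2` (`sp_zero`, `sp9_one`, `sp_nine`). -/

namespace Vale.Agent.P370

open Set

variable {b : ℕ} {c : Chain}

section

variable {ϱ pl pr ξ ξ' : ℝ}

theorem sig_neg (ϱ pl pr ξ : ℝ) : sig ϱ pl pr (-ξ) = sig ϱ pr pl ξ := by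
  rw [sig, sig, neg_neg, neg_sq]
  ring

theorem sig_mono (h0 : 0 < ϱ) (h1 : ϱ ≤ 1 / 1000) (hp : 1 ≤ pr) (h : 0 ≤ ξ) (h' : ξ ≤ ξ') :
    sig ϱ pl pr ξ ≤ sig ϱ pl pr ξ' := by
  by_cases c1 : 1 + 9 * ϱ ≤ ξ
  · rw [sig_right h0 c1, sig_right h0 (c1.trans h')]
  have h2 : ξ ^ 2 / 2 ≤ pr := by nlinarith
  have h3 : sp 9 ((ξ - 1) / ϱ) ≤ sp 9 ((ξ' - 1) / ϱ) :=
    sp9_mono (div_le_div_of_nonneg_right (by linarith) h0.le)
  have h4 := sp9_le_one ((ξ' - 1) / ϱ)
  by_cases c2 : 1 + 9 * ϱ ≤ ξ'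
  · rw [sig_right h0 c2, sig, half_zero (ξ := -ξ) h0 (by linarith), half]
    nlinarith [mul_nonneg (sub_nonneg.2 h2) (sub_nonneg.2 (h3.trans h4))]
  · have h5 : ξ ^ 2 ≤ ξ' ^ 2 := pow_le_pow_left₀ h h' 2
    rw [sig, sig, half_zero (ξ := -ξ) h0 (by linarith), half_zero (ξ := -ξ') h0 (by linarith),
      half, half]
    nlinarith [mul_nonneg (sub_nonneg.2 h2) (sub_nonneg.2 h3),
      mul_nonneg (sub_nonneg.2 h5) (sub_nonneg.2 h4)]

theorem DS_anti (h0 : 0 < ϱ) (h1 : ϱ ≤ 1 / 1000) (hp : 1 ≤ pl) (h : ξ' ≤ 0) (h' : ξ ≤ ξ') :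
    sig ϱ pl pr ξ' ≤ sig ϱ pl pr ξ := by
  rw [← sig_neg ϱ pr pl ξ', ← sig_neg ϱ pr pl ξ]
  exact sig_mono h0 h1 hp (by linarith) (by linarith)

theorem DS_le_right (h0 : 0 < ϱ) (h1 : ϱ ≤ 1 / 1000) (hp : 1 ≤ pr) (h : 0 ≤ ξ) :
    sig ϱ pl pr ξ ≤ pr :=
  (sig_mono h0 h1 hp h (le_max_left ξ (1 + 9 * ϱ))).trans_eq (sig_right h0 (le_max_right _ _))

theorem DS_le_left (h0 : 0 < ϱ) (h1 : ϱ ≤ 1 / 1000) (hp : 1 ≤ pl) (h : ξ ≤ 0) :
    sig ϱ pl pr ξ ≤ pl := by
  rw [← sig_neg ϱ pr pl ξ]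
  exact DS_le_right h0 h1 hp (by linarith)

theorem DS_half_zero (h : 0 < ϱ) (hξ : ξ ≤ 1) : half1 ϱ pl ξ = 0 ∧ half2 ϱ pl ξ = 0 := by
  have h1 : (ξ - 1) / ϱ ≤ 0 := div_nonpos_of_nonpos_of_nonneg (by linarith) h.le
  rw [half1, half2, sp_zero (k := 9) (by norm_num) h1, sp_zero (k := 8) (by norm_num) h1,
    sp_zero (k := 7) (by norm_num) h1]
  constructor <;> simp

theorem DS_half_full (h : 0 < ϱ) (hξ : 1 + 9 * ϱ ≤ ξ) : half1 ϱ pl ξ = -ξ ∧ half2 ϱ pl ξ = -1 := by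
  have h1 : 9 ≤ (ξ - 1) / ϱ := by rw [le_div_iff₀ h]; linarith
  rw [half1, half2, sp9_one h1, sp_nine (k := 8) (by norm_num) h1,
    sp_nine (k := 7) (by norm_num) h1]
  constructor <;> simp

end

namespace Chain.Good

theorem S_mem (hb : 30 ≤ b) (hc : c.Good b) (x : ℝ) : 0 ≤ c.S b x ∧ c.S b x ≤ 64 * om b := by
  refine ⟨hc.S_nonneg hb x, ?_⟩
  obtain ⟨i, -, e⟩ := hc.exists_loc hb x
  have h0 := rho_bd hb
  have h1 := (om_le hb).1
  rw [e, mul_comm]
  refine mul_le_mul_of_nonneg_right ?_ (by linarith)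
  rcases le_total 0 (x - c.pos i) with h | h
  · exact (DS_le_right h0.1 h0.2 (hc.pl_bd hb _).1 h).trans (hc.pl_bd hb _).2
  · exact (DS_le_left h0.1 h0.2 (hc.pl_bd hb _).1 h).trans (hc.pl_bd hb _).2

theorem S_plateau (hb : 30 ≤ b) (hc : c.Good b) {i : ℕ} (hi : i ≤ c.n) {x : ℝ}
    (h1 : i ≠ 0 → (c.pos (i - 1) : ℝ) + wd b ≤ x) (h2 : i ≠ c.n → x ≤ (c.pos i : ℝ) - wd b) :
    c.S b x = om b * c.pl b i := by
  have h0 := (rho_bd hb).1
  have hn := hc.n_pos
  have hw := wd_cast b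
  rcases hi.eq_or_lt with e | e
  · have h3 := h1 (by omega)
    rw [S_loc hb (i := i - 1) (by omega)
      (fun j hj => by linarith [hc.pos_mono (i := j) (j := i - 1) hj.le (by omega)])
      (fun j hj hj' => by omega), sig_right h0 (by linarith), show i - 1 + 1 = i by omega]
  · have h3 := h2 e.ne
    rw [S_loc hb e
      (fun j hj => by
        linarith [h1 (by omega), hc.pos_mono (i := j) (j := i - 1) (by omega) (by omega)])
      (fun j hj hj' => by linarith [hc.pos_mono hj.le hj']), sig_left h0 (by linarith)]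

theorem S_ramp (hb : 30 ≤ b) (hc : c.Good b) {a : ℕ} (ha : a ≤ c.ng) {x : ℝ}
    (h1 : (c.al b a : ℝ) ≤ x) (h2 : x ≤ c.be b a + 9 * rho b) :
    c.S b x = om b * c.pl b (a * c.K) := by
  have h3 := hc.ramp_in ha
  refine hc.S_plateau hb (Nat.mul_le_mul_right _ ha) (fun h => ?_) fun h => ?_
  · rw [← h3.1 (by rintro rfl; simp at h)]
    exact h1
  · rw [← h3.2 (by rintro rfl; exact h rfl)]
    exact h2

theorem S_link (hb : 30 ≤ b) (hc : c.Good b) {i : ℕ} (h0 : i ≠ 0) (hi : i < c.n) {x : ℝ}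
    (h1 : (c.pos (i - 1) : ℝ) ≤ x) (h2 : x ≤ c.pos i) : c.S b x ≤ om b * c.pl b i := by
  have hr := rho_bd hb
  have h3 := PR_pow_ge hb (k := 30) (by norm_num)
  have h4 := (wd_bd hb).2
  have h5 := (om_le hb).1
  have h6 := hc.pos_add (i := i - 1) (by omega) hi
  rcases le_total x (c.pos (i - 1) + 2) with h | h
  · rw [S_loc hb (i := i - 1) (by omega)
      (fun j hj => by linarith [hc.pos_add (i := j) (j := i - 1) hj (by omega)])
      (fun j hj hj' => by linarith [hc.pos_mono (i := i) (j := j) (by omega) hj']),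
      show i - 1 + 1 = i by omega]
    exact mul_le_mul_of_nonneg_left (DS_le_right hr.1 hr.2 (hc.pl_bd hb _).1 (by linarith))
      (by linarith)
  · rw [S_loc hb hi
      (fun j hj => by linarith [hc.pos_mono (i := j) (j := i - 1) (by omega) (by omega)])
      (fun j hj hj' => by linarith [hc.pos_add hj hj'])]
    exact mul_le_mul_of_nonneg_left (DS_le_left hr.1 hr.2 (hc.pl_bd hb _).1 (by linarith))
      (by linarith)

theorem DS_mid (hb : 30 ≤ b) (hc : c.Good b) {a : ℕ} (ha : a < c.ng) {x : ℝ}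
    (h1 : (c.pos (a * c.K) : ℝ) ≤ x) (m : ℕ) (hm : m < c.K) (h2 : x ≤ c.pos (a * c.K + m)) :
    c.S b x ≤ om b := by
  induction m with
  | zero =>
    have e : x - c.pos (a * c.K + 0) = 0 := by
      rw [add_zero] at h2 ⊢
      linarith
    rw [hc.S_core hb (hc.idx_lt ha hm) (by rw [e]; simp), e]
    have := (om_le hb).1
    nlinarith
  | succ m ih =>
    rcases le_total x (c.pos (a * c.K + m)) with h | h
    · exact ih (by omega) h
    · have h3 := hc.S_link hb (i := a * c.K + (m + 1)) (by omega) (hc.idx_lt ha hm) h h2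
      rw [hc.pl_in ha (by omega) hm] at h3
      simpa using h3

theorem S_mid (hb : 30 ≤ b) (hc : c.Good b) {a : ℕ} (ha : a < c.ng) {x : ℝ}
    (h1 : (c.pos (a * c.K) : ℝ) ≤ x) (h2 : x ≤ c.pos (a * c.K + (c.K - 1))) :
    c.S b x ≤ om b :=
  hc.DS_mid hb ha h1 _ (by have := hc.K_pos; omega) h2

theorem S_between (hb : 30 ≤ b) (hc : c.Good b) {a j : ℕ} (ha : a < c.ng) (hj : j < c.K) {x t : ℝ}
    (hx : x ∈ Icc (c.mb b a : ℝ) (c.mb b (a + 1))) (ht : t ∈ uIcc x (c.pos (a * c.K + j))) :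
    c.S b t ≤ max (om b : ℝ) (c.S b x) := by
  have hr := rho_bd hb
  have h3 := PR_pow_ge hb (k := 30) (by norm_num)
  have h4 := (wd_bd hb).2
  have h5 := (om_le hb).1
  have i0 : a * c.K < c.n := hc.idx_lt ha (j := 0) (by omega)
  have i1 : a * c.K + (c.K - 1) < c.n := hc.idx_lt ha (by omega)
  have p0 := hc.pos_mono (i := a * c.K) (Nat.le_add_right _ j) (hc.idx_lt ha hj)
  have p1 := hc.pos_mono (i := a * c.K + j) (j := a * c.K + (c.K - 1)) (by omega) i1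
  rw [mem_uIcc] at ht
  by_cases c0 : t < c.pos (a * c.K)
  · have hxt : x ≤ t := by rcases ht with h | h <;> linarith [h.1, h.2]
    have key : ∀ y : ℝ, (c.mb b a : ℝ) ≤ y → y ≤ c.pos (a * c.K) → c.S b y = om b *
        sig (rho b) (c.pl b (a * c.K)) (c.pl b (a * c.K + 1)) (y - c.pos (a * c.K)) :=
      fun y y0 y1 => S_loc hb i0 (fun j hj => by linarith [hc.le_mb hb ha.le hj])
        fun j hj hj' => by linarith [hc.pos_add hj hj']
    refine le_max_of_le_right ?_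
    rw [key t (by linarith [hx.1]) c0.le, key x hx.1 (by linarith)]
    exact mul_le_mul_of_nonneg_left
      (DS_anti hr.1 hr.2 (hc.pl_bd hb _).1 (by linarith) (by linarith)) (by linarith)
  by_cases c1 : (c.pos (a * c.K + (c.K - 1)) : ℝ) < t
  · have hxt : t ≤ x := by rcases ht with h | h <;> linarith [h.1, h.2]
    have key : ∀ y : ℝ, (c.pos (a * c.K + (c.K - 1)) : ℝ) ≤ y → y ≤ c.mb b (a + 1) →
        c.S b y = om b * sig (rho b) (c.pl b (a * c.K + (c.K - 1)))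
          (c.pl b (a * c.K + (c.K - 1) + 1)) (y - c.pos (a * c.K + (c.K - 1))) :=
      fun y y0 y1 => S_loc hb i1 (fun j hj => by linarith [hc.pos_add hj i1])
        fun j hj hj' => by
          linarith [hc.mb_le hb (a := a + 1) hj' (by rw [add_mul, one_mul]; omega)]
    refine le_max_of_le_right ?_
    rw [key t c1.le (by linarith [hx.2]), key x (by linarith) hx.2]
    exact mul_le_mul_of_nonneg_left
      (sig_mono hr.1 hr.2 (hc.pl_bd hb _).1 (by linarith) (by linarith)) (by linarith)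
  exact le_max_of_le_left (hc.S_mid hb ha (not_lt.1 c0) (not_lt.1 c1))

theorem S1_out (hb : 30 ≤ b) (hc : c.Good b) {x : ℝ}
    (h : x ≤ (c.lo b : ℝ) + 18 ∨ (c.hi b : ℝ) - 18 ≤ x) : c.S1 b x = 0 ∧ c.S2 b x = 0 := by
  have h0 := (rho_bd hb).1
  have hw := wd_cast b
  have key : ∀ i ∈ Finset.range c.n,
      (x - c.pos i) + half1 (rho b : ℝ) (c.pl b (i + 1)) (x - c.pos i) -
        half1 (rho b : ℝ) (c.pl b i) (-(x - c.pos i)) = 0 ∧
      1 + half2 (rho b : ℝ) (c.pl b (i + 1)) (x - c.pos i) +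
        half2 (rho b : ℝ) (c.pl b i) (-(x - c.pos i)) = 0 := by
    intro i hi
    rw [Finset.mem_range] at hi
    rcases h with h | h
    · rw [lo] at h
      push_cast at h
      have h1 := hc.pos_mono (Nat.zero_le i) hi
      have h2 := DS_half_zero (pl := c.pl b (i + 1)) (ξ := x - c.pos i) h0 (by linarith)
      have h3 := DS_half_full (pl := c.pl b i) (ξ := -(x - c.pos i)) h0 (by linarith)
      rw [h2.1, h2.2, h3.1, h3.2]
      constructor <;> ring
    · rw [Chain.hi] at h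
      push_cast at h
      have h1 := hc.pos_mono (i := i) (j := c.n - 1) (by omega) (by omega)
      have h2 := DS_half_full (pl := c.pl b (i + 1)) (ξ := x - c.pos i) h0 (by linarith)
      have h3 := DS_half_zero (pl := c.pl b i) (ξ := -(x - c.pos i)) h0 (by linarith)
      rw [h2.1, h2.2, h3.1, h3.2]
      constructor <;> ring
  rw [S1, S2, Finset.sum_eq_zero fun i hi => (key i hi).1,
    Finset.sum_eq_zero fun i hi => (key i hi).2, mul_zero]
  exact ⟨rfl, rfl⟩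

end Chain.Good

end Vale.Agent.P370
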