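import Vale.Agent.P370.DTenA

/-! Part D: lower bounds for slices give a lower bound on a product space.

PLAN.  `tensor`: put `α a y = ∫ e a x * Φ (x, y) ∂μ`, `β k x = ∫ f k y * Φ (x, y) ∂ν`,
`C a k = ∫ e a p.1 * f k p.2 * Φ p = ∫ f k y * α a y ∂ν = ∫ e a x * β k x ∂μ` (`integral_prod`,
`integral_prod_symm`).  Integrate the two hypotheses.
(1) `∑ k, ∑ a a', C a k * T a a' * C a' k ≤ ∫ ∑ a a', α a y * T a a' * α a' y`: apply `PSD` to the vector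
`α a y - ∑ k, f k y * C a k`, integrate in `y`, use `ON.gram`.  The same for the other factor.
(2) `∑ a, ∫ (α a) ^ 2 - ∑ a k, C a k ^ 2 ≤ ∫ Φ ^ 2 - ∑ k, ∫ (β k) ^ 2`: Bessel in `x` for
`R (x, y) = Φ (x, y) - ∑ k, f k y * β k x`, integrate in `y`, `ON.gram` on both sides. -/

namespace Vale.Agent.P370

open MeasureTheory Finset

variable {X Y A B : Type} [MeasurableSpace X] [MeasurableSpace Y] [DecidableEq A] [DecidableEq B]
  {μ : Measure X} {ν : Measure Y} [IsFiniteMeasure μ] [IsFiniteMeasure ν]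
  {s : Finset A} {t : Finset B} {e : A → X → ℝ} {f : B → Y → ℝ} {T : A → A → ℝ}
  {T' : B → B → ℝ}

theorem DTenB_psd (hf : ON ν t f) (hT : PSD s T) {α : A → Y → ℝ} (hα : ∀ a ∈ s, BM (α a)) :
    ∑ k ∈ t, ∑ a ∈ s, ∑ a' ∈ s, (∫ y, f k y * α a y ∂ν) * T a a' * (∫ y, f k y * α a' y ∂ν) ≤
      ∫ y, ∑ a ∈ s, ∑ a' ∈ s, α a y * T a a' * α a' y ∂ν := by
  have hr : ∀ a ∈ s, BM fun y => α a y - ∑ k ∈ t, f k y * ∫ z, f k z * α a z ∂ν := fun a ha =>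
    (hα a ha).sub (BM.sum t fun k hk => (hf.1 k hk).mul (BM.const _))
  have key : ∀ r : A → Y → ℝ, (∀ a ∈ s, BM (r a)) →
      ∫ y, ∑ a ∈ s, ∑ a' ∈ s, r a y * T a a' * r a' y ∂ν =
        ∑ a ∈ s, ∑ a' ∈ s, T a a' * ∫ y, r a y * r a' y ∂ν := by
    intro r h
    rw [integral_finsetSum]
    · refine Finset.sum_congr rfl fun a ha => ?_
      rw [integral_finsetSum]
      · refine Finset.sum_congr rfl fun a' ha' => ?_
        rw [← integral_const_mul]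
        congr 1
        funext y
        ring
      · exact fun a' ha' => (((h a ha).mul (BM.const _)).mul (h a' ha')).int ν
    · exact fun a ha =>
        (BM.sum s fun a' ha' => ((h a ha).mul (BM.const _)).mul (h a' ha')).int ν
  have h0 : 0 ≤ ∫ y, ∑ a ∈ s, ∑ a' ∈ s,
      (α a y - ∑ k ∈ t, f k y * ∫ z, f k z * α a z ∂ν) * T a a' *
        (α a' y - ∑ k ∈ t, f k y * ∫ z, f k z * α a' z ∂ν) ∂ν :=
    integral_nonneg fun y => hT fun a => α a y - ∑ k ∈ t, f k y * ∫ z, f k z * α a z ∂ν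
  rw [key _ hr] at h0
  rw [key α hα]
  have h1 : ∑ a ∈ s, ∑ a' ∈ s, T a a' * ∫ y,
      (α a y - ∑ k ∈ t, f k y * ∫ z, f k z * α a z ∂ν) *
        (α a' y - ∑ k ∈ t, f k y * ∫ z, f k z * α a' z ∂ν) ∂ν =
      ∑ a ∈ s, ∑ a' ∈ s, T a a' * ∫ y, α a y * α a' y ∂ν -
        ∑ k ∈ t, ∑ a ∈ s, ∑ a' ∈ s,
          (∫ y, f k y * α a y ∂ν) * T a a' * (∫ y, f k y * α a' y ∂ν) := by
    rw [Finset.sum_comm (s := t), ← Finset.sum_sub_distrib]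
    refine Finset.sum_congr rfl fun a ha => ?_
    rw [Finset.sum_comm (s := t), ← Finset.sum_sub_distrib]
    refine Finset.sum_congr rfl fun a' ha' => ?_
    rw [hf.gram (hα a ha) (hα a' ha'), mul_sub, Finset.mul_sum]
    congr 1
    exact Finset.sum_congr rfl fun k _ => by ring
  rw [h1] at h0
  linarith

theorem DTenB_al (he : ON μ s e) {Φ : X × Y → ℝ} (hΦ : BM Φ) :
    ∀ a ∈ s, BM fun y => ∫ x, e a x * Φ (x, y) ∂μ := fun a ha =>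
  BM.slice_l (Φ := fun z => e a z.1 * Φ z) (((he.1 a ha).comp measurable_fst).mul hΦ) μ

theorem DTenB_int (he : ON μ s e) {η Γ : ℝ} {Φ ε : X × Y → ℝ} (hΦ : BM Φ) (hε : BM ε)
    (h1 : ∀ y, SL μ s e T η Γ (fun x => Φ (x, y)) fun x => ε (x, y)) :
    ∫ y, ∑ a ∈ s, ∑ a' ∈ s, (∫ x, e a x * Φ (x, y) ∂μ) * T a a' * (∫ x, e a' x * Φ (x, y) ∂μ) ∂ν -
      η * ∫ y, ∫ x, Φ (x, y) ^ 2 ∂μ ∂ν + Γ * (∫ y, ∫ x, Φ (x, y) ^ 2 ∂μ ∂ν -
        ∑ a ∈ s, ∫ y, (∫ x, e a x * Φ (x, y) ∂μ) ^ 2 ∂ν) ≤ ∫ y, ∫ x, ε (x, y) ∂μ ∂ν := by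
  have hα := DTenB_al he hΦ
  have hQ : BM fun y => ∑ a ∈ s, ∑ a' ∈ s,
      (∫ x, e a x * Φ (x, y) ∂μ) * T a a' * (∫ x, e a' x * Φ (x, y) ∂μ) :=
    BM.sum s fun a ha => BM.sum s fun a' ha' => ((hα a ha).mul (BM.const _)).mul (hα a' ha')
  have hN : BM fun y => ∫ x, Φ (x, y) ^ 2 ∂μ := BM.slice_l (Φ := fun z => Φ z ^ 2) hΦ.sq μ
  have hS : BM fun y => ∑ a ∈ s, (∫ x, e a x * Φ (x, y) ∂μ) ^ 2 :=
    BM.sum s fun a ha => (hα a ha).sq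
  have h := integral_mono (μ := ν)
    (((hQ.sub ((BM.const η).mul hN)).add ((BM.const Γ).mul (hN.sub hS))).int ν)
    ((hε.slice_l μ).int ν) h1
  rw [integral_add ((hQ.sub ((BM.const η).mul hN)).int ν) (((BM.const Γ).mul (hN.sub hS)).int ν),
    integral_sub (hQ.int ν) (((BM.const η).mul hN).int ν), integral_const_mul, integral_const_mul,
    integral_sub (hN.int ν) (hS.int ν),
    integral_finsetSum s fun a ha => ((hα a ha).sq).int ν] at h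
  exact h

theorem DTenB_C1 (he : ON μ s e) (hf : ON ν t f) {Φ : X × Y → ℝ} (hΦ : BM Φ) {a : A} (ha : a ∈ s)
    {k : B} (hk : k ∈ t) :
    ∫ z, e a z.1 * f k z.2 * Φ z ∂(μ.prod ν) = ∫ y, f k y * ∫ x, e a x * Φ (x, y) ∂μ ∂ν := by
  rw [integral_prod_symm _ (((((he.1 a ha).comp measurable_fst).mul
    ((hf.1 k hk).comp measurable_snd)).mul hΦ).int _)]
  congr 1
  funext y
  rw [← integral_const_mul]
  congr 1
  funext x
  ring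

theorem DTenB_C2 (he : ON μ s e) (hf : ON ν t f) {Φ : X × Y → ℝ} (hΦ : BM Φ) {a : A} (ha : a ∈ s)
    {k : B} (hk : k ∈ t) :
    ∫ z, e a z.1 * f k z.2 * Φ z ∂(μ.prod ν) = ∫ x, e a x * ∫ y, f k y * Φ (x, y) ∂ν ∂μ := by
  rw [integral_prod _ (((((he.1 a ha).comp measurable_fst).mul
    ((hf.1 k hk).comp measurable_snd)).mul hΦ).int _)]
  congr 1
  funext x
  rw [← integral_const_mul]
  congr 1
  funext y
  ring

theorem DTenB_gap (he : ON μ s e) (hf : ON ν t f) {Φ : X × Y → ℝ} (hΦ : BM Φ) :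
    ∑ a ∈ s, ∫ y, (∫ x, e a x * Φ (x, y) ∂μ) ^ 2 ∂ν -
        ∑ a ∈ s, ∑ k ∈ t, (∫ y, f k y * ∫ x, e a x * Φ (x, y) ∂μ ∂ν) ^ 2 ≤
      ∫ x, ∫ y, Φ (x, y) ^ 2 ∂ν ∂μ - ∑ k ∈ t, ∫ x, (∫ y, f k y * Φ (x, y) ∂ν) ^ 2 ∂μ := by
  have hα := DTenB_al he hΦ
  have hβ : ∀ k ∈ t, BM fun x => ∫ y, f k y * Φ (x, y) ∂ν := fun k hk =>
    BM.slice_r (Φ := fun z => f k z.2 * Φ z) (((hf.1 k hk).comp measurable_snd).mul hΦ) ν
  have hR : BM fun z : X × Y => Φ z - ∑ k ∈ t, f k z.2 * ∫ y, f k y * Φ (z.1, y) ∂ν :=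
    hΦ.sub (BM.sum t fun k hk =>
      ((hf.1 k hk).comp measurable_snd).mul ((hβ k hk).comp measurable_fst))
  have hr : ∀ a ∈ s, BM fun y => (∫ x, e a x * Φ (x, y) ∂μ) -
      ∑ k ∈ t, f k y * ∫ z, f k z * ∫ x, e a x * Φ (x, z) ∂μ ∂ν := fun a ha =>
    (hα a ha).sub (BM.sum t fun k hk => (hf.1 k hk).mul (BM.const _))
  have hb : ∀ y, ∑ a ∈ s, ((∫ x, e a x * Φ (x, y) ∂μ) -
      ∑ k ∈ t, f k y * ∫ z, f k z * ∫ x, e a x * Φ (x, z) ∂μ ∂ν) ^ 2 ≤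
      ∫ x, (Φ (x, y) - ∑ k ∈ t, f k y * ∫ z, f k z * Φ (x, z) ∂ν) ^ 2 ∂μ := by
    intro y
    have hy : Measurable fun x : X => (x, y) := measurable_prodMk_right
    refine le_trans (le_of_eq ?_) (he.bessel (hR.comp hy))
    refine Finset.sum_congr rfl fun a ha => ?_
    congr 1
    have e1 : ∀ x, e a x * (Φ (x, y) - ∑ k ∈ t, f k y * ∫ z, f k z * Φ (x, z) ∂ν) =
        e a x * Φ (x, y) - ∑ k ∈ t, f k y * (e a x * ∫ z, f k z * Φ (x, z) ∂ν) := by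
      intro x
      rw [mul_sub, Finset.mul_sum]
      congr 1
      exact Finset.sum_congr rfl fun k _ => by ring
    simp only [e1]
    rw [integral_sub (((he.1 a ha).mul (hΦ.comp hy)).int μ)
      ((BM.sum t fun k hk => (BM.const _).mul ((he.1 a ha).mul (hβ k hk))).int μ),
      integral_finsetSum t fun k hk => ((BM.const _).mul ((he.1 a ha).mul (hβ k hk))).int μ]
    congr 1
    refine Finset.sum_congr rfl fun k hk => ?_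
    rw [integral_const_mul, ← DTenB_C1 he hf hΦ ha hk, DTenB_C2 he hf hΦ ha hk]
  have hR2 := BM.slice_l hR.sq μ
  have h := integral_mono (μ := ν) ((BM.sum s fun a ha => (hr a ha).sq).int ν) (hR2.int ν) hb
  rw [integral_finsetSum s fun a ha => ((hr a ha).sq).int ν,
    ← integral_prod_symm _ (hR.sq.int (μ.prod ν)), integral_prod _ (hR.sq.int (μ.prod ν))] at h
  have hl : ∑ a ∈ s, ∫ y, ((∫ x, e a x * Φ (x, y) ∂μ) -
      ∑ k ∈ t, f k y * ∫ z, f k z * ∫ x, e a x * Φ (x, z) ∂μ ∂ν) ^ 2 ∂ν =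
      ∑ a ∈ s, ∫ y, (∫ x, e a x * Φ (x, y) ∂μ) ^ 2 ∂ν -
        ∑ a ∈ s, ∑ k ∈ t, (∫ y, f k y * ∫ x, e a x * Φ (x, y) ∂μ ∂ν) ^ 2 := by
    rw [← Finset.sum_sub_distrib]
    refine Finset.sum_congr rfl fun a ha => ?_
    simp only [pow_two]
    exact hf.gram (hα a ha) (hα a ha)
  have hrr : ∫ x, ∫ y, (Φ (x, y) - ∑ k ∈ t, f k y * ∫ z, f k z * Φ (x, z) ∂ν) ^ 2 ∂ν ∂μ =
      ∫ x, ∫ y, Φ (x, y) ^ 2 ∂ν ∂μ - ∑ k ∈ t, ∫ x, (∫ y, f k y * Φ (x, y) ∂ν) ^ 2 ∂μ := by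
    rw [← integral_finsetSum t fun k hk => ((hβ k hk).sq).int μ,
      ← integral_sub ((BM.slice_r hΦ.sq ν).int μ) ((BM.sum t fun k hk => (hβ k hk).sq).int μ)]
    congr 1
    funext x
    have hx : Measurable fun y : Y => (x, y) := measurable_prodMk_left
    simp only [pow_two]
    exact hf.gram (hΦ.comp hx) (hΦ.comp hx)
  rw [hl] at h
  exact h.trans (le_of_eq hrr)

theorem tensor (he : ON μ s e) (hf : ON ν t f) (hT : PSD s T) (hT' : PSD t T') {η η' Γ : ℝ}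
    (hΓ : 0 ≤ Γ) {Φ ε ε' : X × Y → ℝ} (hΦ : BM Φ) (hε : BM ε) (hε' : BM ε')
    (h1 : ∀ y, SL μ s e T η Γ (fun x => Φ (x, y)) fun x => ε (x, y))
    (h2 : ∀ x, SL ν t f T' η' Γ (fun y => Φ (x, y)) fun y => ε' (x, y)) :
    SL (μ.prod ν) (s ×ˢ t) (fun p z => e p.1 z.1 * f p.2 z.2) (ten T T') (η + η') Γ Φ
      fun z => ε z + ε' z := by
  have i1 := DTenB_int (ν := ν) he hΦ hε h1
  have i2 := DTenB_int (ν := μ) (Φ := fun z : Y × X => Φ (z.2, z.1))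
    (ε := fun z : Y × X => ε' (z.2, z.1)) hf (hΦ.comp measurable_swap)
    (hε'.comp measurable_swap) h2
  have p1 := DTenB_psd hf hT (DTenB_al he hΦ)
  have p2 := DTenB_psd he hT' (DTenB_al (Φ := fun z : Y × X => Φ (z.2, z.1)) hf
    (hΦ.comp measurable_swap))
  have g := mul_le_mul_of_nonneg_left (DTenB_gap he hf hΦ) hΓ
  rw [← integral_prod_symm _ (hΦ.sq.int (μ.prod ν)), ← integral_prod_symm _ (hε.int (μ.prod ν))]
    at i1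
  dsimp only at i2 p2
  rw [← integral_prod _ (hΦ.sq.int (μ.prod ν)), ← integral_prod _ (hε'.int (μ.prod ν))] at i2
  rw [← integral_prod _ (hΦ.sq.int (μ.prod ν))] at g
  unfold SL
  rw [qf_ten fun p => ∫ z, e p.1 z.1 * f p.2 z.2 * Φ z ∂(μ.prod ν),
    integral_add (hε.int _) (hε'.int _), Finset.sum_product]
  have q1 : ∑ k ∈ t, ∑ a ∈ s, ∑ a' ∈ s, (∫ z, e a z.1 * f k z.2 * Φ z ∂(μ.prod ν)) * T a a' *
      (∫ z, e a' z.1 * f k z.2 * Φ z ∂(μ.prod ν)) =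
      ∑ k ∈ t, ∑ a ∈ s, ∑ a' ∈ s, (∫ y, f k y * ∫ x, e a x * Φ (x, y) ∂μ ∂ν) * T a a' *
      (∫ y, f k y * ∫ x, e a' x * Φ (x, y) ∂μ ∂ν) :=
    Finset.sum_congr rfl fun k hk => Finset.sum_congr rfl fun a ha =>
      Finset.sum_congr rfl fun a' ha' => by
        rw [DTenB_C1 he hf hΦ ha hk, DTenB_C1 he hf hΦ ha' hk]
  have q2 : ∑ a ∈ s, ∑ k ∈ t, ∑ k' ∈ t, (∫ z, e a z.1 * f k z.2 * Φ z ∂(μ.prod ν)) * T' k k' *
      (∫ z, e a z.1 * f k' z.2 * Φ z ∂(μ.prod ν)) =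
      ∑ a ∈ s, ∑ k ∈ t, ∑ k' ∈ t, (∫ x, e a x * ∫ y, f k y * Φ (x, y) ∂ν ∂μ) * T' k k' *
      (∫ x, e a x * ∫ y, f k' y * Φ (x, y) ∂ν ∂μ) :=
    Finset.sum_congr rfl fun a ha => Finset.sum_congr rfl fun k hk =>
      Finset.sum_congr rfl fun k' hk' => by
        rw [DTenB_C2 he hf hΦ ha hk, DTenB_C2 he hf hΦ ha hk']
  have q3 : ∑ a ∈ s, ∑ k ∈ t, (∫ z, e a z.1 * f k z.2 * Φ z ∂(μ.prod ν)) ^ 2 =
      ∑ a ∈ s, ∑ k ∈ t, (∫ y, f k y * ∫ x, e a x * Φ (x, y) ∂μ ∂ν) ^ 2 :=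
    Finset.sum_congr rfl fun a ha => Finset.sum_congr rfl fun k hk => by
      rw [DTenB_C1 he hf hΦ ha hk]
  dsimp only
  rw [q1, q2, q3]
  nlinarith

end Vale.Agent.P370
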