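import Vale.Agent.P370.DPot
import Vale.Agent.P370.DEntB
import Vale.Agent.P370.DGram
import Vale.Agent.P370.DZa
import Vale.Agent.P370.DSite

/-! Part D: matrix elements of the ideal operator between the smooth orbitals.

PLAN.  `grad_mul3` with `gt1_deriv`, `gtz_deriv`.  Different clusters: by `out_or` and `gt1_out` every term
of the integrand vanishes, and `T0 = 0`.  Same cluster (obtain `cl σ' = cl σ`, generalise to a cluster
`i` and indices `a a' k k'`): the integrand equals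
`ex (x 0) * gy (x 1) * gz2 (x 2) + gx (x 0) * ey (x 1) * gz2 (x 2) + gx (x 0) * gy (x 1) * ez (x 2)`
(`Vid_gt`; outside its range the product of the orbitals vanishes), `integral_mul3`, `integrable_mul3`.
Then `ent_bd`, `lap_abs`, `gram`, `gramz`, `entz`, `T0_same`; a lemma on abstract reals:
`|E G Z - l δ| ≤ 4 |E - l| + |l| * 3 ε` when `|G - δ| ≤ ε`, `|Z - 1| ≤ ε`, `δ ∈ {0, 1}`, `ε ≤ 1`. -/

namespace Vale.Agent.P370

open MeasureTheory

variable {b : ℕ} {ι S : Type} [Fintype ι] [Fintype S] [DecidableEq ι] {L : Lay ι S}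

theorem DUpper_two {G δ ε : ℝ} (h : |G - δ| ≤ ε) (hδ : |δ| ≤ 1) (hε : ε ≤ 1) : |G| ≤ 2 := by
  have := abs_add_le (G - δ) δ
  rw [sub_add_cancel] at this
  linarith

theorem DUpper_abs {E l G δ Z η lam ε : ℝ} (h1 : |E - l| ≤ η) (h2 : |l| ≤ lam) (h3 : |G - δ| ≤ ε)
    (h4 : |Z - 1| ≤ ε) (hδ : |δ| ≤ 1) (hε : ε ≤ 1) : |E * G * Z - l * δ| ≤ 4 * η + 3 * (lam * ε) := by
  have g2 := DUpper_two h3 hδ hε
  have z2 := DUpper_two h4 abs_one.le hε
  have a1 : |(E - l) * (G * Z)| ≤ η * (2 * 2) := by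
    rw [abs_mul, abs_mul]
    exact mul_le_mul h1 (mul_le_mul g2 z2 (abs_nonneg _) two_pos.le) (by positivity)
      ((abs_nonneg _).trans h1)
  have a2 : |(G - δ) * Z + δ * (Z - 1)| ≤ ε * 2 + 1 * ε := by
    refine (abs_add_le _ _).trans (add_le_add ?_ ?_) <;> rw [abs_mul]
    · exact mul_le_mul h3 z2 (abs_nonneg _) ((abs_nonneg _).trans h3)
    · exact mul_le_mul hδ h4 (abs_nonneg _) one_pos.le
  have a3 : |l * ((G - δ) * Z + δ * (Z - 1))| ≤ lam * (ε * 2 + 1 * ε) := by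
    rw [abs_mul]
    exact mul_le_mul h2 a2 (abs_nonneg _) ((abs_nonneg _).trans h2)
  rw [show E * G * Z - l * δ = (E - l) * (G * Z) + l * ((G - δ) * Z + δ * (Z - 1)) by ring]
  linarith [abs_add_le ((E - l) * (G * Z)) (l * ((G - δ) * Z + δ * (Z - 1)))]

omit [Fintype S] in
theorem DUpper_form (b : ℕ) (L : Lay ι S) (σ σ' : S) :
    form1 (L.Vid b) (L.gt3 b σ) (L.gt3 b σ') = ∫ x : E3, (1 / 2 *
      ((L.cx (L.cl σ)).gd b (L.ax σ) (x 0) * (L.cy (L.cl σ)).gt1 b (L.ay σ) (x 1) * gtz b (x 2) *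
        ((L.cx (L.cl σ')).gd b (L.ax σ') (x 0) * (L.cy (L.cl σ')).gt1 b (L.ay σ') (x 1) *
          gtz b (x 2)) +
      (L.cx (L.cl σ)).gt1 b (L.ax σ) (x 0) * (L.cy (L.cl σ)).gd b (L.ay σ) (x 1) * gtz b (x 2) *
        ((L.cx (L.cl σ')).gt1 b (L.ax σ') (x 0) * (L.cy (L.cl σ')).gd b (L.ay σ') (x 1) *
          gtz b (x 2)) +
      (L.cx (L.cl σ)).gt1 b (L.ax σ) (x 0) * (L.cy (L.cl σ)).gt1 b (L.ay σ) (x 1) * gzd b (x 2) *
        ((L.cx (L.cl σ')).gt1 b (L.ax σ') (x 0) * (L.cy (L.cl σ')).gt1 b (L.ay σ') (x 1) *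
          gzd b (x 2))) + L.Vid b x * (L.gt3 b σ x * L.gt3 b σ' x)) := by
  have h : ∀ τ x, _ := fun τ => grad_mul3 (Chain.gt1_deriv b (L.cx (L.cl τ)) (L.ax τ))
    (Chain.gt1_deriv b (L.cy (L.cl τ)) (L.ay τ)) (gtz_deriv b)
  refine integral_congr_ae (Filter.Eventually.of_forall fun x => ?_)
  simp only [Fin.sum_univ_three]
  rw [← (h σ x).1, ← (h σ x).2.1, ← (h σ x).2.2, ← (h σ' x).1, ← (h σ' x).2.1, ← (h σ' x).2.2]
  rfl

theorem ideal_upper (hb : 30 ≤ b) (hL : L.Good b) (σ σ' : S) :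
    |form1 (L.Vid b) (L.gt3 b σ) (L.gt3 b σ') - (L.T0 b σ σ' : ℝ)| ≤ 1 / PR b ^ 63042 := by
  have hp : ∀ j : ℕ, 0 < 1 / PR b ^ j := fun j => one_div_pos.2 (pow_pos (PR_pos b) j)
  have a1 := hL.ax_lt σ
  have a2 := hL.ax_lt σ'
  have a3 := hL.ay_lt σ
  have a4 := hL.ay_lt σ'
  rw [DUpper_form]
  by_cases h : L.cl σ = L.cl σ'
  swap
  · rw [Lay.T0, if_neg h, integral_eq_zero_of_ae (Filter.Eventually.of_forall fun x => ?_)]
    · simpa only [Rat.cast_zero, sub_zero, abs_zero] using (hp _).le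
    · rcases out_or hb hL h (x 0) (x 1) with (o | o) | o | o
      · simp [Lay.gt3, (hL.gx _).gt1_out hb a1 o]
      · simp [Lay.gt3, (hL.gy _).gt1_out hb a3 o]
      · simp [Lay.gt3, (hL.gx _).gt1_out hb a2 o]
      · simp [Lay.gt3, (hL.gy _).gt1_out hb a4 o]
  rw [T0_same h]
  simp only [Lay.gt3, ten]
  rw [← h] at a2 a4 ⊢
  have gx := hL.gx (L.cl σ)
  have gy := hL.gy (L.cl σ)
  have hV := fun x => Vid_gt hb hL (i := L.cl σ) (x := x)
  generalize L.cx (L.cl σ) = c at *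
  generalize L.cy (L.cl σ) = d at *
  generalize L.ax σ = a at *
  generalize L.ax σ' = a' at *
  generalize L.ay σ = k at *
  generalize L.ay σ' = k' at *
  have i1 := integrable_mul3 (gx.ent_int hb a1 a2) (gy.gram hb a3 a4).1 (gramz hb).1
  have i2 := integrable_mul3 (gx.gram hb a1 a2).1 (gy.ent_int hb a3 a4) (gramz hb).1
  have i3 := integrable_mul3 (gx.gram hb a1 a2).1 (gy.gram hb a3 a4).1 (entz hb).1
  rw [integral_congr_ae (g := fun x : E3 => _ + _ + _) (Filter.Eventually.of_forall fun x => ?_),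
    integral_add (i1.fun_add i2) i3, integral_add i1 i2,
    integral_mul3 (fun x => c.gd b a x * c.gd b a' x / 2 + c.v b x * (c.gt1 b a x * c.gt1 b a' x))
      (fun x => d.gt1 b k x * d.gt1 b k' x) (fun z => gtz b z * gtz b z),
    integral_mul3 (fun x => c.gt1 b a x * c.gt1 b a' x)
      (fun x => d.gd b k x * d.gd b k' x / 2 + d.v b x * (d.gt1 b k x * d.gt1 b k' x))
      (fun z => gtz b z * gtz b z),
    integral_mul3 (fun x => c.gt1 b a x * c.gt1 b a' x) (fun x => d.gt1 b k x * d.gt1 b k' x)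
      (fun z => gzd b z * gzd b z / 2 + zp b z * (gtz b z * gtz b z))]
  · have e1 : 1 / PR b ^ 62700 ≤ 1 := (parb_small hb (by norm_num)).trans (by norm_num)
    have d1 : |(if a = a' then 1 else 0 : ℝ)| ≤ 1 := by split_ifs <;> simp
    have d2 : |(if k = k' then 1 else 0 : ℝ)| ≤ 1 := by split_ifs <;> simp
    have b1 := DUpper_abs (gx.ent_bd hb a1 a2) (gx.lap_abs hb a1 a2) (gy.gram hb a3 a4).2
      (gramz hb).2 d2 e1
    have b2 := DUpper_abs (gy.ent_bd hb a3 a4) (gy.lap_abs hb a3 a4) (gx.gram hb a1 a2).2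
      (gramz hb).2 d1 e1
    have b3 := mul_le_mul (mul_le_mul (DUpper_two (gx.gram hb a1 a2).2 d1 e1)
      (DUpper_two (gy.gram hb a3 a4).2 d2 e1) (abs_nonneg _) two_pos.le) (entz hb).2 (abs_nonneg _)
      (by norm_num)
    rw [← abs_mul, ← abs_mul] at b3
    rw [mul_ite, mul_one, mul_zero, Chain.ent] at b1 b2
    have c1 : 4 / PR b ^ 62914 * (1 / PR b ^ 62700) ≤ 1 / PR b ^ 63046 := by
      rw [div_mul_div_comm, mul_one, ← pow_add]
      exact PR_inv_le hb (by norm_num) (by norm_num)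
    have c2 : 1 / PR b ^ 63100 ≤ 1 / PR b ^ 63046 := PR_inv_le hb (by norm_num) (by norm_num)
    have c3 := PR_inv_le hb (c := 18) (j := 63046) (l := 63042) (by norm_num) (by norm_num)
    rw [div_eq_mul_one_div 18] at c3
    generalize 4 / PR b ^ 62914 * (1 / PR b ^ 62700) = p1 at *
    generalize 1 / PR b ^ 63100 = p2 at *
    generalize 1 / PR b ^ 63046 = p3 at *
    generalize 1 / PR b ^ 63042 = p4 at *
    rw [abs_le] at b1 b2 b3 ⊢
    constructor <;> linarith [b1.1, b1.2, b2.1, b2.2, b3.1, b3.2]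
  · by_cases o1 : c.Out b (x 0)
    · simp [gx.gt1_out hb a1 o1]
    by_cases o2 : d.Out b (x 1)
    · simp [gy.gt1_out hb a3 o2]
    by_cases o3 : |x 2| < 18
    · simp only [hV x o1 o2 o3]
      ring
    · simp [gtz_out b (not_lt.1 o3)]

end Vale.Agent.P370
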