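import Vale.Agent.P370.DPot
import Vale.Agent.P370.DGram
import Vale.Agent.P370.DZa

/-! Part D: first order effect of the on-site potential.

PLAN.  `Ve_first'`: `zeta = 1` where `gtz ≠ 0`; the integrand is `∑ τ, eps τ * F τ` with `F τ` a product of
three functions of one variable (`integral_finset_sum`, `integral_mul3`, `integrable_mul3`).  If the clusters
of `τ, σ, σ'` are not all equal `F τ = 0` (`out_or`, `r_out`, `gt1_out`); otherwise `tri` twice and `gramz`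
give `|∫ F τ - if τ = σ ∧ σ = σ' then 1 else 0| ≤ 7 / P ^ 62700` (`inj`); `card_S`, `eps_le`. -/

namespace Vale.Agent.P370

open MeasureTheory

variable {b : ℕ} {ι S : Type} [Fintype ι] [Fintype S] {L : Lay ι S}

private theorem DVe_two {a c α β ε δ : ℝ} (h1 : |a - α| ≤ ε) (h2 : |c - β| ≤ δ) (hα : |α| ≤ 1)
    (hβ : |β| ≤ 1) (hδ : δ ≤ 1) : |a * c - α * β| ≤ 2 * ε + δ := by
  have h3 : |c| ≤ 2 := by
    rw [abs_le] at h2 hβ ⊢
    constructor <;> linarith [h2.1, h2.2, hβ.1, hβ.2]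
  calc |a * c - α * β| = |(a - α) * c + α * (c - β)| := by ring_nf
    _ ≤ |a - α| * |c| + |α| * |c - β| := by
        rw [← abs_mul, ← abs_mul]
        exact abs_add_le _ _
    _ ≤ ε * 2 + 1 * δ := add_le_add (mul_le_mul h1 h3 (abs_nonneg _) ((abs_nonneg _).trans h1))
        (mul_le_mul hα h2 (abs_nonneg _) zero_le_one)
    _ = _ := by ring

private theorem DVe_three {a c d ε : ℝ} {p q : Prop} [Decidable p] [Decidable q]
    (h1 : |a - if p then 1 else 0| ≤ ε) (h2 : |c - if q then 1 else 0| ≤ ε) (h3 : |d - 1| ≤ ε)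
    (hε : ε ≤ 1) : |a * c * d - if p ∧ q then 1 else 0| ≤ 7 * ε := by
  have h4 := DVe_two h1 h2 (by split_ifs <;> norm_num) (by split_ifs <;> norm_num) hε
  have h5 := DVe_two h4 h3 (by split_ifs <;> norm_num) (by norm_num) hε
  rw [mul_one, ite_zero_mul_ite_zero, one_mul] at h5
  exact h5.trans_eq (by ring)

/-- the three-orbital overlap -/
private theorem DVe_F [DecidableEq S] (hb : 30 ≤ b) (hL : L.Good b) (τ σ σ' : S) :
    Integrable (fun x : E3 => (L.cx (L.cl τ)).r b (L.ax τ) (x 0) * (L.cy (L.cl τ)).r b (L.ay τ) (x 1) *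
      (L.gt3 b σ x * L.gt3 b σ' x)) ∧
    |(∫ x : E3, (L.cx (L.cl τ)).r b (L.ax τ) (x 0) * (L.cy (L.cl τ)).r b (L.ay τ) (x 1) *
      (L.gt3 b σ x * L.gt3 b σ' x)) - if τ = σ ∧ σ = σ' then 1 else 0| ≤
      7 * (1 / PR b ^ 62700) := by
  have hε : 1 / PR b ^ 62700 ≤ 1 := (parb_small hb (by norm_num)).trans (by norm_num)
  have hgt : ∀ (ρ : S) (x : E3), (L.cx (L.cl ρ)).Out b (x 0) ∨ (L.cy (L.cl ρ)).Out b (x 1) →
      L.gt3 b ρ x = 0 := fun ρ x h => by
    rcases h with h | h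
    · rw [Lay.gt3, ((hL.gx _).gt1_out hb (hL.ax_lt ρ) h).1, zero_mul, zero_mul]
    · rw [Lay.gt3, ((hL.gy _).gt1_out hb (hL.ay_lt ρ) h).1, mul_zero, zero_mul]
  by_cases hc : L.cl τ = L.cl σ ∧ L.cl σ = L.cl σ'
  · obtain ⟨h1, h2⟩ := hc
    have a1 := hL.ax_lt τ
    have a2 := hL.ay_lt τ
    have a3 := hL.ax_lt σ'
    have a4 := hL.ay_lt σ'
    rw [h1] at a1 a2
    rw [← h2] at a3 a4
    obtain ⟨i1, e1⟩ := (hL.gx _).tri hb a1 (hL.ax_lt σ) a3
    obtain ⟨i2, e2⟩ := (hL.gy _).tri hb a2 (hL.ay_lt σ) a4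
    obtain ⟨i3, e3⟩ := gramz hb
    have h3 := DVe_three e1 e2 e3 hε
    rw [← integral_mul3] at h3
    have i4 := integrable_mul3 i1 i2 i3
    have hiff : ((L.ax τ = L.ax σ ∧ L.ax σ = L.ax σ') ∧ L.ay τ = L.ay σ ∧ L.ay σ = L.ay σ') ↔
        τ = σ ∧ σ = σ' :=
      ⟨fun h => ⟨hL.inj _ _ h1 h.1.1 h.2.1, hL.inj _ _ h2 h.1.2 h.2.2⟩,
        fun h => by rw [h.1, ← h.2]; simp⟩
    simp only [hiff] at h3
    simp only [Lay.gt3, h1, ← h2]
    constructor
    · refine i4.congr (Filter.Eventually.of_forall fun x => ?_)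
      ring
    · convert h3 using 5
      ring
  · have h0 : ∀ x : E3, (L.cx (L.cl τ)).r b (L.ax τ) (x 0) * (L.cy (L.cl τ)).r b (L.ay τ) (x 1) *
        (L.gt3 b σ x * L.gt3 b σ' x) = 0 := fun x => by
      rcases not_and_or.1 hc with h | h
      · rcases out_or hb hL h (x 0) (x 1) with (h1 | h1) | h1
        · rw [((hL.gx _).r_out hb (hL.ax_lt τ) h1).1, zero_mul, zero_mul]
        · rw [((hL.gy _).r_out hb (hL.ay_lt τ) h1).1, mul_zero, zero_mul]
        · rw [hgt σ x h1, zero_mul, mul_zero]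
      · rcases out_or hb hL h (x 0) (x 1) with h1 | h1
        · rw [hgt σ x h1, zero_mul, mul_zero]
        · rw [hgt σ' x h1, mul_zero, mul_zero]
    simp only [h0]
    refine ⟨integrable_zero _ _ _, ?_⟩
    rw [if_neg fun h => hc ⟨congrArg _ h.1, congrArg _ h.2⟩, integral_zero, sub_zero, abs_zero]
    have := PR_pos b
    positivity

theorem Ve_first' [DecidableEq S] (hb : 30 ≤ b) (hL : L.Good b) (σ σ' : S) :
    |(∫ x : E3, zeta (x 2) * L.Ve b (x 0) (x 1) * (L.gt3 b σ x * L.gt3 b σ' x)) -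
      (if σ = σ' then (L.eps σ : ℝ) else 0)| ≤ 1 / PR b ^ 63100 := by
  have e1 : ∀ x : E3, zeta (x 2) * L.Ve b (x 0) (x 1) * (L.gt3 b σ x * L.gt3 b σ' x) =
      ∑ τ, (L.eps τ : ℝ) * ((L.cx (L.cl τ)).r b (L.ax τ) (x 0) * (L.cy (L.cl τ)).r b (L.ay τ) (x 1) *
        (L.gt3 b σ x * L.gt3 b σ' x)) := fun x => by
    by_cases h : |x 2| ≤ 64
    · simp only [zeta_one h, one_mul, Lay.Ve, Finset.sum_mul, mul_assoc]
    · have : L.gt3 b σ x = 0 := by
        rw [Lay.gt3, (gtz_out b (by linarith [not_le.1 h])).1, mul_zero]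
      simp [this]
  have e2 : (if σ = σ' then (L.eps σ : ℝ) else 0) =
      ∑ τ, (L.eps τ : ℝ) * if τ = σ ∧ σ = σ' then 1 else 0 := by
    by_cases h : σ = σ' <;> simp [h]
  have hP := PR_pos b
  have hS : (Fintype.card S : ℝ) ≤ 2 * PR b := by
    rw [← Pq_cast]
    exact_mod_cast hL.card_S
  simp only [e1]
  rw [integral_finsetSum _ fun τ _ => (DVe_F hb hL τ σ σ').1.const_mul _, e2,
    ← Finset.sum_sub_distrib]
  refine (Finset.abs_sum_le_sum_abs _ _).trans ?_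
  refine (Finset.sum_le_card_nsmul _ _ (1 / PR b ^ 62900 * (7 * (1 / PR b ^ 62700)))
    fun τ _ => ?_).trans ?_
  · have h0 : (0 : ℝ) ≤ L.eps τ := by exact_mod_cast hL.eps_nonneg τ
    have h1 : (L.eps τ : ℝ) ≤ 1 / PR b ^ 62900 := by
      have := (Rat.cast_le (K := ℝ)).2 (hL.eps_le τ)
      rwa [Rat.cast_div, Rat.cast_pow, Pq_cast, Rat.cast_one] at this
    rw [integral_const_mul, ← mul_sub, abs_mul, abs_of_nonneg h0]
    exact mul_le_mul h1 (DVe_F hb hL τ σ σ').2 (abs_nonneg _) (h0.trans h1)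
  · have h2 := PR_div_le hb (c := 14) (by norm_num) (i := 1) (j := 62900 + 62700) (k := 0)
      (l := 63100) (by norm_num)
    rw [pow_zero, pow_one, pow_add] at h2
    rw [nsmul_eq_mul, Finset.card_univ]
    refine le_trans ?_ h2
    have h3 := pow_pos hP 62900
    have h4 := pow_pos hP 62700
    generalize PR b ^ 62900 = u at h3
    generalize PR b ^ 62700 = v at h4
    calc _ ≤ 2 * PR b * (1 / u * (7 * (1 / v))) := by gcongr
      _ = _ := by
        field_simp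
        norm_num

end Vale.Agent.P370
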