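import Vale.Agent.P370.LatDefs

/-! One-body and many-body forms in the continuum; interfaces between the parts. -/

namespace Vale.Agent.P370

open MeasureTheory

abbrev E3 : Type := Fin 3 → ℝ

noncomputable def grad (f : E3 → ℝ) (x : E3) (k : Fin 3) : ℝ := fderiv ℝ f x (Pi.single k 1)

def Test1 (f : E3 → ℝ) : Prop := ContDiff ℝ 1 f ∧ HasCompactSupport f

/-- `∫ |∇ f|²` -/
noncomputable def kin (f : E3 → ℝ) : ℝ := ∫ x, ∑ k, grad f x k ^ 2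

/-- the form of `-Δ/2 + V` -/
noncomputable def form1 (V f g : E3 → ℝ) : ℝ :=
  ∫ x, (1 / 2 * ∑ k, grad f x k * grad g x k + V x * (f x * g x))

noncomputable def n2 (f : E3 → ℝ) : ℝ := ∫ x, f x ^ 2

/-- `f` is `C^n` and all derivatives up to order `n` are bounded by `A` -/
def Bd {E : Type} [NormedAddCommGroup E] [NormedSpace ℝ E] (n : ℕ) (A : ℝ) (f : E → ℝ) : Prop :=
  ContDiff ℝ n f ∧ ∀ m ≤ n, ∀ x, ‖iteratedFDeriv ℝ m f x‖ ≤ A

section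

variable {S : Type} [Fintype S]

noncomputable def coef (g : S → E3 → ℝ) (ψ : E3 → ℝ) (a : S) : ℝ := ∫ x, g a x * ψ x

def qf (T : S → S → ℝ) (c : S → ℝ) : ℝ := ∑ a, ∑ a', c a * T a a' * c a'

/-- `g`: orthonormal functions with disjoint supports; `gt`: smooth approximations -/
structure Basis (g gt : S → E3 → ℝ) (Mg εd : ℝ) : Prop where
  g_meas : ∀ a, Measurable (g a)
  g_bd : ∀ a x, |g a x| ≤ Mg
  gt_bd : ∀ a x, |gt a x| ≤ Mg
  g_supp : ∃ R : ℝ, ∀ a x, g a x ≠ 0 → ∀ k, |x k| ≤ R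
  g_disj : ∀ a a', a ≠ a' → ∀ x, g a x * g a' x = 0
  g_norm : ∀ a, ∫ x, g a x ^ 2 = 1
  gt_test : ∀ a, Test1 (gt a)
  close : ∀ a, ∫ x, (g a x - gt a x) ^ 2 ≤ εd ^ 2

/-- the operator `-Δ/2 + V` is the matrix `T` at low energy, with error `η` and gap `Γ` -/
structure OB (g gt : S → E3 → ℝ) (V : E3 → ℝ) (T : S → S → ℝ) (Γ η : ℝ) : Prop where
  lower : ∀ ψ, Test1 ψ →
    qf T (coef g ψ) - η * n2 ψ + Γ * (n2 ψ - ∑ a, coef g ψ a ^ 2) ≤ form1 V ψ ψ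
  upper : ∀ a a', |form1 V (gt a) (gt a') - T a a'| ≤ η

/-- Coulomb integrals -/
noncomputable def wex (g : S → E3 → ℝ) (a a' : S) : ℝ :=
  ∫ x, ∫ y, g a x ^ 2 * g a' y ^ 2 / d3 x y

end

/-- the many-body form with one-body potential `V` and coupling constant `s` -/
noncomputable def energyG (V : E3 → ℝ) (s : ℝ) {N : ℕ} (Ψ : Wave N) : ℝ :=
  ∑ ς, ∫ x, (1 / 2 * ∑ i, ∑ k, ‖fderiv ℝ (Ψ ς) x (Pi.single i (Pi.single k 1))‖ ^ 2 +
    (∑ i, V (x i) + s * ∑ i, ∑ j, if i < j then 1 / d3 (x i) (x j) else 0) * ‖Ψ ς x‖ ^ 2)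

/-- the potential of the nuclei in scaled units -/
noncomputable def Vs (s : ℝ) (l : List ((ℚ × ℚ × ℚ) × ℕ)) (x : E3) : ℝ :=
  -(l.map fun p => s * (p.2 : ℝ) / d3 x (pt p.1)).sum

/-- scale the positions by `s` -/
def scaleNuc (s : ℚ) (l : List ((ℚ × ℚ × ℚ) × ℕ)) : List ((ℚ × ℚ × ℚ) × ℕ) :=
  l.map fun p => ((s * p.1.1, s * p.1.2.1, s * p.1.2.2), p.2)

end Vale.Agent.P370
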