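import Vale.Agent.P370.LatPT
import Vale.Agent.P370.ChPT

/-! The local potential is computable in polynomial time.

Plan.  `CPT` for the four kinds of chains.  `V0`, `Ve` for `lay`: `Fintype.sum_sum_type`,
`Fintype.sum_prod_type`, `Fin.sum_univ_three`, `Fintype.sum_bool`, `Fin.sum_univ_eq_sum_range`
(or `Finset.sum_range`) turn the sums into sums over `range nq`, `range two.length`; `pt_rangeSum`. -/

namespace Vale.Agent.P370

open Vale.Agent.Lib.H23 Vale.Agent.P338 Vale.Agent.P049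

variable {α : Type} [Enc α] {b : α → ℕ} {H : α → LH}

theorem lp_Xs (hb : BPT b) {m : α → ℕ} (hm : PT m) : PT fun x => Xs (b x) (m x) :=
  pt_qmul (pt_qmul (PT.const _) (pt_qpow hb.Pq 60)) (pt_qcast hm)

theorem lp_ifc {i : α → ℕ} (hi : PT i) (k : ℕ) {f g : α → ℚ} (hf : PT f) (hg : PT g) :
    PT fun x => if i x = k then f x else g x := pt_iteP (pt_neq hi (PT.const k)) hf hg

theorem lp_slot (hH : PT H) {a : α → ℕ × Bool} {e : α → ℕ} (ha : PT a) (he : PT e) :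
    PT fun x => slot (H x) (a x) (e x) := by
  have h1 : PT fun x => acol (a x).2 :=
    (PT.cond ha.snd (PT.const 2) (PT.const 1)).congr fun x => by cases (a x).2 <;> rfl
  exact PT.add (PT.add (PT.mul (PT.add (PT.mul (PT.const 3) ha.fst) h1) (pt_K hH)) he) (PT.const 1)

theorem cpt_qx (hb : BPT b) (hH : PT H) {q : α → ℕ} (hq : PT q) :
    CPT fun x => qx (b x) (H x) (q x) := by
  refine ⟨PT_unMul (PT.const (Un.mk 3)) (pt_KU hH), PT.const 3, pt_K hH, PT.mul (PT.const _) hb.nat, ?_⟩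
  have hb' := hb.comp (PT.fst' (β := ℕ))
  have hK := pt_K (hH.comp (PT.fst' (β := ℕ)))
  have hi := PT.snd' (α := α) (β := ℕ)
  have h1 := PT.add (PT.mul (PT.mul (PT.const 3) (hq.comp (PT.fst' (β := ℕ)))) hK) hi
  refine pt_iteP ((PT.or (pt_neq hi hK) (pt_neq hi (PT.mul (PT.const 2) hK))).congr fun x => ?_)
    (pt_qadd (lp_Xs hb' (PT.sub h1 (PT.const 1))) (pt_qpow hb'.Pq 30)) (lp_Xs hb' h1)
  exact Bool.decide_or _ _

theorem cpt_qy (hb : BPT b) (hH : PT H) : CPT fun x => qy (b x) (H x) := by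
  refine ⟨PT.const (Un.mk 3), PT.const 3, PT.const 1, PT.mul (PT.const _) hb.nat, ?_⟩
  have hb' := hb.comp (PT.fst' (β := ℕ))
  have hK := pt_K (hH.comp (PT.fst' (β := ℕ)))
  exact pt_qmul (pt_qsub (pt_qcast PT.snd') (PT.const 2)) (pt_qadd (PT.const 2)
    (pt_qmul (pt_qmul (pt_qpow hb'.Pq 31) (pt_qcast hK))
      (pt_qsub (pt_qpow hb'.Pq 30) (PT.const 2))))

theorem cpt_wx (hb : BPT b) (hH : PT H) {e : α → ℕ} (he : PT e) :
    CPT fun x => wx (b x) (H x) (e x) := by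
  refine ⟨PT.const (Un.mk 6), PT.const 2, PT.const 3, PT.mul (PT.const _) hb.nat, ?_⟩
  have hb' := hb.comp (PT.fst' (β := ℕ))
  have hH' := hH.comp (PT.fst' (β := ℕ))
  have he' := he.comp (PT.fst' (β := ℕ))
  have hi := PT.snd' (α := α) (β := ℕ)
  have ht := pt_term hH' he'
  have h1 := lp_Xs hb' (lp_slot hH' ht.fst he')
  have h2 := lp_Xs hb' (lp_slot hH' ht.snd.fst he')
  have p1 := pt_qpow hb'.Pq 60
  have p2 := pt_qmul (PT.const 2) p1
  have p3 := pt_qmul (PT.const 3) p1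
  have hd := pt_dtq hb' hH' he'
  exact pt_iteP ((pt_same hH' he').congr fun x => Bool.decide_eq_true)
    (lp_ifc hi 0 h1 (pt_qadd h2 (lp_ifc hi 1 (PT.const 0) (lp_ifc hi 2 p1
      (lp_ifc hi 3 (pt_qadd p1 hd) (lp_ifc hi 4 p2 p3))))))
    (lp_ifc hi 5 h2 (pt_qadd h1 (lp_ifc hi 0 (PT.const 0) (lp_ifc hi 1 p1
      (lp_ifc hi 2 p2 (lp_ifc hi 3 (pt_qadd p2 hd) p3))))))

theorem cpt_wy (hb : BPT b) {e : α → ℕ} (he : PT e) : CPT fun x => wy (b x) (e x) := by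
  exact ⟨PT.const (Un.mk 1), PT.const 1, PT.const 1, PT.mul (PT.const _) hb.nat,
    pt_yq (hb.comp PT.fst') (he.comp PT.fst')⟩

/-- contribution of one cluster to `V0` -/
def lpT (b : ℕ) (c d : Chain) (x y : ℚ) : ℚ :=
  c.cut b x * d.cut b y * (c.v b x + d.v b y + W0 b * (c.wall b x + d.wall b y) - 1)

/-- contribution of one site to `Ve` -/
def lpR (b : ℕ) (ε : ℚ) (c d : Chain) (a a' : ℕ) (x y : ℚ) : ℚ := ε * (c.r b a x * d.r b a' y)

theorem lp_T (hb : BPT b) {c d : α → Chain} (hc : CPT c) (hd : CPT d) {x y : α → ℚ} (hx : PT x)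
    (hy : PT y) : PT fun a => lpT (b a) (c a) (d a) (x a) (y a) :=
  pt_qmul (pt_qmul (hc.cut hb hx) (hd.cut hb hy)) (pt_qsub (pt_qadd
    (pt_qadd (hc.v hb hx) (hd.v hb hy))
    (pt_qmul hb.W0 (pt_qadd (hc.wall hb hx) (hd.wall hb hy)))) (PT.const 1))

theorem lp_R (hb : BPT b) {ε : α → ℚ} (hε : PT ε) {c d : α → Chain} (hc : CPT c) (hd : CPT d)
    (k k' : ℕ) {x y : α → ℚ} (hx : PT x) (hy : PT y) :
    PT fun a => lpR (b a) (ε a) (c a) (d a) k k' (x a) (y a) :=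
  pt_qmul hε (pt_qmul (hc.r hb k hx) (hd.r hb k' hy))

theorem lp_fin {k : ℕ} {f : Fin k → α → ℚ} (hf : ∀ i, PT (f i)) : PT fun x => ∑ i, f i x := by
  induction k with
  | zero => exact (PT.const 0).congr fun x => by simp
  | succ k ih =>
    exact (pt_qadd (hf 0) (ih fun i => hf i.succ)).congr fun x => Fin.sum_univ_succ _

theorem lp_V0 (b : ℕ) (H : LH) (x y : ℚ) : (lay b H).V0 b x y =
    ∑ q ∈ Finset.range H.nq, lpT b (qx b H q) (qy b H) x y +
      ∑ e ∈ Finset.range H.two.length, lpT b (wx b H e) (wy b e) x y := by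
  rw [Lay.V0, Fintype.sum_sum_type, Finset.sum_range, Finset.sum_range]
  rfl

theorem lp_Ve (b : ℕ) (H : LH) (x y : ℚ) : (lay b H).Ve b x y =
    ∑ q ∈ Finset.range H.nq, ∑ a : Fin 3, ∑ a' : Fin 3,
      lpR b (sq b * epsh H (Pq b) (uq b) (yq b) q a a') (qx b H q) (qy b H) a a' x y +
    ∑ e ∈ Finset.range H.two.length,
      (lpR b (delq b H + sq b * Pq b) (wx b H e) (wy b e) 1 0 x y +
        lpR b (delq b H + sq b * Pq b) (wx b H e) (wy b e) 0 0 x y) := by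
  rw [Lay.Ve, Fintype.sum_sum_type, Finset.sum_range, Finset.sum_range]
  simp only [Fintype.sum_prod_type, Fintype.sum_bool]
  rfl

theorem pt_VqH (hb : BPT b) (hH : PT H) {q : α → ℚ × ℚ × ℚ} (hq : PT q) :
    PT fun x => VqH (b x) (H x) (q x) := by
  have hb' : BPT fun p : α × ℕ => b p.1 := hb.comp PT.fst'
  have hH' : PT fun p : α × ℕ => H p.1 := hH.comp PT.fst'
  have hx : PT fun p : α × ℕ => (q p.1).1 := hq.fst.comp PT.fst'
  have hy : PT fun p : α × ℕ => (q p.1).2.1 := hq.snd.fst.comp PT.fst'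
  have hi : PT fun p : α × ℕ => p.2 := PT.snd'
  have c1 := cpt_qx hb' hH' hi
  have c2 := cpt_qy hb' hH'
  have c3 := cpt_wx hb' hH' hi
  have c4 := cpt_wy hb' hi
  have hε := pt_qadd (pt_delq hb' hH') (pt_qmul hb'.sq hb'.Pq)
  have s1 : PT fun x => ∑ i ∈ Finset.range (H x).nq,
      lpT (b x) (qx (b x) (H x) i) (qy (b x) (H x)) (q x).1 (q x).2.1 :=
    pt_rangeSum (pt_nq hH) (lp_T hb' c1 c2 hx hy)
  have s2 : PT fun x => ∑ i ∈ Finset.range (H x).two.length,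
      lpT (b x) (wx (b x) (H x) i) (wy (b x) i) (q x).1 (q x).2.1 :=
    pt_rangeSum (pt_ne hH) (lp_T hb' c3 c4 hx hy)
  have s3 : PT fun x => ∑ i ∈ Finset.range (H x).nq, ∑ a : Fin 3, ∑ a' : Fin 3,
      lpR (b x) (sq (b x) * epsh (H x) (Pq (b x)) (uq (b x)) (yq (b x)) i a a')
        (qx (b x) (H x) i) (qy (b x) (H x)) a a' (q x).1 (q x).2.1 :=
    pt_rangeSum (pt_nq hH) (lp_fin fun a : Fin 3 => lp_fin fun a' : Fin 3 =>
      lp_R hb' (pt_qmul hb'.sq (pt_epsh hb' hH' hi a a')) c1 c2 a a' hx hy)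
  have s4 : PT fun x => ∑ i ∈ Finset.range (H x).two.length,
      (lpR (b x) (delq (b x) (H x) + sq (b x) * Pq (b x)) (wx (b x) (H x) i) (wy (b x) i) 1 0
        (q x).1 (q x).2.1 +
      lpR (b x) (delq (b x) (H x) + sq (b x) * Pq (b x)) (wx (b x) (H x) i) (wy (b x) i) 0 0
        (q x).1 (q x).2.1) :=
    pt_rangeSum (pt_ne hH)
      (pt_qadd (lp_R hb' hε c3 c4 1 0 hx hy) (lp_R hb' hε c3 c4 0 0 hx hy))
  refine (pt_qmul (pt_zeta hq.snd.snd) (pt_qadd (pt_qadd s1 s2) (pt_qadd s3 s4))).congr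
    fun x => ?_
  rw [VqH, Lay.Vloc, lp_V0, lp_Ve]

end Vale.Agent.P370
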