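import Vale.Agent.P370.ParPT

/-! The list of nuclei is computable in polynomial time.

Plan.  `tq` is `PT` in binary `i, j, k`.  `Fq` needs `i` in unary (argument `u : Un`, `i = u.n`;
`i + 1`, `i - 1`, … by `unAdd`, `unMin`).  In `nucQ` rewrite the outer `List.range (nx b)` as the image of
`rangeU ⟨nx b⟩` (`List.flatMap_map`); `PT_flatMap`, `PT.map`. -/

namespace Vale.Agent.P370

open Vale.Agent.Lib.H23 Vale.Agent.P338 Vale.Agent.P049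

variable {α : Type} [Enc α] {b : α → ℕ} {V : α → ℚ × ℚ × ℚ → ℚ}

theorem NucPT_wt {i : α → ℕ} (hi : PT i) : PT fun x => wt (i x) := by
  have h : PT fun x => i x % 4 := PT_mod hi (PT.const 4)
  exact pt_iteP (((pt_neq h (PT.const 0)).or (pt_neq h (PT.const 3))).congr fun _ =>
    Bool.decide_or _ _) (PT.const 13) (PT.const 11)

theorem NucPT_gp {c : ℚ} {L h : α → ℚ} {i : α → ℕ} (hL : PT L) (hh : PT h) (hi : PT i) :
    PT fun x => c * L x + (i x + 1 / 2) * h x :=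
  pt_qadd (pt_qmul (PT.const c) hL) (pt_qmul (pt_qadd (pt_qcast hi) (PT.const _)) hh)

theorem NucPT_gpx (hb : BPT b) {i : α → ℕ} (hi : PT i) : PT fun x => gpx (b x) (i x) :=
  NucPT_gp hb.Lb hb.hh hi

theorem NucPT_gpy (hb : BPT b) {i : α → ℕ} (hi : PT i) : PT fun x => gpy (b x) (i x) :=
  NucPT_gp hb.Lb hb.hh hi

theorem NucPT_gpz (hb : BPT b) {i : α → ℕ} (hi : PT i) : PT fun x => gpz (b x) (i x) :=
  pt_qadd (PT.const _) (pt_qmul (pt_qadd (pt_qcast hi) (PT.const _)) hb.hh)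

theorem NucPT_lap (hV : PT fun p : α × (ℚ × ℚ × ℚ) => V p.1 p.2) {η q1 q2 q3 : α → ℚ} (hη : PT η)
    (h1 : PT q1) (h2 : PT q2) (h3 : PT q3) :
    PT fun x => lapFD (η x) (V x) (q1 x, q2 x, q3 x) := by
  have k : ∀ {r1 r2 r3 : α → ℚ}, PT r1 → PT r2 → PT r3 → PT fun x => V x (r1 x, r2 x, r3 x) :=
    fun {r1 r2 r3} a1 a2 a3 => PT.comp (f := fun p : α × (ℚ × ℚ × ℚ) => V p.1 p.2)
      (g := fun x => (x, (r1 x, r2 x, r3 x))) hV (PT.id.pair (a1.pair (a2.pair a3)))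
  exact pt_qdiv (pt_qsub (pt_qadd (pt_qadd (pt_qadd (pt_qadd (pt_qadd
    (k (pt_qadd h1 hη) h2 h3) (k (pt_qsub h1 hη) h2 h3)) (k h1 (pt_qadd h2 hη) h3))
    (k h1 (pt_qsub h2 hη) h3)) (k h1 h2 (pt_qadd h3 hη))) (k h1 h2 (pt_qsub h3 hη)))
    (pt_qmul (PT.const 6) (k h1 h2 h3))) (pt_qpow hη 2)

theorem NucPT_lift {β : Type} [Enc β] (hV : PT fun p : α × (ℚ × ℚ × ℚ) => V p.1 p.2) {g : β → α}
    (hg : PT g) : PT fun p : β × (ℚ × ℚ × ℚ) => V (g p.1) p.2 :=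
  PT.comp (f := fun p : α × (ℚ × ℚ × ℚ) => V p.1 p.2)
    (g := fun p : β × (ℚ × ℚ × ℚ) => (g p.1, p.2)) hV ((hg.comp PT.fst').pair PT.snd')

theorem NucPT_sub {i : α → ℕ} (hi : PT fun x => (⟨i x⟩ : Un)) (c : ℕ) :
    PT fun x => (⟨i x - c⟩ : Un) :=
  (PT_unMin (PT.sub (PT_unn hi) (PT.const c)) hi).congr fun x =>
    congrArg Un.mk (min_eq_left (Nat.sub_le _ _)).symm

theorem NucPT_loop {γ : Type} [Enc γ] {n1 n2 n3 : α → ℕ} {F : α → ℕ → ℕ → ℕ → γ}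
    (h1 : PT fun x => (⟨n1 x⟩ : Un)) (h2 : PT fun x => (⟨n2 x⟩ : Un))
    (h3 : PT fun x => (⟨n3 x⟩ : Un))
    (hF : PT fun p : ((α × Un) × ℕ) × ℕ => F p.1.1.1 p.1.1.2.n p.1.2 p.2) :
    PT fun x => (List.range (n1 x)).flatMap fun i => (List.range (n2 x)).flatMap fun j =>
      (List.range (n3 x)).map fun k => F x i j k := by
  have g3 : PT fun p : (α × Un) × ℕ => p.1.1 := PT.fst'.fst
  have r3 := PT_range (h3.comp g3)
  have r2 := PT_range (h2.comp (PT.fst' : PT fun p : α × Un => p.1))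
  have k2 := PT.map (f := fun (p : (α × Un) × ℕ) (k : ℕ) => F p.1.1 p.1.2.n p.2 k) hF r3
  have k1 := PT_flatMap (f := fun (p : α × Un) (j : ℕ) => (List.range (n3 p.1)).map fun k =>
    F p.1 p.2.n j k) k2 r2
  refine (PT_flatMap (f := fun x (u : Un) => (List.range (n2 x)).flatMap fun j =>
    (List.range (n3 x)).map fun k => F x u.n j k) k1 (PT_rangeU h1)).congr fun x => ?_
  rw [rangeU, List.flatMap_map]

theorem NucPT_n (hb : BPT b) (c e : ℕ) : PT fun x => (⟨c * 2 ^ (e * b x)⟩ : Un) :=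
  PT_unMul (PT.const (⟨c⟩ : Un)) (hb.pwU e)

theorem pt_tq (hb : BPT b) (hV : PT fun p : α × (ℚ × ℚ × ℚ) => V p.1 p.2) {i j k : α → ℕ}
    (hi : PT i) (hj : PT j) (hk : PT k) : PT fun x => tq (b x) (V x) (i x) (j x) (k x) := by
  exact pt_qdiv (pt_qmul (pt_qcast (((NucPT_wt hi).mul (NucPT_wt hj)).mul (NucPT_wt hk)))
    (NucPT_lap hV (pt_qpow hb.hh 4) (NucPT_gpx hb hi) (NucPT_gpy hb hj) (NucPT_gpz hb hk)))
    (pt_qpow hb.omz 2)

theorem pt_Fq (hb : BPT b) (hV : PT fun p : α × (ℚ × ℚ × ℚ) => V p.1 p.2) {i j k : α → ℕ}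
    (hi : PT fun x => (⟨i x⟩ : Un)) (hj : PT j) (hk : PT k) :
    PT fun x => Fq (b x) (V x) (i x) (j x) (k x) := by
  have h1 : PT fun p : α × ℕ => i p.1 - p.2 := PT.sub ((PT_unn hi).comp PT.fst') PT.snd'
  have h2 : PT fun p : α × ℕ => tq (b p.1) (V p.1) p.2 (j p.1) (k p.1) :=
    pt_tq (b := fun p : α × ℕ => b p.1) (V := fun p : α × ℕ => V p.1) (hb.comp PT.fst')
      (NucPT_lift hV PT.fst') PT.snd' (hj.comp PT.fst') (hk.comp PT.fst')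
  exact pt_qfloor (pt_qsum (PT.map (f := fun x (m : ℕ) =>
    ((i x - m : ℕ) * (i x - m + 1 : ℕ) * (i x - m + 2 : ℕ) : ℚ) / 6 * tq (b x) (V x) m (j x) (k x))
    (pt_qmul (pt_qdiv (pt_qmul (pt_qmul (pt_qcast h1) (pt_qcast (h1.add (PT.const 1))))
      (pt_qcast (h1.add (PT.const 2)))) (PT.const 6)) h2) (PT_range hi)))

theorem pt_Zq (hb : BPT b) (hV : PT fun p : α × (ℚ × ℚ × ℚ) => V p.1 p.2) {i j k : α → ℕ}
    (hi : PT fun x => (⟨i x⟩ : Un)) (hj : PT j) (hk : PT k) :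
    PT fun x => Zq (b x) (V x) (i x) (j x) (k x) := by
  have h1 : PT fun x => (⟨i x + 1⟩ : Un) := PT_unAdd hi (PT.const (⟨1⟩ : Un))
  exact PT.iadd (PT.natCast (((NucPT_wt (PT_unn hi)).mul (NucPT_wt hj)).mul (NucPT_wt hk)))
    (PT.iadd (PT.isub' (PT.iadd (PT.isub' (pt_Fq hb hV h1 hj hk)
      (PT.imul (PT.const 4) (pt_Fq hb hV hi hj hk)))
      (PT.imul (PT.const 6) (pt_Fq hb hV (NucPT_sub hi 1) hj hk)))
      (PT.imul (PT.const 4) (pt_Fq hb hV (NucPT_sub hi 2) hj hk)))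
      (pt_Fq hb hV (NucPT_sub hi 3) hj hk))

theorem pt_nucQ (hb : BPT b) (hV : PT fun p : α × (ℚ × ℚ × ℚ) => V p.1 p.2) :
    PT fun x => nucQ (b x) (V x) := by
  have g : PT fun p : ((α × Un) × ℕ) × ℕ => p.1.1.1 := PT.fst'.fst.fst
  have hb3 := hb.comp g
  have hu : PT fun p : ((α × Un) × ℕ) × ℕ => p.1.1.2 := PT.fst'.fst.snd
  have hj : PT fun p : ((α × Un) × ℕ) × ℕ => p.1.2 := PT.fst'.snd
  have hn := PT_unn hu
  have hk : PT fun p : ((α × Un) × ℕ) × ℕ => p.2 := PT.snd'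
  have hV3 := NucPT_lift hV g
  have z := pt_Zq (b := fun p : ((α × Un) × ℕ) × ℕ => b p.1.1.1)
    (V := fun p : ((α × Un) × ℕ) × ℕ => V p.1.1.1) (i := fun p => p.1.1.2.n) hb3 hV3 hu hj hk
  have h3 := ((NucPT_gpx hb3 hn).pair ((NucPT_gpy hb3 hj).pair (NucPT_gpz hb3 hk))).pair
    (PT.toNat z)
  have n1 : PT fun x => (⟨nx (b x)⟩ : Un) := NucPT_n hb 8 92000
  have n2 : PT fun x => (⟨ny (b x)⟩ : Un) := NucPT_n hb 6 92000
  have n3 : PT fun x => (⟨nz (b x)⟩ : Un) := NucPT_n hb 256 22000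
  have h := NucPT_loop (F := fun x i j k => ((gpx (b x) i, gpy (b x) j, gpz (b x) k),
    (Zq (b x) (V x) i j k).toNat)) n1 n2 n3 h3
  exact h.congr fun x => by rw [nucQ]

theorem pt_scaleNuc {s : α → ℚ} {l : α → List ((ℚ × ℚ × ℚ) × ℕ)} (hs : PT s) (hl : PT l) :
    PT fun x => scaleNuc (s x) (l x) := by
  have hs' : PT fun p : α × ((ℚ × ℚ × ℚ) × ℕ) => s p.1 := hs.comp PT.fst'
  have h1 : PT fun p : α × ((ℚ × ℚ × ℚ) × ℕ) => p.2.1 := PT.snd'.fst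
  exact PT.map (f := fun x (p : (ℚ × ℚ × ℚ) × ℕ) =>
    ((s x * p.1.1, s x * p.1.2.1, s x * p.1.2.2), p.2))
    (((pt_qmul hs' h1.fst).pair ((pt_qmul hs' h1.snd.fst).pair (pt_qmul hs' h1.snd.snd))).pair
      PT.snd'.snd) hl

end Vale.Agent.P370
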