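import Vale.Agent.P370.LayGeo

/-! The averaged dot interaction is the nominal interaction up to `2 / P^60`.

Plan.  `D = P^60`.  `kap dx dy ∈ [0, 2 / D]` if `D / 2 ≤ |dx|` or `D / 2 ≤ |dy|`; `kap dx 0 = 1 / dx`,
`kap 0 dy = 1 / |dy|`.  General lemma: a double sum over `range K × range K'` of terms which equal
`nom j j'` up to an error in `[0, 2/D]`, divided by `K K'`.  Cases (all `y`-chains have `K = 1`):
* same qubit, same row: same site: the diagonal gives `K u / K²`; neighbouring sites: only the pair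
  (last dot of the left group, first dot of the right group) is at distance `P^30`; all other pairs
  are at distance `≥ D`;  other rows: `|dy| ≥ Dy ≥ D`;  other qubits: `qpos_win`.
* same wire: same half: distances `≥ D - dt ≥ D / 2`; different halves: dots 2 and 3 are at distance
  `dt`, others `≥ D`;  other wires: `wpos_win`, `slot_mod`.
* qubit site `(q, a, 2)` and wire: `dy = -yq e`; `dx = 0` exactly for the dot number `e + 1` of the site
  and the contact dot of the wire (dot 0 for the first contact; dot 1 if `same`, dot 5 otherwise for the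
  second contact) when `(q, a)` is that contact; otherwise `|dx| ≥ D / 2` (the displaced first dots
  sit at a slot `≡ K - 1` plus `P^30`).  Rows `0, 1`: `|dy| ≥ Dy`.
`w1` is symmetric, which halves the mixed case. -/

namespace Vale.Agent.P370

variable {b : ℕ} {H : LH}

open Finset

theorem lw_P (b : ℕ) : 0 < Pq b := by unfold Pq; positivity

theorem lw_pow (hb : BOK b H) : 0 < Pq b ^ 30 ∧ Pq b ^ 30 ≤ Pq b ^ 39 ∧
    2 * Pq b ^ 39 ≤ Pq b ^ 60 := by
  have h2 : (2 : ℚ) ≤ Pq b := by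
    have := hb.b30
    calc (2 : ℚ) = 2 ^ 1 := by norm_num
      _ ≤ 2 ^ b := pow_le_pow_right₀ one_le_two (by omega)
  refine ⟨pow_pos (lw_P b) _, pow_le_pow_right₀ (by linarith) (by norm_num), ?_⟩
  calc 2 * Pq b ^ 39 ≤ Pq b * Pq b ^ 39 := mul_le_mul_of_nonneg_right h2 (pow_pos (lw_P b) _).le
    _ = Pq b ^ 40 := by ring
    _ ≤ _ := pow_le_pow_right₀ (by linarith) (by norm_num)

theorem lw_kap_symm (b : ℕ) (x x' y y' : ℚ) :
    Lay.kap b (x - x') (y - y') = Lay.kap b (x' - x) (y' - y) := by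
  unfold Lay.kap
  simp only [sub_eq_zero, eq_comm (a := x), eq_comm (a := y)]
  congr 3
  push_cast
  ring

theorem lw_kap_x (b : ℕ) {dx dy t : ℚ} (ht : 0 < t) (hx : dx = -t) (hy : dy = 0) :
    Lay.kap b dx dy = ((1 / t : ℚ) : ℝ) := by
  subst hx hy
  have : (0 : ℝ) < t := by exact_mod_cast ht
  rw [Lay.kap, if_neg (fun h => ht.ne' (neg_eq_zero.1 h.1))]
  simp [Real.sqrt_sq this.le]

theorem lw_kap_y (b : ℕ) {dx dy t : ℚ} (ht : 0 < t) (hx : dx = 0) (hy : dy = -t) :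
    Lay.kap b dx dy = ((1 / t : ℚ) : ℝ) := by
  subst hx hy
  have : (0 : ℝ) < t := by exact_mod_cast ht
  rw [Lay.kap, if_neg (fun h => ht.ne' (neg_eq_zero.1 h.2))]
  simp [Real.sqrt_sq this.le]

theorem kap_far (hb : BOK b H) {dx dy : ℚ} (h : Pq b ^ 60 / 2 ≤ |dx| ∨ Pq b ^ 60 / 2 ≤ |dy|) :
    0 ≤ Lay.kap b dx dy ∧ Lay.kap b dx dy ≤ 2 / PR b ^ 60 := by
  have hD : (0 : ℚ) < Pq b ^ 60 := pow_pos (lw_P b) _
  have hR : 0 < PR b ^ 60 := pow_pos (PR_pos b) _
  have h1 : PR b ^ 60 / 2 ≤ √((dx : ℝ) ^ 2 + (dy : ℝ) ^ 2) := by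
    rw [← Pq_cast]
    rcases h with h | h
    · refine le_trans ?_ (Real.abs_le_sqrt (x := (dx : ℝ)) (by nlinarith [sq_nonneg (dy : ℝ)]))
      exact_mod_cast h
    · refine le_trans ?_ (Real.abs_le_sqrt (x := (dy : ℝ)) (by nlinarith [sq_nonneg (dx : ℝ)]))
      exact_mod_cast h
  rw [Lay.kap, if_neg]
  · refine ⟨by positivity, (one_div_le_one_div_of_le (by positivity) h1).trans_eq ?_⟩
    field_simp
  · rintro ⟨rfl, rfl⟩
    simp only [abs_zero, or_self] at h
    linarith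

theorem lw_avg {K K' : ℕ} (hK : 0 < K) (hK' : 0 < K') {f g : ℕ → ℕ → ℝ} {ε : ℝ}
    (h : ∀ j < K, ∀ j' < K', |f j j' - g j j'| ≤ ε) :
    |(∑ j ∈ range K, ∑ j' ∈ range K', f j j') / (K * K') -
      (∑ j ∈ range K, ∑ j' ∈ range K', g j j') / (K * K')| ≤ ε := by
  have h0 : (0 : ℝ) < K * K' := by positivity
  rw [← sub_div, abs_div, abs_of_pos h0, div_le_iff₀ h0, ← sum_sub_distrib]
  calc _ ≤ ∑ j ∈ range K, ∑ j' ∈ range K', ε := by
        refine (abs_sum_le_sum_abs _ _).trans (sum_le_sum fun j hj => ?_)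
        rw [← sum_sub_distrib]
        exact (abs_sum_le_sum_abs _ _).trans
          (sum_le_sum fun j' hj' => h j (mem_range.1 hj) j' (mem_range.1 hj'))
    _ = _ := by simp; ring

/-- far apart -/
def LwFar (b : ℕ) (dx dy : ℚ) : Prop := Pq b ^ 60 / 2 ≤ |dx| ∨ Pq b ^ 60 / 2 ≤ |dy|

theorem lw_small (hb : BOK b H) {dx dy : ℚ} (h : LwFar b dx dy) :
    |Lay.kap b dx dy - 0| ≤ 2 / PR b ^ 60 := by
  rw [sub_zero, abs_of_nonneg (kap_far hb h).1]
  exact (kap_far hb h).2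

theorem lw_eps (b : ℕ) : 0 ≤ 2 / PR b ^ 60 := by
  have := PR_pos b
  positivity

section avg
variable {K K' : ℕ} {x x' : ℕ → ℚ} {dy w : ℚ}

theorem lw_zero (hb : BOK b H) (hK : 0 < K) (hK' : 0 < K') (hw : w = 0)
    (h : ∀ j < K, ∀ j' < K', LwFar b (x j - x' j') dy) :
    |(∑ j ∈ range K, ∑ j' ∈ range K', Lay.kap b (x j - x' j') dy) / (K * K') - w| ≤
      2 / PR b ^ 60 := by
  simpa [hw] using lw_avg hK hK' (g := fun _ _ => 0) fun j hj j' hj' => lw_small hb (h j hj j' hj')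

theorem lw_one (hb : BOK b H) {j0 j0' : ℕ} (h0 : j0 < K) (h0' : j0' < K') {c : ℚ}
    (hc : Lay.kap b (x j0 - x' j0') dy = c) (hw : w = c / (K * K'))
    (h : ∀ j < K, ∀ j' < K', LwFar b (x j - x' j') dy ∨ (j = j0 ∧ j' = j0')) :
    |(∑ j ∈ range K, ∑ j' ∈ range K', Lay.kap b (x j - x' j') dy) / (K * K') - w| ≤
      2 / PR b ^ 60 := by
  have h1 := lw_avg (by omega : 0 < K) (by omega : 0 < K')
    (f := fun j j' => Lay.kap b (x j - x' j') dy)
    (g := fun j j' => if j = j0 then if j' = j0' then (c : ℝ) else 0 else 0)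
    (ε := 2 / PR b ^ 60) fun j hj j' hj' => by
      by_cases he : j = j0 ∧ j' = j0'
      · simp [he.1, he.2, hc, lw_eps]
      · rw [← ite_and, if_neg he]
        exact lw_small hb ((h j hj j' hj').resolve_right he)
  simpa [hw, h0, h0'] using h1

theorem lw_diag (hb : BOK b H) (hK : 0 < K) (hy : dy = 0) (hw : w = uq b / K)
    (h : ∀ j < K, ∀ j' < K, LwFar b (x j - x j') dy ∨ j = j') :
    |(∑ j ∈ range K, ∑ j' ∈ range K, Lay.kap b (x j - x j') dy) / (K * K) - w| ≤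
      2 / PR b ^ 60 := by
  have h1 := lw_avg hK hK (f := fun j j' => Lay.kap b (x j - x j') dy)
    (g := fun j j' => if j = j' then (uq b : ℝ) else 0)
    (ε := 2 / PR b ^ 60) fun j hj j' hj' => by
      by_cases he : j = j'
      · simp [he, hy, Lay.kap, lw_eps]
      · rw [if_neg he]
        exact lw_small hb ((h j hj j' hj').resolve_right he)
  have h2 : (∑ j ∈ range K, ∑ j' ∈ range K, if j = j' then (uq b : ℝ) else 0) = K * uq b := by
    rw [sum_congr rfl (g := fun _ => (uq b : ℝ)) fun j hj => by simp [mem_range.1 hj]]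
    simp
  have h3 : (K : ℝ) ≠ 0 := by positivity
  rw [h2, mul_div_mul_left _ _ h3] at h1
  simpa [hw] using h1

end avg

/-- number of dots, horizontal positions and height of a site -/
def lwK (H : LH) : Site H → ℕ
  | .inl _ => H.K
  | .inr _ => 3

def lwx (b : ℕ) (H : LH) : Site H → ℕ → ℚ
  | .inl p, j => qpos b H p.1 (p.2.1 * H.K + j)
  | .inr p, j => wpos b H p.1 ((if p.2 then 1 else 0) * 3 + j)

def lwy (b : ℕ) (H : LH) : Site H → ℚ
  | .inl p => ((p.2.2.val : ℚ) - 2) * Dy b H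
  | .inr p => yq b p.1

theorem lw_w1 (σ σ' : Site H) : (lay b H).w1 b σ σ' =
    (∑ j ∈ range (lwK H σ), ∑ j' ∈ range (lwK H σ'),
      Lay.kap b (lwx b H σ j - lwx b H σ' j') (lwy b H σ - lwy b H σ')) /
        (lwK H σ * lwK H σ') := by
  cases σ <;> cases σ' <;> simp [Lay.w1, lay, qx, qy, wx, wy, lwK, lwx, lwy]

theorem lw_symm (σ σ' : Site H) : (lay b H).w1 b σ σ' = (lay b H).w1 b σ' σ := by
  rw [lw_w1, lw_w1, sum_comm, mul_comm]
  simp only [lw_kap_symm b (lwx b H σ _)]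

theorem lw_slots {m m' : ℕ} {s s' : ℚ} (h : m ≠ m') (h0 : 0 ≤ s) (h1 : s ≤ 3 * Pq b ^ 60)
    (h0' : 0 ≤ s') (h1' : s' ≤ 3 * Pq b ^ 60) :
    Pq b ^ 60 / 2 ≤ |Xs b m + s - (Xs b m' + s')| := by
  have hD : (0 : ℚ) < Pq b ^ 60 := pow_pos (lw_P b) _
  unfold Xs
  rcases lt_or_gt_of_ne h with h | h
  · have : (m : ℚ) + 1 ≤ m' := by exact_mod_cast h
    refine le_abs.2 (Or.inr ?_)
    nlinarith
  · have : (m' : ℚ) + 1 ≤ m := by exact_mod_cast h
    refine le_abs.2 (Or.inl ?_)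
    nlinarith

theorem lw_div {K x y j j' : ℕ} (hj : j < K) (hj' : j' < K) (h : x * K + j = y * K + j') :
    x = y ∧ j = j' := by
  have h1 := congrArg (· % K) h
  simp only [Nat.mul_add_mod', Nat.mod_eq_of_lt hj, Nat.mod_eq_of_lt hj'] at h1
  subst h1
  exact ⟨Nat.eq_of_mul_eq_mul_right (by omega : 0 < K) (by omega), rfl⟩

theorem lw_K (H : LH) : H.K = H.two.length + 2 := rfl

theorem lw_qpos (q : ℕ) {a j : ℕ} (ha : a < 3) (hj : j < H.K) :
    ∃ x r s, r < H.K ∧ qpos b H q (a * H.K + j) = Xs b (x * H.K + r) + s ∧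
      ((x = 3 * q + a ∧ r = j ∧ s = 0 ∧ (j = 0 → a = 0)) ∨
        (x + 1 = 3 * q + a ∧ r + 1 = H.K ∧ s = Pq b ^ 30 ∧ j = 0 ∧ a ≠ 0)) := by
  by_cases h : j = 0 ∧ a ≠ 0
  · obtain ⟨rfl, h⟩ := h
    obtain ⟨a, rfl⟩ := Nat.exists_eq_add_one_of_ne_zero h
    have ha2 : a < 2 := by omega
    refine ⟨3 * q + a, H.K - 1, _, by omega, ?_, Or.inr ⟨rfl, by omega, rfl, rfl, h⟩⟩
    rw [qpos, if_pos (by interval_cases a <;> omega), add_mul, add_mul, one_mul]
    congr 2
    omega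
  · refine ⟨_, j, 0, hj, ?_, Or.inl ⟨rfl, rfl, rfl, by omega⟩⟩
    rw [qpos, if_neg (by interval_cases a <;> omega), add_mul, add_zero, add_assoc]

theorem lw_qq (hb : BOK b H) (q q' : ℕ) {a j a' j' : ℕ} (ha : a < 3) (hj : j < H.K) (ha' : a' < 3)
    (hj' : j' < H.K) :
    Pq b ^ 60 / 2 ≤ |qpos b H q (a * H.K + j) - qpos b H q' (a' * H.K + j')| ∨
      (q = q' ∧ ((a = a' ∧ j = j') ∨ (a + 1 = a' ∧ j + 1 = H.K ∧ j' = 0) ∨
        (a' + 1 = a ∧ j' + 1 = H.K ∧ j = 0))) := by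
  obtain ⟨p0, p1, p2⟩ := lw_pow hb
  obtain ⟨x, r, s, hr, e, h⟩ := lw_qpos (b := b) q ha hj
  obtain ⟨x', r', s', hr', e', h'⟩ := lw_qpos (b := b) q' ha' hj'
  by_cases hm : x * H.K + r = x' * H.K + r'
  · have := lw_div hr hr' hm
    have := lw_K H
    omega
  · rw [e, e']
    refine Or.inl (lw_slots hm ?_ ?_ ?_ ?_) <;> rcases h with h | h <;> rcases h' with h' | h' <;>
      linarith [h.2.2.1, h'.2.2.1]

theorem lw_q30 (q : ℕ) {a : ℕ} (ha : a < 2) :
    qpos b H q (a * H.K + (H.K - 1)) - qpos b H q ((a + 1) * H.K + 0) = -Pq b ^ 30 := by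
  have := lw_K H
  rw [qpos, qpos, if_neg (by interval_cases a <;> omega), if_pos (by interval_cases a <;> omega),
    show 3 * q * H.K + ((a + 1) * H.K + 0) - 1 = 3 * q * H.K + (a * H.K + (H.K - 1)) by
      rw [add_mul]; omega]
  ring

theorem lw_Xs (hH : H.OK) {e : ℕ} (he : e < H.two.length) :
    Xs b (slot H (H.term e).1 e) + 4 * Pq b ^ 60 ≤ Xs b (slot H (H.term e).2.1 e) := by
  have hD : (0 : ℚ) < Pq b ^ 60 := pow_pos (lw_P b) _
  have : (slot H (H.term e).1 e : ℚ) + 1 ≤ slot H (H.term e).2.1 e := by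
    exact_mod_cast (slot_lt hH he).1
  unfold Xs
  nlinarith

theorem lw_wlt (hH : H.OK) (hb : BOK b H) {e : ℕ} (he : e < H.two.length) {i i' : ℕ} (h : i < i')
    (h6 : i' < 6) (h23 : ¬ (i = 2 ∧ i' = 3)) :
    wpos b H e i + Pq b ^ 60 / 2 ≤ wpos b H e i' := by
  obtain ⟨p0, p1, p2⟩ := lw_pow hb
  obtain ⟨d0, d1⟩ := dtq_bd hH hb he
  have := lw_Xs (b := b) hH he
  unfold wpos
  split_ifs <;> first | omega | linarith

theorem lw_ww (hH : H.OK) (hb : BOK b H) {e : ℕ} (he : e < H.two.length) {i i' : ℕ} (h6 : i < 6)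
    (h6' : i' < 6) : Pq b ^ 60 / 2 ≤ |wpos b H e i - wpos b H e i'| ∨ i = i' ∨
      (i = 2 ∧ i' = 3) ∨ (i = 3 ∧ i' = 2) := by
  by_contra hc
  simp only [not_or] at hc
  rcases lt_or_gt_of_ne hc.2.1 with h | h
  · exact hc.1 (le_abs.2 (Or.inr (by linarith [lw_wlt hH hb he h h6' hc.2.2.1])))
  · exact hc.1 (le_abs.2 (Or.inl (by
      linarith [lw_wlt hH hb he h h6 fun h => hc.2.2.2 h.symm])))

theorem lw_w23 (e : ℕ) : wpos b H e 2 - wpos b H e 3 = -dtq b H e := by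
  cases hs : H.same e <;> simp [wpos, hs]

theorem lw_wpos (hH : H.OK) (hb : BOK b H) {e : ℕ} (he : e < H.two.length) (i : ℕ) :
    ∃ t s, wpos b H e i = Xs b (slot H t e) + s ∧ 0 ≤ s ∧ s ≤ 3 * Pq b ^ 60 ∧
      (Pq b ^ 60 ≤ s ∨ (i = 0 ∧ t = (H.term e).1) ∨
        (i = (if H.same e then 1 else 5) ∧ t = (H.term e).2.1)) := by
  obtain ⟨p0, p1, p2⟩ := lw_pow hb
  obtain ⟨d0, d1⟩ := dtq_bd hH hb he
  unfold wpos
  split_ifs with h1 h2 h3 h4 h5 h6 h2 h3
  · exact ⟨_, 0, (add_zero _).symm, le_rfl, by linarith, Or.inr (Or.inl ⟨h2, rfl⟩)⟩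
  · exact ⟨_, 0, rfl, le_rfl, by linarith, Or.inr (Or.inr ⟨h3, rfl⟩)⟩
  iterate 4 exact ⟨_, _, rfl, by linarith, by linarith, Or.inl (by linarith)⟩
  · exact ⟨_, 0, (add_zero _).symm, le_rfl, by linarith, Or.inr (Or.inr ⟨h2, rfl⟩)⟩
  · exact ⟨_, 0, rfl, le_rfl, by linarith, Or.inr (Or.inl ⟨h3, rfl⟩)⟩
  all_goals exact ⟨_, _, rfl, by linarith, by linarith, Or.inl (by linarith)⟩

theorem lw_acol (p : Bool) : acol p < 3 := by cases p <;> simp [acol]

theorem lw_qw (hH : H.OK) (hb : BOK b H) (q : ℕ) {a j e : ℕ} (ha : a < 3) (hj : j < H.K)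
    (he : e < H.two.length) (i : ℕ) :
    Pq b ^ 60 / 2 ≤ |qpos b H q (a * H.K + j) - wpos b H e i| ∨ (j = e + 1 ∧
      ((i = 0 ∧ q = (H.term e).1.1 ∧ a = acol (H.term e).1.2) ∨
        (i = (if H.same e then 1 else 5) ∧ q = (H.term e).2.1.1 ∧ a = acol (H.term e).2.1.2))) := by
  obtain ⟨p0, p1, p2⟩ := lw_pow hb
  obtain ⟨x, r, s, hr, e1, h⟩ := lw_qpos (b := b) q ha hj
  obtain ⟨t, s', e2, s0, s1, h'⟩ := lw_wpos hH hb he i
  have hK := lw_K H
  rw [e1, e2]
  by_cases hm : x * H.K + r = slot H t e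
  · have h1 := lw_div hr (by omega : e + 1 < H.K) hm
    have h2 := lw_acol t.2
    rcases h with h | h
    · rcases h' with h' | ⟨h3, rfl⟩ | ⟨h3, rfl⟩
      · refine Or.inl (le_abs.2 (Or.inr ?_))
        rw [hm, h.2.2.1]
        linarith
      · exact Or.inr ⟨by omega, Or.inl ⟨h3, by omega, by omega⟩⟩
      · exact Or.inr ⟨by omega, Or.inr ⟨h3, by omega, by omega⟩⟩
    · omega
  · refine Or.inl (lw_slots hm ?_ ?_ s0 s1) <;> rcases h with h | h <;> linarith [h.2.2.1]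

theorem lw_hit (t : ℕ × Bool) {e : ℕ} (he : e < H.two.length) :
    qpos b H t.1 (acol t.2 * H.K + (e + 1)) = Xs b (slot H t e) := by
  have hK := lw_K H
  have h := lw_acol t.2
  rw [qpos, if_neg (by generalize acol t.2 = a at h; interval_cases a <;> omega), slot, add_mul,
    add_assoc, add_assoc]

theorem lw_Dy (hb : BOK b H) {z : ℚ} (hz : 1 ≤ |z|) : Pq b ^ 60 / 2 ≤ |z * Dy b H| := by
  have hD : (0 : ℚ) < Pq b ^ 60 := pow_pos (lw_P b) _
  have := (Dy_bd hb).1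
  rw [abs_mul, abs_of_pos (by linarith : 0 < Dy b H)]
  nlinarith

theorem w1_qq (hH : H.OK) (hb : BOK b H) (p p' : Fin H.nq × Fin 3 × Fin 3) :
    |(lay b H).w1 b (.inl p) (.inl p') - wnom H (mp b H) (.inl p) (.inl p')| ≤ 2 / PR b ^ 60 := by
  have hK : 0 < H.K := by rw [lw_K]; omega
  have key : ∀ (q : Fin H.nq) (a a' c : Fin 3), a.val + 1 = a'.val →
      |(lay b H).w1 b (.inl (q, a, c)) (.inl (q, a', c)) - w0 H (Pq b)| ≤ 2 / PR b ^ 60 := by
    intro q a a' c h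
    rw [lw_w1]
    refine lw_one hb (j0 := H.K - 1) (j0' := 0) (by show _ < H.K; omega) hK
      (lw_kap_x b (lw_pow hb).1 ?_ (sub_self _)) ?_ fun j hj j' hj' => ?_
    · show qpos b H q (a * H.K + (H.K - 1)) - qpos b H q (a' * H.K + 0) = _
      rw [← h]
      exact lw_q30 q (by omega)
    · show _ = 1 / Pq b ^ 30 / ((H.K : ℚ) * H.K)
      rw [w0, div_div]
      congr 1
      ring
    · refine (lw_qq hb q q a.2 hj a'.2 hj').imp Or.inl fun h1 => ?_
      omega
  obtain ⟨q, a, c⟩ := p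
  obtain ⟨q', a', c'⟩ := p'
  by_cases h1 : q = q' ∧ c = c'
  · obtain ⟨rfl, rfl⟩ := h1
    by_cases h2 : a = a'
    · subst h2
      rw [lw_w1]
      refine lw_diag hb hK (sub_self _) (by simp [wnom, mp, lwK]) fun j hj j' hj' => ?_
      refine (lw_qq hb q q a.2 hj a.2 hj').imp Or.inl fun h1 => ?_
      omega
    by_cases h3 : a.val + 1 = a'.val
    · simpa [wnom, mp, h2, h3] using key q a a' c h3
    by_cases h4 : a'.val + 1 = a.val
    · rw [lw_symm]
      simpa [wnom, mp, h2, h4] using key q a' a c h4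
    rw [lw_w1]
    refine lw_zero hb hK hK (by simp [wnom, h2, h3, h4]) fun j hj j' hj' => ?_
    refine Or.inl ((lw_qq hb q q a.2 hj a'.2 hj').resolve_right fun h1 => ?_)
    have : a.val ≠ a'.val := fun h => h2 (Fin.ext h)
    omega
  rw [lw_w1]
  refine lw_zero hb hK hK (by simp only [wnom, if_neg h1]) fun j hj j' hj' => ?_
  by_cases h2 : c = c'
  · exact Or.inl ((lw_qq hb q q' a.2 hj a'.2 hj').resolve_right fun h =>
      h1 ⟨Fin.ext h.1, h2⟩)
  · refine Or.inr ?_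
    show _ ≤ |((c.val : ℚ) - 2) * Dy b H - ((c'.val : ℚ) - 2) * Dy b H|
    rw [← sub_mul, sub_sub_sub_cancel_right]
    refine lw_Dy hb ?_
    have : (c.val : ℤ) - c'.val ≠ 0 := fun h => h2 (Fin.ext (by omega))
    exact_mod_cast Int.one_le_abs this

theorem w1_ww (hH : H.OK) (hb : BOK b H) (p p' : Fin H.two.length × Bool) :
    |(lay b H).w1 b (.inr p) (.inr p') - wnom H (mp b H) (.inr p) (.inr p')| ≤ 2 / PR b ^ 60 := by
  have key : ∀ e : Fin H.two.length,
      |(lay b H).w1 b (.inr (e, false)) (.inr (e, true)) - (1 / (9 * dtq b H e) : ℚ)| ≤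
        2 / PR b ^ 60 := by
    intro e
    rw [lw_w1]
    refine lw_one hb (j0 := 2) (j0' := 0) (by show _ < 3; omega) (by show _ < 3; omega)
      (lw_kap_x b ((lw_pow hb).1.trans_le (dtq_bd hH hb e.2).1) (lw_w23 e) (sub_self _)) ?_
      fun j hj j' hj' => ?_
    · show _ = 1 / dtq b H e / ((3 : ℕ) * (3 : ℕ))
      rw [div_div]
      congr 1
      push_cast
      ring
    · have h1 : j < 3 := hj
      have h2 : j' < 3 := hj'
      refine (lw_ww hH hb e.2 (i := 0 * 3 + j) (i' := 1 * 3 + j') (by omega) (by omega)).imp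
        Or.inl fun h => ?_
      omega
  obtain ⟨e, σ⟩ := p
  obtain ⟨e', σ'⟩ := p'
  by_cases h1 : e = e'
  · subst h1
    by_cases h2 : σ = σ'
    · subst h2
      rw [lw_w1]
      refine lw_diag hb three_pos (sub_self _) (by simp [wnom, mp, lwK]) fun j hj j' hj' => ?_
      have h1 : j < 3 := hj
      have h2 : j' < 3 := hj'
      refine (lw_ww hH hb e.2 (i := (if σ then 1 else 0) * 3 + j)
        (i' := (if σ then 1 else 0) * 3 + j') ?_ ?_).imp Or.inl fun h => ?_ <;>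
        split_ifs at * <;> omega
    cases σ <;> cases σ'
    · exact absurd rfl h2
    · simpa [wnom, mp] using key e
    · rw [lw_symm]
      simpa [wnom, mp] using key e
    · exact absurd rfl h2
  rw [lw_w1]
  refine lw_zero hb three_pos three_pos (by simp only [wnom, if_neg h1]) fun j _ j' _ => Or.inl ?_
  obtain ⟨t, s, e1, s0, s1, -⟩ := lw_wpos hH hb e.2 ((if σ then 1 else 0) * 3 + j)
  obtain ⟨t', s', e1', s0', s1', -⟩ := lw_wpos hH hb e'.2 ((if σ' then 1 else 0) * 3 + j')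
  show _ ≤ |wpos b H e _ - wpos b H e' _|
  rw [e1, e1']
  refine lw_slots (fun h => h1 (Fin.ext ?_)) s0 s1 s0' s1'
  have h2 := slot_mod t e.2
  rw [h, slot_mod t' e'.2] at h2
  omega

theorem w1_qw (hH : H.OK) (hb : BOK b H) (p : Fin H.nq × Fin 3 × Fin 3)
    (p' : Fin H.two.length × Bool) :
    |(lay b H).w1 b (.inl p) (.inr p') - wnom H (mp b H) (.inl p) (.inr p')| ≤ 2 / PR b ^ 60 := by
  obtain ⟨q, a, c⟩ := p
  obtain ⟨e, σ⟩ := p'
  have hK := lw_K H
  have he := e.2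
  have hy : 0 < yq b e := (pow_pos (lw_P b) _).trans_le (yq_bd hb he).1
  have hlt := (hH.two_lt _ (term_mem he)).1
  rw [lw_w1]
  by_cases hc : c.val = 2
  swap
  · refine lw_zero hb (by show 0 < H.K; omega) three_pos (by simp only [wnom, contact, if_neg hc])
      fun j _ j' _ => Or.inr ?_
    have h1 := lw_Dy hb (z := 1) (by simp)
    have h2 : (c.val : ℚ) ≤ 1 := by exact_mod_cast (by omega : c.val ≤ 1)
    have h3 : 0 < Dy b H := (pow_pos (lw_P b) _).trans_le (Dy_bd hb).1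
    rw [one_mul, abs_of_pos h3] at h1
    refine le_abs.2 (Or.inr ?_)
    show _ ≤ -(((c.val : ℚ) - 2) * Dy b H - yq b e)
    nlinarith
  have hdy : lwy b H (.inl (q, a, c)) - lwy b H (.inr (e, σ)) = -yq b e := by simp [lwy, hc]
  have hj : jj H (yq b) e = 1 / yq b e / ((H.K : ℚ) * (3 : ℕ)) := by
    rw [jj, div_div]
    congr 1
    push_cast
    ring
  have far : ∀ j < H.K, ∀ j', _ := fun j hj j' =>
    lw_qw hH hb q a.2 hj he ((if σ then 1 else 0) * 3 + j')
  by_cases h1 : q.val = (H.term e).1.1 ∧ a.val = acol (H.term e).1.2 ∧ σ = false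
  · have h2 : ¬ (q.val = (H.term e).2.1.1 ∧ a.val = acol (H.term e).2.1.2 ∧ σ = !H.same e) :=
      fun h => by omega
    refine lw_one hb (j0 := e + 1) (j0' := 0) (by show _ < H.K; omega) three_pos
      (lw_kap_y b hy ?_ hdy) ?_ fun j hj j' _ => (far j hj j').imp Or.inl fun h => ?_
    · simp only [lwx, h1.1, h1.2.1, h1.2.2, lw_hit _ he]
      simp [wpos]
    · simp only [wnom, contact, if_pos hc, if_pos h1, if_neg h2, add_zero, mul_one]
      exact hj
    · omega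
  by_cases h2 : q.val = (H.term e).2.1.1 ∧ a.val = acol (H.term e).2.1.2 ∧ σ = !H.same e
  · refine lw_one hb (j0 := e + 1) (j0' := if H.same e then 1 else 2) (by show _ < H.K; omega)
      (by show _ < 3; split_ifs <;> omega)
      (lw_kap_y b hy ?_ hdy) ?_ fun j hj j' _ => (far j hj j').imp Or.inl fun h => ?_
    · simp only [lwx, h2.1, h2.2.1, h2.2.2, lw_hit _ he]
      cases hs : H.same e <;> simp [wpos, hs]
    · simp only [wnom, contact, if_pos hc, if_pos h2, if_neg h1, zero_add, mul_one]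
      exact hj
    · rw [h2.2.2] at h
      cases hs : H.same e <;> simp [hs] at h ⊢ <;> omega
  refine lw_zero hb (by show 0 < H.K; omega) three_pos
    (by simp only [wnom, contact, if_pos hc, if_neg h1, if_neg h2, add_zero, mul_zero])
    fun j hj j' hj' => Or.inl ((far j hj j').resolve_right ?_)
  have h3 : j' < 3 := hj'
  rintro ⟨-, h | h⟩
  · refine h1 ⟨h.2.1, h.2.2, ?_⟩
    have := h.1
    cases σ
    · rfl
    · simp at this
  · refine h2 ⟨h.2.1, h.2.2, ?_⟩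
    have := h.1
    cases hs : H.same e <;> cases σ <;> simp [hs] at this ⊢ <;> omega

theorem w1_nom (hH : H.OK) (hb : BOK b H) (σ σ' : Site H) :
    |(lay b H).w1 b σ σ' - wnom H (mp b H) σ σ'| ≤ 2 / PR b ^ 60 := by
  rcases σ with p | p <;> rcases σ' with p' | p'
  · exact w1_qq hH hb p p'
  · exact w1_qw hH hb p p'
  · rw [lw_symm]
    exact w1_qw hH hb p' p
  · exact w1_ww hH hb p p'

end Vale.Agent.P370
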