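import Vale.Agent.P370.Par

/-! Bounds for the parameters.

Plan.  `piQ`: Leibniz series, `Real.tendsto_sum_pi_div_four` with
`Antitone.alternating_series_le_tendsto` / `Antitone.tendsto_le_alternating_series` (the number of
terms `2 ^ (66200 b)` is even).  `l2`, `l3`: `Real.abs_log_sub_add_sum_range_le`.
`lamb`: `Nat.sqrt_le'`, `Nat.lt_succ_sqrt'`; `lamb ^ 2 ≤ 128 b + 2 sqrt + 1` and `sqrt ≥ 61`.
`exp (-om)`: `om ≥ 2 * 3.14 * 128 b`, `log 2 < 0.6932`.  Never let `norm_num` expand `2 ^ (c * b)`;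
use `List.sum_range`-style rewriting (`Finset.sum_range`, `List.sum_range_succ`, `Rat.cast_list_sum`). -/

namespace Vale.Agent.P370

variable {b : ℕ}

theorem Pq_cast (b : ℕ) : ((Pq b : ℚ) : ℝ) = PR b := by
  simp [Pq, PR]

theorem PR_ge (hb : 30 ≤ b) : (2 : ℝ) ^ 30 ≤ PR b :=
  pow_le_pow_right₀ (by norm_num) hb

theorem PR_pos (b : ℕ) : 0 < PR b := by unfold PR; positivity

theorem PR_one (b : ℕ) : 1 ≤ PR b := one_le_pow₀ (by norm_num)

/-- `c P^i ≤ P^j` -/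
theorem PR_mul_le (hb : 30 ≤ b) {c : ℝ} (hc : c ≤ 2 ^ 30) {i j : ℕ} (h : i < j) :
    c * PR b ^ i ≤ PR b ^ j := by
  calc c * PR b ^ i ≤ PR b * PR b ^ i :=
        mul_le_mul_of_nonneg_right (hc.trans (PR_ge hb)) (pow_pos (PR_pos b) i).le
    _ = PR b ^ (i + 1) := (pow_succ' _ _).symm
    _ ≤ PR b ^ j := pow_le_pow_right₀ (PR_one b) h

/-- `c P^i / P^j ≤ P^k / P^l` -/
theorem PR_div_le (hb : 30 ≤ b) {c : ℝ} (hc : c ≤ 2 ^ 30) {i j k l : ℕ} (h : i + l < k + j) :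
    c * PR b ^ i / PR b ^ j ≤ PR b ^ k / PR b ^ l := by
  rw [div_le_div_iff₀ (pow_pos (PR_pos b) _) (pow_pos (PR_pos b) _), mul_assoc, ← pow_add,
    ← pow_add]
  exact PR_mul_le hb hc h

/-- `c / P^j ≤ 1 / P^l` -/
theorem PR_inv_le (hb : 30 ≤ b) {c : ℝ} (hc : c ≤ 2 ^ 30) {j l : ℕ} (h : l < j) :
    c / PR b ^ j ≤ 1 / PR b ^ l := by
  have := PR_div_le hb hc (i := 0) (j := j) (k := 0) (l := l) (by omega)
  rwa [pow_zero, mul_one] at this

theorem b_le_PR (hb : 30 ≤ b) : 1000000 * (b : ℝ) ≤ PR b := by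
  unfold PR
  induction b, hb using Nat.le_induction with
  | base => norm_num
  | succ n hn ih =>
    have h : (30 : ℝ) ≤ n := by exact_mod_cast hn
    rw [pow_succ]
    push_cast
    linarith

theorem parb_sum (f : ℕ → ℚ) (n : ℕ) :
    ((((List.range n).map f).sum : ℚ) : ℝ) = ∑ i ∈ Finset.range n, (f i : ℝ) := by
  induction n with
  | zero => simp
  | succ n ih => rw [List.sum_range_succ, Finset.sum_range_succ, Rat.cast_add, ih]

theorem parb_pow (b c : ℕ) : (2 : ℝ) ^ (c * b) = PR b ^ c := by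
  rw [PR, mul_comm, pow_mul]

theorem parb_small (hb : 30 ≤ b) {j : ℕ} (hj : 0 < j) : 1 / PR b ^ j ≤ 1 / 1000 := by
  have := PR_inv_le hb (c := 1000) (by norm_num) (l := 0) hj
  rw [pow_zero, div_one, div_le_one (pow_pos (PR_pos b) _)] at this
  exact one_div_le_one_div_of_le (by norm_num) this

theorem parb_leib (k : ℕ) :
    |4 * (∑ i ∈ Finset.range (2 * k), (-1 : ℝ) ^ i / (2 * i + 1)) - Real.pi| ≤
      4 / (2 * ((2 * k : ℕ) : ℝ) + 1) := by
  have ha : Antitone fun i : ℕ => 1 / (2 * (i : ℝ) + 1) := fun i j h => by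
    have : (i : ℝ) ≤ j := by exact_mod_cast h
    exact one_div_le_one_div_of_le (by positivity) (by linarith)
  have ht := Real.tendsto_sum_pi_div_four
  simp only [div_eq_mul_one_div ((-1 : ℝ) ^ _)] at ht ⊢
  have h1 := ha.alternating_series_le_tendsto ht k
  have h2 := ha.tendsto_le_alternating_series ht k
  rw [Finset.sum_range_succ, Even.neg_one_pow (even_two_mul k), one_mul] at h2
  rw [abs_le, div_eq_mul_one_div 4]
  have h3 : 0 ≤ 1 / (2 * ((2 * k : ℕ) : ℝ) + 1) := by positivity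
  constructor <;> linarith

theorem piQ_bd (hb : 30 ≤ b) : |(piQ b : ℝ) - Real.pi| ≤ 1 / PR b ^ 66100 := by
  obtain ⟨k, hk⟩ : ∃ k, 2 ^ (66200 * b) = 2 * k :=
    dvd_pow_self 2 (by omega)
  have hk' : ((2 * k : ℕ) : ℝ) = PR b ^ 66200 := by
    rw [← hk, Nat.cast_pow, Nat.cast_ofNat, parb_pow]
  have h := parb_leib k
  have e : (piQ b : ℝ) = 4 * ∑ i ∈ Finset.range (2 * k), (-1 : ℝ) ^ i / (2 * i + 1) := by
    rw [piQ, hk, Rat.cast_mul, parb_sum]
    push_cast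
    rfl
  rw [e]
  refine h.trans (le_trans ?_ (PR_inv_le hb (c := 4) (j := 66200) (by norm_num) (by norm_num)))
  rw [hk']
  have hp := pow_pos (PR_pos b) 66200
  generalize PR b ^ 66200 = y at hp
  exact div_le_div_of_nonneg_left (by norm_num) hp (by linarith)

theorem piQ_mem (hb : 30 ≤ b) : 314 / 100 ≤ piQ b ∧ piQ b ≤ 315 / 100 := by
  have h := abs_le.1 ((piQ_bd hb).trans (parb_small hb (by norm_num)))
  have h1 := Real.pi_gt_d4
  have h2 := Real.pi_lt_d4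
  have h3 : ((314 / 100 : ℚ) : ℝ) ≤ piQ b := by
    push_cast
    linarith [h.1]
  have h4 : (piQ b : ℝ) ≤ ((315 / 100 : ℚ) : ℝ) := by
    push_cast
    linarith [h.2]
  exact ⟨Rat.cast_le.1 h3, Rat.cast_le.1 h4⟩

theorem l2_bd (hb : 30 ≤ b) : |(l2 b : ℝ) - Real.log 2| ≤ 1 / PR b ^ 262000 := by
  have h := Real.abs_log_sub_add_sum_range_le (x := 1 / 2) (by rw [abs_of_pos] <;> norm_num)
    (262144 * b)
  have e : (l2 b : ℝ) = ∑ i ∈ Finset.range (262144 * b), (1 / 2 : ℝ) ^ (i + 1) / (i + 1) := by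
    rw [l2, parb_sum]
    push_cast
    rfl
  rw [show (1 - 1 / 2 : ℝ) = 2⁻¹ by norm_num, Real.log_inv, ← sub_eq_add_neg, ← e,
    abs_of_pos (show (0 : ℝ) < 1 / 2 by norm_num), pow_succ, one_div_pow, parb_pow,
    show (1 - 1 / 2 : ℝ) = 1 / 2 by norm_num, mul_div_cancel_right₀ _ (by norm_num)] at h
  exact h.trans (PR_inv_le hb (by norm_num) (by norm_num))

theorem l3_bd (hb : 30 ≤ b) : |(l3 b : ℝ) - Real.log 3| ≤ 1 / PR b ^ 262000 := by
  have h := Real.abs_log_sub_add_sum_range_le (x := 2 / 3) (by rw [abs_of_pos] <;> norm_num)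
    (524288 * b)
  have e : (l3 b : ℝ) = ∑ i ∈ Finset.range (524288 * b), (2 / 3 : ℝ) ^ (i + 1) / (i + 1) := by
    rw [l3, parb_sum]
    push_cast
    rfl
  rw [show (1 - 2 / 3 : ℝ) = 3⁻¹ by norm_num, Real.log_inv, ← sub_eq_add_neg, ← e,
    abs_of_pos (show (0 : ℝ) < 2 / 3 by norm_num), pow_succ,
    show 524288 * b = 2 * (262144 * b) by omega, pow_mul] at h
  have h1 : (((2 : ℝ) / 3) ^ 2) ^ (262144 * b) ≤ 1 / PR b ^ 262144 := by
    rw [← parb_pow, ← one_div_pow]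
    exact pow_le_pow_left₀ (by norm_num) (by norm_num) _
  refine h.trans (le_trans ?_ (PR_inv_le hb (c := 2) (j := 262144) (by norm_num) (by norm_num)))
  rw [div_eq_mul_one_div 2 (PR b ^ _)]
  generalize 1 / PR b ^ 262144 = y at h1
  generalize (((2 : ℝ) / 3) ^ 2) ^ (262144 * b) = x at h1
  rw [show x * (2 / 3) / (1 - 2 / 3) = 2 * x by ring]
  linarith

theorem lamb_bd (hb : 30 ≤ b) : 128 * b ≤ lamb b ^ 2 ∧ lamb b ^ 2 ≤ 133 * b ∧ 62 ≤ lamb b ∧
    lamb b ≤ 3 * b := by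
  have h1 := Nat.sqrt_le' (128 * b)
  have h2 := Nat.lt_succ_sqrt' (128 * b)
  have h3 : 61 ≤ Nat.sqrt (128 * b) := Nat.le_sqrt'.2 (by omega)
  unfold lamb
  rw [Nat.succ_eq_add_one] at h2
  generalize Nat.sqrt (128 * b) = s at h1 h2 h3
  have h4 : 61 * s ≤ 128 * b := by nlinarith
  refine ⟨h2.le, ?_, by omega, by omega⟩
  nlinarith

theorem om_bd (hb : 30 ≤ b) : 800 * (b : ℚ) ≤ om b ∧ om b ≤ 840 * b := by
  obtain ⟨h1, h2, -, -⟩ := lamb_bd hb
  obtain ⟨h3, h4⟩ := piQ_mem hb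
  have h5 : 128 * (b : ℚ) ≤ (lamb b : ℚ) ^ 2 := by exact_mod_cast h1
  have h6 : (lamb b : ℚ) ^ 2 ≤ 133 * b := by exact_mod_cast h2
  have h7 : (0 : ℚ) ≤ b := Nat.cast_nonneg b
  unfold om
  generalize (lamb b : ℚ) ^ 2 = L at h5 h6
  constructor <;> nlinarith

theorem om_le (hb : 30 ≤ b) : 1 ≤ (om b : ℝ) ∧ 1000 * (om b : ℝ) ≤ PR b := by
  obtain ⟨h1, h2⟩ := om_bd hb
  have h3 : 800 * (b : ℝ) ≤ om b := by exact_mod_cast h1
  have h4 : (om b : ℝ) ≤ 840 * b := by exact_mod_cast h2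
  have h5 : (30 : ℝ) ≤ b := by exact_mod_cast hb
  have h6 := b_le_PR hb
  constructor <;> linarith

theorem uq_bd (hb : 30 ≤ b) : 1 ≤ uq b ∧ uq b ≤ Pq b := by
  obtain ⟨-, -, h1, h2⟩ := lamb_bd hb
  obtain ⟨h3, h4⟩ := piQ_mem hb
  have h5 : (62 : ℚ) ≤ lamb b := by exact_mod_cast h1
  have h6 : (lamb b : ℚ) ≤ 3 * b := by exact_mod_cast h2
  have h7 : 1000000 * (b : ℚ) ≤ Pq b := by
    have := b_le_PR hb
    rw [← Pq_cast] at this
    exact_mod_cast this
  unfold uq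
  constructor <;> nlinarith

theorem parb_exp (b c : ℕ) : 1 / PR b ^ c = Real.exp (-(c * b * Real.log 2)) := by
  rw [Real.exp_neg, ← Nat.cast_mul, Real.exp_nat_mul, Real.exp_log two_pos, parb_pow, one_div]

theorem exp_om (hb : 30 ≤ b) :
    Real.exp (-(om b : ℝ)) ≤ 1 / PR b ^ 1000 ∧ 1 / PR b ^ 2800 ≤ Real.exp (-(2 * om b : ℝ)) := by
  obtain ⟨h1, h2⟩ := om_bd hb
  have h3 : 800 * (b : ℝ) ≤ om b := by exact_mod_cast h1
  have h4 : (om b : ℝ) ≤ 840 * b := by exact_mod_cast h2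
  have h5 : (0 : ℝ) ≤ b := Nat.cast_nonneg b
  have h6 := Real.log_two_gt_d9
  have h7 := Real.log_two_lt_d9
  rw [parb_exp, parb_exp]
  push_cast
  constructor <;> refine Real.exp_le_exp.2 ?_ <;> nlinarith

theorem sq_bd (hb : 30 ≤ b) : 1 / Pq b ^ 62981 ≤ sq b ∧ sq b ≤ 1 / Pq b ^ 62980 := by
  obtain ⟨h3, h4⟩ := piQ_mem hb
  have h1 : (2 : ℚ) ^ 30 ≤ Pq b := pow_le_pow_right₀ (by norm_num) hb
  have h0 : 0 < Pq b := lt_of_lt_of_le (by norm_num) h1
  have e : sq b = 1 / (Pq b ^ 62980 * (6912 * piQ b)) := by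
    rw [sq, omz, hh, ← pow_mul, one_div_pow, ← pow_mul,
      show 22000 * 3 = 1510 * 2 + 62980 from rfl, pow_add, mul_one_div,
      div_mul_cancel_left₀ (pow_pos h0 _).ne', ← one_div, div_div]
  have hp := pow_pos h0 62980
  rw [e, pow_succ (Pq b) 62980]
  generalize Pq b ^ 62980 = y at hp
  constructor
  · refine one_div_le_one_div_of_le (by positivity) (mul_le_mul_of_nonneg_left ?_ hp.le)
    linarith
  · refine one_div_le_one_div_of_le hp (le_mul_of_one_le_right hp.le ?_)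
    linarith

theorem plq_bd (hb : 30 ≤ b) {k : ℕ} (h1 : 62800 * b ≤ k) (h2 : k ≤ 63100 * b) :
    1 ≤ plq b k ∧ plq b k ≤ 64 := by
  have h := abs_le.1 ((l2_bd hb).trans (parb_small hb (by norm_num)))
  have h6 := Real.log_two_gt_d9
  have h7 := Real.log_two_lt_d9
  have a1 : ((69 / 100 : ℚ) : ℝ) ≤ l2 b := by
    push_cast
    linarith [h.1]
  have a2 : (l2 b : ℝ) ≤ ((7 / 10 : ℚ) : ℝ) := by
    push_cast
    linarith [h.2]
  have b1 := Rat.cast_le.1 a1
  have b2 := Rat.cast_le.1 a2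
  obtain ⟨c1, c2⟩ := om_bd hb
  have d0 : (30 : ℚ) ≤ b := by exact_mod_cast hb
  have d1 : 62800 * (b : ℚ) ≤ k := by exact_mod_cast h1
  have d2 : (k : ℚ) ≤ 63100 * b := by exact_mod_cast h2
  have hpos : 0 < 2 * om b := by linarith
  unfold plq
  rw [one_le_div hpos, div_le_iff₀ hpos]
  constructor <;> nlinarith

theorem exp_plq (hb : 30 ≤ b) {k : ℕ} (h2 : k ≤ 63100 * b) :
    |Real.exp (-(2 * om b * plq b k : ℝ)) * (√2 * 2 ^ k) - 1| ≤ 1 / PR b ^ 1000 := by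
  have hom := (om_le hb).1
  have e1 : (2 * om b * plq b k : ℝ) = (k + 1 / 2) * l2 b := by
    unfold plq
    push_cast
    field_simp
  have e2 : √2 * 2 ^ k = Real.exp ((k + 1 / 2) * Real.log 2) := by
    rw [add_mul, Real.exp_add, Real.exp_nat_mul, Real.exp_log two_pos, mul_comm (1 / 2),
      ← Real.rpow_def_of_pos two_pos, ← Real.sqrt_eq_rpow, mul_comm]
  have d0 : (30 : ℝ) ≤ b := by exact_mod_cast hb
  have d2 : (k : ℝ) ≤ 63100 * b := by exact_mod_cast h2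
  have d3 := b_le_PR hb
  have h3 : |-((k + 1 / 2) * (l2 b : ℝ)) + (k + 1 / 2) * Real.log 2| ≤
      PR b * (1 / PR b ^ 262000) := by
    rw [show -((k + 1 / 2) * (l2 b : ℝ)) + (k + 1 / 2) * Real.log 2 =
      -((k + 1 / 2) * (l2 b - Real.log 2)) by ring, abs_neg, abs_mul,
      abs_of_pos (show (0 : ℝ) < k + 1 / 2 by positivity)]
    exact mul_le_mul (by linarith) (l2_bd hb) (abs_nonneg _) (PR_pos b).le
  have h4 := PR_div_le hb (c := 2) (i := 1) (j := 262000) (k := 0) (l := 1000) (by norm_num)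
    (by norm_num)
  have h5 := parb_small hb (j := 1000) (by norm_num)
  rw [pow_zero, pow_one, mul_div_assoc, div_eq_mul_one_div (PR b)] at h4
  rw [e1, e2, ← Real.exp_add]
  generalize PR b * (1 / PR b ^ 262000) = y at h3 h4
  generalize 1 / PR b ^ 1000 = w at h4 h5
  refine (Real.abs_exp_sub_one_le (by linarith)).trans (by linarith)

/-- `√(om / π) = √2 * lamb` up to a tiny relative error -/
theorem sqrt_om (hb : 30 ≤ b) :
    |√(Real.pi / om b) * (√2 * lamb b) - 1| ≤ 1 / PR b ^ 1000 := by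
  have h3 : (1 : ℝ) ≤ piQ b := by
    have : (1 : ℚ) ≤ piQ b := le_trans (by norm_num) (piQ_mem hb).1
    exact_mod_cast this
  have h4 : (0 : ℝ) < lamb b := by
    have := (lamb_bd hb).2.2.1
    exact_mod_cast (by omega : 0 < lamb b)
  have hπ := Real.pi_pos
  have e : √(Real.pi / om b) * (√2 * lamb b) = √(Real.pi / piQ b) := by
    rw [← Real.sqrt_sq h4.le, ← Real.sqrt_mul two_pos.le, ← Real.sqrt_mul' _ (by positivity)]
    congr 1
    unfold om
    push_cast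
    field_simp
  have h5 : |√(Real.pi / piQ b) - 1| ≤ |Real.pi / piQ b - 1| := by
    have h6 := Real.mul_self_sqrt (show 0 ≤ Real.pi / piQ b by positivity)
    have h7 := Real.sqrt_nonneg (Real.pi / piQ b)
    generalize √(Real.pi / piQ b) = s at h6 h7
    rw [← h6, show s * s - 1 = (s - 1) * (s + 1) by ring, abs_mul]
    refine le_mul_of_one_le_right (abs_nonneg _) ?_
    rw [abs_of_pos (by linarith)]
    linarith
  rw [e]
  refine h5.trans (le_trans ?_ ((piQ_bd hb).trans (PR_inv_le hb (by norm_num) (by norm_num))))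
  rw [div_sub_one (by linarith), abs_div, abs_sub_comm,
    abs_of_pos (show (0 : ℝ) < piQ b by linarith)]
  exact div_le_self (abs_nonneg _) h3

end Vale.Agent.P370
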