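import Vale.Agent.P370.WDefs

/-! Part W: integrals over the parameter `t` (task WKer).
Plan.  `int_inv_sq`: `integral_comp_mul_left_Ioi` / `integrableOn_Ioi_comp_mul_left_iff` from
`integral_Ioi_inv_one_add_sq`, `integrable_inv_one_add_sq` (or the antiderivative `arctan (t / a) / a`).
`Ker.mul_le`: `α β ≤ 1` and `t² α β ≤ 4 M²`, so `(4 M² + t²) α β ≤ 8 M²`.
`kI_stab`: `α β γ - α' β' γ' = (α - α') β γ + α' (β - β') γ + α' β' (γ - γ')`, each term has integral at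
most `δ * 2 π M`, and `2 / √π * 6 π = 12 √π ≤ 24`.
`kI_exp`: `integral_gaussian_Ioi`.  `kI_far`: with `r = √(dx² + dy²) ≥ D`,
`(|dx| + 2)² + (|dy| + 2)² + 64² ≤ (r + 65)²` and `max (|dx| - 2) 0 ^ 2 ≥ dx² - 4 |dx|`, so the sum of
the two squares is `≥ r² - 8 r ≥ (r - 5)²`; hence `1 / (r + 65) ≤ kI ≤ 1 / (r - 5)`.
`kI_gauss`: `aG ω t * aG ω t = (ω / 2) / (ω / 2 + t²)`; `1 - aG ω' t ≤ 1 - aG ω' t ^ 2 =
t² / (ω' / 2 + t²)`, so the error integrand is `≤ (ω / 2) / (ω' / 2 + t²)`. -/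

namespace Vale.Agent.P370

open MeasureTheory Set

variable {M : ℝ} {α β γ α' β' γ' : ℝ → ℝ}

theorem int_inv_sq {a : ℝ} (ha : 0 < a) :
    IntegrableOn (fun t : ℝ => 1 / (a ^ 2 + t ^ 2)) (Ioi 0) ∧
      ∫ t in Ioi (0 : ℝ), 1 / (a ^ 2 + t ^ 2) = Real.pi / (2 * a) := by
  have e : (fun t : ℝ => 1 / (a ^ 2 + t ^ 2)) = fun t => (a ^ 2)⁻¹ * (1 + (a⁻¹ * t) ^ 2)⁻¹ := by
    funext t
    field_simp
  rw [e]
  refine ⟨((integrable_inv_one_add_sq.comp_mul_left' (inv_pos.2 ha).ne').const_mul _).integrableOn,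
    ?_⟩
  rw [integral_const_mul, integral_comp_mul_left_Ioi (fun x : ℝ => (1 + x ^ 2)⁻¹) 0 (inv_pos.2 ha),
    mul_zero, integral_Ioi_inv_one_add_sq, Real.arctan_zero, smul_eq_mul]
  field_simp
  ring

theorem Ker.mul_le (hM : 0 < M) (ha : Ker M α) (hb : Ker M β) {t : ℝ} (ht : 0 < t) :
    α t * β t ≤ 8 * M ^ 2 * (1 / ((2 * M) ^ 2 + t ^ 2)) := by
  have h1 : α t * β t ≤ 1 := mul_le_one₀ (ha.le_one t) (hb.nonneg t) (hb.le_one t)
  have h2 : t * α t * (t * β t) ≤ 2 * M * (2 * M) :=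
    mul_le_mul (ha.dec t ht) (hb.dec t ht) (mul_nonneg ht.le (hb.nonneg t)) (by positivity)
  rw [mul_one_div, le_div_iff₀ (by positivity)]
  nlinarith [mul_le_mul_of_nonneg_left h1 (sq_nonneg M)]

theorem wker_bd (hM : 0 < M) (ha : Ker M α) (hb : Ker M β) {u : ℝ → ℝ} (hu : Measurable u) {δ : ℝ}
    (h : ∀ t, |u t| ≤ δ) : IntegrableOn (fun t => α t * β t * u t) (Ioi 0) ∧
      |∫ t in Ioi (0 : ℝ), α t * β t * u t| ≤ δ * (2 * Real.pi * M) := by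
  obtain ⟨i1, i2⟩ := int_inv_sq (a := 2 * M) (by positivity)
  have hb' : ∀ᵐ t ∂(volume.restrict (Ioi (0 : ℝ))),
      ‖α t * β t * u t‖ ≤ δ * (8 * M ^ 2) * (1 / ((2 * M) ^ 2 + t ^ 2)) := by
    refine (ae_restrict_iff' measurableSet_Ioi).2 (ae_of_all _ fun t ht => ?_)
    rw [Real.norm_eq_abs, abs_mul, abs_of_nonneg (mul_nonneg (ha.nonneg t) (hb.nonneg t)), mul_comm,
      mul_assoc]
    exact mul_le_mul (h t) (ha.mul_le hM hb ht) (mul_nonneg (ha.nonneg t) (hb.nonneg t))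
      ((abs_nonneg _).trans (h t))
  refine ⟨(i1.const_mul _).mono' ((ha.meas.mul hb.meas).mul hu).aestronglyMeasurable hb', ?_⟩
  refine (norm_integral_le_of_norm_le (i1.const_mul _) hb').trans (le_of_eq ?_)
  rw [integral_const_mul, i2]
  field_simp
  ring

theorem Ker.int3 (hM : 0 < M) (ha : Ker M α) (hb : Ker M β) (hc : Ker M γ) :
    IntegrableOn (fun t => α t * β t * γ t) (Ioi 0) :=
  (wker_bd hM ha hb hc.meas (δ := 1) fun t => by
    rw [abs_of_nonneg (hc.nonneg t)]; exact hc.le_one t).1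

theorem wker_pi : √Real.pi * √Real.pi = Real.pi ∧ 0 < √Real.pi ∧ √Real.pi ≤ 2 :=
  ⟨Real.mul_self_sqrt Real.pi_pos.le, Real.sqrt_pos.2 Real.pi_pos,
    Real.sqrt_le_iff.2 ⟨by norm_num, by linarith [Real.pi_le_four]⟩⟩

theorem kI_stab (hM : 0 < M) (ha : Ker M α) (hb : Ker M β) (hc : Ker M γ) (ha' : Ker M α')
    (hb' : Ker M β') (hc' : Ker M γ') {δ : ℝ} (h1 : ∀ t, |α t - α' t| ≤ δ)
    (h2 : ∀ t, |β t - β' t| ≤ δ) (h3 : ∀ t, |γ t - γ' t| ≤ δ) :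
    |kI α β γ - kI α' β' γ'| ≤ 24 * M * δ := by
  obtain ⟨a1, a2⟩ := wker_bd hM hb hc (u := fun t => α t - α' t) (ha.meas.sub ha'.meas) h1
  obtain ⟨b1, b2⟩ := wker_bd hM ha' hc (u := fun t => β t - β' t) (hb.meas.sub hb'.meas) h2
  obtain ⟨c1, c2⟩ := wker_bd hM ha' hb' (u := fun t => γ t - γ' t) (hc.meas.sub hc'.meas) h3
  obtain ⟨p1, p2, p3⟩ := wker_pi
  have hδ : 0 ≤ δ := (abs_nonneg _).trans (h1 0)
  have e : (∫ t in Ioi (0 : ℝ), α t * β t * γ t) - ∫ t in Ioi (0 : ℝ), α' t * β' t * γ' t =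
      (∫ t in Ioi (0 : ℝ), β t * γ t * (α t - α' t)) + ((∫ t in Ioi (0 : ℝ), α' t * γ t *
        (β t - β' t)) + ∫ t in Ioi (0 : ℝ), α' t * β' t * (γ t - γ' t)) := by
    have bc : IntegrableOn (fun t => α' t * γ t * (β t - β' t) + α' t * β' t * (γ t - γ' t))
      (Ioi 0) := b1.add c1
    rw [← integral_sub (ha.int3 hM hb hc) (ha'.int3 hM hb' hc'), ← integral_add b1 c1,
      ← integral_add a1 bc]
    exact integral_congr_ae (ae_of_all _ fun t => by ring)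
  rw [kI, kI, ← mul_sub, e, abs_mul, abs_of_pos (by positivity), div_mul_eq_mul_div,
    div_le_iff₀ p2]
  have d := (abs_add_le _ _).trans (add_le_add a2 ((abs_add_le _ _).trans (add_le_add b2 c2)))
  have d2 : M * δ * √Real.pi * √Real.pi ≤ M * δ * √Real.pi * 2 :=
    mul_le_mul_of_nonneg_left p3 (by positivity)
  rw [mul_assoc, p1] at d2
  linarith

theorem kI_sum (hM : 0 < M) {ι κ : Type} (s : Finset ι) (u : Finset κ) {A : ι → ℝ → ℝ}
    {B : κ → ℝ → ℝ} (hA : ∀ i ∈ s, Ker M (A i)) (hB : ∀ k ∈ u, Ker M (B k)) (hc : Ker M γ)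
    (x y : ℝ) : kI (fun t => (∑ i ∈ s, A i t) / x) (fun t => (∑ k ∈ u, B k t) / y) γ =
      (∑ i ∈ s, ∑ k ∈ u, kI (A i) (B k) γ) / (x * y) := by
  unfold kI
  simp only [← Finset.mul_sum]
  rw [mul_div_assoc, Finset.sum_congr rfl fun i hi => (integral_finsetSum u
    fun k hk => (hA i hi).int3 hM (hB k hk) hc).symm, ← integral_finsetSum s fun i hi =>
      integrable_finsetSum u fun k hk => (hA i hi).int3 hM (hB k hk) hc, ← integral_div]
  congr 2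
  funext t
  simp only [← Finset.sum_mul, ← Finset.mul_sum]
  ring

theorem kI_exp {r : ℝ} (hr : 0 < r) :
    IntegrableOn (fun t : ℝ => Real.exp (-(t ^ 2 * r ^ 2))) (Ioi 0) ∧
      2 / √Real.pi * ∫ t in Ioi (0 : ℝ), Real.exp (-(t ^ 2 * r ^ 2)) = 1 / r := by
  have e : (fun t : ℝ => Real.exp (-(t ^ 2 * r ^ 2))) = fun t => Real.exp (-r ^ 2 * t ^ 2) := by
    funext t; congr 1; ring
  rw [e]
  refine ⟨(integrable_exp_neg_mul_sq (by positivity)).integrableOn, ?_⟩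
  have := wker_pi.2.1
  rw [integral_gaussian_Ioi, Real.sqrt_div Real.pi_pos.le, Real.sqrt_sq hr.le]
  field_simp

theorem wker_max (x : ℝ) : |x| ^ 2 - 4 * |x| ≤ max (|x| - 2) 0 ^ 2 := by
  rcases le_total (|x| - 2) 0 with h | h
  · rw [max_eq_right h]; nlinarith [abs_nonneg x]
  · rw [max_eq_left h]; nlinarith

theorem kI_far (hM : 0 < M) (ha : Ker M α) (hb : Ker M β) (hc : Ker M γ) {dx dy D : ℝ}
    (hD : 100 ≤ D) (hd : D ≤ |dx| ∨ D ≤ |dy|)
    (h1 : ∀ t, Real.exp (-(t ^ 2 * (|dx| + 2) ^ 2)) ≤ α t ∧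
      α t ≤ Real.exp (-(t ^ 2 * max (|dx| - 2) 0 ^ 2)))
    (h2 : ∀ t, Real.exp (-(t ^ 2 * (|dy| + 2) ^ 2)) ≤ β t ∧
      β t ≤ Real.exp (-(t ^ 2 * max (|dy| - 2) 0 ^ 2)))
    (h3 : ∀ t, Real.exp (-(t ^ 2 * 64 ^ 2)) ≤ γ t) :
    |kI α β γ - 1 / √(dx ^ 2 + dy ^ 2)| ≤ 65 / D ^ 2 := by
  have r1 : |dx| ≤ √(dx ^ 2 + dy ^ 2) := Real.abs_le_sqrt (by nlinarith)
  have r2 : |dy| ≤ √(dx ^ 2 + dy ^ 2) := Real.abs_le_sqrt (by nlinarith)
  have r3 : √(dx ^ 2 + dy ^ 2) ^ 2 = |dx| ^ 2 + |dy| ^ 2 := by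
    rw [Real.sq_sqrt (by positivity), sq_abs, sq_abs]
  generalize √(dx ^ 2 + dy ^ 2) = r at *
  have r4 : D ≤ r := hd.elim (·.trans r1) (·.trans r2)
  obtain ⟨a1, a2⟩ := kI_exp (r := r + 65) (by linarith)
  obtain ⟨b1, b2⟩ := kI_exp (r := r - 5) (by linarith)
  have i := ha.int3 hM hb hc
  have p : 0 ≤ 2 / √Real.pi := by positivity
  have l1 : 1 / (r + 65) ≤ kI α β γ := by
    rw [← a2]
    refine mul_le_mul_of_nonneg_left (integral_mono a1 i fun t => ?_) p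
    refine le_trans ?_ (mul_le_mul (mul_le_mul (h1 t).1 (h2 t).1 (Real.exp_pos _).le (ha.nonneg t))
      (h3 t) (Real.exp_pos _).le (mul_nonneg (ha.nonneg t) (hb.nonneg t)))
    rw [← Real.exp_add, ← Real.exp_add]
    refine Real.exp_le_exp.2 ?_
    have : (|dx| + 2) ^ 2 + (|dy| + 2) ^ 2 + 64 ^ 2 ≤ (r + 65) ^ 2 := by linarith
    linarith [mul_le_mul_of_nonneg_left this (sq_nonneg t)]
  have l2 : kI α β γ ≤ 1 / (r - 5) := by
    rw [← b2]
    refine mul_le_mul_of_nonneg_left (integral_mono i b1 fun t => ?_) p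
    refine (mul_le_of_le_one_right (mul_nonneg (ha.nonneg t) (hb.nonneg t)) (hc.le_one t)).trans
      ((mul_le_mul (h1 t).2 (h2 t).2 (hb.nonneg t) (Real.exp_pos _).le).trans ?_)
    rw [← Real.exp_add]
    refine Real.exp_le_exp.2 ?_
    have : (r - 5) ^ 2 ≤ max (|dx| - 2) 0 ^ 2 + max (|dy| - 2) 0 ^ 2 := by
      linarith [wker_max dx, wker_max dy]
    linarith [mul_le_mul_of_nonneg_left this (sq_nonneg t)]
  have r5 : 0 < r := by linarith
  have r6 : 0 < r - 5 := by linarith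
  have r7 : D ^ 2 ≤ r ^ 2 := pow_le_pow_left₀ (by linarith) r4 2
  have l3 : 1 / r - 1 / (r + 65) ≤ 65 / D ^ 2 := by
    rw [div_sub_div _ _ r5.ne' (by linarith), div_le_div_iff₀ (by positivity) (by positivity)]
    nlinarith
  have l4 : 1 / (r - 5) - 1 / r ≤ 65 / D ^ 2 := by
    rw [div_sub_div _ _ r6.ne' r5.ne', div_le_div_iff₀ (by positivity) (by positivity)]
    nlinarith
  rw [abs_le]
  constructor <;> linarith

/-- the transform of two equal Gaussians -/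
noncomputable def aG (ω t : ℝ) : ℝ := √(ω / (ω + 2 * t ^ 2))

theorem wker_aG {ω : ℝ} (h : 0 < ω) (t : ℝ) : aG ω t * aG ω t = ω / 2 * (1 / (√(ω / 2) ^ 2 + t ^ 2)) ∧
    0 ≤ aG ω t ∧ aG ω t ≤ 1 := by
  refine ⟨?_, Real.sqrt_nonneg _, Real.sqrt_le_one.2 ((div_le_one (by positivity)).2 (by nlinarith))⟩
  rw [aG, Real.mul_self_sqrt (by positivity), Real.sq_sqrt (by positivity)]
  field_simp

theorem kI_gauss {ω ω' : ℝ} (h : 0 < ω) (h' : 0 < ω') :
    |kI (aG ω) (aG ω) (aG ω') - √(Real.pi * (ω / 2))| ≤ 2 * ω / √ω' := by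
  have a0 : 0 < √(ω / 2) := Real.sqrt_pos.2 (by positivity)
  have b0 : 0 < √(ω' / 2) := Real.sqrt_pos.2 (by positivity)
  obtain ⟨a1, a2⟩ := int_inv_sq a0
  obtain ⟨b1, b2⟩ := int_inv_sq b0
  obtain ⟨p1, p2, p3⟩ := wker_pi
  have m : Measurable (aG ω') := by unfold aG; fun_prop
  have i : IntegrableOn (fun t => ω / 2 * (1 / (√(ω / 2) ^ 2 + t ^ 2)) * aG ω' t) (Ioi 0) :=
    (a1.const_mul _).mul_bdd (c := 1) m.aestronglyMeasurable (ae_of_all _ fun t => by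
      rw [Real.norm_of_nonneg (wker_aG h' t).2.1]; exact (wker_aG h' t).2.2)
  have e : √(Real.pi * (ω / 2)) =
      2 / √Real.pi * ∫ t in Ioi (0 : ℝ), ω / 2 * (1 / (√(ω / 2) ^ 2 + t ^ 2)) := by
    rw [integral_const_mul, a2, Real.sqrt_mul Real.pi_pos.le]
    have := Real.mul_self_sqrt (by positivity : 0 ≤ ω / 2)
    generalize √(ω / 2) = a at *
    generalize √Real.pi = q at *
    rw [← this, ← p1]
    field_simp
  have d : ‖∫ t in Ioi (0 : ℝ), (ω / 2 * (1 / (√(ω / 2) ^ 2 + t ^ 2)) * aG ω' t -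
      ω / 2 * (1 / (√(ω / 2) ^ 2 + t ^ 2)))‖ ≤
      ∫ t in Ioi (0 : ℝ), ω / 2 * (1 / (√(ω' / 2) ^ 2 + t ^ 2)) := by
    refine norm_integral_le_of_norm_le (b1.const_mul _) (ae_of_all _ fun t => ?_)
    obtain ⟨c1, c2, c3⟩ := wker_aG h' t
    have c4 : 1 - aG ω' t ≤ t ^ 2 * (1 / (√(ω' / 2) ^ 2 + t ^ 2)) := by
      have c5 : t ^ 2 * (1 / (√(ω' / 2) ^ 2 + t ^ 2)) = 1 - aG ω' t * aG ω' t := by
        rw [c1, Real.sq_sqrt (by positivity)]
        field_simp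
        ring
      rw [c5]
      nlinarith
    have c6 : 1 / (√(ω / 2) ^ 2 + t ^ 2) * t ^ 2 ≤ 1 := by
      rw [one_div_mul_eq_div, div_le_one (by positivity)]
      nlinarith
    rw [← mul_sub_one, Real.norm_eq_abs, abs_mul, abs_of_nonneg (by positivity), abs_sub_comm,
      abs_of_nonneg (by linarith), mul_assoc]
    refine mul_le_mul_of_nonneg_left ((mul_le_mul_of_nonneg_left c4 (by positivity)).trans ?_)
      (by positivity)
    rw [← mul_assoc]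
    exact mul_le_of_le_one_left (by positivity) c6
  rw [integral_sub i (a1.const_mul _), integral_const_mul (ω / 2) (fun t => 1 / (√(ω' / 2) ^ 2 + t ^ 2)),
    b2, Real.norm_eq_abs] at d
  rw [e, kI, ← mul_sub, abs_mul, abs_of_pos (by positivity)]
  simp only [(wker_aG h _).1]
  refine (mul_le_mul_of_nonneg_left d (by positivity)).trans ?_
  have s1 : √ω' ≤ 2 * √(ω' / 2) := by
    rw [Real.sqrt_le_iff, mul_pow, Real.sq_sqrt (by positivity)]
    exact ⟨by positivity, by linarith⟩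
  have s2 : 0 < √ω' := Real.sqrt_pos.2 h'
  generalize √(ω' / 2) = b at *
  generalize √Real.pi = q at *
  rw [← p1, le_div_iff₀ s2]
  calc _ = ω * (q * (√ω' / (2 * b))) := by field_simp
    _ ≤ ω * (2 * 1) := by gcongr; exact (div_le_one (by positivity)).2 s1
    _ = _ := by ring

end Vale.Agent.P370
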