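import Vale.Agent.P370.Defs
import Vale.Agent.P370.WDens
import Vale.Agent.P370.WKer

/-! Part W: the Coulomb integral of product densities as an integral over `t` (task WFub).
Plan.  `fub_y`: for `y ≠ x` (a.e. `y`), `d3 x y > 0` and `kI_exp` gives
`G y / d3 x y = ∫ t in Ioi 0, 2 / √π * (∏ k, g k (y k) * exp (-(t² (x k - y k)²)))`.
Swap with `integral_integral_swap`; integrability on the product by `integrable_prod_iff'`:
for each `t` dominated by `G` (`Integrable.fintype_prod`), and `∫ y ‖·‖ = ∏ kB (g k) t (x k)`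
(`integral_fintype_prod_volume_eq_prod`, `Fin.prod_univ_three`), integrable by `ker_kB`, `Ker.int3`.
`fub_main`: `F x * G y / d = F x * (G y / d)`, `integral_const_mul`, `fub_y`, swap again; the integrand
`F x * ∏ kB (g k) t (x k)` is dominated by `F x * (8 M² / ((2 M)² + t²))` (`Ker.mul_le`,
`Integrable.mul_prod`); measurability from `kB_meas`. -/

namespace Vale.Agent.P370

open MeasureTheory

variable {M : ℝ} {f0 f1 f2 g0 g1 g2 : ℝ → ℝ}

theorem wfub_prod (u v w : ℝ → ℝ) :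
    ∫ y : E3, u (y 0) * v (y 1) * w (y 2) = (∫ s, u s) * (∫ s, v s) * ∫ s, w s := by
  have := integral_fintype_prod_volume_eq_prod (𝕜 := ℝ) (E := fun _ : Fin 3 => ℝ) ![u, v, w]
  simpa only [Fin.prod_univ_three, Matrix.cons_val] using this

theorem wfub_int {u v w : ℝ → ℝ} (hu : Integrable u) (hv : Integrable v) (hw : Integrable w) :
    Integrable fun y : E3 => u (y 0) * v (y 1) * w (y 2) := by
  have := Integrable.fintype_prod (ι := Fin 3) (μ := fun _ => (volume : Measure ℝ))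
    (f := ![u, v, w]) fun i => by fin_cases i <;> assumption
  simp only [Fin.prod_univ_three, Matrix.cons_val] at this
  exact this

/-- the hypotheses on one factor -/
structure WfubOk (u : ℝ → ℝ → ℝ) : Prop where
  meas : Measurable fun p : ℝ × ℝ => u p.1 p.2
  nonneg : ∀ t s, 0 ≤ u t s
  int : ∀ t, Integrable (u t)

theorem wfub_swap {u v w : ℝ → ℝ → ℝ} (hu : WfubOk u) (hv : WfubOk v) (hw : WfubOk w)
    (h : IntegrableOn (fun t => (∫ s, u t s) * (∫ s, v t s) * ∫ s, w t s) (Set.Ioi 0)) :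
    ∫ y : E3, ∫ t in Set.Ioi (0 : ℝ), u t (y 0) * v t (y 1) * w t (y 2) =
      ∫ t in Set.Ioi (0 : ℝ), (∫ s, u t s) * (∫ s, v t s) * ∫ s, w t s := by
  rw [integral_integral_swap]
  · simp only [wfub_prod]
  have hm : ∀ {u : ℝ → ℝ → ℝ}, WfubOk u → ∀ k : Fin 3,
      Measurable fun p : E3 × ℝ => u p.2 (p.1 k) := fun hu k =>
    hu.meas.comp (measurable_snd.prodMk ((measurable_pi_apply k).comp measurable_fst))
  refine (integrable_prod_iff' (((hm hu 0).mul (hm hv 1)).mul (hm hw 2)).aestronglyMeasurable).2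
    ⟨Filter.Eventually.of_forall fun t => wfub_int (hu.int t) (hv.int t) (hw.int t),
      h.congr (Filter.Eventually.of_forall fun t => ?_)⟩
  beta_reduce
  rw [← wfub_prod]
  refine integral_congr_ae (Filter.Eventually.of_forall fun y => ?_)
  exact (Real.norm_of_nonneg (mul_nonneg (mul_nonneg (hu.nonneg _ _) (hv.nonneg _ _))
    (hw.nonneg _ _))).symm

theorem wfub_mul {g : ℝ → ℝ} (hg : Dens M g) {k : ℝ → ℝ → ℝ}
    (hm : Measurable fun p : ℝ × ℝ => k p.1 p.2) (h0 : ∀ t s, 0 ≤ k t s) (h1 : ∀ t s, k t s ≤ 1) :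
    WfubOk fun t s => g s * k t s := by
  refine ⟨(hg.meas.comp measurable_snd).mul hm, fun t s => mul_nonneg (hg.nonneg s) (h0 t s),
    fun t => hg.int.mono' (hg.meas.mul (hm.comp measurable_prodMk_left)).aestronglyMeasurable
      (Filter.Eventually.of_forall fun s => ?_)⟩
  rw [Real.norm_of_nonneg (mul_nonneg (hg.nonneg s) (h0 t s))]
  exact mul_le_of_le_one_right (hg.nonneg s) (h1 t s)

theorem wfub_exp {g : ℝ → ℝ} (hg : Dens M g) (a : ℝ) :
    WfubOk fun t s => g s * Real.exp (-(t ^ 2 * (a - s) ^ 2)) :=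
  wfub_mul hg (by fun_prop) (fun _ _ => (Real.exp_pos _).le) fun _ _ =>
    Real.exp_le_one_iff.2 (neg_nonpos.2 (by positivity))

theorem fub_y (h0 : Dens M g0) (h1 : Dens M g1) (h2 : Dens M g2) (x : E3) :
    ∫ y : E3, g0 (y 0) * g1 (y 1) * g2 (y 2) / d3 x y =
      kI (fun t => kB g0 t (x 0)) (fun t => kB g1 t (x 1)) fun t => kB g2 t (x 2) := by
  have key := wfub_swap (wfub_exp h0 (x 0)) (wfub_exp h1 (x 1)) (wfub_exp h2 (x 2))
    (Ker.int3 h0.pos (ker_kB h0 (x 0)) (ker_kB h1 (x 1)) (ker_kB h2 (x 2)))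
  unfold kI kB
  rw [← key, ← integral_const_mul]
  refine integral_congr_ae ?_
  filter_upwards [compl_mem_ae_iff.2 (measure_singleton x)] with y hy
  have hs : 0 ≤ ∑ k, (x k - y k) ^ 2 := Finset.sum_nonneg fun _ _ => sq_nonneg _
  have hd : 0 < d3 x y := by
    refine Real.sqrt_pos.2 (hs.lt_of_ne fun e => hy (funext fun k => ?_))
    have := (Finset.sum_eq_zero_iff_of_nonneg fun _ _ => sq_nonneg _).1 e.symm k (Finset.mem_univ k)
    exact (sub_eq_zero.1 (pow_eq_zero_iff two_ne_zero |>.1 this)).symm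
  rw [div_eq_mul_one_div, ← (kI_exp hd).2, mul_left_comm, ← integral_const_mul]
  congr 2
  funext t
  rw [d3, Real.sq_sqrt hs, Fin.sum_univ_three, mul_add, mul_add, neg_add, neg_add, Real.exp_add,
    Real.exp_add]
  ring

theorem fub_main (a0 : Dens M f0) (a1 : Dens M f1) (a2 : Dens M f2) (h0 : Dens M g0)
    (h1 : Dens M g1) (h2 : Dens M g2) :
    ∫ x : E3, ∫ y : E3,
      f0 (x 0) * f1 (x 1) * f2 (x 2) * (g0 (y 0) * g1 (y 1) * g2 (y 2)) / d3 x y =
      kI (kA f0 g0) (kA f1 g1) (kA f2 g2) := by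
  have key := wfub_swap (wfub_mul a0 (kB_meas h0) (kB_nonneg h0) (kB_le_one h0))
    (wfub_mul a1 (kB_meas h1) (kB_nonneg h1) (kB_le_one h1))
    (wfub_mul a2 (kB_meas h2) (kB_nonneg h2) (kB_le_one h2))
    (Ker.int3 h0.pos (ker_kA a0 h0) (ker_kA a1 h1) (ker_kA a2 h2))
  simp only [mul_div_assoc (f0 _ * _ * _), integral_const_mul, fub_y h0 h1 h2]
  unfold kI kA
  rw [← key, ← integral_const_mul]
  congr 1
  funext x
  rw [mul_left_comm, ← integral_const_mul]
  congr 2
  funext t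
  ring

end Vale.Agent.P370
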