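import Vale.Agent.P370.ChDefs
import Vale.Agent.P370.ParB
import Vale.Agent.P370.WMu
import Vale.Agent.P370.WFub

/-! Part W: Coulomb integrals of the sharp orbitals (see `notes/P370.md`). -/

namespace Vale.Agent.P370

open Finset MeasureTheory

variable {ι S : Type} [Fintype ι] [Fintype S] [DecidableEq ι] {b : ℕ} {L : Lay ι S}

theorem w_M1 (b : ℕ) : PR b ≤ PR b ^ 800 := le_self_pow₀ (PR_one b) (by norm_num)

theorem w_M2 (hb : 30 ≤ b) : 1 / mG (om b) 1 ≤ PR b ^ 800 := (inv_mG_om hb).trans (w_M1 b)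

theorem w_M3 (hb : 30 ≤ b) : 1 / mG (omz b) 32 ≤ PR b ^ 800 :=
  (inv_mG_omz hb).trans (pow_le_pow_right₀ (PR_one b) (by norm_num))

theorem w_tG (hb : 30 ≤ b) (p : ℝ) : Dens (PR b ^ 800) (tG (om b) 1 p) :=
  (dens_tG (by linarith [(om_le hb).1]) one_pos _).mono (w_M2 hb)

theorem w_tGz (hb : 30 ≤ b) : Dens (PR b ^ 800) (tG (omz b) 32 0) :=
  (dens_tG ((PR_pos b).trans_le (omz_ge hb)) (by norm_num) _).mono (w_M3 hb)

theorem w_err (hb : 30 ≤ b) :
    24 * PR b ^ 800 * (1 / PR b ^ 900 + 1 / PR b ^ 900) ≤ 1 / PR b ^ 70 := by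
  have h := PR_div_le hb (c := 48) (by norm_num) (i := 800) (j := 900) (k := 0) (l := 70)
    (by norm_num)
  rw [pow_zero] at h
  refine le_trans (le_of_eq ?_) h
  rw [div_eq_mul_one_div (48 * _)]
  generalize 1 / PR b ^ 900 = x
  generalize PR b ^ 800 = y
  ring

theorem w_uq (hb : 30 ≤ b) : |√(Real.pi * (om b / 2)) - uq b| ≤ 1 / PR b ^ 70 := by
  have h1 := abs_le.1 (piQ_bd hb)
  have h2 : (0 : ℝ) < piQ b := by
    have : (0 : ℚ) < piQ b := by linarith [(piQ_mem hb).1]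
    exact_mod_cast this
  have h3 : (lamb b : ℝ) ≤ PR b := by
    have h4 : (lamb b : ℝ) ≤ 3 * b := by exact_mod_cast (lamb_bd hb).2.2.2
    have h5 : (0 : ℝ) ≤ b := Nat.cast_nonneg _
    linarith [b_le_PR hb]
  have h0 := PR_pos b
  have hl : (0 : ℝ) ≤ lamb b := Nat.cast_nonneg _
  have e1 : Real.pi * ((om b : ℝ) / 2) = Real.pi * piQ b * (lamb b : ℝ) ^ 2 := by
    rw [om]
    push_cast
    ring
  have e2 : (uq b : ℝ) = piQ b * lamb b := by
    rw [uq]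
    push_cast
    rfl
  have h6 : |√(Real.pi * piQ b) - piQ b| ≤ 1 / PR b ^ 66100 := by
    have hp := Real.pi_pos
    have h7 : √(Real.pi * piQ b) ≤ max Real.pi (piQ b) :=
      Real.sqrt_le_iff.2 ⟨le_max_of_le_left hp.le, by
        rw [pow_two]
        exact mul_le_mul (le_max_left _ _) (le_max_right _ _) h2.le (le_max_of_le_left hp.le)⟩
    have h8 : min Real.pi (piQ b) ≤ √(Real.pi * piQ b) := Real.le_sqrt_of_sq_le (by
      rw [pow_two]
      exact mul_le_mul (min_le_left _ _) (min_le_right _ _) (le_min hp.le h2.le) hp.le)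
    generalize 1 / PR b ^ 66100 = x at h1 ⊢
    rw [abs_le]
    rcases le_total Real.pi (piQ b) with c | c
    · rw [max_eq_right c] at h7
      rw [min_eq_left c] at h8
      constructor <;> linarith [h1.1, h1.2]
    · rw [max_eq_left c] at h7
      rw [min_eq_right c] at h8
      constructor <;> linarith [h1.1, h1.2]
  have h9 := PR_div_le hb (c := 1) (by norm_num) (i := 1) (j := 66100) (k := 0) (l := 70)
    (by norm_num)
  rw [pow_zero, pow_one, one_mul, div_eq_mul_one_div, mul_comm] at h9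
  rw [e1, e2, Real.sqrt_mul' _ (sq_nonneg _), Real.sqrt_sq hl, ← sub_mul, abs_mul, abs_of_nonneg hl]
  exact (mul_le_mul h6 h3 hl ((abs_nonneg _).trans h6)).trans h9

theorem w_same (hb : 30 ≤ b) (p q : ℝ) :
    |kI (kA (tG (om b) 1 p) (tG (om b) 1 p)) (kA (tG (om b) 1 q) (tG (om b) 1 q))
      (kA (tG (omz b) 32 0) (tG (omz b) 32 0)) - uq b| ≤ 3 / PR b ^ 70 := by
  have h0 := PR_pos b
  have ho : (0 : ℝ) < om b := by linarith [(om_le hb).1]
  have hz : (0 : ℝ) < omz b := h0.trans_le (omz_ge hb)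
  have g1 : ∀ p, Dens (PR b ^ 800) (gG (om b) p) := fun p =>
    (dens_gG ho one_pos p).mono (w_M2 hb)
  have g2 : Dens (PR b ^ 800) (gG (omz b) 0) := (dens_gG hz (by norm_num) 0).mono (w_M3 hb)
  have h1 := kI_stab (pow_pos h0 800) (ker_kA (w_tG hb p) (w_tG hb p))
    (ker_kA (w_tG hb q) (w_tG hb q)) (ker_kA (w_tGz hb) (w_tGz hb)) (ker_kA (g1 p) (g1 p))
    (ker_kA (g1 q) (g1 q)) (ker_kA g2 g2)
    (fun t => (kA_sub (w_tG hb p) (w_tG hb p) (g1 p) (g1 p) t).trans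
      (add_le_add (l1_om hb p) (l1_om hb p)))
    (fun t => (kA_sub (w_tG hb q) (w_tG hb q) (g1 q) (g1 q) t).trans
      (add_le_add (l1_om hb q) (l1_om hb q)))
    (fun t => (kA_sub (w_tGz hb) (w_tGz hb) g2 g2 t).trans
      (add_le_add (l1_omz hb 0) (l1_omz hb 0)))
  have e : ∀ {ω : ℝ}, 0 < ω → ∀ p, kA (gG ω p) (gG ω p) = aG ω := fun h p =>
    funext fun t => kA_gG h p t
  rw [e ho, e ho, e hz] at h1
  have h2 := kI_gauss ho hz
  have h3 : 2 * (om b : ℝ) / √(omz b : ℝ) ≤ 1 / PR b ^ 70 := by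
    have h4 := PR_div_le hb (c := 1) (by norm_num) (i := 1) (j := 755) (k := 0) (l := 70)
      (by norm_num)
    rw [pow_zero, pow_one, one_mul] at h4
    rw [omz_cast, show 1510 = 755 * 2 from rfl, pow_mul, Real.sqrt_sq (by positivity)]
    exact (div_le_div_of_nonneg_right (by linarith [(om_le hb).2]) (by positivity)).trans h4
  have h5 := abs_le.1 (h1.trans (w_err hb))
  have h6 := abs_le.1 (h2.trans h3)
  have h7 := abs_le.1 (w_uq hb)
  rw [div_eq_mul_one_div 3, abs_le]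
  constructor <;> linarith [h5.1, h5.2, h6.1, h6.2, h7.1, h7.2]

theorem w_dot (hb : 30 ≤ b) (p p' q q' : ℚ) (h : (p = p' ∧ q = q') ∨
      PR b ^ 30 ≤ |(p : ℝ) - p'| ∨ PR b ^ 30 ≤ |(q : ℝ) - q'|) :
    |kI (kA (tG (om b) 1 p) (tG (om b) 1 p')) (kA (tG (om b) 1 q) (tG (om b) 1 q'))
      (kA (tG (omz b) 32 0) (tG (omz b) 32 0)) - Lay.kap b (p - p') (q - q')| ≤
      65 / PR b ^ 60 := by
  have h0 := PR_pos b
  rcases h with ⟨rfl, rfl⟩ | h
  · rw [Lay.kap, if_pos ⟨sub_self _, sub_self _⟩]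
    refine (w_same hb _ _).trans ?_
    exact div_le_div₀ (by norm_num) (by norm_num) (by positivity)
      (pow_le_pow_right₀ (PR_one b) (by norm_num))
  · have h3 := PR_pow_ge hb (k := 30) (by norm_num)
    have hne : ¬ (p - p' = 0 ∧ q - q' = 0) := by
      rintro ⟨e1, e2⟩
      rw [sub_eq_zero.1 e1, sub_eq_zero.1 e2, sub_self, sub_self, abs_zero, or_self] at h
      linarith
    have h1 := kI_far (pow_pos h0 800) (ker_kA (w_tG hb p) (w_tG hb p'))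
      (ker_kA (w_tG hb q) (w_tG hb q')) (ker_kA (w_tGz hb) (w_tGz hb)) (D := PR b ^ 30)
      (by linarith) h
      (fun t => by
        simpa only [mul_one] using kA_supp (w_tG hb p) (w_tG hb p') (tG_supp _ _ _) (tG_supp _ _ _) t)
      (fun t => by
        simpa only [mul_one] using kA_supp (w_tG hb q) (w_tG hb q') (tG_supp _ _ _) (tG_supp _ _ _) t)
      fun t => by
        have h4 := (kA_supp (w_tGz hb) (w_tGz hb) (tG_supp _ _ _) (tG_supp _ _ _) t).1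
        rwa [sub_self, abs_zero, zero_add, show (2 : ℝ) * 32 = 64 by norm_num] at h4
    rw [← pow_mul] at h1
    rw [Lay.kap, if_neg hne]
    push_cast
    exact h1

theorem w_avg {K K' : ℕ} {f g : ℕ → ℕ → ℝ} {e : ℝ}
    (h : ∀ j < K, ∀ j' < K', |f j j' - g j j'| ≤ e) :
    |(∑ j ∈ range K, ∑ j' ∈ range K', f j j') - ∑ j ∈ range K, ∑ j' ∈ range K', g j j'| ≤
      K * K' * e := by
  rw [← sum_sub_distrib]
  refine (abs_sum_le_sum_abs _ _).trans ((sum_le_card_nsmul _ _ (K' * e) fun j hj => ?_).trans ?_)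
  · rw [← sum_sub_distrib]
    refine (abs_sum_le_sum_abs _ _).trans ((sum_le_card_nsmul _ _ e fun j' hj' =>
      h j (mem_range.1 hj) j' (mem_range.1 hj')).trans ?_)
    rw [card_range, nsmul_eq_mul]
  · rw [card_range, nsmul_eq_mul, mul_assoc]

theorem w_sep (hL : L.Good b) (σ σ' : S) {j k j' k' : ℕ} (hj : j < (L.cx (L.cl σ)).n)
    (hk : k < (L.cy (L.cl σ)).n) (hj' : j' < (L.cx (L.cl σ')).n) (hk' : k' < (L.cy (L.cl σ')).n) :
    ((L.cx (L.cl σ)).pos j = (L.cx (L.cl σ')).pos j' ∧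
      (L.cy (L.cl σ)).pos k = (L.cy (L.cl σ')).pos k') ∨
    PR b ^ 30 ≤ |((L.cx (L.cl σ)).pos j : ℝ) - (L.cx (L.cl σ')).pos j'| ∨
    PR b ^ 30 ≤ |((L.cy (L.cl σ)).pos k : ℝ) - (L.cy (L.cl σ')).pos k'| := by
  by_cases e : L.cl σ = L.cl σ'
  · rw [← e] at hj' hk' ⊢
    by_cases e1 : j = j'
    · by_cases e2 : k = k'
      · exact Or.inl ⟨by rw [e1], by rw [e2]⟩
      · exact Or.inr (Or.inr ((hL.gy _).pos_far hk hk' e2))
    · exact Or.inr (Or.inl ((hL.gx _).pos_far hj hj' e1))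
  · have h := hL.far _ _ e j hj k hk j' hj' k' hk'
    rw [← Pq_cast]
    exact Or.inr (by exact_mod_cast h)

theorem w_four {cx cy cx' cy' : Chain} (hb : 30 ≤ b) (gx : cx.Good b) (gy : cy.Good b)
    (gx' : cx'.Good b) (gy' : cy'.Good b) {a c a' c' : ℕ} (ha : a < cx.ng) (hc : c < cy.ng)
    (ha' : a' < cx'.ng) (hc' : c' < cy'.ng)
    (hs : ∀ j < cx.n, ∀ k < cy.n, ∀ j' < cx'.n, ∀ k' < cy'.n,
      (cx.pos j = cx'.pos j' ∧ cy.pos k = cy'.pos k') ∨
      PR b ^ 30 ≤ |(cx.pos j : ℝ) - cx'.pos j'| ∨ PR b ^ 30 ≤ |(cy.pos k : ℝ) - cy'.pos k'|) :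
    |kI (kA (fun x => cx.g1 b a x ^ 2) fun x => cx'.g1 b a' x ^ 2)
        (kA (fun x => cy.g1 b c x ^ 2) fun x => cy'.g1 b c' x ^ 2)
        (kA (tG (omz b) 32 0) (tG (omz b) 32 0)) -
      (∑ j ∈ range cx.K, ∑ k ∈ range cy.K, ∑ j' ∈ range cx'.K, ∑ k' ∈ range cy'.K,
        Lay.kap b (cx.pos (a * cx.K + j) - cx'.pos (a' * cx'.K + j'))
          (cy.pos (c * cy.K + k) - cy'.pos (c' * cy'.K + k'))) /
        (cx.K * cy.K * cx'.K * cy'.K)| ≤ 1 / PR b ^ 59 := by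
  have h0 := PR_pos b
  have hM := pow_pos h0 800
  have d1 : ∀ {c : Chain} {a : ℕ}, c.Good b → a < c.ng →
      Dens (PR b ^ 800) fun x => c.g1 b a x ^ 2 := fun h ha => (h.dens_g1 hb ha).mono (w_M1 b)
  have d2 : ∀ (c : Chain) (a j : ℕ), Dens (PR b ^ 800) (c.dot b a j) := fun _ _ _ => w_tG hb _
  have d3 : ∀ {c : Chain} (a : ℕ), c.Good b → Dens (PR b ^ 800) (avg c.K (c.dot b a)) :=
    fun a h => dens_avg h.K_pos fun j _ => d2 _ a j
  have kz := ker_kA (w_tGz hb) (w_tGz hb)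
  have h1 := kI_stab hM (ker_kA (d1 gx ha) (d1 gx' ha')) (ker_kA (d1 gy hc) (d1 gy' hc')) kz
    (ker_kA (d3 a gx) (d3 a' gx')) (ker_kA (d3 c gy) (d3 c' gy')) kz
    (fun t => (kA_sub (d1 gx ha) (d1 gx' ha') (d3 a gx) (d3 a' gx') t).trans
      (add_le_add (gx.l1_g1 hb ha) (gx'.l1_g1 hb ha')))
    (fun t => (kA_sub (d1 gy hc) (d1 gy' hc') (d3 c gy) (d3 c' gy') t).trans
      (add_le_add (gy.l1_g1 hb hc) (gy'.l1_g1 hb hc')))
    fun t => by
      rw [sub_self, abs_zero]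
      positivity
  have e : ∀ (c c' : Chain) (a a' : ℕ), kA (avg c.K (c.dot b a)) (avg c'.K (c'.dot b a')) =
      fun t => (∑ i ∈ range c.K ×ˢ range c'.K, kA (c.dot b a i.1) (c'.dot b a' i.2) t) /
        (c.K * c'.K) := fun c c' a a' => funext fun t => by
    rw [kA_avg (fun j _ => d2 c a j) fun j _ => d2 c' a' j, sum_product]
  rw [e, e, kI_sum hM _ _ (fun i _ => ker_kA (d2 _ _ _) (d2 _ _ _))
    (fun i _ => ker_kA (d2 _ _ _) (d2 _ _ _)) kz] at h1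
  simp only [sum_product] at h1
  rw [sum_congr rfl fun _ _ => sum_comm] at h1
  have h2 := w_avg fun j hj k hk => w_avg
    fun j' hj' k' hk' => w_dot hb _ _ _ _
      (hs _ (gx.idx_lt ha hj) _ (gy.idx_lt hc hk) _ (gx'.idx_lt ha' hj') _ (gy'.idx_lt hc' hk'))
  have p1 : (0 : ℝ) < cx.K := by exact_mod_cast gx.K_pos
  have p2 : (0 : ℝ) < cy.K := by exact_mod_cast gy.K_pos
  have p3 : (0 : ℝ) < cx'.K := by exact_mod_cast gx'.K_pos
  have p4 : (0 : ℝ) < cy'.K := by exact_mod_cast gy'.K_pos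
  have hN : (0 : ℝ) < cx.K * cy.K * cx'.K * cy'.K := by positivity
  rw [show (cx.K : ℝ) * cx'.K * (cy.K * cy'.K) = cx.K * cy.K * cx'.K * cy'.K by ring] at h1
  rw [show ∀ x : ℝ, (cx.K : ℝ) * cy.K * (cx'.K * cy'.K * x) = x * (cx.K * cy.K * cx'.K * cy'.K)
    from fun x => by ring, ← div_le_iff₀ hN, ← abs_of_pos hN, ← abs_div, sub_div] at h2
  have h3 := PR_inv_le hb (c := 66) (by norm_num) (j := 60) (l := 59) (by norm_num)
  have h4 : 1 / PR b ^ 70 ≤ 1 / PR b ^ 60 :=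
    one_div_le_one_div_of_le (by positivity) (pow_le_pow_right₀ (PR_one b) (by norm_num))
  rw [div_eq_mul_one_div] at h3
  rw [div_eq_mul_one_div 65] at h2
  exact (abs_sub_le _ _ _).trans ((add_le_add (h1.trans (w_err hb)) h2).trans (by linarith))

theorem w_main (hb : 30 ≤ b) (hL : L.Good b) (σ σ' : S) :
    |wex (L.g3 b) σ σ' - L.w1 b σ σ'| ≤ 1 / PR b ^ 59 := by
  have h := w_four hb (hL.gx _) (hL.gy _) (hL.gx _) (hL.gy _) (hL.ax_lt σ) (hL.ay_lt σ)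
    (hL.ax_lt σ') (hL.ay_lt σ') fun _ hj _ hk _ hj' _ hk' => w_sep hL σ σ' hj hk hj' hk'
  rw [← fub_main (((hL.gx _).dens_g1 hb (hL.ax_lt σ)).mono (w_M1 b))
    (((hL.gy _).dens_g1 hb (hL.ay_lt σ)).mono (w_M1 b)) (w_tGz hb)
    (((hL.gx _).dens_g1 hb (hL.ax_lt σ')).mono (w_M1 b))
    (((hL.gy _).dens_g1 hb (hL.ay_lt σ')).mono (w_M1 b)) (w_tGz hb)] at h
  simpa only [wex, Lay.g3, Lay.w1, mul_pow, gz_sq] using h

end Vale.Agent.P370
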