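import Vale.Agent.P370.PertC
import Vale.Agent.P370.WMain
import Vale.Agent.P370.LayW

/-! The instance attached to a 2-local Hamiltonian is valid and has the right energy.

Plan.  `T0_eq_hop` identifies the matrix of `ob_lay` with `Tm H (mp b H)`; `w_main` and `w1_nom` give
`|wex - wnom| ≤ P^-59 + 2 P^-60 ≤ P^-58`.  YES: `lat_yes`, `mb_upper`, `scale_upper` (weaken the energy
bound to `thrq * s²`); NO: `lat_no`, `mb_lower`, `scale_lower`.  Both errors are at most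
`s E1 / 32 ≥ P^-63036 / 32`:  `N ≤ P`, `card ≤ 2P`, `η = 2 P^-63042`, `Mg = P^400`, `εd = P^-31000`,
`|lam| ≤ P^-62900` (`lvl_bd`), `s ≤ P^-62980`.
Validity: grid points are injective in `(i, j, k)` (`List.nodup_flatMap`, `List.Nodup.map_on`),
`Zq_bd`, `nx, ny, nz > 0`. -/

namespace Vale.Agent.P370

variable {b : ℕ} {H : LH}

theorem pm_pos (b : ℕ) : (0 : ℚ) < Pq b := by unfold Pq; positivity

theorem pm_sq (hb : 30 ≤ b) : 0 < sq b :=
  lt_of_lt_of_le (one_div_pos.2 (pow_pos (pm_pos b) _)) (sq_bd hb).1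

theorem pm_sqR (hb : 30 ≤ b) : 1 / PR b ^ 62981 ≤ (sq b : ℝ) ∧ (sq b : ℝ) ≤ 1 / PR b ^ 62980 := by
  have h1 := (Rat.cast_le (K := ℝ)).2 (sq_bd hb).1
  have h2 := (Rat.cast_le (K := ℝ)).2 (sq_bd hb).2
  rw [Rat.cast_div, Rat.cast_pow, Pq_cast, Rat.cast_one] at h1 h2
  exact ⟨h1, h2⟩

theorem nuc_valid {Vq : ℚ × ℚ × ℚ → ℚ} {V : E3 → ℝ} (hb : 30 ≤ b) (hV : VOK b Vq V) :
    scaleNuc (sq b) (nucQ b Vq) ≠ [] ∧ ((scaleNuc (sq b) (nucQ b Vq)).map Prod.fst).Nodup ∧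
      ∀ p ∈ scaleNuc (sq b) (nucQ b Vq), 1 ≤ p.2 := by
  have hs := (pm_sq hb).ne'
  have hh0 : hh b ≠ 0 := (one_div_pos.2 (pow_pos (pm_pos b) _)).ne'
  refine ⟨fun h => ?_, ?_, fun p hp => ?_⟩
  · have : ((gpx b 0, gpy b 0, gpz b 0), (Zq b Vq 0 0 0).toNat) ∈ nucQ b Vq := by
      simp only [nucQ, List.mem_flatMap, List.mem_map, List.mem_range]
      exact ⟨0, by unfold nx; positivity, 0, by unfold ny; positivity, 0,
        by unfold nz; positivity, rfl⟩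
    rw [scaleNuc, List.map_eq_nil_iff] at h
    rw [h] at this
    exact List.not_mem_nil this
  · have e : (scaleNuc (sq b) (nucQ b Vq)).map Prod.fst =
        (List.range (nx b) ×ˢ (List.range (ny b) ×ˢ List.range (nz b))).map
          fun t : ℕ × ℕ × ℕ => (sq b * gpx b t.1, sq b * gpy b t.2.1, sq b * gpz b t.2.2) := by
      simp only [scaleNuc, nucQ, List.map_map, List.map_flatMap, SProd.sprod, List.product,
        Function.comp_def]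
    rw [e]
    refine (List.nodup_range.product (List.nodup_range.product List.nodup_range)).map ?_
    rintro ⟨i, j, k⟩ ⟨i', j', k'⟩ h
    simp only [Prod.mk.injEq, mul_eq_mul_left_iff, hs, or_false, gpx, gpy, gpz, add_right_inj,
      mul_eq_mul_right_iff, hh0, add_left_inj, Nat.cast_inj] at h
    rw [h.1, h.2.1, h.2.2]
  · simp only [scaleNuc, nucQ, List.mem_map, List.mem_flatMap] at hp
    obtain ⟨_, ⟨i, -, j, -, k, -, rfl⟩, rfl⟩ := hp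
    have := (Zq_bd hb hV i j k).1
    simp only
    omega

theorem wex_nom (hH : H.OK) (hb : BOK b H) (σ σ' : Site H) :
    |wex ((lay b H).g3 b) σ σ' - wnom H (mp b H) σ σ'| ≤ 1 / ((mp b H).P : ℝ) ^ 58 := by
  have h1 := w_main hb.b30 (lay_good hH hb) σ σ'
  have h2 := w1_nom hH hb σ σ'
  have h3 : 2 / PR b ^ 60 ≤ 1 / PR b ^ 59 := PR_inv_le hb.b30 (by norm_num) (by norm_num)
  have h4 : 2 / PR b ^ 59 ≤ 1 / PR b ^ 58 := PR_inv_le hb.b30 (by norm_num) (by norm_num)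
  have e4 : 2 / PR b ^ 59 = 2 * (1 / PR b ^ 59) := mul_one_div _ _ |>.symm
  rw [show ((mp b H).P : ℝ) = PR b from Pq_cast b]
  rw [abs_le] at h1 h2 ⊢
  constructor <;> linarith [h1.1, h1.2, h2.1, h2.2]

theorem pm_T (hH : H.OK) (hb : BOK b H) :
    (fun σ σ' => (((lay b H).T0 b σ σ' + if σ = σ' then (lay b H).eps σ else 0 : ℚ) : ℝ)) =
      Tm H (mp b H) := by
  funext σ σ'
  rw [T0_eq_hop hH hb]
  rfl

theorem pm_gap (hb : 30 ≤ b) : 1 / PR b ^ 63037 ≤ (sq b : ℝ) * E1 (Pq b) / 32 := by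
  have hP := PR_pos b
  have h1 := (pm_sqR hb).1
  have h2 : ((E1 (Pq b) : ℚ) : ℝ) = 1 / PR b ^ 55 := by
    rw [E1, Rat.cast_div, Rat.cast_pow, Pq_cast, Rat.cast_one]
  have h3 : 32 / PR b ^ 63037 ≤ 1 / PR b ^ (62981 + 55) :=
    PR_inv_le hb (by norm_num) (by norm_num)
  rw [h2, le_div_iff₀ (by norm_num)]
  calc 1 / PR b ^ 63037 * 32 = 32 / PR b ^ 63037 := by ring
    _ ≤ 1 / PR b ^ (62981 + 55) := h3
    _ = 1 / PR b ^ 62981 * (1 / PR b ^ 55) := by rw [pow_add, one_div_mul_one_div]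
    _ ≤ _ := by gcongr

theorem pm_thr (hb : 30 ≤ b) (t : ℚ) : (thrq b H t : ℝ) * (sq b : ℝ) ^ 2 =
    H.Nel * (e0 b : ℝ) + lvl H (mp b H) + sq b * E1 (Pq b) * (H.thr + t) := by
  have hs : (sq b : ℝ) ≠ 0 := by exact_mod_cast (pm_sq hb).ne'
  rw [thrq]
  push_cast
  rw [div_mul_cancel₀ _ (pow_ne_zero 2 hs)]

theorem pm_lam (hH : H.OK) (hb : BOK b H) {t : ℚ} (ht : |t| ≤ 1) :
    |((lvl H (mp b H) + sq b * E1 (Pq b) * (H.thr + t) : ℚ) : ℝ)| ≤ 1 / PR b ^ 62900 := by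
  have h1 := (Rat.cast_le (K := ℝ)).2 (lvl_bd hH hb ht)
  rwa [Rat.cast_div, Rat.cast_pow, Pq_cast, Rat.cast_one, Rat.cast_abs] at h1

theorem pm_up (hb : 30 ≤ b) {N n s lam : ℝ} (hN0 : 0 ≤ N) (hn0 : 0 ≤ n) (hN : N ≤ PR b)
    (hn : n ≤ 2 * PR b) (hs0 : 0 ≤ s) (hs : s ≤ 1 / PR b ^ 62980) (hl : |lam| ≤ 1 / PR b ^ 62900) :
    3 * N * n * (2 / PR b ^ 63042) + 100 * N ^ 3 * n ^ 2 * (1 / PR b ^ 31000) *
      ((PR b ^ 400) ^ 2 + 1) * (2 / PR b ^ 62900 + s + |lam|) ≤ 1 / PR b ^ 63037 := by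
  have hP := PR_pos b
  have e1 : 3 * N * n * (2 / PR b ^ 63042) ≤ 1 / PR b ^ 63038 :=
    calc 3 * N * n * (2 / PR b ^ 63042) ≤ 3 * PR b * (2 * PR b) * (2 / PR b ^ 63042) := by gcongr
      _ = 12 * PR b ^ 2 / PR b ^ 63042 := by ring
      _ ≤ _ := pc_le hb (by norm_num) (by norm_num)
  have k1 : (PR b ^ 400) ^ 2 + 1 ≤ 2 * PR b ^ (400 * 2) := by
    rw [pow_mul]
    linarith [one_le_pow₀ (n := 2) (one_le_pow₀ (n := 400) (PR_one b))]
  have k2 : 2 / PR b ^ 62900 + s + |lam| ≤ 4 / PR b ^ 62900 := by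
    have h1 : 1 / PR b ^ 62980 ≤ 1 / PR b ^ 62900 := PR_inv_le hb (by norm_num) (by norm_num)
    have e4 : 2 / PR b ^ 62900 = 2 * (1 / PR b ^ 62900) := mul_one_div _ _ |>.symm
    have e5 : 4 / PR b ^ 62900 = 4 * (1 / PR b ^ 62900) := mul_one_div _ _ |>.symm
    linarith
  have e2 : 100 * N ^ 3 * n ^ 2 * (1 / PR b ^ 31000) * ((PR b ^ 400) ^ 2 + 1) *
      (2 / PR b ^ 62900 + s + |lam|) ≤ 1 / PR b ^ 63038 :=
    calc _ ≤ 100 * PR b ^ 3 * (2 * PR b) ^ 2 * (1 / PR b ^ 31000) * (2 * PR b ^ (400 * 2)) *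
          (4 / PR b ^ 62900) := by gcongr
      _ = 3200 * PR b ^ (5 + 400 * 2) / PR b ^ (31000 + 62900) := by
          rw [pow_add, pow_add]; field_simp; norm_num
      _ ≤ _ := pc_le hb (by norm_num) (by norm_num)
  have e3 : 2 / PR b ^ 63038 ≤ 1 / PR b ^ 63037 := PR_inv_le hb (by norm_num) (by norm_num)
  have e4 : 2 / PR b ^ 63038 = 2 * (1 / PR b ^ 63038) := mul_one_div _ _ |>.symm
  linarith

theorem pm_low (hb : 30 ≤ b) {N s : ℝ} (hN0 : 0 ≤ N) (hN : N ≤ PR b) (hs0 : 0 ≤ s)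
    (hs : s ≤ 1 / PR b ^ 62980) :
    N * (2 / PR b ^ 63042) + s ^ 2 * N ^ 4 * (13 * (PR b ^ 400) ^ 2 + 1) /
      (2 * (1 / PR b ^ 3012 / 4)) ≤ 1 / PR b ^ 63037 := by
  have hP := PR_pos b
  have e1 : N * (2 / PR b ^ 63042) ≤ 1 / PR b ^ 63038 :=
    calc N * (2 / PR b ^ 63042) ≤ PR b * (2 / PR b ^ 63042) := by gcongr
      _ = 2 * PR b ^ 1 / PR b ^ 63042 := by ring
      _ ≤ _ := pc_le hb (by norm_num) (by norm_num)
  have k1 : 13 * (PR b ^ 400) ^ 2 + 1 ≤ 14 * PR b ^ (400 * 2) := by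
    rw [pow_mul]
    linarith [one_le_pow₀ (n := 2) (one_le_pow₀ (n := 400) (PR_one b))]
  have e2 : s ^ 2 * N ^ 4 * (13 * (PR b ^ 400) ^ 2 + 1) / (2 * (1 / PR b ^ 3012 / 4)) ≤
      1 / PR b ^ 63038 :=
    calc _ ≤ (1 / PR b ^ 62980) ^ 2 * PR b ^ 4 * (14 * PR b ^ (400 * 2)) /
          (2 * (1 / PR b ^ 3012 / 4)) := by gcongr
      _ = 28 * PR b ^ (4 + 400 * 2 + 3012) / PR b ^ (62980 * 2) := by
          rw [pow_add, pow_add, pow_mul _ 62980]; field_simp; norm_num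
      _ ≤ _ := pc_le hb (by norm_num) (by norm_num)
  have e3 : 2 / PR b ^ 63038 ≤ 1 / PR b ^ 63037 := PR_inv_le hb (by norm_num) (by norm_num)
  have e4 : 2 / PR b ^ 63038 = 2 * (1 / PR b ^ 63038) := mul_one_div _ _ |>.symm
  linarith

theorem pm_normSq {N : ℕ} (Ψ : Wave N) : 0 ≤ normSq Ψ :=
  Finset.sum_nonneg fun _ _ => MeasureTheory.integral_nonneg fun _ => sq_nonneg _

theorem scaled_yes (hH : H.OK) (hb : BOK b H) (hy : H.Yes) :
    ∃ Ψ : Wave H.Nel, Test Ψ ∧ 0 < normSq Ψ ∧ energyG (Vs (sq b) (nucQ b (VqH b H))) (sq b) Ψ ≤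
      (thrq b H (1 / 16) : ℝ) * (sq b : ℝ) ^ 2 * normSq Ψ := by
  have hP := PR_pos b
  have hL := lay_good hH hb
  have hs0 : (0 : ℝ) ≤ sq b := by exact_mod_cast (pm_sq hb.b30).le
  have hN : (H.Nel : ℝ) ≤ PR b := by rw [← Pq_cast]; exact_mod_cast (Nel_bd hH hb).2
  have hn := pc_card hL
  obtain ⟨c, hc, hc0, hl⟩ := lat_yes hH (mp_ok hH hb) _ (wex_nom hH hb) hy
  rw [← pm_T hH hb] at hl
  obtain ⟨Ψ, h1, h2, h3⟩ := mb_upper (ideal_basis hb.b30 hL) (Vs_locInt _ _) (Vs_meas _ _)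
    (ob_lay hb.b30 hL) (by positivity) hs0 (by positivity) (T_row hb.b30 hL)
    (fun a a' => by
      rw [T0_symm b _ a a']
      by_cases h : a = a'
      · rw [h]
      · rw [if_neg h, if_neg (Ne.symm h)])
    (by positivity) (Nel_bd hH hb).1
    (calc 24 * (H.Nel : ℝ) * Fintype.card (Site H) * (1 / PR b ^ 31000)
        ≤ 24 * PR b * (2 * PR b) * (1 / PR b ^ 31000) := by gcongr
      _ = 48 * PR b ^ 2 / PR b ^ 31000 := by ring
      _ ≤ 1 / PR b ^ 0 := pc_le hb.b30 (by norm_num) (by norm_num)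
      _ = 1 := by simp) c hc hc0 hl
  refine ⟨Ψ, h1, h2, h3.trans (mul_le_mul_of_nonneg_right ?_ h2.le)⟩
  have k1 := pm_up hb.b30 (Nat.cast_nonneg _) (Nat.cast_nonneg _) hN hn hs0 (pm_sqR hb.b30).2
    (pm_lam hH hb (t := 1 / 32) (by norm_num [abs_of_pos]))
  have k2 := pm_gap hb.b30
  rw [pm_thr hb.b30]
  simp only [mp] at k1 ⊢
  push_cast at k1 ⊢
  linarith

theorem scaled_no (hH : H.OK) (hb : BOK b H) (hn : H.No) (Ψ : Wave H.Nel) (hΨ : Test Ψ) :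
    (thrq b H (3 / 16) : ℝ) * (sq b : ℝ) ^ 2 * normSq Ψ ≤
      energyG (Vs (sq b) (nucQ b (VqH b H))) (sq b) Ψ := by
  have hP := PR_pos b
  have hL := lay_good hH hb
  have hs0 : (0 : ℝ) ≤ sq b := by exact_mod_cast (pm_sq hb.b30).le
  have hN : (H.Nel : ℝ) ≤ PR b := by rw [← Pq_cast]; exact_mod_cast (Nel_bd hH hb).2
  have hl := lat_no hH (mp_ok hH hb) _ (wex_nom hH hb) hn
  rw [← pm_T hH hb] at hl
  have k0 := (abs_le.1 (pm_lam hH hb (t := 1 / 4 - 1 / 32) (by norm_num [abs_of_pos]))).2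
  have k3 : 8 / PR b ^ 62900 ≤ 1 / PR b ^ 3012 := PR_inv_le hb.b30 (by norm_num) (by norm_num)
  have e4 : 8 / PR b ^ 62900 = 8 * (1 / PR b ^ 62900) := mul_one_div _ _ |>.symm
  have h3 := mb_lower (ideal_basis hb.b30 hL) (Vs_locInt _ _) (Vs_meas _ _)
    (ob_lay hb.b30 hL) (by positivity) (by positivity) hs0 (T_psd hb.b30 hL)
    (by rw [← add_sub_assoc] at k0; simp only [mp] at k0 ⊢; linarith) hl Ψ hΨ
  refine le_trans (mul_le_mul_of_nonneg_right ?_ (pm_normSq Ψ)) h3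
  have k1 := pm_low hb.b30 (Nat.cast_nonneg _) hN hs0 (pm_sqR hb.b30).2
  have k2 := pm_gap hb.b30
  rw [pm_thr hb.b30]
  simp only [mp] at k1 ⊢
  push_cast at k1 ⊢
  linarith

theorem inst_valid (hH : H.OK) : (instOf H).Valid ∧ 1 ≤ (instOf H).b - (instOf H).a := by
  have hb := bok_bH H
  have h1 := nuc_valid hb.b30 (vok_lay hb.b30 (lay_good hH hb))
  have h2 := thrq_gap hb
  exact ⟨⟨h1.1, h1.2.1, h1.2.2, (Nel_bd hH hb).1, sub_pos.1 (lt_of_lt_of_le one_pos h2)⟩, h2⟩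

theorem inst_yes (hH : H.OK) (hy : H.Yes) : (instOf H).E0 ≤ (((instOf H).a : ℝ) : EReal) := by
  have hb := bok_bH H
  have hs : (sq (bH H) : ℝ) ≠ 0 := by exact_mod_cast (pm_sq hb.b30).ne'
  obtain ⟨Ψ, h1, h2, h3⟩ := scaled_yes hH hb hy
  have h4 := scale_upper (pm_sq hb.b30) _ _ (instOf H).a (instOf H).b Ψ h1 h2 h3
  rwa [mul_div_cancel_right₀ _ (pow_ne_zero 2 hs)] at h4

theorem inst_no (hH : H.OK) (hn : H.No) : (((instOf H).b : ℝ) : EReal) ≤ (instOf H).E0 := by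
  have hb := bok_bH H
  have hs : (sq (bH H) : ℝ) ≠ 0 := by exact_mod_cast (pm_sq hb.b30).ne'
  have h4 := scale_lower (pm_sq hb.b30) _ _ (instOf H).a (instOf H).b (scaled_no hH hb hn)
  rwa [mul_div_cancel_right₀ _ (pow_ne_zero 2 hs)] at h4

end Vale.Agent.P370
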