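import Vale.Agent.P370.QSim

/-! Part Q: the real circuit of a verifier circuit.
Plan: sums over `Fin (n + 1) → Bool` split along the last bit (`Fin.snocEquiv` or `Fin.insertNthEquiv`), so
`nsq (rl ψ) = ∑ ‖ψ x‖ ^ 2` and, as `1 ≤ n`, `rej (rl ψ) + ∑ x, (if bit x 0 then ‖ψ x‖ ^ 2 else 0) = nsq (rl ψ)`.
`∑ ‖init φ x‖ ^ 2 = ∑ ‖φ y‖ ^ 2` (`Fin.appendEquiv`). The norm is preserved by `U_T`, `Ok.nsq_U`.
For `No`: a vector `g` supported on `Good` is `rl (init φ)`; normalise with `run_smul`, `nsq_smul`. -/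

namespace Vale.Agent.P370.Q

open Vale.Agent.Lib.H23 Vale.Agent.P338

theorem qc_sum {n : ℕ} (p : (Fin n → Bool) → Bool) (ψ : (Fin n → Bool) → ℂ) :
    ∑ x : Fin (n + 1) → Bool, (if p fun i => x i.castSucc then 0 else rl ψ x ^ 2) =
      ∑ y, if p y then 0 else ‖ψ y‖ ^ 2 := by
  rw [← Equiv.sum_comp (Fin.snocEquiv fun _ => Bool), Fintype.sum_prod_type_right]
  refine Finset.sum_congr rfl fun y _ => ?_
  have h : ∀ b : Bool, bit (Fin.snocEquiv (fun _ => Bool) (b, y)) n = b := fun b =>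
    (bit_val _ (Fin.last n)).trans (Fin.snoc_last (α := fun _ => Bool) b y)
  simp only [Fin.snocEquiv_apply, Fintype.sum_bool, rl, Fin.snoc_castSucc, h, if_true,
    Bool.false_eq_true, if_false]
  split_ifs
  · exact add_zero _
  · rw [Complex.sq_norm, Complex.normSq_apply, sq, sq, add_comm]

theorem qc_nsq {n : ℕ} (ψ : (Fin n → Bool) → ℂ) : nsq (rl ψ) = ∑ y, ‖ψ y‖ ^ 2 :=
  qc_sum (fun _ => false) ψ

theorem qc_init (C : Circ) (φ : (Fin C.wit → Bool) → ℂ) :
    ∑ y, ‖C.init φ y‖ ^ 2 = ∑ w, ‖φ w‖ ^ 2 := by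
  rw [← Equiv.sum_comp (Fin.appendEquiv C.wit C.anc), Fintype.sum_prod_type]
  refine Finset.sum_congr rfl fun w _ => ?_
  rw [Finset.sum_eq_single (fun _ => false)]
  · simp [Circ.init]
  · intro z _ hz
    have : ¬ ∀ j, z j = false := fun h => hz (funext h)
    simp [Circ.init, this]
  · exact fun h => absurd (Finset.mem_univ _) h

theorem qc_good (C : Circ) (x : Fin (C.wit + C.anc + 1) → Bool) :
    (toHC C).Good x ↔ ∀ j : Fin C.anc, x (Fin.natAdd C.wit j).castSucc = false := by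
  refine ⟨fun h j => (bit_val x (Fin.natAdd C.wit j).castSucc).symm.trans
    (h _ (List.mem_map.2 ⟨j, List.mem_range.2 j.2, rfl⟩)), fun h a ha => ?_⟩
  obtain ⟨j, hj, rfl⟩ := List.mem_map.1 ha
  exact (bit_val x (Fin.natAdd C.wit ⟨j, List.mem_range.1 hj⟩).castSucc).trans (h _)

theorem qc_zero (C : Circ) (φ : (Fin C.wit → Bool) → ℂ) {x : Fin (C.wit + C.anc + 1) → Bool}
    (hx : ¬ (toHC C).Good x) : rl (C.init φ) x = 0 := by
  rw [rl, Circ.init, if_neg fun h => hx ((qc_good C x).2 h)]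
  exact ite_self _

theorem qc_steps {n : ℕ} {g : Gate} (hg : g.Valid n) {s : Step} (hs : s ∈ gsteps n g.data) :
    s.2.1 < n + 1 ∧ s.1 ≠ s.2.1 := by
  cases g with
  | H a =>
    have e : gsteps n (Gate.H a).data = cr2 (n + 1) a n true ++ cr2 (n + 1) a n true ++
      [(n + 1, a, false), (n + 1, a, false)] := rfl
    have ha : a < n := hg
    simp only [e, cr2, cr, List.mem_append, List.mem_cons, List.not_mem_nil, or_false,
      or_self] at hs
    rcases hs with (rfl | rfl) | rfl <;> exact ⟨by dsimp only; omega, by dsimp only; omega⟩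
  | T a =>
    have e : gsteps n (Gate.T a).data = cr (n + 1) a n true := rfl
    have ha : a < n := hg
    simp only [e, cr, List.mem_cons, List.not_mem_nil, or_false] at hs
    rcases hs with rfl | rfl <;> exact ⟨by dsimp only; omega, by dsimp only; omega⟩
  | CX a b =>
    have e : gsteps n (Gate.CX a b).data = cr2 (n + 1) b n true ++ cr2 (n + 1) a b true ++
      cr2 (n + 1) b n false ++ cr2 (n + 1) a n true := rfl
    obtain ⟨ha, hb, hab⟩ := hg
    simp only [e, cr2, cr, List.mem_append, List.mem_cons, List.not_mem_nil, or_false,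
      or_self] at hs
    rcases hs with (((rfl | rfl) | rfl | rfl) | rfl | rfl) | rfl | rfl <;>
      exact ⟨by dsimp only; omega, by dsimp only; omega⟩

theorem toHC_ok {C : Circ} (hC : C.Valid) : (toHC C).Ok := by
  have hp : ∀ n, ∀ s ∈ pad n, s.2.1 < n + 1 ∧ s.1 ≠ s.2.1 := fun n s hs => by
    simp only [pad, List.mem_cons, List.not_mem_nil, or_false] at hs
    rcases hs with rfl | rfl <;> exact ⟨Nat.lt_succ_self n, Nat.succ_ne_self n⟩
  refine ⟨Nat.succ_pos _, fun a ha => ?_, fun t ht => ?_, ?_, le_rfl, ?_⟩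
  · obtain ⟨j, hj, rfl⟩ := List.mem_map.1 ha
    exact Nat.lt_succ_of_lt (Nat.add_lt_add_left (List.mem_range.1 hj) _)
  · have hm : (toHC C).st t ∈ (toHC C).S := by
      rw [HC.st, List.getD_eq_getElem _ _ ht]
      exact List.getElem_mem ht
    rcases List.mem_append.1 hm with h | h
    · rcases List.mem_append.1 h with h | h
      · exact hp _ _ h
      · obtain ⟨g, hg, h⟩ := List.mem_flatMap.1 h
        exact qc_steps (hC.2 g hg) h
    · exact hp _ _ h
  · simp [toHC, pad]
  · rw [HC.st, List.getD_eq_getElem?_getD, ← List.getLast?_eq_getElem?]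
    dsimp only [toHC]
    rw [List.getLast?_append]
    exact le_rfl

theorem qc_rej {C : Circ} (hC : C.Valid) (φ : (Fin C.wit → Bool) → ℂ) :
    (toHC C).rej (run (toHC C).S (rl (C.init φ))) = ∑ w, ‖φ w‖ ^ 2 - C.acc φ := by
  have h1 := (congrArg nsq ((toHC C).U_T (rl (C.init φ)))).symm.trans
    ((toHC_ok hC).nsq_U le_rfl (rl (C.init φ)))
  have h2 := run_toHC hC (C.init φ)
  rw [← qc_init, ← qc_nsq]
  refine (congrArg (toHC C).rej h2).trans (eq_sub_of_add_eq ?_)
  refine Eq.trans ?_ (((congrArg nsq h2).symm.trans h1))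
  rw [qc_nsq, Circ.acc]
  generalize List.foldl (fun ψ (g : Gate) => g.act ψ) (C.init φ) C.gates = ψ
  have h3 : (toHC C).rej (rl ψ) = ∑ y, if bit y 0 then 0 else ‖ψ y‖ ^ 2 := by
    refine Eq.trans (Finset.sum_congr rfl fun x _ => ?_) (qc_sum (fun y => bit y 0) ψ)
    rw [qs_bit_ini x (Nat.ne_of_lt hC.1)]
    rfl
  rw [h3, ← Finset.sum_add_distrib]
  refine Finset.sum_congr rfl fun y _ => ?_
  split_ifs
  exacts [zero_add _, add_zero _]

theorem toHC_yes {C : Circ} (hC : C.Valid) (h : C.Yes) : (toHC C).Yes := by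
  obtain ⟨φ, h1, h2⟩ := h
  refine ⟨rl (C.init φ), fun x hx => ?_, (qc_nsq _).trans ((qc_init C φ).trans h1), ?_⟩
  · exact qc_zero C φ hx
  · rw [qc_rej hC, h1]
    linarith

theorem qc_ex (C : Circ) (g : Vec (C.wit + C.anc + 1)) (hg : ∀ x, ¬ (toHC C).Good x → g x = 0) :
    ∃ φ, g = rl (C.init φ) := by
  refine ⟨fun w => ⟨g (Fin.snoc (Fin.append w fun _ => false) false),
    g (Fin.snoc (Fin.append w fun _ => false) true)⟩, funext fun x => ?_⟩
  by_cases hx : (toHC C).Good x
  · have h1 := (qc_good C x).1 hx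
    have h2 : (Fin.append (fun i : Fin C.wit => x (Fin.castAdd C.anc i).castSucc) fun _ => false) =
        Fin.init x := by
      funext i
      induction i using Fin.addCases with
      | left i => exact Fin.append_left _ _ i
      | right j => exact (Fin.append_right _ _ j).trans (h1 j).symm
    have h3 : bit x (C.wit + C.anc) = x (Fin.last _) := bit_val x (Fin.last _)
    have h4 := Fin.snoc_init_self x
    rw [rl, Circ.init, if_pos h1, h2, h3]
    cases h : x (Fin.last _) <;> rw [h] at h4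
    · exact (congrArg g h4).symm
    · exact (congrArg g h4).symm
  · exact (hg x hx).trans (qc_zero C _ hx).symm

theorem toHC_no {C : Circ} (hC : C.Valid) (h : C.No) : (toHC C).No := by
  intro g hg
  rcases (nsq_nonneg g).eq_or_lt with h0 | h0
  · rw [← h0, mul_zero]
    exact Finset.sum_nonneg fun x _ => by split_ifs <;> positivity
  have hc : (√(nsq g))⁻¹ ^ 2 * nsq g = 1 := by
    rw [inv_pow, Real.sq_sqrt h0.le, inv_mul_cancel₀ h0.ne']
  generalize (√(nsq g))⁻¹ = c at hc
  obtain ⟨φ, hφ⟩ := qc_ex C (c • g) fun x hx => by rw [Pi.smul_apply, hg x hx, smul_zero]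
  have h1 : ∑ w, ‖φ w‖ ^ 2 = 1 := by
    rw [← qc_init, ← qc_nsq, ← hφ]
    exact (nsq_smul c g).trans hc
  have h2 := qc_rej hC φ
  have h3 : (toHC C).rej (run (toHC C).S (c • g)) = c ^ 2 * (toHC C).rej (run (toHC C).S g) := by
    rw [run_smul, HC.rej, HC.rej, Finset.mul_sum]
    refine Finset.sum_congr rfl fun x _ => ?_
    split_ifs
    · rw [mul_zero]
    · rw [Pi.smul_apply, smul_eq_mul, mul_pow]
  have h4 : 2 / 3 ≤ c ^ 2 * (toHC C).rej (run (toHC C).S g) := by
    rw [← h3, (congrArg (fun v => (toHC C).rej (run (toHC C).S v)) hφ).trans h2, h1]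
    linarith [h φ h1]
  have h5 := mul_le_mul_of_nonneg_right h4 h0.le
  rwa [mul_right_comm, hc, one_mul] at h5

end Vale.Agent.P370.Q
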