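import Vale.Agent.P370.QDefs

/-! Part Q: rational approximations, and the size bounds.
Plan: `Real.cos_pi_div_eight`, `Real.sin_pi_div_eight` (or `cos_sq_half`): `4 cos² = 2 + √2`, `4 sin² = 2 - √2`.
The filter condition is equivalent to `i + 1 ≤ D cos (π / 8)` (truncated subtraction: split on
`4 (i + 1) ^ 2 ≤ 2 D ^ 2`), and for `0 ≤ x ≤ D` the number of `i < D` with `i + 1 ≤ x` is `⌊x⌋₊`.
`toLH_ok`: every `t ∈ dts` has `t.1.1 < t.2.1.1 < N` and `4 ≤ |t.2.2| ≤ Jc`; `1 ≤ cnum, snum ≤ D`,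
`J / D = 1 / (4 (T + 1))`; `|cst| ≤ dts.length * Jc / 4`. -/

namespace Vale.Agent.P370.Q

open Vale.Agent.Lib.H23

theorem qa_count (p : ℕ → Bool) (k : ℕ) (hp : ∀ i, p i = true ↔ i < k) (n : ℕ) :
    ((List.range n).filter p).length = min n k := by
  induction n with
  | zero => simp
  | succ n ih =>
    rw [List.range_succ, List.filter_append, List.length_append, ih]
    by_cases h : n < k
    · rw [List.filter_cons_of_pos ((hp n).2 h)]
      simp only [List.filter_nil, List.length_singleton]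
      omega
    · rw [List.filter_cons_of_neg (fun e => h ((hp n).1 e))]
      simp only [List.filter_nil, List.length_nil]
      omega

theorem qa_apx {D : ℕ} (hD : 0 < D) {c : ℝ} (h0 : 0 ≤ c) (h1 : c ≤ 1) (p : ℕ → Bool)
    (hp : ∀ i, p i = true ↔ ((i + 1 : ℕ) : ℝ) ≤ D * c) :
    |(((List.range D).filter p).length : ℝ) / D - c| ≤ 1 / D := by
  have hD' : (0 : ℝ) < D := by exact_mod_cast hD
  have hx : 0 ≤ (D : ℝ) * c := by positivity
  have hle : ⌊(D : ℝ) * c⌋₊ ≤ D := Nat.floor_le_of_le (by nlinarith)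
  rw [qa_count p ⌊(D : ℝ) * c⌋₊ (fun i => by rw [hp, ← Nat.le_floor_iff hx]; omega),
    min_eq_right hle]
  have e : (⌊(D : ℝ) * c⌋₊ : ℝ) / D - c = ((⌊(D : ℝ) * c⌋₊ : ℝ) - D * c) / D := by
    field_simp
  rw [e, abs_div, abs_of_pos hD']
  refine div_le_div_of_nonneg_right ?_ hD'.le
  have h2 := Nat.floor_le hx
  have h3 := Nat.lt_floor_add_one ((D : ℝ) * c)
  rw [abs_le]
  constructor <;> linarith

theorem qa_cos_sq : 4 * Real.cos (Real.pi / 8) ^ 2 = 2 + √2 := by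
  rw [Real.cos_pi_div_eight, div_pow, Real.sq_sqrt (by positivity)]
  ring

theorem qa_sin_sq : 4 * Real.sin (Real.pi / 8) ^ 2 = 2 - √2 := by
  have := Real.cos_sq_add_sin_sq (Real.pi / 8)
  linarith [qa_cos_sq]

theorem qa_sqrt (x : ℝ) : (√2 * x ^ 2) ^ 2 = 2 * x ^ 4 := by
  rw [mul_pow, Real.sq_sqrt (by norm_num)]
  ring

theorem cnum_apx {D : ℕ} (hD : 0 < D) : |(cnum ⟨D⟩ : ℝ) / D - Real.cos (Real.pi / 8)| ≤ 1 / D := by
  have hc : 0 ≤ Real.cos (Real.pi / 8) := by rw [Real.cos_pi_div_eight]; positivity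
  refine qa_apx hD hc (Real.cos_le_one _) _ fun i => ?_
  generalize i + 1 = k
  have hs : (0 : ℝ) ≤ √2 * (D : ℝ) ^ 2 := by positivity
  have e : 4 * ((D : ℝ) * Real.cos (Real.pi / 8)) ^ 2 = 2 * (D : ℝ) ^ 2 + √2 * (D : ℝ) ^ 2 := by
    linear_combination (D : ℝ) ^ 2 * qa_cos_sq
  rw [← pow_le_pow_iff_left₀ (n := 2) (by positivity) (by positivity) two_ne_zero]
  simp only [ltb_eq, Bool.not_eq_true', decide_eq_false_iff_not, not_lt]
  rw [← Nat.cast_le (α := ℝ)]
  push_cast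
  rw [← qa_sqrt, pow_le_pow_iff_left₀ (by positivity) hs two_ne_zero]
  rcases le_total (4 * k ^ 2) (2 * D ^ 2) with h | h
  · rw [Nat.sub_eq_zero_of_le h]
    have h' : (4 * (k : ℝ) ^ 2) ≤ 2 * (D : ℝ) ^ 2 := by exact_mod_cast h
    push_cast
    exact iff_of_true hs (by linarith)
  · rw [Nat.cast_sub h]
    push_cast
    constructor <;> intro h <;> linarith

theorem snum_apx {D : ℕ} (hD : 0 < D) : |(snum ⟨D⟩ : ℝ) / D - Real.sin (Real.pi / 8)| ≤ 1 / D := by
  have hc : 0 ≤ Real.sin (Real.pi / 8) := by rw [Real.sin_pi_div_eight]; positivity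
  refine qa_apx hD hc (Real.sin_le_one _) _ fun i => ?_
  have hk : 0 < i + 1 := Nat.succ_pos i
  generalize i + 1 = k at hk
  have hD' : (0 : ℝ) < D := by exact_mod_cast hD
  have hs : (0 : ℝ) < √2 * (D : ℝ) ^ 2 := by positivity
  have e : 4 * ((D : ℝ) * Real.sin (Real.pi / 8)) ^ 2 = 2 * (D : ℝ) ^ 2 - √2 * (D : ℝ) ^ 2 := by
    linear_combination (D : ℝ) ^ 2 * qa_sin_sq
  rw [← pow_le_pow_iff_left₀ (n := 2) (by positivity) (by positivity) two_ne_zero]
  simp only [ltb_eq, Bool.not_eq_true', decide_eq_false_iff_not, not_lt]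
  rw [← Nat.cast_le (α := ℝ)]
  push_cast
  rw [← qa_sqrt, pow_le_pow_iff_left₀ hs.le (by positivity) two_ne_zero]
  rcases le_total (2 * D ^ 2) (4 * k ^ 2) with h | h
  · rw [Nat.sub_eq_zero_of_le h]
    have h' : 2 * (D : ℝ) ^ 2 ≤ (4 * (k : ℝ) ^ 2) := by exact_mod_cast h
    push_cast
    exact iff_of_false (by linarith) (by linarith)
  · rw [Nat.cast_sub h]
    push_cast
    constructor <;> intro h <;> linarith

theorem qa_cnum {D : ℕ} (hD : 3 ≤ D) : 1 ≤ cnum ⟨D⟩ ∧ cnum ⟨D⟩ ≤ D := by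
  refine ⟨List.length_pos_of_mem (a := 0) ?_,
    (List.length_filter_le _ _).trans (List.length_range).le⟩
  rw [List.mem_filter, List.mem_range]
  refine ⟨by change 0 < D; omega, ?_⟩
  have : 4 * (0 + 1) ^ 2 - 2 * D ^ 2 = 0 := Nat.sub_eq_zero_of_le (by nlinarith)
  simp only [this]
  simp

theorem qa_snum {D : ℕ} (hD : 3 ≤ D) : 1 ≤ snum ⟨D⟩ ∧ snum ⟨D⟩ ≤ D := by
  refine ⟨List.length_pos_of_mem (a := 0) ?_,
    (List.length_filter_le _ _).trans (List.length_range).le⟩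
  rw [List.mem_filter, List.mem_range]
  refine ⟨by change 0 < D; omega, ?_⟩
  have h9 : 9 ≤ D ^ 2 := by nlinarith
  simp only [ltb_eq, Bool.not_eq_true', decide_eq_false_iff_not, not_lt]
  rw [show D ^ 4 = (D ^ 2) ^ 2 by ring]
  generalize D ^ 2 = x at h9
  obtain ⟨y, rfl⟩ : ∃ y, x = y + 2 := ⟨x - 2, by omega⟩
  rw [show 2 * (y + 2) - 4 * (0 + 1) ^ 2 = 2 * y by omega]
  have : 7 ≤ y := by omega
  nlinarith

theorem qa_sgq (s : Bool) : |sgq s| = 1 := by
  cases s <;> simp [sgq]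

theorem qa_pow (T : ℕ) : 1 ≤ T + 1 ∧ T + 1 ≤ (T + 1) ^ 2 ∧ (T + 1) ^ 2 ≤ (T + 1) ^ 6 ∧
    1 ≤ (T + 1) ^ 3 :=
  ⟨by omega, Nat.le_self_pow two_ne_zero _, Nat.pow_le_pow_right (by omega) (by omega),
    Nat.one_le_pow _ _ (by omega)⟩

theorem qa_dts {h : HC} (hh : h.Ok) : ∀ t ∈ h.dts, t.1.1 < t.2.1.1 ∧ t.2.1.1 < h.N ∧
    4 ≤ |t.2.2| ∧ |t.2.2| ≤ h.Jc := by
  obtain ⟨p1, p2, p3, -⟩ := qa_pow h.T
  have key : ∀ k : ℕ, 4 ≤ k → k ≤ h.Jc → 4 ≤ |(k : ℚ)| ∧ |(k : ℚ)| ≤ h.Jc := fun k h1 h2 => by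
    rw [Nat.abs_cast]
    exact ⟨by exact_mod_cast h1, by exact_mod_cast h2⟩
  have hJc := key h.Jc (by unfold HC.Jc; omega) le_rfl
  have hJ := key h.J (by unfold HC.J; omega) (by unfold HC.J HC.Jc; omega)
  have hJ2 := key (2 * h.J) (by unfold HC.J; omega) (by unfold HC.J HC.Jc; omega)
  have hT := key (12 * (h.T + 1)) (by omega) (by unfold HC.Jc; omega)
  push_cast at hJ2 hT
  have hlen := hh.len
  have hm := hh.m_pos
  have hN : h.N = h.m + 2 * h.S.length := rfl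
  have hT' : h.T = 2 * h.S.length := rfl
  intro t ht
  simp only [HC.dts, List.mem_append, List.mem_flatMap, List.mem_range, List.mem_map,
    List.mem_cons, List.not_mem_nil, or_false] at ht
  rcases ht with ((⟨j, hj, j', hj', ht⟩ | ⟨s, hs, rfl | ht⟩) | rfl | rfl | rfl | rfl) |
    ⟨a, ha, rfl⟩
  · by_cases e : j / 2 < j' / 2
    · simp only [ltb_eq, e, decide_true, cond_true, List.mem_singleton] at ht
      subst ht
      exact ⟨by dsimp only; omega, by dsimp only; omega, hJc⟩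
    · simp [e] at ht
  · exact ⟨by dsimp only; omega, by dsimp only; omega, hJc⟩
  · by_cases e : (h.st s).1 < h.m
    · simp only [ltb_eq, e, decide_true, cond_true, List.mem_cons, List.not_mem_nil,
        or_false] at ht
      rcases ht with rfl | rfl
      · exact ⟨by dsimp only; omega, by dsimp only; omega, hJc⟩
      · exact ⟨by dsimp only; omega, by dsimp only; omega, by dsimp only; rw [abs_neg]; exact hJc⟩
    · simp [e] at ht
  · exact ⟨by dsimp only; omega, by dsimp only; omega, hJ2⟩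
  · exact ⟨by dsimp only; omega, by dsimp only; omega, hJ⟩
  · exact ⟨by dsimp only; omega, by dsimp only; omega, hJ⟩
  · exact ⟨by dsimp only; omega, by dsimp only; omega, hT⟩
  · have := hh.A_lt a ha
    exact ⟨this, by dsimp only; omega, hJ⟩

theorem qa_sum (l : List ((ℕ × Bool) × (ℕ × Bool) × ℚ)) {c : ℚ} (h : ∀ t ∈ l, |t.2.2| ≤ c) :
    |(l.map fun t => t.2.2 / 4).sum| ≤ l.length * (c / 4) := by
  induction l with
  | nil => simp
  | cons t l ih =>
    rw [List.map_cons, List.sum_cons, List.length_cons]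
    have h1 := h t List.mem_cons_self
    have h2 := ih fun t ht => h t (List.mem_cons_of_mem _ ht)
    have h3 := abs_add_le (t.2.2 / 4) (l.map fun t => t.2.2 / 4).sum
    rw [abs_div, Nat.abs_ofNat] at h3
    push_cast
    linarith

theorem qa_hop (h : HC) {k : ℕ} (h1 : 1 ≤ k) (h2 : k ≤ h.D) :
    |(h.J : ℚ) * k / h.D| ≤ h.Jc ∧ 1 / (h.Jc : ℚ) ≤ |(h.J : ℚ) * k / h.D| := by
  obtain ⟨p1, p2, p3, p4⟩ := qa_pow h.T
  have hD : (0 : ℚ) < h.D := by unfold HC.D; positivity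
  have hJc : (0 : ℚ) < h.Jc := by unfold HC.Jc; positivity
  rw [abs_of_nonneg (by positivity), div_le_iff₀ hD, div_le_div_iff₀ hJc hD]
  have h3 : h.J ≤ h.Jc := by unfold HC.J HC.Jc; omega
  have h4 : 1 ≤ h.J := by unfold HC.J; omega
  have h5 : h.D ≤ h.Jc := by
    have : (h.T + 1) ^ 3 ≤ (h.T + 1) ^ 6 := Nat.pow_le_pow_right (by omega) (by omega)
    unfold HC.D HC.Jc
    omega
  constructor
  · exact_mod_cast Nat.mul_le_mul h3 h2
  · exact_mod_cast Nat.mul_le_mul (Nat.mul_le_mul h4 h1) h5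

theorem HC.Ok.toLH_ok {h : HC} (hh : h.Ok) : h.toLH.OK := by
  obtain ⟨p1, p2, p3, p4⟩ := qa_pow h.T
  have hd := qa_dts hh
  have hD : 3 ≤ h.D := by unfold HC.D; omega
  have hJ1 : 1 ≤ h.Jc := by unfold HC.Jc; omega
  have hJ2 : (1 : ℚ) ≤ h.Jc := by exact_mod_cast hJ1
  have hb : (h.toLH.bd : ℚ) = (h.dts.length + 5) * h.Jc := by simp [HC.toLH]
  have hl : (0 : ℚ) ≤ h.dts.length := by positivity
  have hbd : (h.Jc : ℚ) ≤ h.toLH.bd := by rw [hb]; nlinarith
  have hbd' : 1 / (h.toLH.bd : ℚ) ≤ 1 / (h.Jc : ℚ) := one_div_le_one_div_of_le (by linarith) hbd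
  have hN : h.toLH.nq = h.m + 2 * h.S.length := rfl
  have hN' : h.N = h.m + 2 * h.S.length := rfl
  have hm := hh.m_pos
  refine ⟨by omega, by exact_mod_cast hJ2.trans hbd, fun t ht => ?_, fun t ht => ?_,
    fun t ht => ?_, fun t ht => ?_, ?_⟩
  · simp only [HC.toLH, List.mem_flatMap, List.mem_cons, List.not_mem_nil, or_false] at ht
    obtain ⟨u, hu, rfl | rfl⟩ := ht <;> have := hd u hu <;> dsimp only <;> omega
  · simp only [HC.toLH, List.mem_flatMap, List.mem_cons, List.not_mem_nil, or_false] at ht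
    obtain ⟨u, hu, rfl | rfl⟩ := ht <;> obtain ⟨-, -, h1, h2⟩ := hd u hu <;>
      rw [abs_div, abs_mul, qa_sgq, Nat.abs_ofNat] <;> linarith
  · simp only [HC.toLH, HC.hops, List.mem_append, List.mem_map, List.mem_flatMap, List.mem_range,
      List.mem_cons, List.not_mem_nil, or_false] at ht
    rcases ht with ⟨u, hu, rfl⟩ | ⟨s, hs, ht⟩
    · have := hd u hu
      dsimp only
      omega
    · have := (hh.tgt s hs).1
      rcases ht with rfl | rfl | rfl <;> dsimp only <;> omega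
  · simp only [HC.toLH, HC.hops, List.mem_append, List.mem_map, List.mem_flatMap, List.mem_range,
      List.mem_cons, List.not_mem_nil, or_false] at ht
    rcases ht with ⟨u, hu, rfl⟩ | ⟨s, hs, rfl | rfl | rfl⟩
    · obtain ⟨-, -, h1, h2⟩ := hd u hu
      have h3 : 1 / (h.Jc : ℚ) ≤ 1 := by rw [div_le_one (by linarith)]; exact hJ2
      rw [abs_div, abs_mul, abs_mul, qa_sgq, qa_sgq, Nat.abs_ofNat]
      constructor <;> linarith
    · have := qa_hop h (qa_cnum hD).1 (qa_cnum hD).2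
      rw [abs_neg]
      exact ⟨this.1.trans hbd, hbd'.trans this.2⟩
    · have := qa_hop h (qa_snum hD).1 (qa_snum hD).2
      rw [abs_mul, qa_sgq, one_mul]
      exact ⟨this.1.trans hbd, hbd'.trans this.2⟩
    · have := qa_hop h (k := h.D) (by omega) le_rfl
      rw [mul_div_cancel_right₀ _ (by exact_mod_cast (by omega : h.D ≠ 0))] at this
      rw [abs_neg]
      exact ⟨this.1.trans hbd, hbd'.trans this.2⟩
  · have h1 := qa_sum h.dts fun t ht => (hd t ht).2.2.2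
    have h2 := abs_sub (17 / 4 : ℚ) h.cst
    rw [abs_of_pos (by norm_num : (0 : ℚ) < 17 / 4)] at h2
    rw [hb]
    change |17 / 4 - h.cst| ≤ _
    have h3 : |h.cst| ≤ h.dts.length * ((h.Jc : ℚ) / 4) := h1
    nlinarith [mul_nonneg hl (zero_le_one.trans hJ2)]

end Vale.Agent.P370.Q
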