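import Vale.Agent.P370.QGate
import Vale.Agent.P370.QApx

/-! Part Q: the energy of the Hamiltonian with rational coefficients.
Plan: with `z = if bit y q then -1 else 1` one has `ind y (q, s) = (1 + sgq s * z) / 2`. By induction on a general
list `l` of terms: the one-body terms plus the `Z Z` terms plus `(l.map (·.2.2 / 4)).sum * nsq v` equal
`∑ y, (l.map ..).sum * v y ^ 2`. The sum over `j < 2 L` in `K` is a sum over `t < L` of the terms `j = 2 t`, `2 t + 1`
(induction on `L`, `Finset.sum_range_succ`); `|ip v (pauli a (pauli b v))| ≤ nsq v` (`abs_ip_le`, `nsq_pauli`), the error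
is at most `L * 2 * J / D ≤ 1 / 4`. -/

namespace Vale.Agent.P370.Q

theorem qen_ind {n : ℕ} (y : Fin n → Bool) (a : ℕ × Bool) :
    ind y a = (1 + (sgq a.2 : ℝ) * (if bit y a.1 then -1 else 1)) / 2 := by
  obtain ⟨q, s⟩ := a
  unfold ind sgq
  cases s <;> cases bit y q <;> norm_num

theorem qen_term {n : ℕ} (v : Vec n) (t : (ℕ × Bool) × (ℕ × Bool) × ℚ) :
    ((t.2.2 * sgq t.1.2 / 4 : ℚ) : ℝ) * ∑ x, v x * pauli (t.1.1, false) v x +
      ((t.2.2 * sgq t.2.1.2 / 4 : ℚ) : ℝ) * ∑ x, v x * pauli (t.2.1.1, false) v x +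
      ((t.2.2 * sgq t.1.2 * sgq t.2.1.2 / 4 : ℚ) : ℝ) *
        ∑ x, v x * pauli (t.1.1, false) (pauli (t.2.1.1, false) v) x +
      ((t.2.2 / 4 : ℚ) : ℝ) * nsq v =
      ∑ y, (t.2.2 : ℝ) * ind y t.1 * ind y t.2.1 * v y ^ 2 := by
  simp only [nsq, Finset.mul_sum, ← Finset.sum_add_distrib]
  refine Finset.sum_congr rfl fun y _ => ?_
  rw [qen_ind, qen_ind]
  simp only [pauli_false]
  push_cast
  ring

theorem qen_diag {n : ℕ} (v : Vec n) (l : List ((ℕ × Bool) × (ℕ × Bool) × ℚ)) :
    ((l.flatMap fun t => [((t.1.1, false), t.2.2 * sgq t.1.2 / 4),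
        ((t.2.1.1, false), t.2.2 * sgq t.2.1.2 / 4)]).map
        fun t : (ℕ × Bool) × ℚ => (t.2 : ℝ) * ∑ x, v x * pauli t.1 v x).sum +
      ((l.map fun t => ((t.1.1, false), (t.2.1.1, false),
        t.2.2 * sgq t.1.2 * sgq t.2.1.2 / 4)).map
        fun t : (ℕ × Bool) × (ℕ × Bool) × ℚ =>
          (t.2.2 : ℝ) * ∑ x, v x * pauli t.1 (pauli t.2.1 v) x).sum +
      (((l.map fun t => t.2.2 / 4).sum : ℚ) : ℝ) * nsq v =
      ∑ y, (l.map fun t => (t.2.2 : ℝ) * ind y t.1 * ind y t.2.1).sum * v y ^ 2 := by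
  induction l with
  | nil => simp
  | cons t l ih =>
    have h1 := qen_term v t
    simp only [List.flatMap_cons, List.map_append, List.sum_append, List.map_cons, List.sum_cons,
      List.map_nil, List.sum_nil, add_mul, Finset.sum_add_distrib, Rat.cast_add] at ih ⊢
    linarith

theorem qen_abs {n : ℕ} (v : Vec n) (a b : ℕ × Bool) :
    |∑ x, v x * pauli a (pauli b v) x| ≤ nsq v := by
  have h1 := abs_ip_le v (pauli a (pauli b v)) one_pos
  rw [nsq_pauli, nsq_pauli] at h1
  unfold ip at h1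
  linarith

theorem qen_sum_two (f : ℕ → ℝ) (L : ℕ) :
    ∑ j ∈ Finset.range (2 * L), f j = ∑ t ∈ Finset.range L, (f (2 * t) + f (2 * t + 1)) := by
  induction L with
  | zero => simp
  | succ L ih =>
    rw [show 2 * (L + 1) = 2 * L + 1 + 1 by ring, Finset.sum_range_succ, Finset.sum_range_succ, ih,
      Finset.sum_range_succ]
    ring

theorem qen_flat {α : Type} (g : ℕ → List α) (f : α → ℝ) (L : ℕ) :
    (((List.range L).flatMap g).map f).sum = ∑ t ∈ Finset.range L, ((g t).map f).sum := by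
  induction L with
  | zero => simp
  | succ L ih =>
    rw [List.range_succ, List.flatMap_append, List.map_append, List.sum_append, ih,
      Finset.sum_range_succ]
    simp

theorem qen_cos (s : Bool) : Real.cos (ang s) = Real.cos (Real.pi / 8) := by
  cases s <;> simp [ang]

theorem qen_sin (s : Bool) : Real.sin (ang s) = -(sgq s : ℝ) * Real.sin (Real.pi / 8) := by
  cases s <;> simp [ang, sgq]

theorem qen_sgq (s : Bool) : |(sgq s : ℝ)| = 1 := by
  cases s <;> simp [sgq]

namespace HC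

theorem qen_hop (h : HC) (v : Vec h.N) :
    |(h.hops.map fun t => (t.2.2 : ℝ) * ∑ x, v x * pauli t.1 (pauli t.2.1 v) x).sum +
      h.J * h.K v v| ≤ h.S.length * (2 * (h.J / h.D) * nsq v) := by
  have hD : 0 < h.D := by
    unfold D
    positivity
  have hc := cnum_apx hD
  have hs := snum_apx hD
  rw [hops, qen_flat, K, T, qen_sum_two, Finset.mul_sum, ← Finset.sum_add_distrib]
  refine (Finset.abs_sum_le_sum_abs _ _).trans ?_
  refine (Finset.sum_le_card_nsmul _ _ (2 * (h.J / h.D) * nsq v) fun t _ => ?_).trans ?_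
  · have e1 : (2 * t + 1) / 2 = t := by omega
    have e2 : 2 * t / 2 = t := by omega
    have e3 : ((2 * t + 1) % 2 == 1) = true := by simp
    have e4 : (2 * t % 2 == 1) = false := by simp
    rw [e1, e2, e3, e4]
    set A := ∑ x, v x * pauli ((h.st t).2.1, false) (pauli (h.m + 2 * t, true) v) x with hA
    set B := ∑ x, v x * pauli ((h.st t).2.1, true) (pauli (h.m + 2 * t, true) v) x with hB
    have hA' : |A| ≤ nsq v := qen_abs v _ _
    have hB' : |B| ≤ nsq v := qen_abs v _ _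
    have g1 : ip v (gate (h.st t) false (pauli (h.m + 2 * t, true) v)) =
        Real.cos (Real.pi / 8) * A - (sgq (h.st t).2.2 : ℝ) * Real.sin (Real.pi / 8) * B := by
      rw [hA, hB, ip, Finset.mul_sum, Finset.mul_sum, ← Finset.sum_sub_distrib]
      refine Finset.sum_congr rfl fun x _ => ?_
      simp only [gate, qen_cos, qen_sin, Bool.false_eq_true, if_false]
      ring
    have g2 : ip v (gate (h.st t) true (pauli (h.m + (2 * t + 1), true) v)) =
        ∑ x, v x * pauli ((h.st t).2.1, false) (pauli (h.m + 2 * t + 1, true) v) x := by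
      simp only [ip, gate, if_true, Nat.add_assoc]
    rw [g1, g2]
    simp only [List.map_cons, List.map_nil, List.sum_cons, List.sum_nil]
    rw [← hA, ← hB]
    push_cast
    set c := (cnum ⟨h.D⟩ : ℝ) / h.D - Real.cos (Real.pi / 8) with hc'
    set s := (snum ⟨h.D⟩ : ℝ) / h.D - Real.sin (Real.pi / 8) with hs'
    have hJ : (0 : ℝ) ≤ h.J := Nat.cast_nonneg _
    have e : ∀ C : ℝ, -((h.J : ℝ) * (cnum ⟨h.D⟩ : ℝ) / h.D) * A +
        ((sgq (h.st t).2.2 : ℝ) * ((h.J : ℝ) * (snum ⟨h.D⟩ : ℝ) / h.D) * B + (-(h.J : ℝ) * C + 0)) +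
        h.J * (Real.cos (Real.pi / 8) * A -
          (sgq (h.st t).2.2 : ℝ) * Real.sin (Real.pi / 8) * B + C) =
        h.J * (-(c * A) + (sgq (h.st t).2.2 : ℝ) * (s * B)) := fun C => by
      rw [hc', hs']
      ring
    rw [e, abs_mul, abs_of_nonneg hJ]
    have hv := nsq_nonneg v
    have i1 : |c * A| ≤ 1 / h.D * nsq v := by
      rw [abs_mul]
      exact mul_le_mul hc hA' (abs_nonneg _) (by positivity)
    have i2 : |s * B| ≤ 1 / h.D * nsq v := by
      rw [abs_mul]
      exact mul_le_mul hs hB' (abs_nonneg _) (by positivity)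
    have i3 : |-(c * A) + (sgq (h.st t).2.2 : ℝ) * (s * B)| ≤ 2 * (1 / h.D * nsq v) := by
      refine (abs_add_le _ _).trans ?_
      rw [abs_neg, abs_mul (sgq (h.st t).2.2 : ℝ), qen_sgq]
      linarith
    calc (h.J : ℝ) * |-(c * A) + (sgq (h.st t).2.2 : ℝ) * (s * B)|
        ≤ h.J * (2 * (1 / h.D * nsq v)) := mul_le_mul_of_nonneg_left i3 hJ
      _ = 2 * (h.J / h.D) * nsq v := by ring
  · simp

theorem en_apx (h : HC) (v : Vec h.N) :
    |h.toLH.en v + (h.cst : ℝ) * nsq v - h.E v| ≤ 1 / 4 * nsq v := by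
  have h1 := qen_diag v h.dts
  have h2 := h.qen_hop v
  have e : h.toLH.en v + (h.cst : ℝ) * nsq v - h.E v =
      (h.hops.map fun t => (t.2.2 : ℝ) * ∑ x, v x * pauli t.1 (pauli t.2.1 v) x).sum +
        h.J * h.K v v := by
    have e1 : h.toLH.en v =
        ((h.dts.flatMap fun t => [((t.1.1, false), t.2.2 * sgq t.1.2 / 4),
          ((t.2.1.1, false), t.2.2 * sgq t.2.1.2 / 4)]).map
          fun t : (ℕ × Bool) × ℚ => (t.2 : ℝ) * ∑ x, v x * pauli t.1 v x).sum +
        (((h.dts.map fun t => ((t.1.1, false), (t.2.1.1, false),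
          t.2.2 * sgq t.1.2 * sgq t.2.1.2 / 4)) ++ h.hops).map
          fun t : (ℕ × Bool) × (ℕ × Bool) × ℚ =>
            (t.2.2 : ℝ) * ∑ x, v x * pauli t.1 (pauli t.2.1 v) x).sum := rfl
    rw [e1, List.map_append, List.sum_append]
    unfold E cst diag
    linarith
  rw [e]
  refine h2.trans ?_
  have hv := nsq_nonneg v
  have hL : (h.S.length : ℝ) * (2 * (h.J / h.D)) ≤ 1 / 4 := by
    have hT : (h.T : ℝ) = 2 * h.S.length := by
      unfold T
      push_cast
      ring
    have hT0 : (0 : ℝ) ≤ h.T := Nat.cast_nonneg _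
    have hq : (h.J : ℝ) / h.D = 1 / (4 * (h.T + 1)) := by
      unfold J D
      push_cast
      field_simp
      ring
    rw [hq, show (h.S.length : ℝ) * (2 * (1 / (4 * (h.T + 1)))) = h.T / (4 * (h.T + 1)) by
      rw [hT]; ring, div_le_div_iff₀ (by positivity) (by positivity)]
    linarith
  calc (h.S.length : ℝ) * (2 * (h.J / h.D) * nsq v) =
      (h.S.length : ℝ) * (2 * (h.J / h.D)) * nsq v := by ring
    _ ≤ 1 / 4 * nsq v := mul_le_mul_of_nonneg_right hL hv

end HC

end Vale.Agent.P370.Q
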