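import Vale.Agent.P370.QDefs

/-! Part Q: the construction is polynomial time.
Plan: projections of `Circ`, `HC` by `PT.of_enc`; unary versions of `T`, `N`, `Jc`, `D`, `bd` with `unAdd`, `unMul`,
`unLen` (P338/PTX.lean); `fun_prop` for the lists (`PT_flatMap`, `PT_filter`, `PT_range`, `PT.getD`, `PT.cond`),
rationals in P049/RatPT.lean. -/

namespace Vale.Agent.P370.Q

open Vale.Agent.Lib.H23 Vale.Agent.P338 Vale.Agent.P049

section

variable {α : Type} [Enc α]

/-- polynomial time with the output in unary -/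
def PU (f : α → ℕ) : Prop := PT fun x => (⟨f x⟩ : Un)

theorem PU.pt {f : α → ℕ} (hf : PU f) : PT f := PT_unn hf

theorem PU.add {f g : α → ℕ} (hf : PU f) (hg : PU g) : PU fun x => f x + g x := PT_unAdd hf hg

theorem PU.mul {f g : α → ℕ} (hf : PU f) (hg : PU g) : PU fun x => f x * g x := PT_unMul hf hg

theorem PU.const (k : ℕ) : PU fun _ : α => k := PT.const _

theorem PU.len {β : Type} [Enc β] {l : α → List β} (hl : PT l) : PU fun x => (l x).length :=
  PT_unLen hl

theorem PU.pow {f : α → ℕ} (hf : PU f) (k : ℕ) : PU fun x => f x ^ k := by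
  induction k with
  | zero => exact PU.const 1
  | succ k ih => exact ih.mul hf

theorem PU.range {f : α → ℕ} (hf : PU f) : PT fun x => List.range (f x) := PT_range hf

@[fun_prop] theorem pt_data {g : α → Gate} (hg : PT g) : PT fun x => (g x).data :=
  hg.of_enc fun _ => rfl

@[fun_prop] theorem pt_cr {m c b : α → ℕ} (s : Bool) (hm : PT m) (hc : PT c) (hb : PT b) :
    PT fun x => cr (m x) (c x) (b x) s := by
  unfold cr
  fun_prop

@[fun_prop] theorem pt_cr2 {m c b : α → ℕ} (s : Bool) (hm : PT m) (hc : PT c) (hb : PT b) :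
    PT fun x => cr2 (m x) (c x) (b x) s := by
  unfold cr2
  fun_prop

@[fun_prop] theorem pt_pad {n : α → ℕ} (hn : PT n) : PT fun x => pad (n x) := by
  unfold pad
  fun_prop

@[fun_prop] theorem pt_gsteps {n : α → ℕ} {d : α → List ℕ} (hn : PT n) (hd : PT d) :
    PT fun x => gsteps (n x) (d x) := by
  unfold gsteps
  fun_prop

@[fun_prop] theorem pt_sgq {s : α → Bool} (hs : PT s) : PT fun x => sgq (s x) := by
  unfold sgq
  fun_prop

@[fun_prop] theorem pt_cnum {D : α → Un} (hD : PT D) : PT fun x => cnum (D x) := by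
  unfold cnum
  fun_prop

@[fun_prop] theorem pt_snum {D : α → Un} (hD : PT D) : PT fun x => snum (D x) := by
  unfold snum
  fun_prop

theorem pt_HC {h : α → HC} (hh : PT h) : PT fun x => ((⟨(h x).m⟩ : Un), (h x).A, (h x).S) :=
  hh.of_enc fun _ => rfl

theorem pu_m {h : α → HC} (hh : PT h) : PU fun x => (h x).m := (pt_HC hh).fst

@[fun_prop] theorem pt_m {h : α → HC} (hh : PT h) : PT fun x => (h x).m := (pu_m hh).pt

@[fun_prop] theorem pt_A {h : α → HC} (hh : PT h) : PT fun x => (h x).A := (pt_HC hh).snd.fst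

@[fun_prop] theorem pt_S {h : α → HC} (hh : PT h) : PT fun x => (h x).S := (pt_HC hh).snd.snd

theorem pu_T {h : α → HC} (hh : PT h) : PU fun x => (h x).T :=
  (PU.const 2).mul (PU.len (pt_S hh))

theorem pu_N {h : α → HC} (hh : PT h) : PU fun x => (h x).N := (pu_m hh).add (pu_T hh)

theorem pu_Jc {h : α → HC} (hh : PT h) : PU fun x => (h x).Jc :=
  (PU.const _).mul (((pu_T hh).add (PU.const 1)).pow 6)

theorem pu_D {h : α → HC} (hh : PT h) : PU fun x => (h x).D :=
  (PU.const _).mul (((pu_T hh).add (PU.const 1)).pow 3)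

@[fun_prop] theorem pt_T {h : α → HC} (hh : PT h) : PT fun x => (h x).T := (pu_T hh).pt

@[fun_prop] theorem pt_N {h : α → HC} (hh : PT h) : PT fun x => (h x).N := (pu_N hh).pt

@[fun_prop] theorem pt_Jc {h : α → HC} (hh : PT h) : PT fun x => (h x).Jc := (pu_Jc hh).pt

@[fun_prop] theorem pt_D {h : α → HC} (hh : PT h) : PT fun x => (h x).D := (pu_D hh).pt

@[fun_prop] theorem pt_J {h : α → HC} (hh : PT h) : PT fun x => (h x).J := by
  unfold HC.J
  fun_prop

@[fun_prop] theorem pt_st {h : α → HC} {t : α → ℕ} (hh : PT h) (ht : PT t) :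
    PT fun x => (h x).st (t x) := by
  unfold HC.st
  fun_prop

@[fun_prop] theorem pt_rangeT {h : α → HC} (hh : PT h) : PT fun x => List.range (h x).T :=
  (pu_T hh).range

@[fun_prop] theorem pt_rangeL {h : α → HC} (hh : PT h) : PT fun x => List.range (h x).S.length :=
  (PU.len (pt_S hh)).range

@[fun_prop] theorem pt_cD {h : α → HC} (hh : PT h) : PT fun x => cnum ⟨(h x).D⟩ :=
  pt_cnum (pu_D hh)

@[fun_prop] theorem pt_sD {h : α → HC} (hh : PT h) : PT fun x => snum ⟨(h x).D⟩ :=
  pt_snum (pu_D hh)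

end

theorem pt_dts : PT HC.dts := by
  unfold HC.dts
  refine PT.append (PT.append (PT.append ?_ ?_) (by fun_prop)) (by fun_prop)
  · refine PT_flatMap (PT_flatMap (by fun_prop) (pt_rangeT PT.fst')) (pt_rangeT PT.id)
  · refine PT_flatMap (by fun_prop) (pt_rangeL PT.id)

theorem pt_hops : PT HC.hops := by
  unfold HC.hops
  have h1 : PT fun p : HC × ℕ => cnum ⟨p.1.D⟩ := pt_cD PT.fst'
  have h2 : PT fun p : HC × ℕ => snum ⟨p.1.D⟩ := pt_sD PT.fst'
  refine PT_flatMap (by fun_prop) (pt_rangeL PT.id)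

theorem pt_toHC : PT toHC := by
  have h0 : PT fun C : Circ => ((⟨C.wit⟩ : Un), (⟨C.anc⟩ : Un), C.gates) :=
    PT.retag fun _ => rfl
  have hw : PU fun C : Circ => C.wit := h0.fst
  have ha : PU fun C : Circ => C.anc := h0.snd.fst
  have hg : PT fun C : Circ => C.gates := h0.snd.snd
  have hw' := hw.pt
  have ha' := ha.pt
  have h1 : PU fun C => (toHC C).m := (hw.add ha).add (PU.const 1)
  have h2 : PT fun C => (toHC C).A := PT.map (by fun_prop) ha.range
  have h3 : PT fun C => (toHC C).S := by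
    unfold toHC
    fun_prop
  exact (PT.pair h1 (h2.pair h3)).of_enc fun _ => rfl

theorem pt_toLH : PT HC.toLH := by
  have hd := pt_dts
  have hh := pt_hops
  have h1 : PT fun h : HC => h.toLH.one := PT_flatMap (by fun_prop) hd
  have h2 : PT fun h : HC => h.toLH.two := PT.append (PT.map (by fun_prop) hd) hh
  have h3 : PT fun h : HC => h.toLH.thr :=
    pt_qsub (PT.const _) (pt_qsum (PT.map (by fun_prop) hd))
  have h4 : PU fun h : HC => h.toLH.bd := ((PU.len hd).add (PU.const 5)).mul (pu_Jc PT.id)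
  exact (PT.pair (pu_N PT.id) (h1.pair (h2.pair (h3.pair h4)))).of_enc fun _ => rfl

end Vale.Agent.P370.Q
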