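import Vale.Agent.P370.QReal
import Vale.Agent.P370.QEn
import Vale.Agent.P370.QPT
import Vale.Agent.P370.QCirc

/-! Part Q: from verifier circuits to real 2-local `X/Z` Hamiltonians (see `notes/P370.md`). -/

namespace Vale.Agent.P370

open Vale.Agent.Lib.H23

theorem q_main : ∃ F : Circ → LH, PT F ∧
    ∀ C : Circ, C.Valid → (F C).OK ∧ (C.Yes → (F C).Yes) ∧ (C.No → (F C).No) := by
  refine ⟨fun C => (Q.toHC C).toLH, PT.comp Q.pt_toLH Q.pt_toHC, fun C hC => ?_⟩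
  have hh := Q.toHC_ok hC
  have ht : (((Q.toHC C).toLH.thr : ℚ) : ℝ) = 17 / 4 - ((Q.toHC C).cst : ℝ) := by
    simp [Q.HC.toLH]
  refine ⟨hh.toLH_ok, fun hY => ?_, fun hN v => ?_⟩
  · obtain ⟨v, h0, h1⟩ := hh.real_yes (Q.toHC_yes hC hY)
    refine ⟨v, h0, ?_⟩
    have h2 := (abs_le.1 ((Q.toHC C).en_apx v)).2
    rw [ht]
    change _ ≤ _ * Q.nsq v
    linarith
  · have h1 := hh.real_no (Q.toHC_no hC hN) v
    have h2 := (abs_le.1 ((Q.toHC C).en_apx v)).1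
    rw [ht]
    change _ * Q.nsq (n := (Q.toHC C).N) v ≤ (Q.toHC C).toLH.en v
    linarith

end Vale.Agent.P370
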