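import Vale.Agent.P370.TMComp
import Vale.Agent.P370.QMain
import Vale.Agent.P370.PMain
import Vale.Agent.P370.LayPT
import Vale.Agent.P370.NucPT

/-! Assembly. -/

namespace Vale.Agent.P370

open Vale.Agent.Lib.H23 Vale.Agent.P338 Vale.Agent.P049 Enc Turing

theorem pt_instOf : PT instOf := by
  have h1 : PT fun H : LH => scaleNuc (sq (bH H)) (nucQ (bH H) (VqH (bH H) H)) :=
    pt_scaleNuc bpt_bH.sq (pt_nucQ bpt_bH
      (pt_VqH (bpt_bH.comp PT.fst') PT.fst' PT.snd'))
  exact (h1.pair ((pt_Nel PT.id).pair ((pt_thrq bpt_bH PT.id (1 / 16)).pair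
    (pt_thrq bpt_bH PT.id (3 / 16))))).of_enc fun _ => rfl

theorem fin_ser_list {α : Type} [Enc α] {f : α → List Bool} (h : ∀ a, ser (enc a) = f a)
    (l : List α) : ser (enc l) = bList f l := by
  induction l with
  | nil => rfl
  | cons a l ih => rw [enc_cons, ser, h, ih, bList]

theorem fin_ser_pair {α β : Type} [Enc α] [Enc β] {f : α → List Bool} {g : β → List Bool}
    (hf : ∀ a, ser (enc a) = f a) (hg : ∀ b, ser (enc b) = g b) (p : α × β) :
    ser (enc p) = bPair f g p := by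
  rw [bPair, ← hf, ← hg]; rfl

theorem fin_ser_bool (b : Bool) : ser (enc b) = bBool b := by cases b <;> rfl

theorem fin_ser_nat (n : ℕ) : ser (enc n) = bNat n := fin_ser_list fin_ser_bool n.bits

theorem fin_ser_un (u : Un) : ser (enc u) = bUn u.n :=
  fin_ser_list (α := Unit) (fun _ => rfl) (List.replicate u.n ())

theorem fin_ser_rat (q : ℚ) : ser (enc q) = bRat q :=
  fin_ser_pair (fin_ser_pair fin_ser_bool fin_ser_nat) fin_ser_nat
    ((decide (q.num < 0), q.num.natAbs), q.den)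

theorem fin_ser_gate (g : Gate) : ser (enc g) = bGate g := by
  cases g <;> exact fin_ser_list fin_ser_nat _

theorem fin_ser_circ (C : Circ) : ser (enc C) = codeCirc C :=
  fin_ser_pair (f := fun u : Un => bUn u.n) fin_ser_un
    (fin_ser_pair (f := fun u : Un => bUn u.n) fin_ser_un (fin_ser_list fin_ser_gate))
    (⟨C.wit⟩, ⟨C.anc⟩, C.gates)

theorem fin_ser_inst (I : Inst) : ser (enc I) = codeInst I :=
  fin_ser_pair (fin_ser_list (fin_ser_pair (fin_ser_pair fin_ser_rat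
    (fin_ser_pair fin_ser_rat fin_ser_rat)) fin_ser_nat))
    (fin_ser_pair (f := fun u : Un => bUn u.n) fin_ser_un (fin_ser_pair fin_ser_rat fin_ser_rat))
    (I.nuclei, ⟨I.N⟩, I.a, I.b)

theorem fin_tm {α β : Type} [Enc α] [Enc β] {f : α → β} (hg : PT f) (ca : α → List Bool)
    (cb : β → List Bool) (ha : ∀ a, ser (enc a) = ca a) (hb : ∀ b, ser (enc b) = cb b) :
    ∃ M : TM2ComputableInPolyTime ca cb f, ∀ j, Finite (M.tm.Γ j) := by
  obtain ⟨c, P, hc⟩ := hg
  have key : ∀ φ : α, TM2OutputsInTime (compile c) (List.map (id : Bool → Bool) (ca φ))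
      (some (List.map (id : Bool → Bool) (cb (f φ)))) ((P + 1).eval (ca φ).length) := by
    intro φ
    have h1 := (hc φ).outputs
    rw [sz, Tr.size, ha, hb] at h1
    rw [← List.map_id (ca φ), ← List.map_id (cb (f φ)), List.length_map] at h1
    rw [Polynomial.eval_add, Polynomial.eval_one]
    exact Classical.choice h1
  exact ⟨⟨⟨compile c, Equiv.refl _, Equiv.refl _⟩, P + 1, key⟩,
    fun _ => (inferInstance : Finite Bool)⟩

theorem main : ∃ c : ℕ, 1 ≤ c ∧ ∀ Y N : Set (List Bool), InQMA Y N →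
    ∃ f : List Bool → Inst, PolyTime codeInst f ∧ ∀ x, (f x).Valid ∧
      1 / ((codeInst (f x)).length : ℚ) ^ c ≤ (f x).b - (f x).a ∧
      (x ∈ Y → (f x).E0 ≤ (((f x).a : ℝ) : EReal)) ∧
      (x ∈ N → (((f x).b : ℝ) : EReal) ≤ (f x).E0) := by
  refine ⟨1, le_rfl, fun Y N ⟨V, hV, hs⟩ => ?_⟩
  obtain ⟨F, hF, hq⟩ := q_main
  refine ⟨fun x => instOf (F (V x)), polyTime_comp (g := fun C => instOf (F C)) hV
    (fin_tm (PT.comp pt_instOf hF) _ _ fin_ser_circ fin_ser_inst), fun x => ?_⟩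
  obtain ⟨h1, h2, h3⟩ := hs x
  obtain ⟨k1, k2, k3⟩ := hq _ h1
  refine ⟨(inst_valid k1).1, le_trans ?_ (inst_valid k1).2, fun h => inst_yes k1 (k2 (h2 h)),
    fun h => inst_no k1 (k3 (h3 h))⟩
  have h4 : 1 ≤ (codeInst (instOf (F (V x)))).length := by
    rw [codeInst, bPair, List.length_cons]; omega
  rw [pow_one, div_le_one (by exact_mod_cast h4)]
  exact_mod_cast h4

end Vale.Agent.P370
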