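import Vale.Agent.P370.HCut

/-! Part H: antisymmetrization is a contraction (port of `P349/HAnti`). -/

open MeasureTheory Set Metric Filter Topology

noncomputable section

namespace Vale.Agent.P370.FC

variable {n : ℕ}

/-- Continuously differentiable with compact support. -/
def Sm (h : Wave n) : Prop := (∀ σ, ContDiff ℝ 1 (h σ)) ∧ ∀ σ, HasCompactSupport (h σ)

/-- Full antisymmetrization. -/
def antis (h : Wave n) : Wave n := fun σ X =>
  ((1 / (n.factorial : ℝ) : ℝ) : ℂ) *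
    ∑ π : Equiv.Perm (Fin n), ((Equiv.Perm.sign π : ℤ) : ℂ) * h (σ ∘ π) (X ∘ π)

/-- Spin-summed density. -/
def dens (ψ : Wave n) (X : Cfg n) : ℝ := ∑ σ, ‖ψ σ X‖ ^ 2

/-- Twice the kinetic energy density. -/
def kin (ψ : Wave n) (X : Cfg n) : ℝ := ∑ σ, ∑ i, ∑ k, ‖fderiv ℝ (ψ σ) X (dir i k)‖ ^ 2

theorem dens_nonneg (ψ : Wave n) (X : Cfg n) : 0 ≤ dens ψ X :=
  Finset.sum_nonneg fun _ _ => sq_nonneg _

theorem sm_of_test {h : Wave n} (hs : Test h) : Sm h := ⟨fun σ => (hs.2 σ).1, fun σ => (hs.2 σ).2⟩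

theorem Sm.integrable_kin {h : Wave n} (hs : Sm h) : Integrable (kin h) :=
  integrable_finsetSum _ fun σ _ => integrable_finsetSum _ fun i _ =>
    integrable_finsetSum _ fun k _ => int_sq (memLp_fderiv (hs.1 σ) (hs.2 σ) (dir i k))

private def haE (π : Equiv.Perm (Fin n)) : Cfg n ≃ᵐ Cfg n :=
  MeasurableEquiv.arrowCongr' π.symm (MeasurableEquiv.refl (Fin 3 → ℝ))

private def haL (π : Equiv.Perm (Fin n)) : Cfg n →L[ℝ] Cfg n :=
  ContinuousLinearMap.pi fun i => ContinuousLinearMap.proj (π i)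

theorem measurePreserving_comp_perm (π : Equiv.Perm (Fin n)) :
    MeasurePreserving (fun X : Cfg n => X ∘ π) volume volume :=
  volume_preserving_arrowCongr' π.symm (MeasurableEquiv.refl (Fin 3 → ℝ))
    (MeasurePreserving.id _)

private theorem haL_apply (π : Equiv.Perm (Fin n)) (X : Cfg n) : haL π X = X ∘ π := rfl

private def haT (Φ : Wave n) (σ : Fin n → Bool) (π : Equiv.Perm (Fin n)) (X : Cfg n) : ℂ :=
  ((Equiv.Perm.sign π : ℤ) : ℂ) * Φ (σ ∘ π) (X ∘ π)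

private theorem ha_norm_sign (π : Equiv.Perm (Fin n)) : ‖((Equiv.Perm.sign π : ℤ) : ℂ)‖ = 1 := by
  rcases Int.units_eq_one_or (Equiv.Perm.sign π) with h | h <;> simp [h]

private theorem ha_sign_sq (π : Equiv.Perm (Fin n)) :
    ((Equiv.Perm.sign π : ℤ) : ℂ) * ((Equiv.Perm.sign π : ℤ) : ℂ) = 1 := by
  rcases Int.units_eq_one_or (Equiv.Perm.sign π) with h | h <;> simp [h]

private theorem ha_sign_mul (π h : Equiv.Perm (Fin n)) :
    ((Equiv.Perm.sign (π * h) : ℤ) : ℂ) =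
      ((Equiv.Perm.sign π : ℤ) : ℂ) * ((Equiv.Perm.sign h : ℤ) : ℂ) := by
  rw [Equiv.Perm.sign_mul, Units.val_mul, Int.cast_mul]

private theorem haT_contDiff {Φ : Wave n} (hΦ : Sm Φ) (σ : Fin n → Bool) (π : Equiv.Perm (Fin n)) :
    ContDiff ℝ 1 (haT Φ σ π) :=
  contDiff_const.mul ((hΦ.1 (σ ∘ π)).comp (haL π).contDiff)

private theorem haT_hasCompactSupport {Φ : Wave n} (hΦ : Sm Φ) (σ : Fin n → Bool)
    (π : Equiv.Perm (Fin n)) : HasCompactSupport (haT Φ σ π) := by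
  have hK : IsCompact (haL π.symm '' tsupport (Φ (σ ∘ π))) :=
    (hΦ.2 (σ ∘ π)).isCompact.image (haL π.symm).continuous
  refine HasCompactSupport.intro hK fun X hX => ?_
  by_contra hc
  refine hX ⟨X ∘ π, subset_tsupport _ (right_ne_zero_of_mul hc), ?_⟩
  funext i
  simp [haL_apply]

private theorem fderiv_haT {Φ : Wave n} (hΦ : Sm Φ) (σ : Fin n → Bool) (π : Equiv.Perm (Fin n))
    (X v : Cfg n) :
    fderiv ℝ (haT Φ σ π) X v =
      ((Equiv.Perm.sign π : ℤ) : ℂ) * fderiv ℝ (Φ (σ ∘ π)) (X ∘ π) (v ∘ π) := by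
  have hd : DifferentiableAt ℝ (Φ (σ ∘ π)) (haL π X) := ((hΦ.1 _).differentiable one_ne_zero) _
  have h1 : HasFDerivAt (fun Y => Φ (σ ∘ π) (haL π Y))
      ((fderiv ℝ (Φ (σ ∘ π)) (haL π X)).comp (haL π)) X :=
    hd.hasFDerivAt.comp X (haL π).hasFDerivAt
  have h2 := (h1.const_mul ((Equiv.Perm.sign π : ℤ) : ℂ)).fderiv
  have h3 : haT Φ σ π = fun Y => ((Equiv.Perm.sign π : ℤ) : ℂ) * Φ (σ ∘ π) (haL π Y) := rfl
  rw [h3, h2]
  rfl

private theorem ha_dir_comp (π : Equiv.Perm (Fin n)) (i : Fin n) (k : Fin 3) :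
    dir (π i) k ∘ π = dir i k := by
  funext j
  by_cases h : j = i
  · subst h
    simp
  · have h2 : π j ≠ π i := fun hc => h (π.injective hc)
    simp [Pi.single_eq_of_ne h, Pi.single_eq_of_ne h2]

private theorem ha_sum_spin (π : Equiv.Perm (Fin n)) (g : (Fin n → Bool) → ℝ) :
    ∑ σ : Fin n → Bool, g (σ ∘ π) = ∑ σ, g σ :=
  Equiv.sum_comp (π.symm.arrowCongr (Equiv.refl Bool)) g

private theorem antis_eq (Φ : Wave n) (σ : Fin n → Bool) :
    antis Φ σ = fun X => ((1 / (n.factorial : ℝ) : ℝ) : ℂ) * ∑ π, haT Φ σ π X := rfl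

private theorem ha_integral_avg {G : Cfg n → ℝ} (hG : Integrable G) :
    Integrable (fun X : Cfg n =>
      1 / (n.factorial : ℝ) * ∑ π : Equiv.Perm (Fin n), G (X ∘ π)) ∧
    ∫ X : Cfg n, 1 / (n.factorial : ℝ) * ∑ π : Equiv.Perm (Fin n), G (X ∘ π) = ∫ X, G X := by
  have h1 : ∀ π : Equiv.Perm (Fin n), Integrable (fun X : Cfg n => G (X ∘ π)) :=
    fun π => (measurePreserving_comp_perm π).integrable_comp_of_integrable hG
  have h2 : ∀ π : Equiv.Perm (Fin n), ∫ X : Cfg n, G (X ∘ π) = ∫ X, G X := fun π =>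
    (measurePreserving_comp_perm π).integral_comp (haE π).measurableEmbedding G
  have h3 : (0 : ℝ) < n.factorial := by exact_mod_cast n.factorial_pos
  refine ⟨(integrable_finsetSum _ fun π _ => h1 π).const_mul _, ?_⟩
  rw [integral_const_mul, integral_finsetSum _ fun π _ => h1 π]
  simp only [h2]
  rw [Finset.sum_const, Finset.card_univ, Fintype.card_perm, Fintype.card_fin, nsmul_eq_mul]
  field_simp

private theorem ha_jensen (a : Equiv.Perm (Fin n) → ℂ) :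
    ‖((1 / (n.factorial : ℝ) : ℝ) : ℂ) * ∑ π, a π‖ ^ 2 ≤
      1 / (n.factorial : ℝ) * ∑ π, ‖a π‖ ^ 2 := by
  have h3 : (0 : ℝ) < n.factorial := by exact_mod_cast n.factorial_pos
  have h1 : ‖∑ π, a π‖ ^ 2 ≤ (∑ π, ‖a π‖) ^ 2 :=
    pow_le_pow_left₀ (norm_nonneg _) (norm_sum_le _ _) 2
  have h2 := sq_sum_le_card_mul_sum_sq (s := Finset.univ) (f := fun π => ‖a π‖)
  rw [Finset.card_univ, Fintype.card_perm, Fintype.card_fin] at h2
  rw [norm_mul, mul_pow, Complex.norm_real, Real.norm_eq_abs, sq_abs]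
  calc (1 / (n.factorial : ℝ)) ^ 2 * ‖∑ π, a π‖ ^ 2
      ≤ (1 / (n.factorial : ℝ)) ^ 2 * (n.factorial * ∑ π, ‖a π‖ ^ 2) :=
        mul_le_mul_of_nonneg_left (h1.trans h2) (sq_nonneg _)
    _ = 1 / (n.factorial : ℝ) * ∑ π, ‖a π‖ ^ 2 := by field_simp

private theorem grad_antis_le {Φ : Wave n} (hΦ : Sm Φ) (X : Cfg n) :
    ∑ σ, ∑ i, ∑ k, ‖fderiv ℝ (antis Φ σ) X (dir i k)‖ ^ 2 ≤
      1 / (n.factorial : ℝ) * ∑ π : Equiv.Perm (Fin n),
        ∑ σ, ∑ i, ∑ k, ‖fderiv ℝ (Φ σ) (X ∘ π) (dir i k)‖ ^ 2 := by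
  have h1 : ∀ σ v, ‖fderiv ℝ (antis Φ σ) X v‖ ^ 2 ≤ 1 / (n.factorial : ℝ) *
      ∑ π : Equiv.Perm (Fin n), ‖fderiv ℝ (Φ (σ ∘ π)) (X ∘ π) (v ∘ π)‖ ^ 2 := by
    intro σ v
    have hd : ∀ π, DifferentiableAt ℝ (haT Φ σ π) X := fun π =>
      ((haT_contDiff hΦ σ π).differentiable one_ne_zero) X
    have h3 : HasFDerivAt (fun Y => ∑ π, haT Φ σ π Y) (∑ π, fderiv ℝ (haT Φ σ π) X) X :=
      HasFDerivAt.fun_sum fun π _ => (hd π).hasFDerivAt
    have h4 := (h3.const_mul ((1 / (n.factorial : ℝ) : ℝ) : ℂ)).fderiv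
    have h5 : fderiv ℝ (antis Φ σ) X v =
        ((1 / (n.factorial : ℝ) : ℝ) : ℂ) * ∑ π, fderiv ℝ (haT Φ σ π) X v := by
      rw [antis_eq, h4, smul_apply, sum_apply, smul_eq_mul]
    rw [h5]
    refine (ha_jensen _).trans (le_of_eq ?_)
    congr 1
    refine Finset.sum_congr rfl fun π _ => ?_
    rw [fderiv_haT hΦ, norm_mul, ha_norm_sign, one_mul]
  refine (Finset.sum_le_sum fun σ _ => Finset.sum_le_sum fun i _ => Finset.sum_le_sum fun k _ =>
    h1 σ (dir i k)).trans (le_of_eq ?_)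
  simp only [← Finset.mul_sum]
  congr 1
  have h6 : ∀ π : Equiv.Perm (Fin n),
      ∑ σ, ∑ i, ∑ k, ‖fderiv ℝ (Φ σ) (X ∘ π) (dir i k)‖ ^ 2 =
      ∑ σ : Fin n → Bool, ∑ i, ∑ k,
        ‖fderiv ℝ (Φ (σ ∘ π)) (X ∘ π) (dir i k ∘ π)‖ ^ 2 := by
    intro π
    rw [← ha_sum_spin π (fun σ => ∑ i, ∑ k, ‖fderiv ℝ (Φ σ) (X ∘ π) (dir i k)‖ ^ 2)]
    refine Finset.sum_congr rfl fun σ _ => ?_
    rw [← Equiv.sum_comp π (fun i => ∑ k, ‖fderiv ℝ (Φ (σ ∘ π)) (X ∘ π) (dir i k ∘ π)‖ ^ 2)]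
    simp only [ha_dir_comp]
  simp only [h6]
  rw [Finset.sum_comm (s := (Finset.univ : Finset (Equiv.Perm (Fin n))))]
  refine Finset.sum_congr rfl fun σ _ => ?_
  rw [Finset.sum_comm (s := (Finset.univ : Finset (Equiv.Perm (Fin n))))]
  refine Finset.sum_congr rfl fun i _ => ?_
  rw [Finset.sum_comm (s := (Finset.univ : Finset (Equiv.Perm (Fin n))))]

theorem isTest_antis {h : Wave n} (hs : Sm h) : Test (antis h) := by
  refine ⟨fun π σ X => ?_, fun σ => ⟨?_, ?_⟩⟩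
  rotate_left
  · rw [antis_eq]
    exact contDiff_const.mul (ContDiff.sum fun π _ => haT_contDiff hs σ π)
  · rw [antis_eq]
    have hK : IsCompact (⋃ π, tsupport (haT h σ π)) :=
      isCompact_iUnion fun π => (haT_hasCompactSupport hs σ π).isCompact
    refine HasCompactSupport.intro hK fun X hX => ?_
    have h1 : ∀ π, haT h σ π X = 0 := fun π =>
      image_eq_zero_of_notMem_tsupport fun hm => hX (mem_iUnion.2 ⟨π, hm⟩)
    simp [h1]
  · rw [antis_eq, antis_eq]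
    have h1 : ∀ ρ : Equiv.Perm (Fin n), haT h (σ ∘ π) ρ (X ∘ π) =
        ((Equiv.Perm.sign π : ℤ) : ℂ) * haT h σ (π * ρ) X := by
      intro ρ
      unfold haT
      have e1 : h (σ ∘ (π * ρ : Equiv.Perm (Fin n))) (X ∘ (π * ρ : Equiv.Perm (Fin n))) =
          h ((σ ∘ π) ∘ ρ) ((X ∘ π) ∘ ρ) := rfl
      rw [e1, ha_sign_mul, ← mul_assoc, ← mul_assoc, ha_sign_sq, one_mul]
    simp only [h1, ← Finset.mul_sum]
    rw [← Equiv.sum_comp (Equiv.mulLeft π) (fun ρ => haT h σ ρ X)]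
    simp only [Equiv.coe_mulLeft]
    ring

theorem dens_antis_le (χ : Wave n) (X : Cfg n) :
    dens (antis χ) X ≤ 1 / (n.factorial : ℝ) * ∑ π : Equiv.Perm (Fin n), dens χ (X ∘ π) := by
  have h1 : ∀ σ, ‖antis χ σ X‖ ^ 2 ≤ 1 / (n.factorial : ℝ) *
      ∑ π : Equiv.Perm (Fin n), ‖χ (σ ∘ π) (X ∘ π)‖ ^ 2 := by
    intro σ
    rw [antis_eq]
    refine (ha_jensen _).trans (le_of_eq ?_)
    congr 1
    refine Finset.sum_congr rfl fun π _ => ?_
    unfold haT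
    rw [norm_mul, ha_norm_sign, one_mul]
  unfold dens
  refine (Finset.sum_le_sum fun σ _ => h1 σ).trans (le_of_eq ?_)
  rw [← Finset.mul_sum, Finset.sum_comm]
  congr 1
  exact Finset.sum_congr rfl fun π _ => ha_sum_spin π (fun σ => ‖χ σ (X ∘ π)‖ ^ 2)

theorem kin_antis_le {h : Wave n} (hs : Sm h) : ∫ X, kin (antis h) X ≤ ∫ X, kin h X := by
  obtain ⟨h1, h2⟩ := ha_integral_avg hs.integrable_kin
  rw [← h2]
  exact integral_mono (sm_of_test (isTest_antis hs)).integrable_kin h1 fun X => grad_antis_le hs X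

theorem antis_sub {Ψ : Wave n} (hΨ : ∀ σ, MemLp (Ψ σ) 2 volume)
    (ha : ∀ (π : Equiv.Perm (Fin n)) (σ : Fin n → Bool),
      ∀ᵐ X, Ψ (σ ∘ π) (X ∘ π) = ((Equiv.Perm.sign π : ℤ) : ℂ) * Ψ σ X)
    {h : Wave n} (hs : Sm h) {F : Cfg n → ℝ} (hF : Measurable F) (h0 : ∀ X, 0 ≤ F X)
    (hsym : ∀ (π : Equiv.Perm (Fin n)) (X : Cfg n), F (X ∘ π) = F X)
    (hi : Integrable fun X => F X * dens (h - Ψ) X) :
    Integrable (fun X => F X * dens (antis h - Ψ) X) ∧
      ∫ X, F X * dens (antis h - Ψ) X ≤ ∫ X, F X * dens (h - Ψ) X := by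
  have h3 : (0 : ℝ) < n.factorial := by exact_mod_cast n.factorial_pos
  have hae : ∀ᵐ X : Cfg n, ∀ (π : Equiv.Perm (Fin n)) (σ : Fin n → Bool),
      Ψ (σ ∘ π) (X ∘ π) = ((Equiv.Perm.sign π : ℤ) : ℂ) * Ψ σ X :=
    ae_all_iff.2 fun π => ae_all_iff.2 fun σ => ha π σ
  have hle : ∀ᵐ X : Cfg n, F X * dens (antis h - Ψ) X ≤
      1 / (n.factorial : ℝ) * ∑ π : Equiv.Perm (Fin n),
        F (X ∘ π) * dens (h - Ψ) (X ∘ π) := by
    filter_upwards [hae] with X hX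
    have e1 : ∀ σ, (antis h - Ψ) σ X = antis (h - Ψ) σ X := by
      intro σ
      have e2 : ∀ π : Equiv.Perm (Fin n), haT (h - Ψ) σ π X = haT h σ π X - Ψ σ X := by
        intro π
        unfold haT
        rw [Pi.sub_apply, Pi.sub_apply, hX, mul_sub, ← mul_assoc, ha_sign_sq, one_mul]
      rw [Pi.sub_apply, Pi.sub_apply, antis_eq, antis_eq]
      simp only [e2, Finset.sum_sub_distrib]
      rw [Finset.sum_const, Finset.card_univ, Fintype.card_perm, Fintype.card_fin, nsmul_eq_mul,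
        mul_sub, ← mul_assoc]
      have e3 : ((1 / (n.factorial : ℝ) : ℝ) : ℂ) * (n.factorial : ℂ) = 1 := by
        have e4 : (n.factorial : ℂ) ≠ 0 := by exact_mod_cast n.factorial_ne_zero
        push_cast
        field_simp
      rw [e3, one_mul]
    have e5 : dens (antis h - Ψ) X = dens (antis (h - Ψ)) X := by
      unfold dens
      simp only [e1]
    have h2 : ∀ π : Equiv.Perm (Fin n), F (X ∘ π) = F X := fun π => hsym π X
    simp only [h2, ← Finset.mul_sum]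
    rw [e5, mul_left_comm]
    exact mul_le_mul_of_nonneg_left (dens_antis_le _ X) (h0 X)
  obtain ⟨h1, h2⟩ := ha_integral_avg (G := fun X => F X * dens (h - Ψ) X) hi
  have hm : AEStronglyMeasurable (fun X => F X * dens (antis h - Ψ) X) volume := by
    refine hF.aestronglyMeasurable.mul ?_
    unfold dens
    refine Finset.aestronglyMeasurable_fun_sum _ fun σ _ => ?_
    refine AEStronglyMeasurable.pow (AEStronglyMeasurable.norm ?_) 2
    exact (((isTest_antis hs).2 σ).1.continuous.aestronglyMeasurable).sub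
      (hΨ σ).aestronglyMeasurable
  have hint : Integrable (fun X => F X * dens (antis h - Ψ) X) := by
    refine h1.mono' hm ?_
    filter_upwards [hle] with X hX
    rw [Real.norm_eq_abs, abs_of_nonneg (mul_nonneg (h0 X) (dens_nonneg _ X))]
    exact hX
  refine ⟨hint, ?_⟩
  rw [← h2]
  exact integral_mono_ae hint h1 hle

end Vale.Agent.P370.FC
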