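import Vale.Agent.P370.HMoll

/-! Part H: cutting off; smooth compactly supported functions are dense in `H¹`. -/

open MeasureTheory Set Metric Filter Topology

noncomputable section

namespace Vale.Agent.P370.FC

variable {n : ℕ}

theorem int_sq {u : Cfg n → ℂ} (hu : MemLp u 2 volume) :
    Integrable (fun X => ‖u X‖ ^ 2) := (memLp_two_iff_integrable_sq_norm hu.1).1 hu

theorem sq_add_le (a b : ℂ) : ‖a + b‖ ^ 2 ≤ 2 * ‖a‖ ^ 2 + 2 * ‖b‖ ^ 2 := by
  have h := pow_le_pow_left₀ (norm_nonneg _) (norm_add_le a b) 2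
  nlinarith [sq_nonneg (‖a‖ - ‖b‖)]

private theorem sq_tri {u v w : Cfg n → ℂ} (hu : MemLp u 2 volume) (hv : MemLp v 2 volume)
    (hw : MemLp w 2 volume) {e : ℝ} (h1 : ∫ X, ‖u X - v X‖ ^ 2 ≤ e / 4)
    (h2 : ∫ X, ‖v X - w X‖ ^ 2 ≤ e / 4) : ∫ X, ‖u X - w X‖ ^ 2 ≤ e := by
  have i1 : Integrable (fun X => ‖u X - v X‖ ^ 2) := int_sq (hu.sub hv)
  have i2 : Integrable (fun X => ‖v X - w X‖ ^ 2) := int_sq (hv.sub hw)
  have h3 : ∫ X, ‖u X - w X‖ ^ 2 ≤ ∫ X, (2 * ‖u X - v X‖ ^ 2 + 2 * ‖v X - w X‖ ^ 2) :=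
    integral_mono (int_sq (hu.sub hw)) ((i1.const_mul 2).add (i2.const_mul 2)) fun X => by
      simpa using sq_add_le (u X - v X) (v X - w X)
  rw [integral_add (i1.const_mul 2) (i2.const_mul 2), integral_const_mul,
    integral_const_mul] at h3
  linarith

private theorem cut_tend {a c : ℕ → Cfg n → ℝ} {C : ℝ} (ha : ∀ m, Continuous (a m))
    (hc : ∀ m, Continuous (c m)) (ha1 : ∀ m X, |a m X| ≤ C) (hc1 : ∀ m X, |c m X| ≤ C)
    (ha2 : ∀ X, Tendsto (fun m => a m X) atTop (𝓝 0))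
    (hc2 : ∀ X, Tendsto (fun m => c m X) atTop (𝓝 0)) {u v : Cfg n → ℂ} (hu : MemLp u 2 volume)
    (hv : MemLp v 2 volume) :
    Tendsto (fun m => ∫ X, ‖a m X • u X + c m X • v X‖ ^ 2) atTop (𝓝 0) := by
  have h := tendsto_integral_of_dominated_convergence (μ := volume)
    (F := fun m X => ‖a m X • u X + c m X • v X‖ ^ 2) (f := fun _ => 0)
    (fun X => 2 * (C ^ 2 * ‖u X‖ ^ 2) + 2 * (C ^ 2 * ‖v X‖ ^ 2))
    (fun m => ((((ha m).aestronglyMeasurable.smul hu.1).add
      ((hc m).aestronglyMeasurable.smul hv.1)).norm.pow 2))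
    ((((int_sq hu).const_mul _).const_mul _).add (((int_sq hv).const_mul _).const_mul _))
    (fun m => ae_of_all _ fun X => by
      rw [Real.norm_of_nonneg (sq_nonneg _)]
      refine (sq_add_le _ _).trans ?_
      rw [norm_smul, norm_smul, mul_pow, mul_pow, Real.norm_eq_abs, Real.norm_eq_abs]
      gcongr
      exacts [ha1 m X, hc1 m X])
    (ae_of_all _ fun X => by
      simpa using ((((ha2 X).smul_const (u X)).add ((hc2 X).smul_const (v X))).norm.pow 2))
  simpa using h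

private theorem exists_chi (n : ℕ) : ∃ (χ : ℕ → Cfg n → ℝ) (C : ℝ),
    (∀ m, ContDiff ℝ (⊤ : ℕ∞) (χ m)) ∧ (∀ m, HasCompactSupport (χ m)) ∧
    (∀ m X, |χ m X - 1| ≤ 1) ∧ (∀ X, Tendsto (fun m => χ m X - 1) atTop (𝓝 0)) ∧
    ∀ m X, ‖fderiv ℝ (χ m) X‖ ≤ 1 / ((m : ℝ) + 1) * C := by
  let b : ContDiffBump (0 : Cfg n) := ⟨1, 2, one_pos, one_lt_two⟩
  have hb : ContDiff ℝ (⊤ : ℕ∞) b := b.contDiff
  obtain ⟨C, hC⟩ := (hb.continuous_fderiv (by simp)).bounded_above_of_compact_support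
    (b.hasCompactSupport.fderiv ℝ)
  refine ⟨fun m X => b ((1 / ((m : ℝ) + 1)) • X), C,
    fun m => hb.comp (contDiff_const_smul _), fun m => b.hasCompactSupport.comp_smul
      (by positivity), fun m X => abs_le.2 ⟨by linarith [b.nonneg (x := (1 / ((m : ℝ) + 1)) • X)],
        by linarith [b.le_one (x := (1 / ((m : ℝ) + 1)) • X)]⟩, fun X => ?_, fun m X => ?_⟩
  · have h1 := tendsto_one_div_add_atTop_nhds_zero_nat (𝕜 := ℝ).smul_const X
    rw [zero_smul] at h1
    have h2 := ((hb.continuous.tendsto 0).comp h1).sub_const 1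
    rwa [b.one_of_mem_closedBall (mem_closedBall_self zero_le_one), sub_self] at h2
  · rw [fderiv_comp_smul, norm_smul, Real.norm_of_nonneg (by positivity)]
    exact mul_le_mul_of_nonneg_left (hC _) (by positivity)

theorem exists_cut {F : Cfg n → ℂ} (hs : ContDiff ℝ (⊤ : ℕ∞) F) (hF : MemLp F 2 volume)
    (hD : ∀ i k, MemLp (fun X => fderiv ℝ F X (dir i k)) 2 volume) {e : ℝ} (he : 0 < e) :
    ∃ h : Cfg n → ℂ, ContDiff ℝ (⊤ : ℕ∞) h ∧ HasCompactSupport h ∧ ∫ X, ‖h X - F X‖ ^ 2 ≤ e ∧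
      ∀ i k, ∫ X, ‖fderiv ℝ h X (dir i k) - fderiv ℝ F X (dir i k)‖ ^ 2 ≤ e := by
  obtain ⟨χ, C, h1, h2, h3, h4, h5⟩ := exists_chi n
  have hC : 0 ≤ C := by simpa using (norm_nonneg _).trans (h5 0 0)
  have ha : ∀ m, Continuous fun X => χ m X - 1 := fun m => (h1 m).continuous.sub continuous_const
  have t1 := cut_tend (c := fun _ _ => 0) ha (fun _ => continuous_const) h3 (by simp) h4
    (fun _ => tendsto_const_nhds) hF hF
  have t2 : ∀ i k, Tendsto (fun m => ∫ X, ‖(χ m X - 1) • fderiv ℝ F X (dir i k) +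
      fderiv ℝ (χ m) X (dir i k) • F X‖ ^ 2) atTop (𝓝 0) := fun i k => by
    have h6 : ∀ m X, |fderiv ℝ (χ m) X (dir i k)| ≤ 1 / ((m : ℝ) + 1) * (C * ‖dir i k‖) :=
      fun m X => ((fderiv ℝ (χ m) X).le_of_opNorm_le (h5 m X) _).trans_eq (mul_assoc _ _ _)
    refine cut_tend (C := 1 + C * ‖dir i k‖) ha
      (fun m => ((h1 m).continuous_fderiv (by simp)).clm_apply continuous_const)
      (fun m X => (h3 m X).trans (le_add_of_nonneg_right (by positivity))) (fun m X => ?_) h4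
      (fun X => ?_) (hD i k) hF
    · refine (h6 m X).trans ((mul_le_of_le_one_left (by positivity) ?_).trans (by linarith))
      rw [div_le_one (by positivity)]
      linarith [m.cast_nonneg (α := ℝ)]
    · refine squeeze_zero_norm (fun m => h6 m X) ?_
      simpa using tendsto_one_div_add_atTop_nhds_zero_nat (𝕜 := ℝ).mul_const (C * ‖dir i k‖)
  obtain ⟨m, hm1, hm2⟩ := ((t1.eventually (ge_mem_nhds he)).and (eventually_all.2 fun i =>
    eventually_all.2 fun k => (t2 i k).eventually (ge_mem_nhds he))).exists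
  refine ⟨fun X => χ m X • F X, (h1 m).smul hs, (h2 m).smul_right, ?_, fun i k => ?_⟩
  · simpa only [zero_smul, add_zero, sub_smul, one_smul] using hm1
  · refine le_of_eq_of_le (integral_congr_ae (ae_of_all _ fun X => ?_)) (hm2 i k)
    dsimp only
    rw [fderiv_fun_smul ((h1 m).differentiable (by simp) X) (hs.differentiable (by simp) X)]
    congr 2
    simp only [add_apply, smul_apply,
      ContinuousLinearMap.smulRight_apply, sub_smul, one_smul]
    abel

/-- A scalar `H¹` function with its weak gradient. -/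
structure W1 (f : Cfg n → ℂ) (g : Fin n → Fin 3 → Cfg n → ℂ) : Prop where
  mem : MemLp f 2 volume
  gmem : ∀ i k, MemLp (g i k) 2 volume
  weak : ∀ i k, IsWeakDeriv f (g i k) i k

theorem memLp_fderiv {h : Cfg n → ℂ} (h1 : ContDiff ℝ 1 h) (h2 : HasCompactSupport h)
    (v : Cfg n) : MemLp (fun X => fderiv ℝ h X v) 2 volume :=
  ((h1.continuous_fderiv one_ne_zero).clm_apply continuous_const).memLp_of_hasCompactSupport
    (h2.fderiv_apply ℝ _)

theorem W1.approx {f : Cfg n → ℂ} {g : Fin n → Fin 3 → Cfg n → ℂ} (H : W1 f g) :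
    ∃ h : ℕ → Cfg n → ℂ, (∀ m, ContDiff ℝ 1 (h m)) ∧ (∀ m, HasCompactSupport (h m)) ∧
      Tendsto (fun m => ∫ X, ‖h m X - f X‖ ^ 2) atTop (𝓝 0) ∧
      ∀ i k, Tendsto (fun m => ∫ X, ‖fderiv ℝ (h m) X (dir i k) - g i k X‖ ^ 2) atTop (𝓝 0) := by
  have key : ∀ m : ℕ, ∃ h : Cfg n → ℂ, ContDiff ℝ 1 h ∧
      HasCompactSupport h ∧ ∫ X, ‖h X - f X‖ ^ 2 ≤ 1 / ((m : ℝ) + 1) ∧
      ∀ i k, ∫ X, ‖fderiv ℝ h X (dir i k) - g i k X‖ ^ 2 ≤ 1 / ((m : ℝ) + 1) := by
    intro m
    have he : 0 < 1 / ((m : ℝ) + 1) / 4 := by positivity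
    obtain ⟨F, f1, f2, f3, f4, f5⟩ := exists_moll H.mem H.gmem H.weak he
    obtain ⟨h, h1, h2, h3, h4⟩ := exists_cut f1 f2 f3 he
    have h5 : ContDiff ℝ 1 h := h1.of_le (by exact_mod_cast le_top)
    exact ⟨h, h5, h2, sq_tri (h1.continuous.memLp_of_hasCompactSupport h2) f2 H.mem h3 f4,
      fun i k => sq_tri (memLp_fderiv h5 h2 _) (f3 i k) (H.gmem i k) (h4 i k) (f5 i k)⟩
  choose h h1 h2 h3 h4 using key
  exact ⟨h, h1, h2, squeeze_zero (fun m => integral_nonneg fun X => sq_nonneg _) h3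
    tendsto_one_div_add_atTop_nhds_zero_nat, fun i k =>
      squeeze_zero (fun m => integral_nonneg fun X => sq_nonneg _) (fun m => h4 m i k)
        tendsto_one_div_add_atTop_nhds_zero_nat⟩

theorem W1.of_test {f : Cfg n → ℂ} (hs : ContDiff ℝ 1 f) (hc : HasCompactSupport f) :
    W1 f (fun i k X => fderiv ℝ f X (dir i k)) := by
  refine ⟨hs.continuous.memLp_of_hasCompactSupport hc, fun i k => memLp_fderiv hs hc _,
    fun i k φ hφ _ => ?_⟩
  have hφc : Continuous (fun X => fderiv ℝ φ X (dir i k)) :=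
    (hφ.continuous_fderiv (by simp)).clm_apply continuous_const
  have hfc : Continuous (fun X => fderiv ℝ f X (dir i k)) :=
    (hs.continuous_fderiv one_ne_zero).clm_apply continuous_const
  have h := integral_smul_fderiv_eq_neg_fderiv_smul_of_integrable (μ := (volume : Measure (Cfg n)))
    (f := φ) (g := f) (v := dir i k)
    ((hφc.smul hs.continuous).integrable_of_hasCompactSupport hc.smul_left)
    ((hφ.continuous.smul hfc).integrable_of_hasCompactSupport (hc.fderiv_apply ℝ _).smul_left)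
    ((hφ.continuous.smul hs.continuous).integrable_of_hasCompactSupport hc.smul_left)
    (fun x _ => (hφ.differentiable (by simp)) x) (fun x _ => (hs.differentiable one_ne_zero) x)
  simp only [Complex.real_smul] at h
  simp only [mul_comm (f _), mul_comm (fderiv ℝ f _ _)]
  rw [h, neg_neg]

theorem W1.sub {f f' : Cfg n → ℂ} {g g' : Fin n → Fin 3 → Cfg n → ℂ} (H : W1 f g)
    (H' : W1 f' g') : W1 (fun X => f X - f' X) (fun i k X => g i k X - g' i k X) := by
  refine ⟨H.mem.sub H'.mem, fun i k => (H.gmem i k).sub (H'.gmem i k), fun i k φ hφ hc => ?_⟩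
  have m1 : MemLp (fun X => ((φ X : ℝ) : ℂ)) 2 volume :=
    (Complex.continuous_ofReal.comp hφ.continuous).memLp_of_hasCompactSupport
      (hc.comp_left Complex.ofReal_zero)
  have m2 : MemLp (fun X => ((fderiv ℝ φ X (dir i k) : ℝ) : ℂ)) 2 volume :=
    (Complex.continuous_ofReal.comp ((hφ.continuous_fderiv (by simp)).clm_apply
      continuous_const)).memLp_of_hasCompactSupport
      ((hc.fderiv_apply ℝ _).comp_left Complex.ofReal_zero)
  have a1 := H.weak i k φ hφ hc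
  have a2 := H'.weak i k φ hφ hc
  have b1 : Integrable fun X => f X * ((fderiv ℝ φ X (dir i k) : ℝ) : ℂ) :=
    H.mem.integrable_mul m2
  have b2 : Integrable fun X => f' X * ((fderiv ℝ φ X (dir i k) : ℝ) : ℂ) :=
    H'.mem.integrable_mul m2
  have b3 : Integrable fun X => g i k X * ((φ X : ℝ) : ℂ) := (H.gmem i k).integrable_mul m1
  have b4 : Integrable fun X => g' i k X * ((φ X : ℝ) : ℂ) := (H'.gmem i k).integrable_mul m1
  simp only [sub_mul]
  rw [integral_sub b1 b2, integral_sub b3 b4, a1, a2]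
  ring

end Vale.Agent.P370.FC
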