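import Vale.Agent.P370.HLim

/-! Part H: the Hardy type bound `∫ |f|²/|u| ≤ 2 ∫ |f|² + ∑ₖ ∫ |∂ₖ f|²` for `H¹` functions. -/

open MeasureTheory Set Metric Filter Topology

noncomputable section

namespace Vale.Agent.P370.FC

variable {n : ℕ}

/-- `u` is the position of electron `i` relative to a centre that does not depend on it. -/
structure Rel (i : Fin n) (u : Cfg n → Fin 3 → ℝ) : Prop where
  cont : Continuous u
  shift : ∀ (X : Cfg n) (t : ℝ) (k l : Fin 3),
    u (X + t • dir i k) l = u X l + if l = k then t else 0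

theorem sum_shift (a : Fin 3 → ℝ) (k : Fin 3) (t : ℝ) :
    ∑ l, (a l + if l = k then t else 0) ^ 2 = ∑ l, a l ^ 2 + (2 * a k * t + t ^ 2) := by
  fin_cases k <;> simp [Fin.sum_univ_three] <;> ring

theorem Rel.lineDeriv {i : Fin n} {u : Cfg n → Fin 3 → ℝ} (hu : Rel i u) {e : ℝ} (he : 0 < e)
    (k : Fin 3) (X : Cfg n) :
    HasLineDerivAt ℝ (fun Y => u Y k / √(∑ l, u Y l ^ 2 + e))
      (1 / √(∑ l, u X l ^ 2 + e) - u X k ^ 2 / √(∑ l, u X l ^ 2 + e) ^ 3) X (dir i k) := by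
  unfold HasLineDerivAt
  have h0 : 0 < ∑ l, u X l ^ 2 + e := by positivity
  have hs : 0 < √(∑ l, u X l ^ 2 + e) := Real.sqrt_pos.2 h0
  have e1 : (fun t : ℝ => u (X + t • dir i k) k / √(∑ l, u (X + t • dir i k) l ^ 2 + e)) =
      fun t : ℝ => (u X k + t) / √(∑ l, u X l ^ 2 + (2 * u X k * t + t ^ 2) + e) := by
    funext t
    simp only [hu.shift, sum_shift, if_true]
  rw [e1]
  have h1 : HasDerivAt (fun t : ℝ => ∑ l, u X l ^ 2 + (2 * u X k * t + t ^ 2) + e)
      (2 * u X k) 0 := by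
    have := ((((hasDerivAt_id (0 : ℝ)).const_mul (2 * u X k)).add
      (hasDerivAt_pow 2 (0 : ℝ))).const_add (∑ l, u X l ^ 2)).add_const e
    simpa using this
  have h2 := h1.sqrt (by simpa using h0.ne')
  have h3 := ((hasDerivAt_id (0 : ℝ)).const_add (u X k)).div h2 (by simpa using hs.ne')
  refine h3.congr_deriv ?_
  simp only [id, add_zero, mul_zero, ne_eq, OfNat.ofNat_ne_zero, not_false_eq_true, zero_pow]
  field_simp

theorem Rel.hardy_test {i : Fin n} {u : Cfg n → Fin 3 → ℝ} (hu : Rel i u) {e : ℝ} (he : 0 < e)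
    {h : Cfg n → ℂ} (hs : ContDiff ℝ 1 h) (hc : HasCompactSupport h) :
    ∫ X, 1 / √(∑ l, u X l ^ 2 + e) * ‖h X‖ ^ 2 ≤
      2 * (∫ X, ‖h X‖ ^ 2) + ∑ k, ∫ X, ‖fderiv ℝ h X (dir i k)‖ ^ 2 := by
  obtain ⟨ρ, hρ⟩ : ∃ ρ : Cfg n → ℝ, ρ = fun X => √(∑ l, u X l ^ 2 + e) := ⟨_, rfl⟩
  have hρX : ∀ X, √(∑ l, u X l ^ 2 + e) = ρ X := fun X => by rw [hρ]
  have hpos : ∀ X, 0 < ρ X := fun X => by rw [hρ]; exact Real.sqrt_pos.2 (by positivity)
  have hsq : ∀ X, ρ X ^ 2 = ∑ l, u X l ^ 2 + e := fun X => by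
    rw [hρ]; exact Real.sq_sqrt (by positivity)
  have cu : ∀ l, Continuous fun X => u X l := fun l => (continuous_apply l).comp hu.cont
  have cρ : Continuous ρ := by
    rw [hρ]
    exact ((continuous_finsetSum _ fun l _ => (cu l).pow 2).add continuous_const).sqrt
  have cF : ∀ k, Continuous fun X => u X k / ρ X := fun k => (cu k).div cρ fun X => (hpos X).ne'
  have c1 : Continuous fun X => 1 / ρ X := continuous_const.div cρ fun X => (hpos X).ne'
  have cF' : ∀ k, Continuous fun X => 1 / ρ X - u X k ^ 2 / ρ X ^ 3 := fun k =>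
    c1.sub (((cu k).pow 2).div (cρ.pow 3) fun X => pow_ne_zero 3 (hpos X).ne')
  have cg : Continuous fun X => ‖h X‖ ^ 2 := hs.continuous.norm.pow 2
  have sg : HasCompactSupport fun X => ‖h X‖ ^ 2 :=
    hc.comp_left (g := fun z : ℂ => ‖z‖ ^ 2) (by simp)
  have cD : ∀ k, Continuous fun X => fderiv ℝ h X (dir i k) := fun k =>
    (hs.continuous_fderiv one_ne_zero).clm_apply continuous_const
  have cg' : ∀ k, Continuous fun X => 2 * inner ℝ (h X) (fderiv ℝ h X (dir i k)) := fun k =>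
    continuous_const.mul (hs.continuous.inner (cD k))
  have sg' : ∀ k, HasCompactSupport fun X => 2 * inner ℝ (h X) (fderiv ℝ h X (dir i k)) :=
    fun k => hc.mono fun X hX => by
      intro h0
      apply hX
      simp [h0]
  have dg : ∀ k X, HasLineDerivAt ℝ (fun Y => ‖h Y‖ ^ 2)
      (2 * inner ℝ (h X) (fderiv ℝ h X (dir i k))) X (dir i k) := fun k X => by
    have := ((hs.differentiable one_ne_zero X).hasFDerivAt.norm_sq).hasLineDerivAt (dir i k)
    simpa [mul_add] using this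
  have j1 : ∀ k, Integrable fun X => (1 / ρ X - u X k ^ 2 / ρ X ^ 3) * ‖h X‖ ^ 2 := fun k =>
    ((cF' k).mul cg).integrable_of_hasCompactSupport sg.mul_left
  have j2 : ∀ k, Integrable fun X =>
      u X k / ρ X * (2 * inner ℝ (h X) (fderiv ℝ h X (dir i k))) := fun k =>
    ((cF k).mul (cg' k)).integrable_of_hasCompactSupport (sg' k).mul_left
  have j3 : Integrable fun X => ‖h X‖ ^ 2 := cg.integrable_of_hasCompactSupport sg
  have j4 : ∀ k, Integrable fun X => ‖fderiv ℝ h X (dir i k)‖ ^ 2 := fun k =>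
    int_sq (memLp_fderiv hs hc _)
  have ibp : ∀ k, ∫ X, (1 / ρ X - u X k ^ 2 / ρ X ^ 3) * ‖h X‖ ^ 2 ≤
      (∫ X, ‖h X‖ ^ 2) + ∫ X, ‖fderiv ℝ h X (dir i k)‖ ^ 2 := fun k => by
    have a1 := integral_bilinear_hasLineDerivAt_right_eq_neg_left_of_integrable
      (μ := (volume : Measure (Cfg n))) (B := ContinuousLinearMap.mul ℝ ℝ) (v := dir i k)
      (f := fun X => u X k / ρ X) (f' := fun X => 1 / ρ X - u X k ^ 2 / ρ X ^ 3)
      (g := fun X => ‖h X‖ ^ 2) (g' := fun X => 2 * inner ℝ (h X) (fderiv ℝ h X (dir i k)))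
      (j1 k) (j2 k) (((cF k).mul cg).integrable_of_hasCompactSupport sg.mul_left)
      (fun X _ => by simpa only [hρX] using hu.lineDeriv he k X) (fun X _ => dg k X)
    simp only [ContinuousLinearMap.mul_apply'] at a1
    rw [← neg_neg (∫ X, (1 / ρ X - u X k ^ 2 / ρ X ^ 3) * ‖h X‖ ^ 2), ← a1, ← integral_neg,
      ← integral_add j3 (j4 k)]
    refine integral_mono (j2 k).neg (j3.add (j4 k)) fun X => ?_
    have b1 : |u X k / ρ X| ≤ 1 := by
      rw [abs_div, abs_of_pos (hpos X), div_le_one (hpos X)]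
      refine abs_le_of_sq_le_sq' ?_ (hpos X).le |> abs_le.2
      rw [hsq]
      have := Finset.single_le_sum (f := fun l => u X l ^ 2) (fun l _ => sq_nonneg _)
        (Finset.mem_univ k)
      linarith
    have b2 := abs_real_inner_le_norm (h X) (fderiv ℝ h X (dir i k))
    have b3 : |u X k / ρ X * (2 * inner ℝ (h X) (fderiv ℝ h X (dir i k)))| ≤
        1 * (2 * (‖h X‖ * ‖fderiv ℝ h X (dir i k)‖)) := by
      rw [abs_mul, abs_mul, abs_two]
      gcongr
    have b4 := (abs_le.1 b3).1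
    dsimp only
    nlinarith [sq_nonneg (‖h X‖ - ‖fderiv ℝ h X (dir i k)‖)]
  have s1 := Finset.sum_le_sum fun k (_ : k ∈ Finset.univ) => ibp k
  rw [← integral_finsetSum _ fun k _ => j1 k, Finset.sum_add_distrib, Finset.sum_const,
    Finset.card_univ, Fintype.card_fin, nsmul_eq_mul] at s1
  have j5 : Integrable fun X => 1 / ρ X * ‖h X‖ ^ 2 :=
    (c1.mul cg).integrable_of_hasCompactSupport sg.mul_left
  have s2 : ∫ X, 2 * (1 / ρ X * ‖h X‖ ^ 2) ≤
      ∫ X, ∑ k, (1 / ρ X - u X k ^ 2 / ρ X ^ 3) * ‖h X‖ ^ 2 := by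
    refine integral_mono (j5.const_mul 2) (integrable_finsetSum _ fun k _ => j1 k) fun X => ?_
    simp only [← Finset.sum_mul, ← mul_assoc]
    refine mul_le_mul_of_nonneg_right ?_ (sq_nonneg _)
    rw [Finset.sum_sub_distrib, Finset.sum_const, Finset.card_univ, Fintype.card_fin,
      nsmul_eq_mul, ← Finset.sum_div]
    have b1 : (∑ l, u X l ^ 2) / ρ X ^ 3 ≤ 1 / ρ X := by
      rw [div_le_div_iff₀ (pow_pos (hpos X) 3) (hpos X)]
      have := hsq X
      nlinarith [hpos X, mul_pos he (hpos X)]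
    push_cast
    linarith
  rw [integral_const_mul] at s2
  have p1 : 0 ≤ ∫ X, ‖h X‖ ^ 2 := integral_nonneg fun X => sq_nonneg _
  have p2 : 0 ≤ ∑ k, ∫ X, ‖fderiv ℝ h X (dir i k)‖ ^ 2 :=
    Finset.sum_nonneg fun k _ => integral_nonneg fun X => sq_nonneg _
  simp only [hρX]
  push_cast at s1
  linarith

theorem Rel.hardy {i : Fin n} {u : Cfg n → Fin 3 → ℝ} (hu : Rel i u)
    {f : Cfg n → ℂ} {g : Fin n → Fin 3 → Cfg n → ℂ} (H : W1 f g) :
    Integrable (fun X => 1 / √(∑ l, u X l ^ 2) * ‖f X‖ ^ 2) ∧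
      ∫ X, 1 / √(∑ l, u X l ^ 2) * ‖f X‖ ^ 2 ≤
        2 * (∫ X, ‖f X‖ ^ 2) + ∑ k, ∫ X, ‖g i k X‖ ^ 2 := by
  obtain ⟨h, h1, h2, h3, h4⟩ := H.approx
  obtain ⟨r, hr⟩ : ∃ r : Cfg n → ℝ, r = fun X => ∑ l, u X l ^ 2 := ⟨_, rfl⟩
  have hrX : ∀ X, ∑ l, u X l ^ 2 = r X := fun X => by rw [hr]
  have r0 : ∀ X, 0 ≤ r X := fun X => by rw [hr]; positivity
  have cr : Continuous r := by
    rw [hr]
    exact continuous_finsetSum _ fun l _ => ((continuous_apply l).comp hu.cont).pow 2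
  have mW : Measurable fun X => 1 / √(r X) := measurable_const.div cr.sqrt.measurable
  have mE : ∀ e : ℝ, Measurable fun X => 1 / √(r X + e) := fun e =>
    measurable_const.div (cr.add continuous_const).sqrt.measurable
  have bE : ∀ e : ℝ, 0 < e → ∀ X, |1 / √(r X + e)| ≤ 1 / √e := fun e he X => by
    rw [abs_of_nonneg (by positivity)]
    exact one_div_le_one_div_of_le (Real.sqrt_pos.2 he) (Real.sqrt_le_sqrt (by linarith [r0 X]))
  have hm : ∀ m, MemLp (h m) 2 volume := fun m =>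
    (h1 m).continuous.memLp_of_hasCompactSupport (h2 m)
  have key : ∀ e : ℝ, 0 < e → ∫ X, 1 / √(r X + e) * ‖f X‖ ^ 2 ≤
      2 * (∫ X, ‖f X‖ ^ 2) + ∑ k, ∫ X, ‖g i k X‖ ^ 2 := fun e he =>
    le_of_tendsto_of_tendsto' (tendsto_bsq (mE e).aestronglyMeasurable (bE e he) hm H.mem h3)
      (((tendsto_sq hm H.mem h3).const_mul 2).add (tendsto_finsetSum _ fun k _ =>
        tendsto_sq (fun m => memLp_fderiv (h1 m) (h2 m) (dir i k)) (H.gmem i k) (h4 i k)))
      fun m => by simpa only [hrX] using hu.hardy_test he (h1 m) (h2 m)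
  simp only [hrX]
  have pe : ∀ M : ℕ, (0 : ℝ) < 1 / ((M : ℝ) + 1) := fun M => by positivity
  have iE : ∀ M : ℕ, Integrable fun X => 1 / √(r X + 1 / ((M : ℝ) + 1)) * ‖f X‖ ^ 2 := fun M =>
    integrable_wsq (W := fun _ => 1 / √(1 / ((M : ℝ) + 1))) (mE _).aestronglyMeasurable
      (bE _ (pe M)) H.mem.1 ((int_sq H.mem).const_mul _)
  have iw : ∀ M : ℕ, Integrable fun X =>
      min (1 / √(r X)) (1 / √(r X + 1 / ((M : ℝ) + 1))) * ‖f X‖ ^ 2 := fun M =>
    integrable_wsq (mW.min (mE _)).aestronglyMeasurable (fun X => by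
      rw [abs_of_nonneg (le_min (by positivity) (by positivity))]
      exact min_le_right _ _) H.mem.1 (iE M)
  refine mono_lim (w := fun M X => min (1 / √(r X)) (1 / √(r X + 1 / ((M : ℝ) + 1))))
    mW.aestronglyMeasurable (fun M X => le_min (by positivity) (by positivity))
    (fun X M M' hM => min_le_min le_rfl ?_) (fun X => ?_) (H.mem.1.norm.pow 2)
    (fun X => sq_nonneg _) iw fun M => (integral_mono (iw M) (iE M) fun X =>
      mul_le_mul_of_nonneg_right (min_le_right _ _) (sq_nonneg _)).trans (key _ (pe M))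
  · refine one_div_le_one_div_of_le (Real.sqrt_pos.2 (by linarith [r0 X, pe M']))
      (Real.sqrt_le_sqrt ?_)
    have : 1 / ((M' : ℝ) + 1) ≤ 1 / ((M : ℝ) + 1) :=
      one_div_le_one_div_of_le (by positivity) (by simpa using hM)
    linarith
  · rcases (r0 X).eq_or_lt with h0 | h0
    · refine tendsto_const_nhds.congr fun M => ?_
      rw [← h0, Real.sqrt_zero, div_zero, min_eq_left (by positivity)]
    · have a1 := ((tendsto_one_div_add_atTop_nhds_zero_nat (𝕜 := ℝ)).const_add (r X)).sqrt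
      rw [add_zero] at a1
      have a2 := (tendsto_const_nhds (x := 1 / √(r X))).min
        ((tendsto_const_nhds (x := (1 : ℝ))).div a1 (Real.sqrt_pos.2 h0).ne')
      rwa [min_self] at a2

end Vale.Agent.P370.FC
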