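import Vale.Agent.P370.HCut

/-! Part H: limits of weighted squared norms, and the Hardy type bound for `H¹` functions. -/

open MeasureTheory Set Metric Filter Topology

noncomputable section

namespace Vale.Agent.P370.FC

variable {n : ℕ}

theorem hf_pt (a b : ℂ) {t : ℝ} (ht : 0 < t) :
    |‖a‖ ^ 2 - ‖b‖ ^ 2| ≤ (1 + 1 / t) * ‖a - b‖ ^ 2 + t * ‖b‖ ^ 2 := by
  have h1 := abs_le.1 (abs_norm_sub_norm_le a b)
  have h2 := norm_nonneg a
  have h3 := norm_nonneg b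
  have h4 := norm_nonneg (a - b)
  have h5 : 2 * ‖a - b‖ * ‖b‖ ≤ 1 / t * ‖a - b‖ ^ 2 + t * ‖b‖ ^ 2 := by
    have h6 : 0 ≤ (‖a - b‖ - t * ‖b‖) ^ 2 / t := by positivity
    have h7 : (‖a - b‖ - t * ‖b‖) ^ 2 / t =
        1 / t * ‖a - b‖ ^ 2 + t * ‖b‖ ^ 2 - 2 * ‖a - b‖ * ‖b‖ := by
      field_simp
      ring
    linarith
  have h8 : ‖a‖ ^ 2 ≤ (‖b‖ + ‖a - b‖) ^ 2 := pow_le_pow_left₀ h2 (by linarith [h1.2]) 2
  have h9 : ‖b‖ ^ 2 - ‖a‖ ^ 2 ≤ ‖a - b‖ * (‖a - b‖ + 2 * ‖b‖) := by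
    have : ‖b‖ ^ 2 - ‖a‖ ^ 2 = (‖b‖ - ‖a‖) * (‖b‖ + ‖a‖) := by ring
    rw [this]
    refine (mul_le_mul_of_nonneg_right (show ‖b‖ - ‖a‖ ≤ ‖a - b‖ by linarith [h1.1])
      (by positivity)).trans (mul_le_mul_of_nonneg_left (by linarith [h1.2]) h4)
  exact abs_le.2 ⟨by nlinarith, by nlinarith⟩

theorem hf_lim {A d : ℕ → Cfg n → ℝ} {B b : Cfg n → ℝ} (hA : ∀ m, Integrable (A m))
    (hd : ∀ m, Integrable (d m)) (hB : Integrable B) (hb : Integrable b) (hb0 : ∀ X, 0 ≤ b X)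
    (h : ∀ t : ℝ, 0 < t → ∀ m X, |A m X - B X| ≤ (1 + 1 / t) * d m X + t * b X)
    (hlim : Tendsto (fun m => ∫ X, d m X) atTop (𝓝 0)) :
    Tendsto (fun m => ∫ X, A m X) atTop (𝓝 (∫ X, B X)) := by
  have hN : 0 ≤ ∫ X, b X := integral_nonneg hb0
  refine Metric.tendsto_nhds.2 fun ε hε => ?_
  have ht : 0 < ε / (2 * ((∫ X, b X) + 1)) := by positivity
  have h1 : ε / (2 * ((∫ X, b X) + 1)) * (∫ X, b X) < ε / 2 := by
    rw [show ε / (2 * ((∫ X, b X) + 1)) * (∫ X, b X) =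
      ε / 2 * ((∫ X, b X) / ((∫ X, b X) + 1)) by field_simp]
    exact mul_lt_of_lt_one_right (by positivity) ((div_lt_one (by positivity)).2 (lt_add_one _))
  have h2 := hlim.const_mul (1 + 1 / (ε / (2 * ((∫ X, b X) + 1))))
  rw [mul_zero] at h2
  filter_upwards [h2.eventually (gt_mem_nhds (half_pos hε))] with m hm
  have h3 : ‖∫ X, (A m X - B X)‖ ≤ ∫ X, ((1 + 1 / (ε / (2 * ((∫ X, b X) + 1)))) * d m X +
      ε / (2 * ((∫ X, b X) + 1)) * b X) :=
    norm_integral_le_of_norm_le (((hd m).const_mul _).add (hb.const_mul _))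
      (Eventually.of_forall fun X => h _ ht m X)
  rw [integral_sub (hA m) hB, integral_add ((hd m).const_mul _) (hb.const_mul _),
    integral_const_mul, integral_const_mul, Real.norm_eq_abs] at h3
  rw [Real.dist_eq]
  linarith

theorem integrable_wsq {p W : Cfg n → ℝ} (hp : AEStronglyMeasurable p volume)
    (hW : ∀ X, |p X| ≤ W X) {f : Cfg n → ℂ} (hf : AEStronglyMeasurable f volume)
    (i0 : Integrable fun X => W X * ‖f X‖ ^ 2) : Integrable fun X => p X * ‖f X‖ ^ 2 :=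
  i0.mono' (hp.mul (hf.norm.pow 2)) (Eventually.of_forall fun X => by
    rw [Real.norm_eq_abs, abs_mul, abs_of_nonneg (sq_nonneg ‖f X‖)]
    exact mul_le_mul_of_nonneg_right (hW X) (sq_nonneg _))

theorem tendsto_wsq {p W : Cfg n → ℝ} (hp : AEStronglyMeasurable p volume)
    (hW : ∀ X, |p X| ≤ W X) {h : ℕ → Cfg n → ℂ} {f : Cfg n → ℂ}
    (hh : ∀ m, AEStronglyMeasurable (h m) volume) (hf : AEStronglyMeasurable f volume)
    (i0 : Integrable fun X => W X * ‖f X‖ ^ 2)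
    (i1 : ∀ m, Integrable fun X => W X * ‖h m X - f X‖ ^ 2)
    (hl : Tendsto (fun m => ∫ X, W X * ‖h m X - f X‖ ^ 2) atTop (𝓝 0)) :
    Tendsto (fun m => ∫ X, p X * ‖h m X‖ ^ 2) atTop (𝓝 (∫ X, p X * ‖f X‖ ^ 2)) := by
  have hW0 : ∀ X, 0 ≤ W X := fun X => (abs_nonneg _).trans (hW X)
  have i2 : ∀ m, Integrable fun X => p X * ‖h m X‖ ^ 2 := fun m =>
    (((i1 m).const_mul 2).add (i0.const_mul 2)).mono' (hp.mul ((hh m).norm.pow 2))
      (Eventually.of_forall fun X => by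
        rw [Real.norm_eq_abs, abs_mul, abs_of_nonneg (sq_nonneg ‖h m X‖)]
        have a1 := sq_add_le (h m X - f X) (f X)
        rw [sub_add_cancel] at a1
        have a2 := mul_le_mul (hW X) a1 (sq_nonneg _) (hW0 X)
        simp only [Pi.add_apply]
        linarith)
  refine hf_lim i2 i1 (integrable_wsq hp hW hf i0) i0
    (fun X => mul_nonneg (hW0 X) (sq_nonneg _)) (fun t ht m X => ?_) hl
  rw [← mul_sub, abs_mul]
  refine (mul_le_mul (hW X) (hf_pt (h m X) (f X) ht) (abs_nonneg _) (hW0 X)).trans (le_of_eq ?_)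
  ring

theorem tendsto_bsq {p : Cfg n → ℝ} (hp : AEStronglyMeasurable p volume) {C : ℝ}
    (hC : ∀ X, |p X| ≤ C) {h : ℕ → Cfg n → ℂ} {f : Cfg n → ℂ}
    (hh : ∀ m, MemLp (h m) 2 volume) (hf : MemLp f 2 volume)
    (hl : Tendsto (fun m => ∫ X, ‖h m X - f X‖ ^ 2) atTop (𝓝 0)) :
    Tendsto (fun m => ∫ X, p X * ‖h m X‖ ^ 2) atTop (𝓝 (∫ X, p X * ‖f X‖ ^ 2)) := by
  refine tendsto_wsq (W := fun _ => C) hp hC (fun m => (hh m).1) hf.1 ((int_sq hf).const_mul C)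
    (fun m => (int_sq ((hh m).sub hf)).const_mul C) ?_
  simpa only [integral_const_mul, mul_zero] using hl.const_mul C

theorem tendsto_sq {h : ℕ → Cfg n → ℂ} {f : Cfg n → ℂ}
    (hh : ∀ m, MemLp (h m) 2 volume) (hf : MemLp f 2 volume)
    (hl : Tendsto (fun m => ∫ X, ‖h m X - f X‖ ^ 2) atTop (𝓝 0)) :
    Tendsto (fun m => ∫ X, ‖h m X‖ ^ 2) atTop (𝓝 (∫ X, ‖f X‖ ^ 2)) := by
  simpa only [one_mul] using tendsto_bsq (p := fun _ => 1) aestronglyMeasurable_const (C := 1)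
    (fun _ => by simp) hh hf hl

theorem mono_lim {w : ℕ → Cfg n → ℝ} {W G : Cfg n → ℝ} (hW : AEStronglyMeasurable W volume)
    (h0 : ∀ M X, 0 ≤ w M X) (hmono : ∀ X, Monotone fun M => w M X)
    (hten : ∀ X, Tendsto (fun M => w M X) atTop (𝓝 (W X)))
    (hG : AEStronglyMeasurable G volume) (hG0 : ∀ X, 0 ≤ G X)
    (hi : ∀ M, Integrable fun X => w M X * G X) {K : ℝ} (h : ∀ M, ∫ X, w M X * G X ≤ K) :
    Integrable (fun X => W X * G X) ∧ ∫ X, W X * G X ≤ K := by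
  have hW0 : ∀ X, 0 ≤ W X := fun X => ge_of_tendsto' (hten X) fun M => h0 M X
  have hm : ∀ X, Monotone fun M : ℕ => w M X * G X := fun X M M' hM =>
    mul_le_mul_of_nonneg_right (hmono X hM) (hG0 X)
  have ht : ∀ X, Tendsto (fun M : ℕ => w M X * G X) atTop (𝓝 (W X * G X)) := fun X =>
    (hten X).mul_const _
  have h1 := lintegral_tendsto_of_tendsto_of_monotone (μ := volume)
    (f := fun (M : ℕ) X => ENNReal.ofReal (w M X * G X))
    (F := fun X => ENNReal.ofReal (W X * G X))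
    (fun M => (hi M).aemeasurable.ennreal_ofReal)
    (Eventually.of_forall fun X M M' hM => ENNReal.ofReal_le_ofReal (hm X hM))
    (Eventually.of_forall fun X => ENNReal.tendsto_ofReal (ht X))
  have h2 : ∫⁻ X, ENNReal.ofReal (W X * G X) ≤ ENNReal.ofReal K := by
    refine le_of_tendsto' h1 fun M => ?_
    rw [← ofReal_integral_eq_lintegral_ofReal (hi M)
      (Eventually.of_forall fun X => mul_nonneg (h0 M X) (hG0 X))]
    exact ENNReal.ofReal_le_ofReal (h M)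
  have h3 : Integrable fun X => W X * G X :=
    (lintegral_ofReal_ne_top_iff_integrable (hW.mul hG)
      (Eventually.of_forall fun X => mul_nonneg (hW0 X) (hG0 X))).1
      (ne_top_of_le_ne_top ENNReal.ofReal_ne_top h2)
  exact ⟨h3, le_of_tendsto' (integral_tendsto_of_tendsto_of_monotone hi h3
    (Eventually.of_forall hm) (Eventually.of_forall ht)) h⟩

end Vale.Agent.P370.FC
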