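import Vale.Agent.P370.HPot
import Vale.Agent.P370.HAnti

/-! Part H: the `C¹` compactly supported functions are a form core (see `notes/P370.md`). -/

open MeasureTheory Set Metric Filter Topology

noncomputable section

namespace Vale.Agent.P370

namespace FC

theorem energyH_eq (I : Inst) {Ψ : Wave I.N} {G : Fin I.N → Fin 3 → Wave I.N}
    (H : ∀ σ, W1 (Ψ σ) (fun i k => G i k σ)) :
    I.energyH Ψ G = 1 / 2 * (∑ σ, ∑ i, ∑ k, ∫ X, ‖G i k σ X‖ ^ 2) +
      ∑ σ, ∫ X, I.pot X * ‖Ψ σ X‖ ^ 2 := by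
  obtain ⟨C, hC⟩ := fb_Wabs I
  rw [Finset.mul_sum, ← Finset.sum_add_distrib]
  refine Finset.sum_congr rfl fun σ _ => ?_
  have i1 : ∀ i k, Integrable fun X => ‖G i k σ X‖ ^ 2 := fun i k => int_sq ((H σ).gmem i k)
  rw [integral_add ((integrable_finsetSum _ fun i _ => integrable_finsetSum _ fun k _ =>
      i1 i k).const_mul _) (integrable_wsq (measurable_pot I).aestronglyMeasurable (abs_pot_le I)
      (H σ).mem.1 (hC _ _ (H σ)).1), integral_const_mul,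
    integral_finsetSum _ fun i _ => integrable_finsetSum _ fun k _ => i1 i k]
  simp only [integral_finsetSum _ fun k _ => i1 _ k]

theorem integral_kin {n : ℕ} {h : Wave n} (hs : Sm h) :
    ∫ X, kin h X = ∑ σ, ∑ i, ∑ k, ∫ X, ‖fderiv ℝ (h σ) X (dir i k)‖ ^ 2 := by
  have i1 : ∀ σ i k, Integrable fun X => ‖fderiv ℝ (h σ) X (dir i k)‖ ^ 2 := fun σ i k =>
    int_sq (memLp_fderiv (hs.1 σ) (hs.2 σ) (dir i k))
  unfold kin
  rw [integral_finsetSum _ fun σ _ => integrable_finsetSum _ fun i _ =>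
    integrable_finsetSum _ fun k _ => i1 σ i k]
  refine Finset.sum_congr rfl fun σ _ => ?_
  rw [integral_finsetSum _ fun i _ => integrable_finsetSum _ fun k _ => i1 σ i k]
  exact Finset.sum_congr rfl fun i _ => integral_finsetSum _ fun k _ => i1 σ i k

theorem energy_eq (I : Inst) {ψ : Wave I.N} (hs : Sm ψ) :
    I.energy ψ = 1 / 2 * (∫ X, kin ψ X) + ∑ σ, ∫ X, I.pot X * ‖ψ σ X‖ ^ 2 := by
  rw [integral_kin hs]
  exact energyH_eq I (G := fun i k σ X => fderiv ℝ (ψ σ) X (dir i k))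
    fun σ => W1.of_test (hs.1 σ) (hs.2 σ)

theorem E0_le_div (I : Inst) {ψ : Wave I.N} (hψ : Test ψ) (h0 : 0 < normSq ψ) :
    I.E0 ≤ ((I.energy ψ / normSq ψ : ℝ) : EReal) := by
  obtain ⟨c, hc⟩ : ∃ c : ℝ, c ^ 2 = 1 / normSq ψ :=
    ⟨√(1 / normSq ψ), Real.sq_sqrt (by positivity)⟩
  have hn : ∀ z : ℂ, ‖(c : ℂ) * z‖ ^ 2 = 1 / normSq ψ * ‖z‖ ^ 2 := fun z => by
    rw [norm_mul, mul_pow, Complex.norm_real, Real.norm_eq_abs, sq_abs, hc]
  have ht : Test (fun σ X => (c : ℂ) * ψ σ X) :=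
    ⟨fun π σ X => by dsimp only; rw [hψ.1 π σ X]; ring,
      fun σ => ⟨contDiff_const.mul (hψ.2 σ).1, (hψ.2 σ).2.mul_left⟩⟩
  have h1 : normSq (fun σ X => (c : ℂ) * ψ σ X) = 1 := by
    have : normSq (fun σ X => (c : ℂ) * ψ σ X) = 1 / normSq ψ * normSq ψ := by
      conv_rhs => rw [normSq, Finset.mul_sum]
      simp only [normSq, ← integral_const_mul]
      exact Finset.sum_congr rfl fun σ _ => by simp only [hn, normSq]
    rw [this]
    field_simp
  have h2 : I.energy (fun σ X => (c : ℂ) * ψ σ X) = I.energy ψ / normSq ψ := by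
    rw [div_eq_inv_mul, ← one_div, Inst.energy, Inst.energy, Finset.mul_sum]
    refine Finset.sum_congr rfl fun σ _ => ?_
    rw [← integral_const_mul]
    refine integral_congr_ae (Eventually.of_forall fun X => ?_)
    have hd := (((hψ.2 σ).1.differentiable one_ne_zero X).hasFDerivAt.const_mul (c : ℂ)).fderiv
    simp only [hd, smul_apply, smul_eq_mul, hn, ← Finset.mul_sum]
    ring
  rw [← h2]
  exact iInf_le (fun Ψ : {Ψ : Wave I.N // Test Ψ ∧ normSq Ψ = 1} =>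
    ((I.energy Ψ.1 : ℝ) : EReal)) ⟨_, ht, h1⟩

theorem sm_approx {n : ℕ} {Ψ : Wave n} {G : Fin n → Fin 3 → Wave n}
    (H : ∀ σ, W1 (Ψ σ) (fun i k => G i k σ)) :
    ∃ h : ℕ → Wave n, (∀ m, Sm (h m)) ∧
      (∀ σ, Tendsto (fun m => ∫ X, ‖h m σ X - Ψ σ X‖ ^ 2) atTop (𝓝 0)) ∧
      ∀ σ i k, Tendsto (fun m => ∫ X, ‖fderiv ℝ (h m σ) X (dir i k) - G i k σ X‖ ^ 2)
        atTop (𝓝 0) := by
  choose h h1 h2 h3 h4 using fun σ => (H σ).approx
  exact ⟨fun m σ => h σ m, fun m => ⟨fun σ => h1 σ m, fun σ => h2 σ m⟩, h3, h4⟩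

theorem antis_tendsto {n : ℕ} {Ψ : Wave n} (hΨ : ∀ σ, MemLp (Ψ σ) 2 volume)
    (ha : ∀ (π : Equiv.Perm (Fin n)) (σ : Fin n → Bool),
      ∀ᵐ X, Ψ (σ ∘ π) (X ∘ π) = ((Equiv.Perm.sign π : ℤ) : ℂ) * Ψ σ X)
    {h : ℕ → Wave n} (hs : ∀ m, Sm (h m)) {F : Cfg n → ℝ} (hF : Measurable F) (h0 : ∀ X, 0 ≤ F X)
    (hsym : ∀ (π : Equiv.Perm (Fin n)) (X : Cfg n), F (X ∘ π) = F X)
    (hi : ∀ m σ, Integrable fun X => F X * ‖h m σ X - Ψ σ X‖ ^ 2)
    (hl : ∀ σ, Tendsto (fun m => ∫ X, F X * ‖h m σ X - Ψ σ X‖ ^ 2) atTop (𝓝 0))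
    (σ : Fin n → Bool) :
    (∀ m, Integrable fun X => F X * ‖antis (h m) σ X - Ψ σ X‖ ^ 2) ∧
      Tendsto (fun m => ∫ X, F X * ‖antis (h m) σ X - Ψ σ X‖ ^ 2) atTop (𝓝 0) := by
  have e1 : ∀ m, (fun X => F X * dens (h m - Ψ) X) =
      fun X => ∑ σ, F X * ‖h m σ X - Ψ σ X‖ ^ 2 := fun m => by
    funext X
    simp only [dens, Finset.mul_sum, Pi.sub_apply]
  have a1 := fun m => antis_sub hΨ ha (hs m) hF h0 hsym
    (by rw [e1]; exact integrable_finsetSum _ fun σ _ => hi m σ)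
  have a2 : ∀ m X, F X * ‖antis (h m) σ X - Ψ σ X‖ ^ 2 ≤ F X * dens (antis (h m) - Ψ) X :=
    fun m X => mul_le_mul_of_nonneg_left (Finset.single_le_sum
      (f := fun σ => ‖(antis (h m) - Ψ) σ X‖ ^ 2) (fun _ _ => sq_nonneg _) (Finset.mem_univ σ))
      (h0 X)
  have a3 : ∀ m, Integrable fun X => F X * ‖antis (h m) σ X - Ψ σ X‖ ^ 2 := fun m =>
    (a1 m).1.mono' (hF.aestronglyMeasurable.mul
      ((((isTest_antis (hs m)).2 σ).1.continuous.aestronglyMeasurable.sub (hΨ σ).1).norm.pow 2))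
      (Eventually.of_forall fun X => by
        rw [Real.norm_of_nonneg (mul_nonneg (h0 X) (sq_nonneg _))]
        exact a2 m X)
  refine ⟨a3, squeeze_zero (fun m => integral_nonneg fun X => mul_nonneg (h0 X) (sq_nonneg _))
    (fun m => (integral_mono (a3 m) (a1 m).1 (a2 m)).trans (a1 m).2) ?_⟩
  have a4 := tendsto_finsetSum Finset.univ fun σ _ => hl σ
  rw [Finset.sum_const_zero] at a4
  refine a4.congr fun m => ?_
  rw [e1, integral_finsetSum _ fun σ _ => hi m σ]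

theorem E0_le_energyH (I : Inst) {Ψ : Wave I.N} {G : Fin I.N → Fin 3 → Wave I.N}
    (hH : InH1 Ψ G) (h1 : normSq Ψ = 1) : I.E0 ≤ ((I.energyH Ψ G : ℝ) : EReal) := by
  have H : ∀ σ, W1 (Ψ σ) (fun i k => G i k σ) := fun σ =>
    ⟨hH.1 σ, fun i k => (hH.2.1 i k σ).1, fun i k => (hH.2.1 i k σ).2⟩
  obtain ⟨h, hs, l1, l2⟩ := sm_approx H
  obtain ⟨C, hC⟩ := fb_Wabs I
  have hm : ∀ m σ, MemLp (h m σ) 2 volume := fun m σ =>
    ((hs m).1 σ).continuous.memLp_of_hasCompactSupport ((hs m).2 σ)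
  have hW := fun m σ => hC _ _ ((W1.of_test ((hs m).1 σ) ((hs m).2 σ)).sub (H σ))
  have ht : ∀ m, Test (antis (h m)) := fun m => isTest_antis (hs m)
  have b1 := antis_tendsto hH.1 hH.2.2 hs (F := fun _ => 1) measurable_const
    (fun _ => zero_le_one) (fun _ _ => rfl)
    (fun m σ => (int_sq ((hm m σ).sub (hH.1 σ))).const_mul 1)
    (fun σ => by simpa only [one_mul] using l1 σ)
  have b2 := antis_tendsto hH.1 hH.2.2 hs (measurable_Wabs I) (Wabs_nonneg I) (Wabs_symm I)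
    (fun m σ => (hW m σ).1) (fun σ => by
      refine squeeze_zero (fun m => integral_nonneg fun X =>
        mul_nonneg (Wabs_nonneg I X) (sq_nonneg _)) (fun m => (hW m σ).2) ?_
      have := ((l1 σ).add (tendsto_finsetSum Finset.univ fun i _ =>
        tendsto_finsetSum Finset.univ fun k _ => l2 σ i k)).const_mul C
      simpa only [Finset.sum_const_zero, add_zero, mul_zero] using this)
  have c1 : Tendsto (fun m => normSq (antis (h m))) atTop (𝓝 1) := by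
    rw [← h1]
    refine tendsto_finsetSum _ fun σ _ => tendsto_sq (fun m =>
      ((ht m).2 σ).1.continuous.memLp_of_hasCompactSupport ((ht m).2 σ).2) (hH.1 σ) ?_
    simpa only [one_mul] using (b1 σ).2
  have c2 : Tendsto (fun m => 1 / 2 * (∫ X, kin (h m) X) +
      ∑ σ, ∫ X, I.pot X * ‖antis (h m) σ X‖ ^ 2) atTop (𝓝 (I.energyH Ψ G)) := by
    rw [energyH_eq I H]
    refine Tendsto.add (Tendsto.const_mul _ ?_) (tendsto_finsetSum _ fun σ _ =>
      tendsto_wsq (measurable_pot I).aestronglyMeasurable (abs_pot_le I)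
        (fun m => ((ht m).2 σ).1.continuous.aestronglyMeasurable) (hH.1 σ).1
        (hC _ _ (H σ)).1 (b2 σ).1 (b2 σ).2)
    simp only [integral_kin (hs _)]
    exact tendsto_finsetSum _ fun σ _ => tendsto_finsetSum _ fun i _ =>
      tendsto_finsetSum _ fun k _ => tendsto_sq
        (fun m => memLp_fderiv ((hs m).1 σ) ((hs m).2 σ) (dir i k)) ((H σ).gmem i k) (l2 σ i k)
  have c3 := c2.div c1 one_ne_zero
  rw [div_one] at c3
  refine ge_of_tendsto ((continuous_coe_real_ereal.tendsto _).comp c3) ?_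
  filter_upwards [c1.eventually (lt_mem_nhds one_pos)] with m hm0
  refine (E0_le_div I (ht m) hm0).trans (EReal.coe_le_coe_iff.2 ?_)
  refine div_le_div_of_nonneg_right ?_ hm0.le
  rw [energy_eq I (sm_of_test (ht m))]
  have := kin_antis_le (hs m)
  linarith

end FC

theorem E0H_eq (I : Inst) : I.E0H = I.E0 := by
  refine le_antisymm (le_iInf fun ψ => ?_) (le_iInf fun p => FC.E0_le_energyH I p.2.1 p.2.2)
  have H := fun σ => FC.W1.of_test (ψ.2.1.2 σ).1 (ψ.2.1.2 σ).2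
  exact iInf_le (fun p : {p : Wave I.N × (Fin I.N → Fin 3 → Wave I.N) //
      InH1 p.1 p.2 ∧ normSq p.1 = 1} => ((I.energyH p.1.1 p.1.2 : ℝ) : EReal))
    ⟨(ψ.1, fun i k σ X => fderiv ℝ (ψ.1 σ) X (FC.dir i k)), ⟨fun σ => (H σ).mem,
      fun i k σ => ⟨(H σ).gmem i k, (H σ).weak i k⟩,
      fun π σ => Eventually.of_forall fun X => ψ.2.1.1 π σ X⟩, ψ.2.2⟩

end Vale.Agent.P370
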