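import Vale.Agent.P370.HHardy

/-! Part H: the Coulomb potential is form bounded on `H¹`. -/

open MeasureTheory Set Metric Filter Topology

noncomputable section

namespace Vale.Agent.P370.FC

variable {n : ℕ}

/-- `V` is form bounded. -/
def FB (V : Cfg n → ℝ) : Prop :=
  ∃ C : ℝ, ∀ (f : Cfg n → ℂ) (g : Fin n → Fin 3 → Cfg n → ℂ), W1 f g →
    Integrable (fun X => V X * ‖f X‖ ^ 2) ∧
      ∫ X, V X * ‖f X‖ ^ 2 ≤ C * ((∫ X, ‖f X‖ ^ 2) + ∑ i, ∑ k, ∫ X, ‖g i k X‖ ^ 2)

theorem FB.zero : FB (fun _ : Cfg n => 0) := ⟨0, fun f g _ => by simp⟩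

theorem FB.add {V V' : Cfg n → ℝ} (h : FB V) (h' : FB V') : FB (fun X => V X + V' X) := by
  obtain ⟨C, hC⟩ := h
  obtain ⟨C', hC'⟩ := h'
  refine ⟨C + C', fun f g H => ?_⟩
  obtain ⟨a1, a2⟩ := hC f g H
  obtain ⟨b1, b2⟩ := hC' f g H
  simp only [add_mul]
  refine ⟨a1.add b1, ?_⟩
  rw [integral_add a1 b1]
  linarith

theorem FB.smul {V : Cfg n → ℝ} (h : FB V) {c : ℝ} (hc : 0 ≤ c) : FB (fun X => c * V X) := by
  obtain ⟨C, hC⟩ := h
  refine ⟨c * C, fun f g H => ?_⟩
  obtain ⟨a1, a2⟩ := hC f g H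
  simp only [mul_assoc]
  refine ⟨a1.const_mul c, ?_⟩
  rw [integral_const_mul]
  exact mul_le_mul_of_nonneg_left a2 hc

theorem FB.sum {ι : Type} (s : Finset ι) {V : ι → Cfg n → ℝ} (h : ∀ i, FB (V i)) :
    FB (fun X => ∑ i ∈ s, V i X) := by
  classical
  induction s using Finset.induction_on with
  | empty => simpa using FB.zero
  | insert a s ha ih => simpa only [Finset.sum_insert ha] using (h a).add ih

theorem FB.listSum {ι : Type} (l : List ι) {V : ι → Cfg n → ℝ} (h : ∀ i, FB (V i)) :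
    FB (fun X => (l.map fun p => V p X).sum) := by
  induction l with
  | nil => simpa using FB.zero
  | cons a l ih => simpa only [List.map_cons, List.sum_cons] using (h a).add ih

theorem Rel.fb {i : Fin n} {u : Cfg n → Fin 3 → ℝ} (hu : Rel i u) :
    FB (fun X => 1 / √(∑ l, u X l ^ 2)) := by
  refine ⟨2, fun f g H => ⟨(hu.hardy H).1, (hu.hardy H).2.trans ?_⟩⟩
  have h0 : ∀ j, 0 ≤ ∑ k, ∫ X, ‖g j k X‖ ^ 2 := fun j =>
    Finset.sum_nonneg fun k _ => integral_nonneg fun X => sq_nonneg _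
  have h1 := Finset.single_le_sum (f := fun j => ∑ k, ∫ X, ‖g j k X‖ ^ 2) (fun j _ => h0 j)
    (Finset.mem_univ i)
  linarith [h0 i]

theorem fb_point (i : Fin n) (c : Fin 3 → ℝ) : FB (fun X : Cfg n => 1 / d3 (X i) c) := by
  refine Rel.fb (i := i) (u := fun X l => X i l - c l) ⟨by fun_prop, fun X t k l => ?_⟩
  by_cases h : l = k
  · subst h
    simp
    ring
  · simp [h]

theorem fb_pair (i j : Fin n) : FB (fun X : Cfg n => 1 / d3 (X i) (X j)) := by
  by_cases hij : j = i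
  · subst hij
    simpa [d3] using FB.zero
  refine Rel.fb (i := i) (u := fun X l => X i l - X j l) ⟨by fun_prop, fun X t k l => ?_⟩
  by_cases h : l = k
  · subst h
    simp [hij]
    ring
  · simp [h, hij]

/-- The sum of all Coulomb singularities. -/
def Wabs (I : Inst) (x : Cfg I.N) : ℝ :=
  ∑ i, (I.nuclei.map fun p => (p.2 : ℝ) / d3 (x i) (pt p.1)).sum +
    ∑ i, ∑ j, 1 / d3 (x i) (x j)

theorem fb_Wabs (I : Inst) : FB (Wabs I) := by
  refine FB.add (FB.sum _ fun i => FB.listSum _ fun p => ?_)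
    (FB.sum _ fun i => FB.sum _ fun j => fb_pair i j)
  simpa only [mul_one_div] using (fb_point i (pt p.1)).smul (c := (p.2 : ℝ)) (Nat.cast_nonneg _)

theorem d3_nonneg (x y : Fin 3 → ℝ) : 0 ≤ d3 x y := Real.sqrt_nonneg _

theorem abs_pot_le (I : Inst) (x : Cfg I.N) : |I.pot x| ≤ Wabs I x := by
  have h1 : 0 ≤ ∑ i, (I.nuclei.map fun p => (p.2 : ℝ) / d3 (x i) (pt p.1)).sum :=
    Finset.sum_nonneg fun i _ => List.sum_nonneg fun a ha => by
      obtain ⟨p, -, rfl⟩ := List.mem_map.1 ha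
      exact div_nonneg (Nat.cast_nonneg _) (d3_nonneg _ _)
  have h0 : ∀ i j, 0 ≤ 1 / d3 (x i) (x j) := fun i j => div_nonneg zero_le_one (d3_nonneg _ _)
  have h2 : 0 ≤ ∑ i, ∑ j, if i < j then 1 / d3 (x i) (x j) else 0 :=
    Finset.sum_nonneg fun i _ => Finset.sum_nonneg fun j _ => by
      split_ifs
      exacts [h0 i j, le_rfl]
  have h3 : (∑ i, ∑ j, if i < j then 1 / d3 (x i) (x j) else 0) ≤
      ∑ i, ∑ j, 1 / d3 (x i) (x j) :=
    Finset.sum_le_sum fun i _ => Finset.sum_le_sum fun j _ => by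
      split_ifs
      exacts [le_rfl, h0 i j]
  unfold Inst.pot Wabs
  exact abs_le.2 ⟨by linarith, by linarith⟩

theorem Wabs_nonneg (I : Inst) (x : Cfg I.N) : 0 ≤ Wabs I x :=
  (abs_nonneg _).trans (abs_pot_le I x)

theorem Wabs_symm (I : Inst) (π : Equiv.Perm (Fin I.N)) (x : Cfg I.N) :
    Wabs I (x ∘ π) = Wabs I x := by
  unfold Wabs
  congr 1
  · exact Equiv.sum_comp π
      (fun i => (I.nuclei.map fun p => (p.2 : ℝ) / d3 (x i) (pt p.1)).sum)
  · rw [← Equiv.sum_comp π (fun i => ∑ j, 1 / d3 (x i) (x j))]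
    exact Finset.sum_congr rfl fun i _ => Equiv.sum_comp π (fun j => 1 / d3 (x (π i)) (x j))

theorem measurable_nuc (I : Inst) : Measurable fun x : Cfg I.N =>
    ∑ i, (I.nuclei.map fun p => (p.2 : ℝ) / d3 (x i) (pt p.1)).sum := by
  refine Finset.measurable_fun_sum _ fun i _ => ?_
  induction I.nuclei with
  | nil => simp
  | cons a l ih =>
    simp only [List.map_cons, List.sum_cons]
    refine Measurable.add ?_ ih
    unfold d3
    fun_prop

theorem measurable_pair (i j : Fin n) : Measurable fun x : Cfg n => 1 / d3 (x i) (x j) := by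
  unfold d3
  fun_prop

theorem measurable_Wabs (I : Inst) : Measurable (Wabs I) :=
  (measurable_nuc I).add (Finset.measurable_fun_sum _ fun i _ =>
    Finset.measurable_fun_sum _ fun j _ => measurable_pair i j)

theorem measurable_pot (I : Inst) : Measurable I.pot := by
  refine (measurable_nuc I).neg.add (Finset.measurable_fun_sum _ fun i _ =>
    Finset.measurable_fun_sum _ fun j _ => ?_)
  split_ifs
  exacts [measurable_pair i j, measurable_const]

end Vale.Agent.P370.FC
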