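import Vale.Agent.P370.DLower
import Vale.Agent.P370.DUpper
import Vale.Agent.P370.DVe
import Vale.Agent.P370.DBasis
import Vale.Agent.P370.DBd3

/-! Part D: the ideal one-body operator (see `notes/P370.md`). -/

namespace Vale.Agent.P370

open MeasureTheory

variable {ι S : Type} [Fintype ι] [Fintype S] [DecidableEq ι] [DecidableEq S] {b : ℕ}
  {L : Lay ι S}

theorem ideal_basis (hb : 30 ≤ b) (hL : L.Good b) :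
    Basis (L.g3 b) (L.gt3 b) (PR b ^ 400) (1 / PR b ^ 31000) :=
  ideal_basis' hb hL

theorem ideal_OB (hb : 30 ≤ b) (hL : L.Good b) :
    OB (L.g3 b) (L.gt3 b) (L.Vid b) (fun σ σ' => (L.T0 b σ σ' : ℝ)) (1 / PR b ^ 3012)
      (1 / PR b ^ 63042) :=
  ⟨fun _ hψ => ideal_lower hb hL hψ, ideal_upper hb hL⟩

theorem Vid_cont (b : ℕ) (L : Lay ι S) : Continuous (L.Vid b) :=
  Vid_cont' b L

theorem Vid_low (hb : 30 ≤ b) (hL : L.Good b) (x : E3) : -(omz b : ℝ) ≤ L.Vid b x :=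
  Vid_low' hb hL x

theorem T0_psd (hb : 30 ≤ b) (hL : L.Good b) (c : S → ℝ) :
    0 ≤ qf (fun σ σ' => (L.T0 b σ σ' : ℝ)) c ∧
      qf (fun σ σ' => (L.T0 b σ σ' : ℝ)) c ≤ 8 / PR b ^ 62914 * ∑ a, c a ^ 2 :=
  T0_psd' hb hL c

theorem T0_row (hb : 30 ≤ b) (hL : L.Good b) (σ : S) :
    ∑ σ', |(L.T0 b σ σ' : ℝ)| ≤ 8 / PR b ^ 62914 :=
  T0_row' hb hL σ

theorem T0_symm (b : ℕ) (L : Lay ι S) (σ σ' : S) : L.T0 b σ σ' = L.T0 b σ' σ :=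
  T0_symm' b L σ σ'

theorem Ve_cont (b : ℕ) (L : Lay ι S) :
    Continuous fun x : E3 => zeta (x 2) * L.Ve b (x 0) (x 1) :=
  (zeta_cont.comp (continuous_apply 2)).mul (Ve_cont0 b L)

theorem Ve_bd (hb : 30 ≤ b) (hL : L.Good b) (x : E3) :
    0 ≤ zeta (x 2) * L.Ve b (x 0) (x 1) ∧ zeta (x 2) * L.Ve b (x 0) (x 1) ≤ 1 / PR b ^ 62890 :=
  Ve_bd' hb hL x

theorem Ve_first (hb : 30 ≤ b) (hL : L.Good b) (σ σ' : S) :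
    |(∫ x : E3, zeta (x 2) * L.Ve b (x 0) (x 1) * (L.gt3 b σ x * L.gt3 b σ' x)) -
      (if σ = σ' then (L.eps σ : ℝ) else 0)| ≤ 1 / PR b ^ 63100 :=
  Ve_first' hb hL σ σ'

theorem Vloc_bd (hb : 30 ≤ b) (hL : L.Good b) : Bd 6 (PR b ^ 1500) (L.VlocR b) :=
  Vloc_bd' hb hL

theorem Vloc_supp (hb : 30 ≤ b) (hL : L.Good b) (x : E3) (h : L.VlocR b x ≠ 0) :
    |x 0| ≤ PR b ^ 64 ∧ |x 1| ≤ PR b ^ 64 ∧ |x 2| ≤ 73 :=
  Vloc_supp' hb hL x h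

theorem Vloc_cast (b : ℕ) (L : Lay ι S) (q : ℚ × ℚ × ℚ) :
    ((L.Vloc b q.1 q.2.1 q.2.2 : ℚ) : ℝ) = L.VlocR b (pt q) :=
  Vloc_cast' b L q

theorem gt_bd4 (hb : 30 ≤ b) (hL : L.Good b) (σ σ' : S) :
    Bd 4 (PR b ^ 18000) fun x => L.gt3 b σ x * L.gt3 b σ' x :=
  gt_bd4' hb hL σ σ'

theorem gt_supp (hb : 30 ≤ b) (hL : L.Good b) (σ : S) (x : E3) (h : L.gt3 b σ x ≠ 0) :
    x ∈ B0 b :=
  gt_supp' hb hL σ x h

end Vale.Agent.P370
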