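import Vale.Agent.P370.Stmt
import Vale.Agent.P338.PTX
import Vale.Agent.P049.RatPT

/-! Real 2-local Hamiltonians with Pauli `X` and `Z` terms. -/

namespace Vale.Agent.P370

open Vale.Agent.Lib.H23 Vale.Agent.P338

/-- `one`: terms `(q, p, β)`; `two`: terms `((q₁, p₁), (q₂, p₂), β)`; `p = true` is `X`,
`p = false` is `Z`. -/
structure LH : Type where
  nq : ℕ
  one : List ((ℕ × Bool) × ℚ)
  two : List ((ℕ × Bool) × (ℕ × Bool) × ℚ)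
  thr : ℚ
  bd : ℕ

/-- Pauli matrix `X` (`p = true`) or `Z` (`p = false`) on qubit `q`. -/
def pauli {n : ℕ} (a : ℕ × Bool) (v : (Fin n → Bool) → ℝ) : (Fin n → Bool) → ℝ := fun x =>
  if a.2 then v (setBit x a.1 (!bit x a.1)) else (if bit x a.1 then -1 else 1) * v x

/-- The quadratic form of the Hamiltonian. -/
def LH.en (H : LH) (v : (Fin H.nq → Bool) → ℝ) : ℝ :=
  (H.one.map fun t => (t.2 : ℝ) * ∑ x, v x * pauli t.1 v x).sum +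
    (H.two.map fun t => (t.2.2 : ℝ) * ∑ x, v x * pauli t.1 (pauli t.2.1 v) x).sum

/-- Well-formedness and size bounds. -/
structure LH.OK (H : LH) : Prop where
  nq_pos : 1 ≤ H.nq
  bd_pos : 1 ≤ H.bd
  one_lt : ∀ t ∈ H.one, t.1.1 < H.nq
  one_bd : ∀ t ∈ H.one, |t.2| ≤ H.bd
  two_lt : ∀ t ∈ H.two, t.1.1 < t.2.1.1 ∧ t.2.1.1 < H.nq
  two_bd : ∀ t ∈ H.two, |t.2.2| ≤ H.bd ∧ 1 / (H.bd : ℚ) ≤ |t.2.2|
  thr_bd : |H.thr| ≤ H.bd

def LH.Yes (H : LH) : Prop :=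
  ∃ v : (Fin H.nq → Bool) → ℝ, 0 < ∑ x, v x ^ 2 ∧ H.en v ≤ H.thr * ∑ x, v x ^ 2

def LH.No (H : LH) : Prop :=
  ∀ v : (Fin H.nq → Bool) → ℝ, (H.thr + 1 / 4) * ∑ x, v x ^ 2 ≤ H.en v

/-- The list of numbers describing a gate. -/
def Gate.data : Gate → List ℕ
  | .H a => [0, a]
  | .T a => [1, a]
  | .CX a b => [2, a, b]

instance : Enc Gate := ⟨fun g => Enc.enc g.data⟩

instance : Enc Circ := ⟨fun C => Enc.enc ((⟨C.wit⟩ : Un), (⟨C.anc⟩ : Un), C.gates)⟩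

instance : Enc LH := ⟨fun H => Enc.enc ((⟨H.nq⟩ : Un), H.one, H.two, H.thr, (⟨H.bd⟩ : Un))⟩

instance : Enc Inst := ⟨fun I => Enc.enc (I.nuclei, (⟨I.N⟩ : Un), I.a, I.b)⟩

end Vale.Agent.P370
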