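import Vale.Agent.P370.LatSC1

/-! Part M: the core can be integrated out.
Apply `sc_one`, `sc_two` with `core = M.core ×ˢ univ`, `act a = (M.lev a.1 = 1)`; `rs act (sp A) = sp (M.act A)`.
`one i (single p p 1)` is diagonal (`one_diagonal`) and `∑ i, one i (single p p 1) *ᵥ u = u` for `p` core.  Hence
`∑ i ∈ univ.erase j, qf (one i (single p p 1) * one j X) u = qf (one j X) u` if `single p p 1 * X = 0` (`one_mul_one`,
`qf_tmul`); this applies to `X = rs act _` and to `X = single q q 1`, `q ≠ p` (for `q = p` the coefficient vanishes).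
Then sum over the spins of the core and use the symmetry of `w` (`Finset.sum_comm`, `one_comm`). -/

namespace Vale.Agent.P370.Lat

open Matrix Finset

variable {S Cl : Type} [Fintype S] [DecidableEq S] [Fintype Cl] [DecidableEq Cl] {N : ℕ}

namespace SC2

section gen

variable {ι K : Type} [Fintype ι] [DecidableEq ι] [Fintype K] [DecidableEq K] (u : (ι → K) → ℝ)

/-- one-body expectation -/
noncomputable def s1 (A : Matrix K K ℝ) : ℝ := ∑ i, qf (one i A) u

/-- two-body expectation -/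
noncomputable def s2 (A B : Matrix K K ℝ) : ℝ :=
  ∑ i, ∑ j ∈ univ.erase i, qf (one i A * one j B) u

theorem s1_add (A B : Matrix K K ℝ) : s1 u (A + B) = s1 u A + s1 u B := by
  simp only [s1, one_add, qf_add, sum_add_distrib]

theorem s1_smul (c : ℝ) (A : Matrix K K ℝ) : s1 u (c • A) = c * s1 u A := by
  simp only [s1, one_smul', qf_smul, Finset.mul_sum]

theorem s1_sum {α : Type} (s : Finset α) (A : α → Matrix K K ℝ) :
    s1 u (∑ a ∈ s, A a) = ∑ a ∈ s, s1 u (A a) := by
  simp only [s1, one_sum, qf_sum]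
  exact sum_comm

omit [Fintype K] [DecidableEq K] in
theorem sum_erase_comm (f : ι → ι → ℝ) :
    ∑ i, ∑ j ∈ univ.erase i, f i j = ∑ j, ∑ i ∈ univ.erase j, f i j :=
  sum_comm' fun i j => by simp [eq_comm]

theorem s2_comm (A B : Matrix K K ℝ) : s2 u A B = s2 u B A := by
  rw [s2, s2, sum_erase_comm]
  exact sum_congr rfl fun j _ => sum_congr rfl fun i hi => by rw [one_comm (ne_of_mem_erase hi)]

theorem qf_Hm {S : Type} [Fintype S] (T : Matrix K K ℝ) (w : S → S → ℝ) (ρ : S → Matrix K K ℝ) :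
    qf (Hm ι T w ρ) u = s1 u T + 1 / 2 * ∑ x, ∑ y, w x y * s2 u (ρ x) (ρ y) := by
  simp only [Hm, ob, pair, qf_add, qf_smul, qf_sum, s1, s2, Finset.mul_sum]
  congr 1
  simp only [← Finset.mul_sum _ _ (1 / 2 : ℝ)]
  congr 1
  refine (sum_congr rfl fun i _ => sum_comm).trans (sum_comm.trans (sum_congr rfl fun x _ => ?_))
  exact (sum_congr rfl fun i _ => sum_comm).trans sum_comm

variable {u} {p : K} (h : ∀ k, u k ≠ 0 → Function.Injective k ∧ ∃ i, k i = p)
include h

theorem core_fix : (∑ i : ι, one i (single p p (1 : ℝ))) *ᵥ u = u := by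
  funext k
  have e : single p p (1 : ℝ) = diagonal fun a => if a = p then 1 else 0 := by
    ext a b
    by_cases h1 : a = b
    · simp [h1, single, eq_comm]
    · rw [diagonal_apply_ne _ h1, single_apply_of_ne]
      rintro ⟨rfl, rfl⟩
      exact h1 rfl
  simp only [e, one_diagonal, Matrix.sum_mulVec, Finset.sum_apply, mulVec_diagonal]
  by_cases h0 : u k = 0
  · simp [h0]
  · obtain ⟨h1, i, hi⟩ := h k h0
    rw [sum_eq_single i, if_pos hi, one_mul]
    · intro j _ hj
      rw [if_neg fun e => hj (h1 (e.trans hi.symm)), zero_mul]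
    · simp

theorem s1_core : s1 u (single p p 1) = u ⬝ᵥ u := by
  rw [s1, ← qf_sum, qf, core_fix h]

theorem s2_core {X : Matrix K K ℝ} (hX : single p p (1 : ℝ) * X = 0) :
    s2 u (single p p 1) X = s1 u X := by
  rw [s2, sum_erase_comm]
  refine sum_congr rfl fun j _ => ?_
  have e : (∑ i : ι, one i (single p p (1 : ℝ)))ᵀ = ∑ i : ι, one i (single p p 1) := by
    simp only [transpose_sum, one_transpose, transpose_single]
  rw [sum_erase _ (by rw [one_mul_one, hX, one_zero, qf_zero]), ← qf_sum, ← Finset.sum_mul, ← e,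
    qf_tmul, core_fix h, qf]

end gen

variable {core : Finset (S × Bool)} {act : S × Bool → Prop} [DecidablePred act]
  {u : (Fin N → S × Bool) → ℝ}

theorem single_rs {p : S × Bool} (hp : ¬ act p) (X : Matrix (S × Bool) (S × Bool) ℝ) :
    single p p (1 : ℝ) * rs act X = 0 := by
  ext a b
  by_cases h : a = p
  · rw [h, single_mul_apply_same, rs, of_apply, if_neg fun e => hp e.1, mul_zero,
      Matrix.zero_apply]
  · rw [single_mul_apply_of_ne _ _ _ _ _ h, Matrix.zero_apply]

/-- the mean field of the core -/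
noncomputable def mf (core : Finset (S × Bool)) (act : S × Bool → Prop) [DecidablePred act]
    (A B : Matrix (S × Bool) (S × Bool) ℝ) : Matrix (S × Bool) (S × Bool) ℝ :=
  ∑ p ∈ core, rs act (Matrix.of fun c d => A p p * B c d - A p d * B c p)

variable (hd : ∀ p ∈ core, ¬ act p)
  (hu : ∀ k, u k ≠ 0 → Function.Injective k ∧ (∀ p ∈ core, ∃ i, k i = p) ∧
    ∀ i, k i ∈ core ∨ act (k i))
include hd hu

theorem s1_eq (A : Matrix (S × Bool) (S × Bool) ℝ) :
    s1 u A = (∑ p ∈ core, A p p) * (u ⬝ᵥ u) + s1 u (rs act A) := by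
  rw [s1, sum_congr rfl fun i _ => sc_one hd hu i A, sum_add_distrib, sum_comm, Finset.sum_mul]
  congr 1
  refine sum_congr rfl fun p hp => ?_
  rw [← Finset.mul_sum, ← s1_core fun k hk => ⟨(hu k hk).1, (hu k hk).2.1 p hp⟩, s1]

theorem s2_eq (ha : AntiC u) (A B : Matrix (S × Bool) (S × Bool) ℝ) :
    s2 u A B = (∑ p ∈ core, ∑ q ∈ core, (A p p * B q q - A p q * B q p)) * (u ⬝ᵥ u) +
      s1 u (mf core act A B) + s1 u (mf core act B A) + s2 u (rs act A) (rs act B) := by
  have hc : ∀ p ∈ core, ∀ k, u k ≠ 0 → Function.Injective k ∧ ∃ i, k i = p :=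
    fun p hp k hk => ⟨(hu k hk).1, (hu k hk).2.1 p hp⟩
  have sw : ∀ f : S × Bool → Fin N → Fin N → ℝ, ∑ i, ∑ j ∈ univ.erase i, ∑ p ∈ core, f p i j =
      ∑ p ∈ core, ∑ i, ∑ j ∈ univ.erase i, f p i j := fun f =>
    (sum_congr rfl fun i _ => sum_comm).trans sum_comm
  rw [s2, sum_congr rfl fun i _ => sum_congr rfl fun j hj =>
    sc_two hd ha hu (ne_of_mem_erase hj).symm A B]
  simp only [sum_add_distrib]
  rw [sw, sw, sw, mf, mf, s1_sum, s1_sum, Finset.sum_mul]
  refine congrArg₂ (· + ·) (congrArg₂ (· + ·) (congrArg₂ (· + ·) ?_ ?_) ?_) rfl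
  · refine sum_congr rfl fun p hp => ?_
    rw [sw, Finset.sum_mul]
    refine sum_congr rfl fun q hq => ?_
    by_cases e : p = q
    · simp [e]
    · simp only [← Finset.mul_sum]
      rw [← s1_core (hc q hq), ← s2_core (hc p hp) (single_mul_single_of_ne _ _ _ _ e _), s2]
  · exact sum_congr rfl fun p hp => s2_core (hc p hp) (single_rs (hd p hp) _)
  · refine sum_congr rfl fun p hp => (s2_comm u _ _).trans ?_
    simp only [mul_comm (B _ _)]
    exact s2_core (hc p hp) (single_rs (hd p hp) _)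

end SC2

variable {M : Mdl S Cl}

open SC2 in
omit [Fintype Cl] [DecidableEq Cl] in
theorem Mdl.OK.slater (h : M.OK) {u : (Fin N → S × Bool) → ℝ} (ha : AntiC u) (hu : M.GS u) :
    qf (M.Ho N) u = M.C0 * (u ⬝ᵥ u) + qf (M.Qa N) u := by
  have hm : ∀ p : S × Bool, p ∈ M.core ×ˢ (univ : Finset Bool) ↔ M.lev p.1 = 0 := fun p => by
    simp [Mdl.core]
  have hd : ∀ p ∈ M.core ×ˢ (univ : Finset Bool), ¬ M.lev p.1 = 1 := fun p hp => by
    rw [(hm p).1 hp]
    exact zero_ne_one
  have hu' : ∀ k, u k ≠ 0 → Function.Injective k ∧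
      (∀ p ∈ M.core ×ˢ (univ : Finset Bool), ∃ i, k i = p) ∧
      ∀ i, k i ∈ M.core ×ˢ (univ : Finset Bool) ∨ M.lev (k i).1 = 1 := fun k hk =>
    ⟨(hu k hk).1, fun p hp => (hu k hk).2.1 p ((hm p).1 hp), fun i => by
      have := (hu k hk).2.2 i
      rw [hm]
      omega⟩
  have hr : ∀ A, rs (fun a : S × Bool => M.lev a.1 = 1) (sp A) = sp (M.act A) := fun A => by
    ext a b
    simp only [rs, sp, Mdl.act, of_apply]
    split_ifs <;> rfl
  set G : S → S → Matrix (S × Bool) (S × Bool) ℝ := fun x y =>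
    mf (M.core ×ˢ univ) (fun a => M.lev a.1 = 1) (sp (dens M.U x)) (sp (dens M.U y)) with hG
  have e1 : sp (M.act M.Fm) = sp (M.act M.To) + ∑ x, ∑ y, M.w x y • G x y := by
    ext ⟨o, s⟩ ⟨o', s'⟩
    simp only [hG, mf, Matrix.add_apply, Matrix.sum_apply, Matrix.smul_apply, rs, sp, Mdl.act,
      Mdl.Fm, dens, of_apply, smul_eq_mul, sum_product, Fintype.sum_bool, if_true]
    by_cases h1 : M.lev o = 1 ∧ M.lev o' = 1
    · simp only [if_pos h1, Finset.mul_sum]
      rw [sum_comm (s := M.core), sum_congr rfl fun x _ => sum_comm (s := M.core)]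
      cases s <;> cases s' <;> simp only [Bool.false_eq_true, Bool.true_eq_false, if_false, if_true]
      · congr 1
        exact sum_congr rfl fun x _ => sum_congr rfl fun y _ => sum_congr rfl fun p _ => by ring
      · simp
      · simp
      · congr 1
        exact sum_congr rfl fun x _ => sum_congr rfl fun y _ => sum_congr rfl fun p _ => by ring
    · simp [if_neg h1]
  have e2 : ∑ x, ∑ y, M.w x y * s1 u (G y x) = ∑ x, ∑ y, M.w x y * s1 u (G x y) :=
    sum_comm.trans (sum_congr rfl fun x _ => sum_congr rfl fun y _ => by rw [h.w_symm])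
  have e3 : ∑ x, ∑ y, M.w x y * ∑ p ∈ M.core ×ˢ (univ : Finset Bool),
      ∑ q ∈ M.core ×ˢ (univ : Finset Bool), (sp (dens M.U x) p p * sp (dens M.U y) q q -
        sp (dens M.U x) p q * sp (dens M.U y) q p) = 2 * ∑ p ∈ M.core, ∑ q ∈ M.core, ∑ x, ∑ y,
      M.w x y * (2 * M.U p x ^ 2 * M.U q y ^ 2 - M.U p x * M.U q x * M.U p y * M.U q y) := by
    have sw : ∀ f : S → S → S → ℝ, ∑ p ∈ M.core, ∑ x, ∑ y, f p x y =
        ∑ x, ∑ y, ∑ p ∈ M.core, f p x y := fun f =>
      sum_comm.trans (sum_congr rfl fun x _ => sum_comm)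
    rw [sum_congr rfl fun p _ => sw _, sw]
    simp only [sum_product, Fintype.sum_bool, sp, dens, of_apply, ← sum_add_distrib, Finset.mul_sum,
      Bool.false_eq_true, Bool.true_eq_false, if_false, if_true]
    exact sum_congr rfl fun x _ => sum_congr rfl fun y _ => sum_congr rfl fun p _ =>
      sum_congr rfl fun q _ => by ring
  have e4 : ∑ p ∈ M.core ×ˢ (univ : Finset Bool), sp M.To p p = ∑ p ∈ M.core, 2 * M.To p p := by
    simp only [sum_product, Fintype.sum_bool, sp, of_apply, if_true, two_mul]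
  rw [Mdl.Ho, Mdl.Qa, qf_Hm, qf_Hm, s1_eq hd hu', e1, s1_add, s1_sum, hr, e4, Mdl.C0]
  simp only [s2_eq hd hu' ha (sp (dens M.U _)), hr, s1_sum, s1_smul, mul_add, sum_add_distrib,
    ← mul_assoc, ← Finset.sum_mul]
  rw [e2, e3]
  ring

end Vale.Agent.P370.Lat
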