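import Vale.Agent.P370.LatAlg

/-! Part M: positivity of one-slot and two-slot operators is checked on the fibres.
`(k, a) ↦ (update k i a, k i)` is an involution of `(ι → M) × M`, so
`card M * qf (one i A) v = ∑ k, qf A (fun a => v (update k i a))`; the same for two slots with
`(k, a, b) ↦ (update (update k i a) j b, k i, k j)` (`qf_one_eq`, `qf_two_eq`).  If `M` is empty then so is `ι → M`. -/

namespace Vale.Agent.P370.Lat

open Matrix Finset

variable {ι M : Type} [Fintype ι] [DecidableEq ι] [Fintype M] [DecidableEq M]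

omit [DecidableEq M] in
theorem latfib_swap (i : ι) (F : (ι → M) → M → ℝ) :
    ∑ k : ι → M, ∑ a, F (Function.update k i a) (k i) = ∑ k, ∑ a, F k a := by
  have h : Function.Involutive fun p : (ι → M) × M => (Function.update p.1 i p.2, p.1 i) :=
    fun p => by simp
  rw [← Fintype.sum_prod_type' fun k a => F (Function.update k i a) (k i),
    ← Fintype.sum_prod_type' F]
  exact Equiv.sum_comp h.toPerm fun p => F p.1 p.2

omit [DecidableEq M] in
theorem latfib_card (i : ι) (G : (ι → M) → ℝ) :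
    (Fintype.card M : ℝ) * ∑ k, G k = ∑ k : ι → M, ∑ a, G (Function.update k i a) := by
  rw [latfib_swap i fun k _ => G k, mul_sum]
  simp

theorem card_mul_qf_one (i : ι) (A : Matrix M M ℝ) (v : (ι → M) → ℝ) :
    (Fintype.card M : ℝ) * qf (one i A) v = ∑ k : ι → M, qf A fun a => v (Function.update k i a) := by
  rw [qf_one_eq, latfib_card i]
  simp only [qf_eq_sum, Function.update_self, Function.update_idem]

theorem card_mul_qf_two {i j : ι} (h : i ≠ j) (A B : Matrix M M ℝ) (v : (ι → M) → ℝ) :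
    (Fintype.card M : ℝ) ^ 2 * qf (one i A * one j B) v = ∑ k : ι → M, ∑ a, ∑ b, ∑ a', ∑ b',
      v (Function.update (Function.update k i a) j b) * A a a' * B b b' *
        v (Function.update (Function.update k i a') j b') := by
  rw [qf_two_eq h, sq, mul_assoc, latfib_card j, latfib_card i]
  refine sum_congr rfl fun k _ => sum_congr rfl fun a _ => sum_congr rfl fun b _ =>
    sum_congr rfl fun a' _ => sum_congr rfl fun b' _ => ?_
  simp only [Function.update_self, Function.update_of_ne h, Function.update_comm h.symm,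
    Function.update_idem]

omit [DecidableEq M] [DecidableEq ι] [Fintype ι] in
theorem latfib_pos (i : ι) {x : ℝ} (h0 : IsEmpty (ι → M) → 0 ≤ x)
    (h : 0 ≤ (Fintype.card M : ℝ) * x) : 0 ≤ x := by
  rcases isEmpty_or_nonempty M with hM | hM
  · exact h0 ⟨fun k => hM.false (k i)⟩
  · exact nonneg_of_mul_nonneg_right h (by exact_mod_cast Fintype.card_pos)

theorem one_ge (i : ι) {A : Matrix M M ℝ} (h : ∀ a, 0 ≤ qf A a) (v : (ι → M) → ℝ) :
    0 ≤ qf (one i A) v := by
  refine latfib_pos (M := M) i (fun _ => by simp [qf, dotProduct]) ?_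
  rw [card_mul_qf_one]
  exact sum_nonneg fun k _ => h _

theorem one_le (i : ι) {A : Matrix M M ℝ} {t : ℝ} (h : ∀ a, qf A a ≤ t * (a ⬝ᵥ a))
    (v : (ι → M) → ℝ) : qf (one i A) v ≤ t * (v ⬝ᵥ v) := by
  have := one_ge i (A := t • 1 - A) (fun a => by
    rw [qf_sub, qf_smul, qf_one]; exact sub_nonneg.2 (h a)) v
  rwa [one_sub, one_smul', one_id, qf_sub, qf_smul, qf_one, sub_nonneg] at this

theorem two_ge {i j : ι} (hij : i ≠ j) {α : Type} (s : Finset α) (c : α → ℝ)
    (A B : α → Matrix M M ℝ)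
    (h : ∀ g : M → M → ℝ, 0 ≤ ∑ t ∈ s, c t * ∑ a, ∑ b, ∑ a', ∑ b',
      g a b * A t a a' * B t b b' * g a' b') (v : (ι → M) → ℝ) :
    0 ≤ ∑ t ∈ s, c t * qf (one i (A t) * one j (B t)) v := by
  have h0 : IsEmpty (ι → M) → ∑ t ∈ s, c t * qf (one i (A t) * one j (B t)) v = 0 :=
    fun _ => by simp [qf, dotProduct]
  refine latfib_pos (M := M) i (fun e => (h0 e).ge)
    (latfib_pos (M := M) i (fun e => by rw [h0 e, mul_zero]) ?_)
  rw [← mul_assoc, ← sq, mul_sum,
    sum_congr rfl fun t _ => by rw [mul_left_comm, card_mul_qf_two hij, mul_sum], sum_comm]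
  exact sum_nonneg fun k _ => h fun a b => v (Function.update (Function.update k i a) j b)

/-- a positive form does not lose much under a perturbation of the vector -/
theorem qf_add_ge {K : Type} [Fintype K] {A : Matrix K K ℝ} (h : ∀ v, 0 ≤ qf A v) {t : ℝ}
    (ht : 0 < t) (u r : K → ℝ) : (1 - t) * qf A u - qf A r / t ≤ qf A (u + r) := by
  have e : ∀ u r : K → ℝ, qf A (u + r) = qf A u + (u ⬝ᵥ A *ᵥ r + r ⬝ᵥ A *ᵥ u) + qf A r := by
    intro u r
    simp only [qf, mulVec_add, dotProduct_add, add_dotProduct]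
    ring
  have h1 := h (t • u + r)
  rw [e, qf_smul_vec, smul_dotProduct, mulVec_smul, dotProduct_smul, smul_eq_mul,
    smul_eq_mul] at h1
  have h2 : -(t * qf A u + (u ⬝ᵥ A *ᵥ r + r ⬝ᵥ A *ᵥ u)) ≤ qf A r / t := by
    rw [le_div_iff₀ ht]
    linarith
  rw [e]
  linarith [h r]

end Vale.Agent.P370.Lat
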