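import Vale.Agent.P370.LatMdl
import Vale.Agent.P370.LatFib

/-! Part M: counting levels and the projection estimate.
`Lo` is diagonal with entries `∑ i, lev (k i).1` (`sp_diagonal`, `one_diagonal`).  For injective `k` the number of slots with
level 0 is at most `2 * core.card` (`Finset.card_le_card_of_injOn`), with equality iff all core modes occur.
`AntiC d → d k ≠ 0 → Injective k` (swap).  `proj_lower`: `u = d` on good configurations and `0` else, `r = d - u`; `Good` is
invariant under permutations; `qf_add_ge` with `t = 2 s b / δ`; `u ⬝ᵥ r = 0`. -/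

namespace Vale.Agent.P370.Lat

open Matrix Finset

variable {S Cl : Type} [Fintype S] [DecidableEq S] [Fintype Cl] [DecidableEq Cl] {N : ℕ}

variable {M : Mdl S Cl} {n : ℕ}

theorem _root_.Vale.Agent.P370.AntiC.inj {d : (Fin N → S × Bool) → ℝ} (hd : AntiC d) {k : Fin N → S × Bool}
    (hk : d k ≠ 0) : Function.Injective k := by
  intro i j e
  by_contra hne
  have h1 := hd (Equiv.swap i j) k
  have h2 : k ∘ Equiv.swap i j = k := funext fun l => by
    rw [Function.comp_apply, Equiv.swap_apply_def]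
    split_ifs with h3 h4
    · rw [h3, e]
    · rw [h4, e]
    · rfl
  rw [h2, Equiv.Perm.sign_swap hne] at h1
  simp only [Units.val_neg, Units.val_one, Int.cast_neg, Int.cast_one] at h1
  exact hk (by linarith)

omit [Fintype Cl] [DecidableEq Cl] in
private theorem lev_zero {k : Fin N → S × Bool} (hk : Function.Injective k) :
    (univ.filter fun i => M.lev (k i).1 = 0).card ≤ 2 * M.core.card ∧
      ((univ.filter fun i => M.lev (k i).1 = 0).card = 2 * M.core.card ↔
        ∀ a, M.lev a.1 = 0 → ∃ i, k i = a) := by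
  have h1 : (univ.filter fun i => M.lev (k i).1 = 0).image k ⊆ M.core ×ˢ univ := by
    intro a ha
    obtain ⟨i, hi, rfl⟩ := mem_image.1 ha
    exact mem_product.2 ⟨mem_filter.2 ⟨mem_univ _, (mem_filter.1 hi).2⟩, mem_univ _⟩
  have h2 : (M.core ×ˢ (univ : Finset Bool)).card = 2 * M.core.card := by
    rw [card_product, card_univ, Fintype.card_bool, mul_comm]
  rw [← card_image_of_injective _ hk, ← h2]
  refine ⟨card_le_card h1, fun e a ha => ?_, fun e => congrArg card (h1.antisymm fun a ha => ?_)⟩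
  · have h3 : a ∈ M.core ×ˢ (univ : Finset Bool) :=
      mem_product.2 ⟨mem_filter.2 ⟨mem_univ _, ha⟩, mem_univ _⟩
    rw [← eq_of_subset_of_card_le h1 e.ge] at h3
    obtain ⟨i, -, hi⟩ := mem_image.1 h3
    exact ⟨i, hi⟩
  · have h3 := (mem_filter.1 (mem_product.1 ha).1).2
    obtain ⟨i, rfl⟩ := e a h3
    exact mem_image_of_mem _ (mem_filter.2 ⟨mem_univ _, h3⟩)

omit [Fintype S] [DecidableEq S] [Fintype Cl] [DecidableEq Cl] in
private theorem lev_split (k : Fin N → S × Bool) :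
    (univ.filter fun i => M.lev (k i).1 = 0).card +
      (univ.filter fun i => ¬ M.lev (k i).1 = 0).card = N := by
  rw [card_filter_add_card_filter_not, card_univ, Fintype.card_fin]

omit [Fintype Cl] [DecidableEq Cl] in
theorem Mdl.Good.card_act (hN : N = 2 * M.core.card + n) {k : Fin N → S × Bool} (hk : M.Good k) :
    (univ.filter fun i => M.lev (k i).1 = 1).card = n := by
  have h1 := (lev_zero (M := M) hk.1).2.2 hk.2.1
  have h2 := lev_split (M := M) k
  have h3 : (univ.filter fun i => M.lev (k i).1 = 1) = univ.filter fun i => ¬ M.lev (k i).1 = 0 :=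
    filter_congr fun i _ => by
      have := hk.2.2 i
      omega
  rw [h3]
  omega

omit [Fintype Cl] [DecidableEq Cl] in
theorem Mdl.lev_ge (hN : N = 2 * M.core.card + n) {k : Fin N → S × Bool}
    (hk : Function.Injective k) (hg : ¬ M.Good k) : n + 1 ≤ ∑ i, M.lev (k i).1 := by
  obtain ⟨h1, h2⟩ := lev_zero (M := M) hk
  have h3 := lev_split (M := M) k
  have h4 : ∀ i ∈ (univ : Finset (Fin N)),
      (if ¬ M.lev (k i).1 = 0 then 1 else 0) ≤ M.lev (k i).1 := fun i _ => by
    split_ifs <;> omega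
  rw [card_filter (fun i => ¬ M.lev (k i).1 = 0)] at h3
  by_cases h5 : ∀ a, M.lev a.1 = 0 → ∃ i, k i = a
  · obtain ⟨i, hi⟩ := not_forall.1 fun h6 => hg ⟨hk, h5, h6⟩
    have h6 := sum_lt_sum h4 ⟨i, mem_univ _, by split_ifs <;> omega⟩
    omega
  · have h6 := sum_le_sum h4
    have h7 := mt h2.1 h5
    omega

omit [Fintype Cl] [DecidableEq Cl] in
private theorem lev_Lo (u : (Fin N → S × Bool) → ℝ) :
    qf (M.Lo N) u = ∑ k, ((∑ i, M.lev (k i).1 : ℕ) : ℝ) * u k ^ 2 := by
  rw [Mdl.Lo, ob, qf_sum, sp_diagonal]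
  simp only [one_diagonal, qf_diagonal, Nat.cast_sum, sum_mul]
  exact sum_comm

omit [Fintype Cl] [DecidableEq Cl] in
private theorem lev_good (hN : N = 2 * M.core.card + n) {k : Fin N → S × Bool} (hk : M.Good k) :
    ∑ i, M.lev (k i).1 = n := by
  rw [← hk.card_act hN, card_filter]
  refine sum_congr rfl fun i _ => ?_
  have := hk.2.2 i
  split_ifs <;> omega

omit [Fintype Cl] [DecidableEq Cl] in
theorem Mdl.GS.qf_Lo (hN : N = 2 * M.core.card + n) {u : (Fin N → S × Bool) → ℝ} (hu : M.GS u) :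
    qf (M.Lo N) u = n * (u ⬝ᵥ u) := by
  rw [lev_Lo, dot_self_eq, mul_sum]
  refine sum_congr rfl fun k _ => ?_
  by_cases h : u k = 0
  · rw [h]
    simp
  · rw [lev_good hN (hu k h)]

omit [Fintype S] [DecidableEq S] [Fintype Cl] [DecidableEq Cl] in
private theorem lev_perm {k : Fin N → S × Bool} (π : Equiv.Perm (Fin N)) :
    M.Good (k ∘ π) ↔ M.Good k := by
  refine and_congr (π.injective_comp k) (and_congr (forall₂_congr fun a _ => ?_) ?_)
  · exact π.exists_congr_left.trans (by simp)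
  · exact π.forall_congr_left.trans (by simp)

omit [Fintype Cl] [DecidableEq Cl] in
theorem Mdl.proj_lower (hN : N = 2 * M.core.card + n)
    {V : Matrix (Fin N → S × Bool) (Fin N → S × Bool) ℝ} {δ s b lam : ℝ} (hδ : 0 < δ) (hs : 0 < s)
    (hb : 0 < b) (hV : ∀ d, 0 ≤ qf V d ∧ qf V d ≤ b * (d ⬝ᵥ d)) (hl : s * lam ≤ δ / 2)
    (hu : ∀ u, AntiC u → M.GS u → lam * (u ⬝ᵥ u) ≤ qf V u) {d : (Fin N → S × Bool) → ℝ}
    (hd : AntiC d) :
    (δ * n + s * lam - 2 * s ^ 2 * b ^ 2 / δ) * (d ⬝ᵥ d) ≤ δ * qf (M.Lo N) d + s * qf V d := by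
  classical
  obtain ⟨u, eu⟩ : ∃ u : (Fin N → S × Bool) → ℝ, ∀ k, u k = if M.Good k then d k else 0 :=
    ⟨_, fun _ => rfl⟩
  obtain ⟨r, er⟩ : ∃ r : (Fin N → S × Bool) → ℝ, ∀ k, r k = if M.Good k then 0 else d k :=
    ⟨_, fun _ => rfl⟩
  have h1 : u + r = d := funext fun k => by
    rw [Pi.add_apply, eu, er]
    split_ifs <;> simp
  have h2 : d ⬝ᵥ d = u ⬝ᵥ u + r ⬝ᵥ r := by
    rw [dot_self_eq, dot_self_eq, dot_self_eq, ← sum_add_distrib]
    refine sum_congr rfl fun k _ => ?_
    rw [eu, er]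
    split_ifs <;> simp
  have h3 : n * (u ⬝ᵥ u) + (n + 1) * (r ⬝ᵥ r) ≤ qf (M.Lo N) d := by
    rw [lev_Lo, dot_self_eq, dot_self_eq, mul_sum, mul_sum, ← sum_add_distrib]
    refine sum_le_sum fun k _ => ?_
    rw [eu, er]
    split_ifs with h
    · rw [lev_good hN h]
      simp
    · by_cases h0 : d k = 0
      · rw [h0]
        simp
      · have h4 : ((n + 1 : ℕ) : ℝ) ≤ ((∑ i, M.lev (k i).1 : ℕ) : ℝ) :=
          Nat.cast_le.2 (Mdl.lev_ge hN (hd.inj h0) h)
        rw [Nat.cast_succ] at h4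
        simpa using mul_le_mul_of_nonneg_right h4 (sq_nonneg (d k))
  have h4 := hu u (fun π k => by
    rw [eu, eu, if_congr (lev_perm π) rfl rfl, hd]
    split_ifs <;> simp) fun k hk => by
    by_contra hg
    exact hk (by rw [eu, if_neg hg])
  have ht : 0 < 2 * s * b / δ := by positivity
  have h5 := qf_add_ge (fun v => (hV v).1) ht u r
  have h6 := (hV u).2
  have h7 := (hV r).2
  have h8 := dot_self_nonneg r
  rw [h1] at h5
  rw [h2]
  generalize u ⬝ᵥ u = x at *
  generalize r ⬝ᵥ r = y at *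
  have a1 := mul_le_mul_of_nonneg_left h3 hδ.le
  have a2 := mul_le_mul_of_nonneg_left h5 hs.le
  have a3 := mul_le_mul_of_nonneg_left h4 hs.le
  have a4 : s * (2 * s * b / δ * qf V u) ≤ 2 * s ^ 2 * b ^ 2 / δ * x :=
    (mul_le_mul_of_nonneg_left (mul_le_mul_of_nonneg_left h6 ht.le) hs.le).trans_eq (by ring)
  have a5 : s * (qf V r / (2 * s * b / δ)) ≤ δ / 2 * y :=
    (mul_le_mul_of_nonneg_left (div_le_div_of_nonneg_right h7 ht.le) hs.le).trans_eq
      (by field_simp)
  have a6 := mul_le_mul_of_nonneg_right hl h8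
  have a7 : 0 ≤ 2 * s ^ 2 * b ^ 2 / δ * y := by positivity
  linarith

end Vale.Agent.P370.Lat
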