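import Vale.Agent.P370.LatSec2
import Vale.Agent.P370.LatLev

/-! Part M: lower and upper bound for the active Hamiltonian.
`pt` keeps `lev`, `cl` and fixes non-active modes, so `Sgl` only depends on the pattern.
`sec_lower`: `qf_cut`, `dot_cut`; for each `p` either `cut p u = 0`, or there is `k0` with pattern `p` and `u k0 ≠ 0`; then `single`
or `multi`.  `sec_upper`: choose `e : Fin N ≃ (core × Bool) ⊕ Cl` (`Fintype.equivOfCardEq`), `p0 i` = the core mode or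
`(ao c false, false)`; `p0` is injective.  `u k = ∑ π, if (pt ∘ k = p0 ∘ π) then sign π * v (bits k) else 0` (at most one term).
`bits (k ∘ π) = bits k`; a `k` with pattern `p0 ∘ π` is `Good` and `Sgl`; `u ∘ cfg = sign π • v` (`qf_smul_vec`). -/

namespace Vale.Agent.P370.Lat

open Matrix Finset

variable {S Cl : Type} [Fintype S] [DecidableEq S] [Fintype Cl] [DecidableEq Cl] {N : ℕ}

variable {M : Mdl S Cl}

section aux

omit [Fintype S] [DecidableEq S] [Fintype Cl] [DecidableEq Cl]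

private theorem s3_fix {a : S × Bool} (ha : M.lev a.1 ≠ 1) : M.pt a = a := if_neg ha

private theorem s3_lev (h1 : ∀ c β, M.lev (M.ao c β) = 1) (a : S × Bool) :
    M.lev (M.pt a).1 = M.lev a.1 := by
  by_cases ha : M.lev a.1 = 1
  · rw [Mdl.pt, if_pos ha, h1, ha]
  · rw [s3_fix ha]

private theorem s3_cl (h2 : ∀ c β, M.cl (M.ao c β) = c) (a : S × Bool) :
    M.cl (M.pt a).1 = M.cl a.1 := by
  by_cases ha : M.lev a.1 = 1
  · rw [Mdl.pt, if_pos ha, h2]
  · rw [s3_fix ha]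

private theorem s3_sgl (h1 : ∀ c β, M.lev (M.ao c β) = 1) (h2 : ∀ c β, M.cl (M.ao c β) = c)
    {k : Fin N → S × Bool} : M.Sgl (fun i => M.pt (k i)) ↔ M.Sgl k := by
  simp only [Mdl.Sgl, s3_lev h1, s3_cl h2]

private theorem s3_good (h1 : ∀ c β, M.lev (M.ao c β) = 1) {k : Fin N → S × Bool}
    (hk : M.Good fun i => M.pt (k i)) : M.Good k := by
  refine ⟨fun i j e => hk.1 (congrArg M.pt e), fun a ha => ?_, fun i => ?_⟩
  · obtain ⟨i, hi⟩ := hk.2.1 a ha
    have h3 := s3_lev h1 (k i)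
    rw [show M.pt (k i) = a from hi, ha] at h3
    exact ⟨i, (s3_fix (by omega)).symm.trans hi⟩
  · rw [← s3_lev h1]
    exact hk.2.2 i

private theorem s3_good_perm {p : Fin N → S × Bool} (hp : M.Good p) (π : Equiv.Perm (Fin N)) :
    M.Good (p ∘ π) := by
  refine ⟨hp.1.comp π.injective, fun a ha => ?_, fun i => hp.2.2 _⟩
  obtain ⟨i, hi⟩ := hp.2.1 a ha
  exact ⟨π.symm i, by rw [Function.comp_apply, π.apply_symm_apply, hi]⟩

private theorem s3_sgl_perm {p : Fin N → S × Bool} (hp : M.Sgl p) (π : Equiv.Perm (Fin N)) :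
    M.Sgl (p ∘ π) := fun _ _ a b c => π.injective (hp _ _ a b c)

end aux

omit [Fintype S] [Fintype Cl] [DecidableEq Cl] in
private theorem s3_bits (k : Fin N → S × Bool) (π : Equiv.Perm (Fin N)) :
    M.bits (k ∘ π) = M.bits k := by
  funext c
  refine decide_eq_decide.2 ⟨fun ⟨i, hi⟩ => ⟨π i, hi⟩, fun ⟨i, hi⟩ => ⟨π.symm i, ?_⟩⟩
  rw [Function.comp_apply, π.apply_symm_apply, hi]

omit [Fintype S] [Fintype Cl] [DecidableEq Cl] in
private theorem s3_cut {p k : Fin N → S × Bool} {u : (Fin N → S × Bool) → ℝ}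
    (hk : M.cut p u k ≠ 0) : (fun i => M.pt (k i)) = p ∧ u k ≠ 0 := by
  unfold Mdl.cut at hk
  split_ifs at hk with c
  exacts [⟨c, hk⟩, absurd rfl hk]

omit [DecidableEq Cl] in
private theorem s3_p0 (h : M.OK) (hN : N = 2 * M.core.card + Fintype.card Cl) :
    ∃ p : Fin N → S × Bool, M.Good p ∧ M.Sgl p ∧ ∀ i, M.pt (p i) = p i := by
  let e : Fin N ≃ (M.core × Bool) ⊕ Cl := Fintype.equivOfCardEq (by simp [hN, mul_comm])
  let g : (M.core × Bool) ⊕ Cl → S × Bool :=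
    Sum.elim (fun a => (a.1.1, a.2)) fun c => (M.ao c false, false)
  have l0 : ∀ a : M.core, M.lev a = 0 := fun a => (mem_filter.1 a.2).2
  have g1 : ∀ a, M.lev (g (.inl a)).1 = 0 := fun a => l0 a.1
  have g2 : ∀ c, M.lev (g (.inr c)).1 = 1 := fun c => h.lev_ao _ _
  have g3 : ∀ c, M.cl (g (.inr c)).1 = c := fun c => h.cl_ao _ _
  have gi : Function.Injective g := by
    rintro (a | c) (a' | c') e
    · exact congrArg Sum.inl (Prod.ext (Subtype.ext (congrArg Prod.fst e)) (Prod.ext_iff.1 e).2)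
    · exact absurd ((g1 a).symm.trans (e ▸ g2 c')) zero_ne_one
    · exact absurd ((g1 a').symm.trans (e ▸ g2 c)) zero_ne_one
    · rw [← g3 c, e, g3]
  refine ⟨g ∘ e, ⟨gi.comp e.injective, fun a ha => ?_, fun i => ?_⟩, fun i j => ?_, fun i => ?_⟩
  · refine ⟨e.symm (.inl (⟨a.1, mem_filter.2 ⟨mem_univ _, ha⟩⟩, a.2)), ?_⟩
    rw [Function.comp_apply, e.apply_symm_apply]
    rfl
  · rw [Function.comp_apply]
    rcases e i with a | c
    · exact (g1 a).le.trans zero_le_one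
    · exact (g2 c).le
  · rw [← e.injective.eq_iff, Function.comp_apply, Function.comp_apply]
    rcases e i with a | c
    · exact fun c => absurd ((g1 a).symm.trans c) zero_ne_one
    rcases e j with a' | c'
    · exact fun _ c => absurd ((g1 a').symm.trans c) zero_ne_one
    · intro _ _ e
      rw [← g3 c, e, g3]
  · rw [Function.comp_apply]
    rcases e i with a | c
    · exact s3_fix (by rw [g1]; exact zero_ne_one)
    · rw [Mdl.pt, if_pos (g2 c), g3]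
      rfl

theorem Mdl.OK.sec_lower (h : M.OK) (hN : N = 2 * M.core.card + Fintype.card Cl) {lam μ Uc : ℝ}
    (hU0 : 0 ≤ Uc) (hU : M.Hub Uc) (hf : ∀ c a, μ * (a ⬝ᵥ a) ≤ qf (M.f c) a)
    (hl : lam ≤ Fintype.card Cl * μ + Uc) (he : ∀ v, lam * (v ⬝ᵥ v) ≤ qf M.Heff v)
    {u : (Fin N → S × Bool) → ℝ} (hu : M.GS u) : lam * (u ⬝ᵥ u) ≤ qf (M.Qa N) u := by
  rw [M.dot_cut, h.qf_cut, Finset.mul_sum]
  refine Finset.sum_le_sum fun p _ => ?_
  by_cases c : ∃ k, M.cut p u k ≠ 0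
  · obtain ⟨k0, hk0⟩ := c
    obtain ⟨rfl, h0⟩ := s3_cut hk0
    by_cases hs : M.Sgl k0
    · obtain ⟨cfg, -, -, h1⟩ := h.single hs ((hu k0 h0).card_act hN)
      rw [(h1 u).1, (h1 u).2]
      exact he _
    · refine (mul_le_mul_of_nonneg_right hl (dot_self_nonneg _)).trans
        (h.multi hU0 hU hf (fun k hk => (hu k (s3_cut hk).2).card_act hN) fun k hk hk' => hs ?_)
      rw [← s3_sgl h.lev_ao h.cl_ao, ← (s3_cut hk).1, s3_sgl h.lev_ao h.cl_ao]
      exact hk'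
  · have h0 : M.cut p u = 0 := funext fun k => not_not.1 fun hk => c ⟨k, hk⟩
    simp [h0, qf]


theorem Mdl.OK.sec_upper (h : M.OK) (hN : N = 2 * M.core.card + Fintype.card Cl) {lam : ℝ}
    {v : (Cl → Bool) → ℝ} (hv : 0 < v ⬝ᵥ v) (he : qf M.Heff v ≤ lam * (v ⬝ᵥ v)) :
    ∃ u : (Fin N → S × Bool) → ℝ, AntiC u ∧ M.GS u ∧ 0 < u ⬝ᵥ u ∧
      qf (M.Qa N) u ≤ lam * (u ⬝ᵥ u) := by
  obtain ⟨p0, p1, p2, p3⟩ := s3_p0 h hN
  let u : (Fin N → S × Bool) → ℝ := fun k => ∑ π : Equiv.Perm (Fin N),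
    if (fun i => M.pt (k i)) = p0 ∘ π then ((Equiv.Perm.sign π : ℤ) : ℝ) * v (M.bits k) else 0
  have u1 : ∀ k, u k ≠ 0 → ∃ π : Equiv.Perm (Fin N), (fun i => M.pt (k i)) = p0 ∘ π := by
    intro k hk
    obtain ⟨π, -, hπ⟩ := Finset.exists_ne_zero_of_sum_ne_zero hk
    exact ⟨π, not_not.1 fun c => hπ (if_neg c)⟩
  have u2 : ∀ k (π : Equiv.Perm (Fin N)), (fun i => M.pt (k i)) = p0 ∘ π →
      u k = ((Equiv.Perm.sign π : ℤ) : ℝ) * v (M.bits k) := by
    intro k π hπ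
    refine (Finset.sum_eq_single π (fun σ _ hσ => if_neg fun c => hσ ?_)
      fun c => absurd (mem_univ _) c).trans (if_pos hπ)
    exact Equiv.ext fun i => p1.1 (congrFun (c.symm.trans hπ) i)
  have u3 : ∀ k (π : Equiv.Perm (Fin N)), (fun i => M.pt (k i)) = p0 ∘ π → M.Good k :=
    fun k π hπ => s3_good h.lev_ao (hπ ▸ s3_good_perm p1 π)
  have u4 : ∀ (k : Fin N → S × Bool) (π : Equiv.Perm (Fin N)), (fun i => M.pt (k i)) = p0 ∘ π →
      qf (M.Qa N) (M.cut (fun i => M.pt (k i)) u) = qf M.Heff v ∧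
        M.cut (fun i => M.pt (k i)) u ⬝ᵥ M.cut (fun i => M.pt (k i)) u = v ⬝ᵥ v := by
    intro k π hπ
    obtain ⟨cfg, c1, c2, c3⟩ := h.single
      ((s3_sgl h.lev_ao h.cl_ao).1 (hπ ▸ s3_sgl_perm p2 π)) ((u3 k π hπ).card_act hN)
    have e : (fun x => u (cfg x)) = ((Equiv.Perm.sign π : ℤ) : ℝ) • v := funext fun x => by
      rw [u2 _ π ((funext (c1 x)).trans hπ), c2]
      rfl
    have e2 : ((Equiv.Perm.sign π : ℤ) : ℝ) ^ 2 = 1 := by
      rcases Int.units_eq_one_or (Equiv.Perm.sign π) with e | e <;> simp [e]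
    rw [(c3 u).1, (c3 u).2, e, qf_smul_vec, e2, one_mul, smul_dotProduct, dotProduct_smul,
      smul_smul, ← sq, e2, one_smul]
    exact ⟨rfl, rfl⟩
  refine ⟨u, fun σ k => ?_, fun k hk => ?_, ?_, ?_⟩
  · simp only [u]
    rw [← Equiv.sum_comp (Equiv.mulRight σ), Finset.mul_sum, s3_bits]
    refine Finset.sum_congr rfl fun π _ => ?_
    have e : ((fun i => M.pt ((k ∘ σ) i)) = p0 ∘ (Equiv.mulRight σ π)) ↔
        (fun i => M.pt (k i)) = p0 ∘ π :=
      σ.surjective.right_cancellable (g₁ := fun i => M.pt (k i)) (g₂ := p0 ∘ π)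
    rw [if_congr e rfl rfl, Equiv.coe_mulRight, Equiv.Perm.sign_mul]
    split_ifs
    · push_cast
      ring
    · rw [mul_zero]
  · obtain ⟨π, hπ⟩ := u1 k hk
    exact u3 k π hπ
  · rw [M.dot_cut]
    refine hv.trans_le ((u4 p0 1 (funext p3)).2.symm.trans_le ?_)
    exact Finset.single_le_sum (f := fun p => M.cut p u ⬝ᵥ M.cut p u)
      (fun _ _ => dot_self_nonneg _) (mem_univ _)
  · rw [M.dot_cut, h.qf_cut, Finset.mul_sum]
    refine Finset.sum_le_sum fun p _ => ?_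
    by_cases c : ∃ k, M.cut p u k ≠ 0
    · obtain ⟨k0, hk0⟩ := c
      obtain ⟨rfl, h0⟩ := s3_cut hk0
      obtain ⟨π, hπ⟩ := u1 k0 h0
      rw [(u4 k0 π hπ).1, (u4 k0 π hπ).2]
      exact he
    · have h0 : M.cut p u = 0 := funext fun k => not_not.1 fun hk => c ⟨k, hk⟩
      simp [h0, qf]


end Vale.Agent.P370.Lat
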