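import Vale.Agent.P370.LatForm
import Vale.Agent.P370.LatSC2
import Vale.Agent.P370.LatSec3

/-! Part M: the abstract simulation theorem. -/

namespace Vale.Agent.P370.Lat

open Matrix Finset

variable {S Cl : Type} [Fintype S] [DecidableEq S] [Fintype Cl] [DecidableEq Cl] {N : ℕ}

variable {M : Mdl S Cl}

theorem Mdl.OK.abs_lower (h : M.OK) (hN : N = 2 * M.core.card + Fintype.card Cl)
    {δ s b lam μ Uc : ℝ} (hδ : 0 < δ) (hs : 0 < s) (hb : 0 < b)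
    (hV : ∀ d, 0 ≤ qf (M.Ho N) d ∧ qf (M.Ho N) d ≤ b * (d ⬝ᵥ d))
    (hl : s * (M.C0 + lam) ≤ δ / 2) (hU0 : 0 ≤ Uc) (hU : M.Hub Uc)
    (hf : ∀ c a, μ * (a ⬝ᵥ a) ≤ qf (M.f c) a) (hl' : lam ≤ Fintype.card Cl * μ + Uc)
    (he : ∀ v, lam * (v ⬝ᵥ v) ≤ qf M.Heff v) {c : (Fin N → S × Bool) → ℝ} (hc : AntiC c) :
    (δ * Fintype.card Cl + s * (M.C0 + lam) - 2 * s ^ 2 * b ^ 2 / δ) * nsq c ≤
      Elat (fun x y => δ * M.T0 x y + s * M.T x y) M.w s c := by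
  obtain ⟨d, hd, rfl⟩ := h.exists_orb hc
  obtain ⟨h1, h2, h3⟩ := h.site_of_orb d
  rw [Elat_eq M.T h.w_symm, nsq_eq, h1, h2]
  refine le_of_le_of_eq (Mdl.proj_lower hN hδ hs hb hV hl (fun u hu hg => ?_) hd) ?_
  · rw [h.slater hu hg, add_mul]
    exact add_le_add_right (h.sec_lower hN hU0 hU hf hl' he hg) _
  · rw [← h3]
    rfl

theorem Mdl.OK.abs_upper (h : M.OK) (hN : N = 2 * M.core.card + Fintype.card Cl) (δ : ℝ)
    {s lam : ℝ} (hs : 0 ≤ s) {v : (Cl → Bool) → ℝ} (hv : 0 < v ⬝ᵥ v)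
    (he : qf M.Heff v ≤ lam * (v ⬝ᵥ v)) :
    ∃ c : (Fin N → S × Bool) → ℝ, AntiC c ∧ 0 < nsq c ∧
      Elat (fun x y => δ * M.T0 x y + s * M.T x y) M.w s c ≤
        (δ * Fintype.card Cl + s * (M.C0 + lam)) * nsq c := by
  obtain ⟨u, ha, hg, h0, hu⟩ := h.sec_upper hN hv he
  obtain ⟨h1, h2, h3⟩ := h.site_of_orb u
  refine ⟨_, antiC_tp (sp M.Uᵀ) ha, by rwa [nsq_eq, h1], ?_⟩
  rw [Elat_eq M.T h.w_symm, nsq_eq, h1, h2, hg.qf_Lo hN]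
  have h4 := h3.trans (h.slater ha hg)
  rw [Mdl.Hs] at h4
  rw [h4]
  nlinarith [mul_le_mul_of_nonneg_left hu hs]

end Vale.Agent.P370.Lat
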