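import Vale.Agent.P370.LatDefs

/-! Part M: operators acting on one slot of a configuration space. -/

namespace Vale.Agent.P370.Lat

open Matrix Finset

noncomputable section

/-- quadratic form of a matrix -/
def qf {K : Type} [Fintype K] (A : Matrix K K ℝ) (v : K → ℝ) : ℝ := v ⬝ᵥ A *ᵥ v

section qf

variable {K : Type} [Fintype K]

theorem qf_add (A B : Matrix K K ℝ) (v : K → ℝ) : qf (A + B) v = qf A v + qf B v := by
  simp only [qf, add_mulVec, dotProduct_add]

theorem qf_sub (A B : Matrix K K ℝ) (v : K → ℝ) : qf (A - B) v = qf A v - qf B v := by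
  simp only [qf, sub_mulVec, dotProduct_sub]

theorem qf_smul (c : ℝ) (A : Matrix K K ℝ) (v : K → ℝ) : qf (c • A) v = c * qf A v := by
  simp only [qf, smul_mulVec, dotProduct_smul, smul_eq_mul]

theorem qf_zero (v : K → ℝ) : qf (0 : Matrix K K ℝ) v = 0 := by simp [qf]

theorem qf_one [DecidableEq K] (v : K → ℝ) : qf (1 : Matrix K K ℝ) v = v ⬝ᵥ v := by simp [qf]

theorem qf_sum {α : Type} (s : Finset α) (A : α → Matrix K K ℝ) (v : K → ℝ) :
    qf (∑ a ∈ s, A a) v = ∑ a ∈ s, qf (A a) v := by
  simp only [qf, Matrix.sum_mulVec, dotProduct_sum]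

theorem qf_smul_vec (A : Matrix K K ℝ) (c : ℝ) (v : K → ℝ) : qf A (c • v) = c ^ 2 * qf A v := by
  simp only [qf, mulVec_smul, dotProduct_smul, smul_dotProduct, smul_eq_mul]
  ring

theorem qf_eq_sum (A : Matrix K K ℝ) (v : K → ℝ) : qf A v = ∑ k, ∑ k', v k * A k k' * v k' := by
  simp only [qf, dotProduct, mulVec, Finset.mul_sum, mul_assoc]

theorem qf_diagonal [DecidableEq K] (d v : K → ℝ) : qf (diagonal d) v = ∑ k, d k * v k ^ 2 := by
  simp only [qf, dotProduct, mulVec_diagonal]
  exact Finset.sum_congr rfl fun k _ => by ring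

theorem qf_conj {L : Type} [Fintype L] (J : Matrix K L ℝ) (A : Matrix K K ℝ) (v : L → ℝ) :
    qf A (J *ᵥ v) = qf (Jᵀ * A * J) v := by
  simp only [qf, ← mulVec_mulVec]
  rw [dotProduct_mulVec v Jᵀ, vecMul_transpose]

theorem qf_tmul {L : Type} [Fintype L] (B C : Matrix L K ℝ) (v : K → ℝ) :
    qf (Bᵀ * C) v = (B *ᵥ v) ⬝ᵥ (C *ᵥ v) := by
  simp only [qf, ← mulVec_mulVec]
  rw [dotProduct_mulVec v Bᵀ, vecMul_transpose]

theorem dot_self_nonneg (v : K → ℝ) : 0 ≤ v ⬝ᵥ v := Finset.sum_nonneg fun _ _ => mul_self_nonneg _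

theorem dot_self_eq (v : K → ℝ) : v ⬝ᵥ v = ∑ k, v k ^ 2 := by simp only [dotProduct, sq]

end qf

theorem nsq_eq {S : Type} [Fintype S] [DecidableEq S] {N : ℕ} (c : (Fin N → S × Bool) → ℝ) :
    nsq c = c ⬝ᵥ c := (dot_self_eq c).symm

variable {ι M : Type} [Fintype ι] [DecidableEq ι] [Fintype M] [DecidableEq M]

/-- tensor product of matrices -/
def tp (B : ι → Matrix M M ℝ) : Matrix (ι → M) (ι → M) ℝ :=
  Matrix.of fun k k' => ∏ l, B l (k l) (k' l)

/-- the matrix `A` acting on the slot `i` -/
def one (i : ι) (A : Matrix M M ℝ) : Matrix (ι → M) (ι → M) ℝ :=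
  tp (Function.update (fun _ => 1) i A)

/-- one-body operator -/
def ob (ι : Type) [Fintype ι] [DecidableEq ι] (A : Matrix M M ℝ) : Matrix (ι → M) (ι → M) ℝ :=
  ∑ i, one i A

/-- interaction of the slots `i` and `j` -/
def pair {S : Type} [Fintype S] (w : S → S → ℝ) (ρ : S → Matrix M M ℝ) (i j : ι) :
    Matrix (ι → M) (ι → M) ℝ :=
  ∑ x, ∑ y, w x y • (one i (ρ x) * one j (ρ y))

/-- many-body Hamiltonian -/
def Hm (ι : Type) [Fintype ι] [DecidableEq ι] {S : Type} [Fintype S] (T : Matrix M M ℝ)
    (w : S → S → ℝ) (ρ : S → Matrix M M ℝ) : Matrix (ι → M) (ι → M) ℝ :=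
  ob ι T + (1 / 2 : ℝ) • ∑ i, ∑ j ∈ univ.erase i, pair w ρ i j

/-- spin independent matrices -/
def sp {S : Type} (A : Matrix S S ℝ) : Matrix (S × Bool) (S × Bool) ℝ :=
  Matrix.of fun m m' => if m.2 = m'.2 then A m.1 m'.1 else 0

/-- the density at the site `x` in the basis given by the rows of `U` -/
def dens {S : Type} (U : Matrix S S ℝ) (x : S) : Matrix S S ℝ := Matrix.of fun o o' => U o x * U o' x

omit [DecidableEq M] in
theorem tp_mul (B C : ι → Matrix M M ℝ) : tp B * tp C = tp fun l => B l * C l := by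
  classical
  ext k k'
  simp only [tp, Matrix.mul_apply, Matrix.of_apply, ← Finset.prod_mul_distrib]
  rw [Finset.prod_univ_sum]
  rfl

omit [DecidableEq ι] [Fintype M] in
theorem tp_one : tp (fun _ : ι => (1 : Matrix M M ℝ)) = 1 := by
  classical
  ext k k'
  simp only [tp, Matrix.of_apply, Matrix.one_apply, Finset.prod_boole, Finset.mem_univ,
    forall_const, funext_iff]

omit [DecidableEq ι] [Fintype M] [DecidableEq M] in
theorem tp_transpose (B : ι → Matrix M M ℝ) : (tp B)ᵀ = tp fun l => (B l)ᵀ := rfl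

omit [Fintype M] in
theorem one_apply' (i : ι) (A : Matrix M M ℝ) (k k' : ι → M) :
    one i A k k' = if ∀ l, l ≠ i → k l = k' l then A (k i) (k' i) else 0 := by
  simp only [one, tp, Matrix.of_apply]
  rw [← Finset.mul_prod_erase _ _ (Finset.mem_univ i), Function.update_self,
    Finset.prod_congr rfl (g := fun l => if k l = k' l then 1 else 0) fun l hl => by
      rw [Function.update_of_ne (Finset.ne_of_mem_erase hl), Matrix.one_apply]]
  simp only [Finset.prod_boole, Finset.mem_erase, Finset.mem_univ, and_true, mul_ite, mul_one,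
    mul_zero]

theorem one_mulVec' (i : ι) (A : Matrix M M ℝ) (v : (ι → M) → ℝ) (k : ι → M) :
    (one i A *ᵥ v) k = ∑ a, A (k i) a * v (Function.update k i a) := by
  simp only [mulVec, dotProduct, one_apply']
  rw [← Finset.sum_fiberwise (s := univ) (g := fun k' : ι → M => k' i)]
  refine Finset.sum_congr rfl fun a _ => ?_
  rw [Finset.sum_eq_single (Function.update k i a)]
  · rw [if_pos fun l hl => (Function.update_of_ne hl _ _).symm, Function.update_self]
  · intro k' hk' hne
    rw [if_neg, zero_mul]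
    intro h
    refine hne (funext fun l => ?_)
    by_cases hl : l = i
    · rw [hl, Function.update_self]
      exact (Finset.mem_filter.1 hk').2
    · rw [Function.update_of_ne hl, h l hl]
  · intro h
    exact absurd (by simp) h

theorem one_mul_one (i : ι) (A B : Matrix M M ℝ) : one i A * one i B = one i (A * B) := by
  rw [one, one, tp_mul, one]
  congr 1
  funext l
  by_cases h : l = i
  · subst h; simp
  · simp [Function.update_of_ne h]

theorem one_comm {i j : ι} (h : i ≠ j) (A B : Matrix M M ℝ) :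
    one i A * one j B = one j B * one i A := by
  rw [one, one, tp_mul, tp_mul]
  congr 1
  funext l
  by_cases h1 : l = i
  · subst h1; simp [Function.update_of_ne h]
  · simp [Function.update_of_ne h1]

omit [Fintype M] in
theorem one_id (i : ι) : one i (1 : Matrix M M ℝ) = 1 := by
  rw [one, Function.update_eq_self, tp_one]

omit [Fintype M] in
theorem one_transpose (i : ι) (A : Matrix M M ℝ) : (one i A)ᵀ = one i Aᵀ := by
  rw [one, one, tp_transpose]
  congr 1
  funext l
  by_cases h : l = i
  · subst h; simp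
  · simp [Function.update_of_ne h]

omit [Fintype M] in
theorem one_add (i : ι) (A B : Matrix M M ℝ) : one i (A + B) = one i A + one i B := by
  ext k k'
  simp only [one_apply', Matrix.add_apply]
  split_ifs <;> simp

omit [Fintype M] in
theorem one_smul' (i : ι) (c : ℝ) (A : Matrix M M ℝ) : one i (c • A) = c • one i A := by
  ext k k'
  simp only [one_apply', Matrix.smul_apply]
  split_ifs <;> simp

omit [Fintype M] in
theorem one_zero (i : ι) : one i (0 : Matrix M M ℝ) = 0 := by
  ext k k'
  simp [one_apply']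

omit [Fintype M] in
theorem one_sub (i : ι) (A B : Matrix M M ℝ) : one i (A - B) = one i A - one i B := by
  ext k k'
  simp only [one_apply', Matrix.sub_apply]
  split_ifs <;> simp

omit [Fintype M] in
theorem one_sum {α : Type} (i : ι) (s : Finset α) (A : α → Matrix M M ℝ) :
    one i (∑ a ∈ s, A a) = ∑ a ∈ s, one i (A a) := by
  classical
  induction s using Finset.induction_on with
  | empty => simp [one_zero]
  | insert a s ha ih => rw [Finset.sum_insert ha, Finset.sum_insert ha, one_add, ih]

omit [Fintype M] in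
theorem one_diagonal (i : ι) (d : M → ℝ) : one i (diagonal d) = diagonal fun k => d (k i) := by
  ext k k'
  rw [one_apply', diagonal_apply, diagonal_apply]
  by_cases h : k = k'
  · simp [h]
  · rw [if_neg h]
    split_ifs with h1 h2
    · exact absurd (funext fun l => if hl : l = i then hl ▸ h2 else h1 l hl) h
    · rfl
    · rfl

theorem qf_one_eq (i : ι) (A : Matrix M M ℝ) (v : (ι → M) → ℝ) :
    qf (one i A) v = ∑ k, ∑ a, v k * A (k i) a * v (Function.update k i a) := by
  simp only [qf, dotProduct, one_mulVec', Finset.mul_sum, mul_assoc]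

theorem qf_two_eq {i j : ι} (h : i ≠ j) (A B : Matrix M M ℝ) (v : (ι → M) → ℝ) :
    qf (one i A * one j B) v = ∑ k, ∑ a, ∑ b,
      v k * A (k i) a * B (k j) b * v (Function.update (Function.update k i a) j b) := by
  simp only [qf, ← mulVec_mulVec, dotProduct, one_mulVec', Finset.mul_sum, mul_assoc,
    Function.update_of_ne h.symm]

section sp

variable {S : Type}

theorem sp_mul [Fintype S] (A B : Matrix S S ℝ) : sp A * sp B = sp (A * B) := by
  ext ⟨a, s⟩ ⟨b, t⟩
  simp only [sp, Matrix.mul_apply, Matrix.of_apply, Fintype.sum_prod_type]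
  cases s <;> cases t <;> simp

theorem sp_transpose (A : Matrix S S ℝ) : (sp A)ᵀ = sp Aᵀ := by
  ext ⟨a, s⟩ ⟨b, t⟩
  simp only [sp, Matrix.transpose_apply, Matrix.of_apply, eq_comm]

theorem sp_diagonal [DecidableEq S] (d : S → ℝ) : sp (diagonal d) = diagonal fun m => d m.1 := by
  ext ⟨a, s⟩ ⟨b, t⟩
  simp only [sp, Matrix.of_apply, diagonal_apply, Prod.mk.injEq]
  by_cases h1 : a = b <;> by_cases h2 : s = t <;> simp [h1, h2]

theorem sp_one [DecidableEq S] : sp (1 : Matrix S S ℝ) = 1 := sp_diagonal fun _ => 1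

theorem sp_add (A B : Matrix S S ℝ) : sp (A + B) = sp A + sp B := by
  ext m m'
  simp only [sp, Matrix.of_apply, Matrix.add_apply]
  split_ifs <;> simp

theorem sp_smul (c : ℝ) (A : Matrix S S ℝ) : sp (c • A) = c • sp A := by
  ext m m'
  simp only [sp, Matrix.of_apply, Matrix.smul_apply]
  split_ifs <;> simp

theorem qf_sp [Fintype S] (A : Matrix S S ℝ) (v : S × Bool → ℝ) :
    qf (sp A) v = ∑ s : Bool, qf A fun a => v (a, s) := by
  simp only [qf_eq_sum, sp, Matrix.of_apply, Fintype.sum_prod_type, Fintype.sum_bool]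
  simp [Finset.sum_add_distrib]

end sp

end

end Vale.Agent.P370.Lat
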