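import Vale.Agent.P370.LHDefs

/-! The finite fermionic lattice model attached to a 2-local Hamiltonian. -/

namespace Vale.Agent.P370

section generic

variable {S : Type} [Fintype S] [DecidableEq S] {N : ℕ}

/-- Antisymmetric coefficient vectors (site and spin of every electron). -/
def AntiC (c : (Fin N → S × Bool) → ℝ) : Prop :=
  ∀ (π : Equiv.Perm (Fin N)) (k : Fin N → S × Bool),
    c (k ∘ π) = ((Equiv.Perm.sign π : ℤ) : ℝ) * c k

def nsq (c : (Fin N → S × Bool) → ℝ) : ℝ := ∑ k, c k ^ 2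

/-- Hopping matrix `T`, density-density interaction `s * w`. -/
def Elat (T w : S → S → ℝ) (s : ℝ) (c : (Fin N → S × Bool) → ℝ) : ℝ :=
  ∑ i, ∑ k, ∑ a, c k * T (k i).1 a * c (Function.update k i (a, (k i).2)) +
    s * ∑ k, (∑ i, ∑ j, if i < j then w (k i).1 (k j).1 else 0) * c k ^ 2

end generic

/-- Sites: `3 × 3` sites for every qubit, two sites (`false` = left half) for every 2-body term. -/
abbrev Site (H : LH) : Type := (Fin H.nq × Fin 3 × Fin 3) ⊕ (Fin H.two.length × Bool)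

/-- Number of electrons. -/
def LH.Nel (H : LH) : ℕ := 3 * H.nq + H.two.length

/-- Numerical parameters of the lattice model. -/
structure MP : Type where
  P : ℚ
  δ : ℚ
  s : ℚ
  u : ℚ
  y : ℕ → ℚ
  dt : ℕ → ℚ

structure MP.OK (m : MP) (H : LH) : Prop where
  P30 : 2 ^ 30 ≤ m.P
  Psz : 8 * (H.nq + H.one.length + H.two.length + H.bd + 4 : ℚ) ≤ m.P
  s_pos : 0 < m.s
  δ_ge : m.s * m.P ^ 62 ≤ m.δ
  u_ge : 1 ≤ m.u
  u_le : m.u ≤ m.P
  y_bd : ∀ e < H.two.length, m.P ^ 49 ≤ m.y e ∧ m.y e ≤ 2 * m.P ^ 49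
  dt_bd : ∀ e < H.two.length, m.P ^ 30 ≤ m.dt e ∧ m.dt e ≤ m.P ^ 39

def LH.term (H : LH) (e : ℕ) : (ℕ × Bool) × (ℕ × Bool) × ℚ :=
  H.two.getD e ((0, false), (0, false), 0)

/-- number of dots in a qubit site -/
def LH.K (H : LH) : ℕ := H.two.length + 2

def ac (p : Bool) : ℚ := if p then 1 / 6 else -1 / 12
def cc (p : Bool) : ℚ := if p then 7 / 18 else 11 / 36
def acol (p : Bool) : ℕ := if p then 2 else 1

/-- both contacts of the wire lie in its left half -/
def LH.same (H : LH) (e : ℕ) : Bool :=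
  decide ((H.term e).2.2 * ac (H.term e).1.2 * ac (H.term e).2.1.2 < 0)

def LH.sg (H : LH) (e : ℕ) : ℚ := if H.same e then 1 else -1

def E1 (P : ℚ) : ℚ := 1 / P ^ 55

def jj (H : LH) (y : ℕ → ℚ) (e : ℕ) : ℚ := 1 / (3 * H.K * y e)

def o0 (H : LH) (y : ℕ → ℚ) (e : ℕ) : ℚ :=
  jj H y e / 2 * (cc (H.term e).1.2 + H.sg e * cc (H.term e).2.1.2)

def o1 (H : LH) (y : ℕ → ℚ) (e : ℕ) : ℚ := jj H y e / 2 * ac (H.term e).1.2

def o2 (H : LH) (y : ℕ → ℚ) (e : ℕ) : ℚ := H.sg e * (jj H y e / 2 * ac (H.term e).2.1.2)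

def Del (H : LH) (P : ℚ) (y : ℕ → ℚ) (e : ℕ) : ℚ :=
  2 * |o1 H y e * o2 H y e| / (E1 P * |(H.term e).2.2|)

def LH.hone (H : LH) (a : ℕ × Bool) : ℚ := (H.one.map fun t => if t.1 = a then t.2 else 0).sum

def phi (H : LH) (P : ℚ) (y : ℕ → ℚ) (a : ℕ × Bool) : ℚ :=
  E1 P * H.hone a - ((List.range H.two.length).map fun e =>
    (if (H.term e).1 = a then jj H y e / 2 * ac a.2 - 2 * o0 H y e * o1 H y e / Del H P y e
      else 0) +
    (if (H.term e).2.1 = a then jj H y e / 2 * ac a.2 - 2 * o0 H y e * o2 H y e / Del H P y e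
      else 0)).sum

def w0 (H : LH) (P : ℚ) : ℚ := 1 / ((H.K : ℚ) ^ 2 * P ^ 30)

def ex (H : LH) (P : ℚ) (y : ℕ → ℚ) (q : ℕ) : ℚ := 6 * phi H P y (q, true)

def ez (H : LH) (P : ℚ) (y : ℕ → ℚ) (q : ℕ) : ℚ := 2 * w0 H P / 9 - 6 * phi H P y (q, false)

def e0q (H : LH) (P u : ℚ) (y : ℕ → ℚ) (q : ℕ) : ℚ :=
  P - ez H P y q / 6 - ex H P y q / 6 - u / (9 * H.K) - 2 * w0 H P / 9 + w0 H P / 27

/-- on-site energy of the site `(a, b)` of qubit `q`, in units of `s` -/
def epsh (H : LH) (P u : ℚ) (y : ℕ → ℚ) (q a b : ℕ) : ℚ :=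
  e0q H P u y q + (if a = 1 then ez H P y q else 0) + (if a = 2 ∧ b = 2 then ex H P y q else 0)

def Cst (H : LH) (P u : ℚ) (y : ℕ → ℚ) : ℚ :=
  ((List.range H.nq).map fun q =>
    2 * (e0q H P u y q + ez H P y q / 3 + ex H P y q / 9) +
      (9 * u / H.K + 12 * w0 H P) / 81).sum +
  P * (H.nq + H.two.length) +
  ((List.range H.two.length).map fun e =>
    jj H y e / 2 * (cc (H.term e).1.2 + cc (H.term e).2.1.2) -
      (o0 H y e ^ 2 + o1 H y e ^ 2 + o2 H y e ^ 2) / Del H P y e).sum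

/-- the reference level -/
def lvl (H : LH) (m : MP) : ℚ := m.δ * (H.nq + H.two.length) + m.s * Cst H m.P m.u m.y

/-- Laplacian of the path with three vertices -/
def lap3 (a a' : ℕ) : ℚ :=
  if a = a' then (if a = 1 then 2 else 1) else if a + 1 = a' ∨ a' + 1 = a then -1 else 0

/-- on-site energies -/
def epsS (H : LH) (m : MP) : Site H → ℚ
  | .inl (q, a, b) => m.s * epsh H m.P m.u m.y q a b
  | .inr _ => m.δ + m.s * m.P

/-- hopping part -/
def hop (H : LH) (m : MP) : Site H → Site H → ℚ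
  | .inl (q, a, b), .inl (q', a', b') =>
      if q = q' then m.δ * ((if b = b' then lap3 a a' else 0) + (if a = a' then lap3 b b' else 0))
      else 0
  | .inr (e, σ), .inr (e', σ') =>
      if e = e' then (if σ = σ' then 1 else -1) * (m.s * Del H m.P m.y e / 2) else 0
  | _, _ => 0

/-- the one-body matrix -/
def Tm (H : LH) (m : MP) (a a' : Site H) : ℝ :=
  ((hop H m a a' + if a = a' then epsS H m a else 0 : ℚ) : ℝ)

/-- coupling of the site `(a, b)` of qubit `q` to the half `σ` of wire `e` -/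
def contact (H : LH) (y : ℕ → ℚ) (q a b e : ℕ) (σ : Bool) : ℚ :=
  if b = 2 then jj H y e *
    ((if q = (H.term e).1.1 ∧ a = acol (H.term e).1.2 ∧ σ = false then 1 else 0) +
     (if q = (H.term e).2.1.1 ∧ a = acol (H.term e).2.1.2 ∧ σ = !H.same e then 1 else 0))
  else 0

/-- nominal interaction -/
def wnom (H : LH) (m : MP) : Site H → Site H → ℚ
  | .inl (q, a, b), .inl (q', a', b') =>
      if q = q' ∧ b = b' then
        (if a = a' then m.u / H.K else if a.val + 1 = a' ∨ a'.val + 1 = a then w0 H m.P else 0)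
      else 0
  | .inr (e, σ), .inr (e', σ') =>
      if e = e' then (if σ = σ' then m.u / 3 else 1 / (9 * m.dt e)) else 0
  | .inl (q, a, b), .inr (e, σ) => contact H m.y q a b e σ
  | .inr (e, σ), .inl (q, a, b) => contact H m.y q a b e σ

end Vale.Agent.P370
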