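import Vale.Agent.P370.LatF

/-! Part M: the effective Hamiltonian of the concrete model is a mediator Hamiltonian.
`Heff_eq`: only qubit-wire pairs contribute to the interaction, both orders give the same (`one_comm`), so it equals
`∑ e, jj • (one q1 (R (q1, acol p1, 2)) * one e (R (e, false)) + one q2 (R (q2, acol p2, 2)) * one e (R (e, !same)))`; insert
LatF, `one_add`, `one_smul'`, `one_id`, and compare (`module` / `noncomm_ring` after `mul_add`, `smul_mul_assoc`).
`qf_Heff`: sums over `Clu H → Bool` split by `Equiv.sumArrowEquivProdArrow`; `(pc H a *ᵥ v) (Sum.elim x z) = (pq a *ᵥ V z) x`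
(`one_mulVec'`, `Function.update` of `Sum.elim`), hence the same for `Agen`, `Ogen`. -/

namespace Vale.Agent.P370.Lat

open Matrix Finset

variable {H : LH} {m : MP}

theorem eff_contact {e : ℕ} {q1 q2 : Fin H.nq} {a1 a2 : Fin 3} (h1 : q1.val = (H.term e).1.1)
    (h2 : q2.val = (H.term e).2.1.1) (h3 : a1.val = acol (H.term e).1.2)
    (h4 : a2.val = acol (H.term e).2.1.2) (x : Fin H.nq × Fin 3 × Fin 3) (σ : Bool) :
    (contact H m.y x.1 x.2.1 x.2.2 e σ : ℝ) =
      (if (x, σ) = ((q1, a1, 2), false) then (jj H m.y e : ℝ) else 0) +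
      (if (x, σ) = ((q2, a2, 2), !H.same e) then (jj H m.y e : ℝ) else 0) := by
  obtain ⟨q, a, b⟩ := x
  have hb : b.val = 2 ↔ b = 2 := ⟨fun h => Fin.ext h, fun h => by rw [h]; rfl⟩
  simp only [contact, ← h1, ← h2, ← h3, ← h4, Fin.val_inj, hb, Prod.mk.injEq]
  by_cases h : b = 2
  · simp only [h, if_true, and_true, and_assoc]
    split_ifs <;> push_cast <;> ring
  · simp [h]

theorem eff_contact_sum {Mt : Type} [AddCommGroup Mt] [Module ℝ Mt] {e : ℕ} {q1 q2 : Fin H.nq}
    {a1 a2 : Fin 3} (h1 : q1.val = (H.term e).1.1)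
    (h2 : q2.val = (H.term e).2.1.1) (h3 : a1.val = acol (H.term e).1.2)
    (h4 : a2.val = acol (H.term e).2.1.2) (G : Fin H.nq × Fin 3 × Fin 3 → Bool → Mt) :
    ∑ x, ∑ σ, (contact H m.y x.1 x.2.1 x.2.2 e σ : ℝ) • G x σ =
      (jj H m.y e : ℝ) • G (q1, a1, 2) false + (jj H m.y e : ℝ) • G (q2, a2, 2) (!H.same e) := by
  rw [← Fintype.sum_prod_type']
  simp only [eff_contact h1 h2 h3 h4, add_smul, sum_add_distrib, ite_smul, zero_smul,
    Prod.mk.eta, sum_ite_eq', mem_univ, if_true]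

theorem eff_inter : ∑ x, ∑ y, (if (mdl H m).cl x = (mdl H m).cl y then 0 else (mdl H m).w x y) •
      (one ((mdl H m).cl x) ((mdl H m).R x) * one ((mdl H m).cl y) ((mdl H m).R y)) =
    (2 : ℝ) • ∑ e : Fin H.two.length, ∑ x : Fin H.nq × Fin 3 × Fin 3, ∑ σ,
      (contact H m.y x.1 x.2.1 x.2.2 e σ : ℝ) •
        (one (Sum.inl x.1 : Clu H) ((mdl H m).R (.inl x)) *
          one (Sum.inr e) ((mdl H m).R (.inr (e, σ)))) := by
  have z1 : ∀ x y : Fin H.nq × Fin 3 × Fin 3,
      (if (mdl H m).cl (.inl x) = (mdl H m).cl (.inl y) then 0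
        else (mdl H m).w (.inl x) (.inl y)) = 0 := by
    rintro ⟨q, a, b⟩ ⟨q', a', b'⟩
    split_ifs with h
    · rfl
    · have h' : q ≠ q' := fun h1 => h (by rw [h1]; rfl)
      simp [mdl, wnom, h']
  have z2 : ∀ x y : Fin H.two.length × Bool,
      (if (mdl H m).cl (.inr x) = (mdl H m).cl (.inr y) then 0
        else (mdl H m).w (.inr x) (.inr y)) = 0 := by
    rintro ⟨e, a⟩ ⟨e', a'⟩
    split_ifs with h
    · rfl
    · have h' : e ≠ e' := fun h1 => h (by rw [h1]; rfl)
      simp [mdl, wnom, h']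
  have z3 : ∀ (x : Fin H.nq × Fin 3 × Fin 3) (y : Fin H.two.length × Bool),
      (if (mdl H m).cl (.inl x) = (mdl H m).cl (.inr y) then 0
        else (mdl H m).w (.inl x) (.inr y)) •
      (one ((mdl H m).cl (.inl x)) ((mdl H m).R (.inl x)) *
        one ((mdl H m).cl (.inr y)) ((mdl H m).R (.inr y))) =
      (contact H m.y x.1 x.2.1 x.2.2 y.1 y.2 : ℝ) •
        (one (Sum.inl x.1 : Clu H) ((mdl H m).R (.inl x)) *
          one (Sum.inr y.1) ((mdl H m).R (.inr y))) := by
    rintro ⟨q, a, b⟩ ⟨e, σ⟩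
    rw [if_neg (show ¬ (mdl H m).cl (.inl (q, a, b)) = (mdl H m).cl (.inr (e, σ)) from
      Sum.inl_ne_inr)]
    rfl
  have z4 : ∀ (x : Fin H.nq × Fin 3 × Fin 3) (y : Fin H.two.length × Bool),
      (if (mdl H m).cl (.inr y) = (mdl H m).cl (.inl x) then 0
        else (mdl H m).w (.inr y) (.inl x)) •
      (one ((mdl H m).cl (.inr y)) ((mdl H m).R (.inr y)) *
        one ((mdl H m).cl (.inl x)) ((mdl H m).R (.inl x))) =
      (contact H m.y x.1 x.2.1 x.2.2 y.1 y.2 : ℝ) •
        (one (Sum.inl x.1 : Clu H) ((mdl H m).R (.inl x)) *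
          one (Sum.inr y.1) ((mdl H m).R (.inr y))) := by
    rintro ⟨q, a, b⟩ ⟨e, σ⟩
    rw [if_neg (show ¬ (mdl H m).cl (.inr (e, σ)) = (mdl H m).cl (.inl (q, a, b)) from
      Sum.inr_ne_inl), one_comm (show (Sum.inl q : Clu H) ≠ Sum.inr e from Sum.inl_ne_inr)]
    rfl
  simp only [Fintype.sum_sum_type, z1, z2, z3, z4, zero_smul, sum_const_zero, zero_add, add_zero]
  rw [sum_comm (s := (univ : Finset (Fin H.two.length × Bool))), ← two_smul ℝ]
  congr 1
  rw [sum_comm, Fintype.sum_prod_type]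
  exact sum_congr rfl fun e _ => sum_comm

theorem eff_acol (p : Bool) : acol p < 3 := by
  cases p <;> decide

theorem eff_pc (q : Fin H.nq) (p : Bool) : pc H (q, p) = one (Sum.inl q) (pm p) := by
  simp [pc]

theorem Heff_eq (hH : H.OK) : (mdl H m).Heff = Agen H m (pc H) + ∑ e : Fin H.two.length,
    ((Del H m.P m.y e : ℝ) • one (Sum.inr e) nm + one (Sum.inr e) (pm true) * Ogen H m (pc H) e) := by
  have hq : ∀ q : Fin H.nq, one (Sum.inl q : Clu H) ((mdl H m).f (.inl q)) =
      (m.P : ℝ) • 1 + ((phi H m.P m.y (q, true) : ℝ) • pc H (q, true) +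
        (phi H m.P m.y (q, false) : ℝ) • pc H (q, false)) := fun q => by
    rw [mdl_f_inl, one_add, one_add, one_smul', one_smul', one_smul', one_id, eff_pc, eff_pc,
      add_assoc]
  have he : ∀ e : Fin H.two.length, one (Sum.inr e : Clu H) ((mdl H m).f (.inr e)) +
      ∑ x : Fin H.nq × Fin 3 × Fin 3, ∑ σ, (contact H m.y x.1 x.2.1 x.2.2 e σ : ℝ) •
        (one (Sum.inl x.1 : Clu H) ((mdl H m).R (.inl x)) *
          one (Sum.inr e) ((mdl H m).R (.inr (e, σ)))) =
      (m.P : ℝ) • 1 +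
        ((jj H m.y e / 2 * (cc (H.term e).1.2 + cc (H.term e).2.1.2) : ℚ) : ℝ) • 1 +
        (((jj H m.y e / 2 * ac (H.term e).1.2 : ℚ) : ℝ) • pc H (H.term e).1 +
          ((jj H m.y e / 2 * ac (H.term e).2.1.2 : ℚ) : ℝ) • pc H (H.term e).2.1) +
        ((Del H m.P m.y e : ℝ) • one (Sum.inr e) nm +
          one (Sum.inr e) (pm true) * Ogen H m (pc H) e) := by
    intro e
    obtain ⟨l1, l2⟩ := hH.two_lt _ (term_mem e.2)
    have p1 := eff_pc (H := H) ⟨(H.term e).1.1, l1.trans l2⟩ (H.term e).1.2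
    have p2 := eff_pc (H := H) ⟨(H.term e).2.1.1, l2⟩ (H.term e).2.1.2
    simp only [Prod.mk.eta] at p1 p2
    have hs : (if (!H.same e) = true then -1 else 1 : ℝ) = (H.sg e : ℝ) := by
      unfold LH.sg
      cases H.same e <;> simp
    rw [eff_contact_sum (q1 := ⟨(H.term e).1.1, l1.trans l2⟩) (q2 := ⟨(H.term e).2.1.1, l2⟩)
      (a1 := ⟨_, eff_acol (H.term e).1.2⟩) (a2 := ⟨_, eff_acol (H.term e).2.1.2⟩) rfl rfl rfl rfl
      (fun x σ => one (Sum.inl x.1 : Clu H) ((mdl H m).R (.inl x)) *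
          one (Sum.inr e) ((mdl H m).R (.inr (e, σ))))]
    rw [one_comm Sum.inl_ne_inr, one_comm Sum.inl_ne_inr, mdl_f_inr hH,
      mdl_R_inl _ (H.term e).1.2 _ rfl, mdl_R_inl _ (H.term e).2.1.2 _ rfl, mdl_R_inr, mdl_R_inr, hs]
    simp only [one_add, one_smul', one_id, ← p1, ← p2, Ogen, o0, o1, o2, Bool.false_eq_true,
      if_false, mul_add, add_mul, smul_mul_assoc, mul_smul_comm, mul_one, one_mul]
    push_cast
    module
  rw [Mdl.Heff, eff_inter, smul_smul, show (1 / 2 : ℝ) * 2 = 1 by norm_num, one_smul,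
    Fintype.sum_sum_type, add_assoc, ← sum_add_distrib]
  simp only [hq, he, sum_add_distrib, Agen, sum_const, card_univ, Fintype.card_fin]
  rw [← Nat.cast_smul_eq_nsmul ℝ, ← Nat.cast_smul_eq_nsmul ℝ]
  module

theorem eff_sum (F : (Clu H → Bool) → ℝ) :
    ∑ k, F k = ∑ z : Fin H.two.length → Bool, ∑ x : Fin H.nq → Bool, F (Sum.elim x z) := by
  rw [← (Equiv.sumArrowEquivProdArrow _ _ Bool).symm.sum_comp, Fintype.sum_prod_type_right]
  rfl

/-- `B` acts on the qubits as `A` does -/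
def Lft (H : LH) (B : Matrix (Clu H → Bool) (Clu H → Bool) ℝ)
    (A : Matrix (Fin H.nq → Bool) (Fin H.nq → Bool) ℝ) : Prop :=
  ∀ (v : (Clu H → Bool) → ℝ) x z,
    (B *ᵥ v) (Sum.elim x z) = (A *ᵥ fun x => v (Sum.elim x z)) x

theorem Lft.add {B B' A A'} (h : Lft H B A) (h' : Lft H B' A') : Lft H (B + B') (A + A') := by
  intro v x z
  rw [add_mulVec, add_mulVec, Pi.add_apply, Pi.add_apply, h, h']

theorem Lft.smul {B A} (c : ℝ) (h : Lft H B A) : Lft H (c • B) (c • A) := by
  intro v x z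
  rw [smul_mulVec, smul_mulVec, Pi.smul_apply, Pi.smul_apply, h]

theorem Lft.id : Lft H 1 1 := by
  intro v x z
  rw [one_mulVec, one_mulVec]

theorem Lft.sum {α : Type} [Fintype α] {B : α → _} {A : α → _} (h : ∀ a, Lft H (B a) (A a)) :
    Lft H (∑ a, B a) (∑ a, A a) := by
  intro v x z
  rw [Matrix.sum_mulVec, Matrix.sum_mulVec, Finset.sum_apply, Finset.sum_apply]
  exact sum_congr rfl fun a _ => h a v x z

theorem Lft.pauli (a : ℕ × Bool) : Lft H (pc H a) (pq H.nq a) := by
  intro v x z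
  unfold pc pq
  split_ifs with h
  · rw [one_mulVec', one_mulVec']
    simp only [Sum.elim_inl, Sum.update_elim_inl]
  · simp

theorem Lft.agen : Lft H (Agen H m (pc H)) (Agen H m (pq H.nq)) :=
  (((Lft.id.smul _).add (Lft.sum fun _ => ((Lft.pauli _).smul _).add ((Lft.pauli _).smul _))).add
    (Lft.sum fun _ => Lft.id.smul _)).add
    (Lft.sum fun _ => ((Lft.pauli _).smul _).add ((Lft.pauli _).smul _))

theorem Lft.ogen (e : ℕ) : Lft H (Ogen H m (pc H) e) (Ogen H m (pq H.nq) e) :=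
  ((Lft.id.smul _).add ((Lft.pauli _).smul _)).add ((Lft.pauli _).smul _)

theorem qf_Heff (hH : H.OK) (v : (Clu H → Bool) → ℝ) :
    qf (mdl H m).Heff v = Emed (Agen H m (pq H.nq)) (fun e : Fin H.two.length => Ogen H m (pq H.nq) e)
      (fun e => (Del H m.P m.y e : ℝ)) fun z x => v (Sum.elim x z) := by
  rw [Heff_eq hH, qf_add, qf_sum, Emed]
  congr 1
  · rw [qf, dotProduct, eff_sum]
    refine sum_congr rfl fun z _ => sum_congr rfl fun x _ => ?_
    rw [Lft.agen v x z]
  · refine sum_congr rfl fun e _ => ?_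
    rw [qf_add, qf_smul]
    congr 1
    · congr 1
      rw [qf, dotProduct, eff_sum]
      refine sum_congr rfl fun z _ => ?_
      simp only [one_mulVec', Sum.elim_inr, Sum.update_elim_inr, Fintype.sum_bool, nm, of_apply]
      by_cases hz : z e = true
      · rw [if_pos hz, dotProduct]
        refine sum_congr rfl fun x _ => ?_
        have h1 : Function.update z e true = z := by rw [← hz, Function.update_eq_self]
        simp only [hz, h1, and_self, if_true, Bool.false_eq_true, and_false, if_false, one_mul,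
          zero_mul, add_zero]
      · simp only [hz, false_and, if_false, zero_mul, add_zero, mul_zero, sum_const_zero,
          Bool.false_eq_true]
    · rw [qf, dotProduct, eff_sum]
      refine sum_congr rfl fun z _ => sum_congr rfl fun x _ => ?_
      rw [← mulVec_mulVec, one_mulVec', ← Lft.ogen e v x]
      simp only [Sum.elim_inr, Sum.update_elim_inr, Fintype.sum_bool, pm, of_apply]
      cases hz : z e <;>
        simp only [if_true, Bool.false_eq_true, Bool.true_eq_false, if_false, one_mul, zero_mul,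
          add_zero, zero_add, Bool.not_false, Bool.not_true]

theorem dot_clu (v : (Clu H → Bool) → ℝ) :
    v ⬝ᵥ v = ∑ z : Fin H.two.length → Bool,
      (fun x => v (Sum.elim x z)) ⬝ᵥ fun x => v (Sum.elim x z) := by
  rw [dotProduct, eff_sum]
  rfl

end Vale.Agent.P370.Lat
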