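import Vale.Agent.P370.LatOrb

/-! Part M: core energy, mean field and densities of the concrete model.  Use `mdl_core` (`Finset.sum_image`).
Core amplitude `1/3` on the sites of its qubit; active amplitudes `(a-1)/√6`, `(b-1)/√6`; wire amplitudes `±1/√2`.
Qubit: `To = e0q + ez (1-Z)/6 + ex (1+X)/6`, direct `2u/(9K) + 2 w0/9 + w0 (1-Z)/27`, exchange `u/(9K) + 2 w0 (1-Z)/27`
(the wire sites do not contribute: the core amplitude and the active amplitude vanish there).
Wire: `To = P + Del n`, direct term `2/9 * ∑ contact`, no exchange; `(H.term e).1.1 < nq` by `term_mem`, `acol p ∈ {1, 2}`. -/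

namespace Vale.Agent.P370.Lat

open Matrix Finset

variable {H : LH} {m : MP}

private theorem lf_U_ne {o x : Site H} (h : (mdl H m).cl x ≠ (mdl H m).cl o) :
    (mdl H m).U o x = 0 := by
  rcases o with ⟨q, a, b⟩ | ⟨e, β⟩ <;> rcases x with ⟨q', a', b'⟩ | ⟨e', σ⟩
  · exact if_neg fun hq => h (by subst hq; rfl)
  · rfl
  · rfl
  · exact if_neg fun hq => h (by subst hq; rfl)

private theorem lf_sum_inl (m : MP) (q : Fin H.nq) (F : Site H → ℝ)
    (hF : ∀ x, (mdl H m).cl x ≠ .inl q → F x = 0) :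
    ∑ x, F x = ∑ a : Fin 3, ∑ b : Fin 3, F (.inl (q, a, b)) := by
  rw [Fintype.sum_sum_type, Fintype.sum_prod_type, Finset.sum_eq_single q, Fintype.sum_prod_type,
    Finset.sum_eq_zero (s := univ) (f := fun y => F (.inr y)), add_zero]
  · rintro ⟨e, σ⟩ -
    exact hF _ (by simp [mdl])
  · intro q' _ hq
    exact Finset.sum_eq_zero fun y _ => hF _ (by simpa [mdl] using hq)
  · simp

private theorem lf_sum_inr (m : MP) (e : Fin H.two.length) (F : Site H → ℝ)
    (hF : ∀ x, (mdl H m).cl x ≠ .inr e → F x = 0) :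
    ∑ x, F x = F (.inr (e, true)) + F (.inr (e, false)) := by
  rw [Fintype.sum_sum_type, Finset.sum_eq_zero (s := univ) (f := fun y => F (.inl y)), zero_add,
    Fintype.sum_prod_type, Finset.sum_eq_single e, Fintype.sum_bool]
  · intro q' _ hq
    exact Finset.sum_eq_zero fun y _ => hF _ (by simpa [mdl] using hq)
  · simp
  · rintro ⟨q, a, b⟩ -
    exact hF _ (by simp [mdl])

private theorem lf_s2 : (1 / √2 : ℝ) * (1 / √2) = 1 / 2 := by
  rw [div_mul_div_comm, Real.mul_self_sqrt (by norm_num), one_mul]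

private theorem lf_s3 : (1 / √3 : ℝ) * (1 / √3) = 1 / 3 := by
  rw [div_mul_div_comm, Real.mul_self_sqrt (by norm_num), one_mul]

private theorem lf_ev0 (a : Fin 3) : ev3 0 a = 1 / √3 := by
  fin_cases a <;> rfl

private theorem lf_ev1 (a : Fin 3) : ev3 1 a = ((a.val : ℝ) - 1) * (1 / √2) := by
  fin_cases a <;> simp [ev3] <;> ring

private theorem lf_core (q : Fin H.nq) (a b : Fin 3) :
    (mdl H m).U (.inl (q, 0, 0)) (.inl (q, a, b)) = 1 / 3 := by
  have : (mdl H m).U (.inl (q, 0, 0)) (.inl (q, a, b)) = ev3 0 a * ev3 0 b := if_pos rfl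
  rw [this, lf_ev0, lf_ev0, lf_s3]

private def lfG (β : Bool) (a b : Fin 3) : ℝ := if β then (b.val : ℝ) - 1 else (a.val : ℝ) - 1

private theorem lf_act1 (q : Fin H.nq) (β : Bool) (a b : Fin 3) :
    (mdl H m).U ((mdl H m).ao (.inl q) β) (.inl (q, a, b)) =
      lfG β a b * ((1 / √2) * (1 / √3)) := by
  cases β
  · have : (mdl H m).U ((mdl H m).ao (.inl q) false) (.inl (q, a, b)) = ev3 1 a * ev3 0 b :=
      if_pos rfl
    rw [this, lf_ev0, lf_ev1, mul_assoc]
    rfl
  · have : (mdl H m).U ((mdl H m).ao (.inl q) true) (.inl (q, a, b)) = ev3 0 a * ev3 1 b :=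
      if_pos rfl
    rw [this, lf_ev0, lf_ev1, mul_comm, mul_assoc]
    rfl

private theorem lf_act (q : Fin H.nq) (β β' : Bool) (a b a' b' : Fin 3) :
    (mdl H m).U ((mdl H m).ao (.inl q) β) (.inl (q, a, b)) *
      (mdl H m).U ((mdl H m).ao (.inl q) β') (.inl (q, a', b')) =
      lfG β a b * lfG β' a' b' / 6 := by
  rw [lf_act1, lf_act1, mul_mul_mul_comm, mul_mul_mul_comm (1 / √2 : ℝ), lf_s2, lf_s3]
  ring

private theorem lf_cl_ao (c : Clu H) (β : Bool) : (mdl H m).cl ((mdl H m).ao c β) = c := by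
  rcases c with q | e <;> cases β <;> rfl

private theorem lf_wire (e : Fin H.two.length) (β β' σ σ' : Bool) :
    (mdl H m).U ((mdl H m).ao (.inr e) β) (.inr (e, σ)) *
      (mdl H m).U ((mdl H m).ao (.inr e) β') (.inr (e, σ')) =
      (if β = true ∧ σ = true then -1 else 1) * (if β' = true ∧ σ' = true then -1 else 1) / 2 := by
  have : ∀ β σ, (mdl H m).U ((mdl H m).ao (.inr e) β) (.inr (e, σ)) =
      (if β = true ∧ σ = true then -1 else 1) / √2 := fun _ _ => if_pos rfl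
  rw [this, this, div_mul_div_comm, Real.mul_self_sqrt (by norm_num)]

private theorem lf_To_inl (q : Fin H.nq) {o o' : Site H} (ho' : (mdl H m).cl o' = .inl q) :
    (mdl H m).To o o' = ∑ a : Fin 3, ∑ b : Fin 3, (mdl H m).U o (.inl (q, a, b)) *
      (mdl H m).U o' (.inl (q, a, b)) * (epsh H m.P m.u m.y q a b : ℝ) := by
  rw [Mdl.To, Matrix.mul_apply, lf_sum_inl m q]
  · refine Finset.sum_congr rfl fun a _ => Finset.sum_congr rfl fun b _ => ?_
    have h1 : (mdl H m).T (.inl (q, a, b)) (.inl (q, a, b)) = (epsh H m.P m.u m.y q a b : ℝ) :=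
      if_pos ⟨rfl, rfl, rfl⟩
    rw [Matrix.mul_apply, Finset.sum_eq_single (Sum.inl (q, a, b)), h1, transpose_apply]
    · ring
    · rintro (⟨q', a', b'⟩ | ⟨e, σ⟩) - hx
      · have : (mdl H m).T (.inl (q', a', b')) (.inl (q, a, b)) = 0 :=
          if_neg (by rintro ⟨rfl, rfl, rfl⟩; exact hx rfl)
        rw [this, mul_zero]
      · exact mul_zero _
    · simp
  · intro x hx
    rw [transpose_apply, lf_U_ne (ho' ▸ hx), mul_zero]

private noncomputable def lfW (A B : ℝ) : Matrix (Fin 3) (Fin 3) ℝ := !![A, B, 0; B, A, B; 0, B, A]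

private theorem lf_w (q q' : Fin H.nq) (a b a' b' : Fin 3) :
    (mdl H m).w (.inl (q, a, b)) (.inl (q', a', b')) =
      if q = q' ∧ b = b' then lfW ((m.u : ℝ) / H.K) (w0 H m.P) a a' else 0 := by
  show ((if q = q' ∧ b = b' then (if a = a' then m.u / H.K else
    if a.val + 1 = a' ∨ a'.val + 1 = a then w0 H m.P else 0) else 0 : ℚ) : ℝ) = _
  by_cases h : q = q' ∧ b = b'
  · rw [if_pos h, if_pos h]
    fin_cases a <;> fin_cases a' <;> simp [lfW]
  · rw [if_neg h, if_neg h, Rat.cast_zero]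

private theorem lf_core_sum (F : Site H → ℝ) :
    ∑ p ∈ (mdl H m).core, F p = ∑ q : Fin H.nq, F (.inl (q, 0, 0)) := by
  rw [mdl_core, Finset.sum_image]
  intro q _ q' _ h
  simpa using h

/-- interaction between two qubit clusters -/
private theorem lf_int (p q : Fin H.nq) (F : Site H → Site H → ℝ)
    (h1 : ∀ x y, (mdl H m).cl x ≠ .inl p → F x y = 0)
    (h2 : ∀ x y, (mdl H m).cl y ≠ .inl q → F x y = 0) :
    ∑ x, ∑ y, (mdl H m).w x y * F x y = if p = q then ∑ a : Fin 3, ∑ b : Fin 3, ∑ a' : Fin 3,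
      lfW ((m.u : ℝ) / H.K) (w0 H m.P) a a' * F (.inl (q, a, b)) (.inl (q, a', b)) else 0 := by
  rw [lf_sum_inl m p _ fun x hx => Finset.sum_eq_zero fun y _ => by rw [h1 x y hx, mul_zero]]
  have : ∀ x, ∑ y, (mdl H m).w x y * F x y = ∑ a' : Fin 3, ∑ b' : Fin 3,
      (mdl H m).w x (.inl (q, a', b')) * F x (.inl (q, a', b')) := fun x =>
    lf_sum_inl m q _ fun y hy => by rw [h2 x y hy, mul_zero]
  simp only [this, lf_w]
  by_cases h : p = q
  · subst h
    simp
  · simp [h]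

private theorem lf_list (n : ℕ) (g : ℕ → ℚ) :
    ((((List.range n).map g).sum : ℚ) : ℝ) = ∑ q : Fin n, (g q : ℝ) := by
  rw [← Finset.sum_range (fun q => (g q : ℝ)), ← Rat.cast_sum]
  congr 1

private theorem lf_contact (hH : H.OK) (e : Fin H.two.length) (σ : Bool) :
    ∑ q : Fin H.nq, ∑ a : Fin 3, ∑ b : Fin 3, (contact H m.y q a b e σ : ℝ) =
      jj H m.y e * ((if σ = false then 1 else 0) + (if σ = !H.same e then 1 else 0)) := by
  obtain ⟨h1, h2⟩ := hH.two_lt _ (term_mem e.2)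
  have key : ∀ (n : ℕ) (p : Bool) (C : Prop) [Decidable C], n < H.nq →
      ∑ q : Fin H.nq, ∑ a : Fin 3, (if q.val = n ∧ a.val = acol p ∧ C then (1 : ℝ) else 0) =
        if C then 1 else 0 := by
    intro n p C _ hn
    rw [Finset.sum_eq_single (⟨n, hn⟩ : Fin H.nq)]
    · rw [Fin.sum_univ_three]
      cases p <;> simp [acol]
    · intro q _ hq
      have : q.val ≠ n := fun h => hq (Fin.ext h)
      simp [this]
    · simp
  rw [← key _ (H.term e).1.2 _ (h1.trans h2), ← key _ (H.term e).2.1.2 _ h2,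
    ← Finset.sum_add_distrib, Finset.mul_sum]
  refine Finset.sum_congr rfl fun q _ => ?_
  rw [← Finset.sum_add_distrib, Finset.mul_sum]
  refine Finset.sum_congr rfl fun a _ => ?_
  simp only [Fin.sum_univ_three, contact]
  rw [if_neg (by decide), if_neg (by decide), if_pos (by decide)]
  push_cast
  simp only [apply_ite (Rat.cast : ℚ → ℝ), Rat.cast_one, Rat.cast_zero, zero_add]

private theorem lf_qf (a : Bool → ℝ) : a ⬝ᵥ a = a true ^ 2 + a false ^ 2 ∧
    qf (pm true) a = 2 * (a true * a false) ∧ qf (pm false) a = a false ^ 2 - a true ^ 2 ∧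
    qf nm a = a true ^ 2 := by
  simp only [dot_self_eq, qf_eq_sum, Fintype.sum_bool, pm, nm, Matrix.of_apply]
  refine ⟨trivial, ?_, ?_, ?_⟩ <;> simp <;> ring

theorem mdl_C0 : (mdl H m).C0 = Ccore H m := by
  rw [Mdl.C0, Ccore, lf_list, lf_core_sum, lf_core_sum, ← Finset.sum_add_distrib]
  refine Finset.sum_congr rfl fun q _ => ?_
  rw [lf_core_sum, lf_To_inl q rfl]
  rw [Finset.sum_congr rfl fun q' _ => lf_int (m := m) q q' _
    (fun x y hx => by rw [lf_U_ne (o := .inl (q, 0, 0)) hx]; ring)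
    (fun x y hy => by rw [lf_U_ne (o := .inl (q', 0, 0)) hy]; ring)]
  rw [Finset.sum_ite_eq, if_pos (mem_univ _)]
  simp only [lf_core, Fin.sum_univ_three, lfW, epsh]
  simp
  ring

theorem mdl_f_inl (q : Fin H.nq) : (mdl H m).f (.inl q) = (m.P : ℝ) • 1 +
    (phi H m.P m.y (q, true) : ℝ) • pm true + (phi H m.P m.y (q, false) : ℝ) • pm false := by
  ext β β'
  have hc : ∀ β, (mdl H m).cl ((mdl H m).ao (.inl q) β) = .inl q := lf_cl_ao _
  rw [Mdl.f, Matrix.of_apply, Mdl.Fm, Matrix.of_apply, lf_To_inl q (hc β'), lf_core_sum]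
  rw [Finset.sum_congr rfl fun p _ => lf_int (m := m) p q _
    (fun x y hx => by rw [lf_U_ne (o := .inl (p, 0, 0)) hx]; ring)
    (fun x y hy => by rw [lf_U_ne (o := (mdl H m).ao (.inl q) β) ((hc β).symm ▸ hy)]; ring)]
  rw [Finset.sum_ite_eq', if_pos (mem_univ _)]
  have e1 : ∀ a b a' : Fin 3, 2 * (mdl H m).U (.inl (q, 0, 0)) (.inl (q, a, b)) ^ 2 *
      (mdl H m).U ((mdl H m).ao (.inl q) β) (.inl (q, a', b)) *
      (mdl H m).U ((mdl H m).ao (.inl q) β') (.inl (q, a', b)) -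
      (mdl H m).U (.inl (q, 0, 0)) (.inl (q, a, b)) *
      (mdl H m).U ((mdl H m).ao (.inl q) β') (.inl (q, a, b)) *
      (mdl H m).U ((mdl H m).ao (.inl q) β) (.inl (q, a', b)) *
      (mdl H m).U (.inl (q, 0, 0)) (.inl (q, a', b)) =
      lfG β a' b * lfG β' a' b / 27 - lfG β' a b * lfG β a' b / 54 := by
    intro a b a'
    rw [lf_core, lf_core]
    linear_combination 2 / 9 * lf_act (m := m) q β β' a' b a' b -
      1 / 9 * lf_act (m := m) q β' β a b a' b
  simp only [e1, lf_act, Fin.sum_univ_three, lfW, epsh, e0q, ex, ez]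
  cases β <;> cases β' <;> simp [lfG, pm] <;> ring

theorem mdl_f_inr (hH : H.OK) (e : Fin H.two.length) : (mdl H m).f (.inr e) = (m.P : ℝ) • 1 +
    (Del H m.P m.y e : ℝ) • nm +
    ((jj H m.y e / 9 : ℚ) : ℝ) • ((2 : ℝ) • 1 + ((1 + H.sg e : ℚ) : ℝ) • pm true) := by
  ext β β'
  have hc : ∀ β, (mdl H m).cl ((mdl H m).ao (.inr e) β) = .inr e := lf_cl_ao _
  have hT : ∀ σ σ', (mdl H m).T (.inr (e, σ)) (.inr (e, σ')) =
      if σ = σ' then (m.P : ℝ) + Del H m.P m.y e / 2 else -(Del H m.P m.y e / 2) :=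
    fun _ _ => if_pos rfl
  have h1 : (mdl H m).To ((mdl H m).ao (.inr e) β) ((mdl H m).ao (.inr e) β') =
      (if β = β' then (m.P : ℝ) else 0) + if β = true ∧ β' = true then (Del H m.P m.y e : ℝ) else 0 := by
    have h2 : ∀ y, ((mdl H m).U * (mdl H m).T) ((mdl H m).ao (.inr e) β) y =
        (mdl H m).U ((mdl H m).ao (.inr e) β) (.inr (e, true)) * (mdl H m).T (.inr (e, true)) y +
        (mdl H m).U ((mdl H m).ao (.inr e) β) (.inr (e, false)) * (mdl H m).T (.inr (e, false)) y :=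
      fun y => by
        rw [Matrix.mul_apply, lf_sum_inr m e _ fun x hx => by
          rw [lf_U_ne ((hc β).symm ▸ hx), zero_mul]]
    rw [Mdl.To, Matrix.mul_apply, lf_sum_inr m e _ fun x hx => by
      rw [transpose_apply, lf_U_ne ((hc β').symm ▸ hx), mul_zero]]
    have h3 : ∀ σ σ' t, (mdl H m).U ((mdl H m).ao (.inr e) β) (.inr (e, σ)) * t *
        (mdl H m).U ((mdl H m).ao (.inr e) β') (.inr (e, σ')) =
        (if β = true ∧ σ = true then -1 else 1) * (if β' = true ∧ σ' = true then -1 else 1) / 2 *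
          t := fun σ σ' t => by rw [mul_right_comm, lf_wire]
    simp only [h2, transpose_apply, add_mul, h3, hT]
    cases β <;> cases β' <;> simp <;> ring
  have h3 : ∀ p : Fin H.nq, ∑ x, ∑ y, (mdl H m).w x y *
      (2 * (mdl H m).U (.inl (p, 0, 0)) x ^ 2 * (mdl H m).U ((mdl H m).ao (.inr e) β) y *
        (mdl H m).U ((mdl H m).ao (.inr e) β') y -
      (mdl H m).U (.inl (p, 0, 0)) x * (mdl H m).U ((mdl H m).ao (.inr e) β') x *
        (mdl H m).U ((mdl H m).ao (.inr e) β) y * (mdl H m).U (.inl (p, 0, 0)) y) =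
      (if β = β' then 1 else -1) / 9 *
          ∑ a : Fin 3, ∑ b : Fin 3, (contact H m.y p a b e true : ℝ) +
        1 / 9 * ∑ a : Fin 3, ∑ b : Fin 3, (contact H m.y p a b e false : ℝ) := by
    intro p
    rw [lf_sum_inl m p _ fun x hx => Finset.sum_eq_zero fun y _ => by
      rw [lf_U_ne (o := .inl (p, 0, 0)) hx]; ring]
    simp only [Finset.mul_sum, ← Finset.sum_add_distrib]
    refine Finset.sum_congr rfl fun a _ => Finset.sum_congr rfl fun b _ => ?_
    rw [lf_sum_inr m e _ fun y hy => by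
      rw [lf_U_ne (o := (mdl H m).ao (.inr e) β) ((hc β).symm ▸ hy)]; ring]
    have h4 : ∀ σ, (mdl H m).w (.inl (p, a, b)) (.inr (e, σ)) = (contact H m.y p a b e σ : ℝ) :=
      fun _ => rfl
    have h5 : ∀ σ, (mdl H m).U (.inl (p, 0, 0)) (.inr (e, σ)) = 0 := fun _ => rfl
    simp only [h4, h5, lf_core, mul_zero, sub_zero, mul_assoc _ ((mdl H m).U _ _), lf_wire]
    cases β <;> cases β' <;> simp <;> ring
  rw [Mdl.f, Matrix.of_apply, Mdl.Fm, Matrix.of_apply, h1, lf_core_sum]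
  simp only [h3]
  rw [Finset.sum_add_distrib, ← Finset.mul_sum, ← Finset.mul_sum, lf_contact hH, lf_contact hH]
  cases hs : H.same e <;> cases β <;> cases β' <;> simp [pm, nm, LH.sg, hs] <;> ring

theorem mdl_R_inl (q : Fin H.nq) (p : Bool) (a : Fin 3) (ha : a.val = acol p) :
    (mdl H m).R (.inl (q, a, 2)) = ((cc p - 2 / 9 : ℚ) : ℝ) • 1 + (ac p : ℝ) • pm p := by
  ext β β'
  have h1 := lf_act (m := m) q β β' a 2 a 2
  refine h1.trans ?_
  cases p
  · have : a = 1 := Fin.ext ha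
    subst this
    cases β <;> cases β' <;> simp [lfG, pm, cc, ac] <;> norm_num
  · have : a = 2 := Fin.ext ha
    subst this
    cases β <;> cases β' <;> simp [lfG, pm, cc, ac] <;> norm_num

theorem mdl_R_inr (e : Fin H.two.length) (σ : Bool) :
    (mdl H m).R (.inr (e, σ)) = (1 / 2 : ℝ) • (1 + (if σ then -1 else 1 : ℝ) • pm true) := by
  ext β β'
  have h1 := lf_wire (m := m) e β β' σ σ
  refine h1.trans ?_
  cases σ <;> cases β <;> cases β' <;> simp [pm] <;> norm_num

theorem mdl_f_ge (hH : H.OK) (hm : m.OK H) (c : Clu H) (a : Bool → ℝ) :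
    ((m.P : ℝ) - 2 / m.P ^ 49) * (a ⬝ᵥ a) ≤ qf ((mdl H m).f c) a := by
  obtain ⟨q1, q2, q3, q4⟩ := lf_qf a
  have hP : (0 : ℚ) < m.P := lt_of_lt_of_le (by norm_num) hm.P30
  have hP' : (0 : ℝ) < 1 / (m.P : ℝ) ^ 49 := by
    have : (0 : ℝ) < m.P := by exact_mod_cast hP
    positivity
  have h2 : (2 : ℝ) / m.P ^ 49 = 2 * (1 / (m.P : ℝ) ^ 49) := by ring
  have s1 := sq_nonneg (a true + a false)
  have s2 := sq_nonneg (a true - a false)
  have s3 := sq_nonneg (a true)
  have s4 := sq_nonneg (a false)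
  rcases c with q | e
  · rw [mdl_f_inl, qf_add, qf_add, qf_smul, qf_smul, qf_smul, qf_one, q1, q2, q3, h2]
    have hb : ∀ p, |(phi H m.P m.y (q, p) : ℝ)| ≤ 1 / (m.P : ℝ) ^ 49 := fun p => by
      exact_mod_cast phi_bd hH hm (q, p)
    have k : ∀ φ z : ℝ, |φ| ≤ 1 / (m.P : ℝ) ^ 49 → |z| ≤ a true ^ 2 + a false ^ 2 →
        -(1 / (m.P : ℝ) ^ 49 * (a true ^ 2 + a false ^ 2)) ≤ φ * z := fun φ z h h' =>
      neg_le_of_abs_le (by rw [abs_mul]; exact mul_le_mul h h' (abs_nonneg _) hP'.le)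
    have k1 := k _ (2 * (a true * a false)) (hb true) (abs_le.2 ⟨by linarith, by linarith⟩)
    have k2 := k _ (a false ^ 2 - a true ^ 2) (hb false) (abs_le.2 ⟨by linarith, by linarith⟩)
    linarith
  · rw [mdl_f_inr hH, qf_add, qf_add, qf_smul, qf_smul, qf_smul, qf_add, qf_smul, qf_smul, qf_one,
      q1, q2, q4, h2]
    have d0 : (0 : ℝ) ≤ (Del H m.P m.y e : ℝ) := by
      have := (Del_bd' hH hm e.2).1
      have h3 : (0 : ℚ) ≤ 1 / (32 * m.P ^ 46) := by positivity
      exact_mod_cast h3.trans this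
    have j0 : (0 : ℝ) ≤ ((jj H m.y e / 9 : ℚ) : ℝ) := by
      have := (jj_bd hm e.2).1
      have h3 : (0 : ℚ) ≤ jj H m.y e / 9 := by positivity
      exact_mod_cast h3
    have k1 : 0 ≤ 2 * (a true ^ 2 + a false ^ 2) +
        ((1 + H.sg e : ℚ) : ℝ) * (2 * (a true * a false)) := by
      unfold LH.sg
      split_ifs <;> push_cast <;> linarith
    have k2 := mul_nonneg j0 k1
    have k3 := mul_nonneg d0 s3
    have k4 := mul_nonneg hP'.le (add_nonneg s3 s4)
    linarith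

end Vale.Agent.P370.Lat
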