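import Vale.Agent.P370.LatMdl
import Vale.Agent.P370.LatFib

/-! Part M: `Elat` as a quadratic form, change of basis, crude bounds.
`Elat_eq`: `qf_one_eq`, `sp`; `sp (dens 1 x) = diagonal (a ↦ if a.1 = x then 1 else 0)` (`sp_diagonal`), `one_diagonal`, so
`pair w _ i j = diagonal (k ↦ w (k i).1 (k j).1)`; the sum over `i ≠ j` is twice the sum over `i < j` (symmetry of `w`).
`exists_orb`: `d = tp (fun _ => sp U) *ᵥ c`, `c = (tp ..)ᵀ *ᵥ d` (`mul_eq_one_comm`), `qf_conj`,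
`tp U * one i A * tp Uᵀ = one i (U * A * Uᵀ)` by `tp_mul`; `U * dens 1 x * Uᵀ = dens U x`.  Antisymmetry of
`tp (fun _ => B) *ᵥ c`: reindex the sum by `k' ↦ k' ∘ π` (`Equiv.arrowCongr`, `Equiv.prod_comp`).
`Hs_bd`: `one_ge` of LatFib and the diagonal form of the interaction. -/

namespace Vale.Agent.P370.Lat

open Matrix Finset

variable {S Cl : Type} [Fintype S] [DecidableEq S] [Fintype Cl] [DecidableEq Cl] {N : ℕ}

omit [Fintype S] in
private theorem lf_dens1 (x : S) :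
    dens (1 : Matrix S S ℝ) x = diagonal fun o => if o = x then 1 else 0 := by
  ext o o'
  simp only [dens, Matrix.of_apply, Matrix.one_apply, diagonal_apply]
  by_cases h1 : o = x <;> by_cases h2 : o' = x <;> simp [h1, h2]
  exact fun h => h2 h.symm

private theorem lf_pair (w : S → S → ℝ) (i j : Fin N) :
    pair w (fun x => sp (dens 1 x)) i j =
      diagonal fun k : Fin N → S × Bool => w (k i).1 (k j).1 := by
  simp only [pair, lf_dens1, sp_diagonal, one_diagonal, diagonal_mul_diagonal]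
  ext k k'
  simp only [Matrix.sum_apply, Matrix.smul_apply, diagonal_apply, smul_eq_mul]
  by_cases h : k = k' <;> simp [h]

private theorem lf_Hm (A : Matrix (S × Bool) (S × Bool) ℝ) (w : S → S → ℝ)
    (c : (Fin N → S × Bool) → ℝ) :
    qf (Hm (Fin N) A w fun x => sp (dens 1 x)) c = qf (ob (Fin N) A) c +
      ∑ k, (1 / 2 * ∑ i, ∑ j ∈ univ.erase i, w (k i).1 (k j).1) * c k ^ 2 := by
  simp only [Hm, qf_add, qf_smul, qf_sum, lf_pair, qf_diagonal, mul_assoc, Finset.sum_mul]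
  rw [← Finset.mul_sum, Finset.sum_comm (s := (univ : Finset (Fin N → S × Bool)))]
  congr 2
  exact Finset.sum_congr rfl fun i _ => Finset.sum_comm

private theorem lf_half {g : Fin N → Fin N → ℝ} (hg : ∀ i j, g i j = g j i) :
    1 / 2 * ∑ i, ∑ j ∈ univ.erase i, g i j = ∑ i, ∑ j, if i < j then g i j else 0 := by
  have h1 : ∀ i, ∑ j ∈ univ.erase i, g i j =
      (∑ j, if i < j then g i j else 0) + ∑ j, if j < i then g j i else 0 := by
    intro i
    rw [← Finset.sum_add_distrib, ← Finset.filter_ne', Finset.sum_filter]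
    refine Finset.sum_congr rfl fun j _ => ?_
    rcases lt_trichotomy i j with h | h | h
    · simp [h, h.ne', h.not_gt]
    · simp [h]
    · simp [h, h.ne, h.not_gt, hg i j]
  simp only [h1, Finset.sum_add_distrib]
  rw [Finset.sum_comm (f := fun i j => if j < i then g j i else 0)]
  ring

private theorem lf_cnt {g : Fin N → Fin N → ℝ} {b : ℝ} (hb : Fin N → 0 ≤ b)
    (hg : ∀ i j, g i j ≤ b) : 1 / 2 * ∑ i, ∑ j ∈ univ.erase i, g i j ≤ (N : ℝ) ^ 2 / 2 * b := by
  have h1 : ∑ i, ∑ j ∈ univ.erase i, g i j ≤ ∑ _i : Fin N, ∑ _j : Fin N, b :=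
    Finset.sum_le_sum fun i _ => (Finset.sum_le_sum fun j _ => hg i j).trans
      (Finset.sum_le_sum_of_subset_of_nonneg (Finset.subset_univ _) fun _ _ _ => hb i)
  simp only [Finset.sum_const, Finset.card_univ, Fintype.card_fin, nsmul_eq_mul] at h1
  nlinarith

private theorem lf_ob (T : Matrix S S ℝ) (c : (Fin N → S × Bool) → ℝ) :
    qf (ob (Fin N) (sp T)) c =
      ∑ i, ∑ k, ∑ a, c k * T (k i).1 a * c (Function.update k i (a, (k i).2)) := by
  simp only [ob, qf_sum, qf_one_eq, Fintype.sum_prod_type, sp, Matrix.of_apply, mul_ite, ite_mul,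
    mul_zero, zero_mul, Finset.sum_ite_eq, Finset.mem_univ, if_true]

section conj

variable {ι K : Type} [Fintype ι] [DecidableEq ι] [Fintype K] [DecidableEq K]
  {J J' : Matrix K K ℝ}

private theorem lf_conj (h : J * J' = 1) (i : ι) (A : Matrix K K ℝ) :
    tp (fun _ : ι => J) * one i A * tp (fun _ : ι => J') = one i (J * A * J') := by
  rw [one, tp_mul, tp_mul, one]
  congr 1
  funext l
  by_cases hl : l = i
  · subst hl
    simp
  · simp [Function.update_of_ne hl, h]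

private theorem lf_inv (h : J * J' = 1) : tp (fun _ : ι => J) * tp (fun _ : ι => J') = 1 := by
  simp only [tp_mul, h, tp_one]

private theorem lf_conj2 (h : J * J' = 1) (i j : ι) (A B : Matrix K K ℝ) :
    tp (fun _ : ι => J) * (one i A * one j B) * tp (fun _ : ι => J') =
      one i (J * A * J') * one j (J * B * J') := by
  rw [← lf_conj h, ← lf_conj h]
  simp only [Matrix.mul_assoc]
  rw [← Matrix.mul_assoc (tp fun _ : ι => J') (tp fun _ : ι => J), lf_inv (mul_eq_one_comm.1 h),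
    Matrix.one_mul]

private theorem lf_conj_ob (h : J * J' = 1) (A : Matrix K K ℝ) :
    tp (fun _ : ι => J) * ob ι A * tp (fun _ : ι => J') = ob ι (J * A * J') := by
  simp only [ob, Matrix.mul_sum, Matrix.sum_mul, lf_conj h]

omit [DecidableEq S] in
private theorem lf_conj_Hm (h : J * J' = 1) (A : Matrix K K ℝ) (w : S → S → ℝ)
    (ρ : S → Matrix K K ℝ) :
    tp (fun _ : ι => J) * Hm ι A w ρ * tp (fun _ : ι => J') =
      Hm ι (J * A * J') w fun x => J * ρ x * J' := by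
  simp only [Hm, pair, Matrix.mul_add, Matrix.add_mul, lf_conj_ob h, Matrix.mul_smul,
    Matrix.smul_mul, Matrix.mul_sum, Matrix.sum_mul, lf_conj2 h]

end conj

private theorem lf_dens (U : Matrix S S ℝ) (x : S) : U * dens 1 x * Uᵀ = dens U x := by
  ext o o'
  rw [lf_dens1, Matrix.mul_apply]
  simp [dens, Matrix.mul_diagonal]

theorem Elat_eq (T : Matrix S S ℝ) {w : S → S → ℝ} (hw : ∀ x y, w x y = w y x) (T' : Matrix S S ℝ)
    (δ s : ℝ) (c : (Fin N → S × Bool) → ℝ) :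
    Elat (fun x y => δ * T' x y + s * T x y) w s c =
      δ * qf (ob (Fin N) (sp T')) c + s * qf (Hm (Fin N) (sp T) w fun x => sp (dens 1 x)) c := by
  rw [lf_Hm, lf_ob, lf_ob, Elat, mul_add, ← add_assoc]
  congr 1
  · simp only [Finset.mul_sum, ← Finset.sum_add_distrib]
    refine Finset.sum_congr rfl fun i _ => Finset.sum_congr rfl fun k _ =>
      Finset.sum_congr rfl fun a _ => ?_
    ring
  · congr 1
    refine Finset.sum_congr rfl fun k _ => ?_
    rw [lf_half fun i j => hw (k i).1 (k j).1]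

theorem Elat_sub_le (T : S → S → ℝ) {w w' : S → S → ℝ} {η s : ℝ} (hs : 0 ≤ s)
    (h : ∀ x y, |w x y - w' x y| ≤ η) (c : (Fin N → S × Bool) → ℝ) :
    |Elat T w s c - Elat T w' s c| ≤ s * ((N : ℝ) ^ 2 / 2 * η) * nsq c := by
  have e : Elat T w s c - Elat T w' s c = s * ∑ k : Fin N → S × Bool,
      (∑ i, ∑ j, if i < j then w (k i).1 (k j).1 - w' (k i).1 (k j).1 else 0) * c k ^ 2 := by
    rw [Elat, Elat, add_sub_add_left_eq_sub, ← mul_sub, ← Finset.sum_sub_distrib]
    congr 1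
    refine Finset.sum_congr rfl fun k _ => ?_
    rw [← sub_mul, ← Finset.sum_sub_distrib]
    congr 1
    refine Finset.sum_congr rfl fun i _ => ?_
    rw [← Finset.sum_sub_distrib]
    refine Finset.sum_congr rfl fun j _ => ?_
    split_ifs <;> simp
  rw [e, abs_mul, abs_of_nonneg hs, mul_assoc, nsq, Finset.mul_sum]
  refine mul_le_mul_of_nonneg_left ((Finset.abs_sum_le_sum_abs _ _).trans
    (Finset.sum_le_sum fun k _ => ?_)) hs
  rw [abs_mul, abs_of_nonneg (sq_nonneg (c k))]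
  refine mul_le_mul_of_nonneg_right ?_ (sq_nonneg _)
  have h1 := lf_cnt (g := fun _ _ : Fin N => η)
    (fun i => (abs_nonneg _).trans (h (k i).1 (k i).1)) fun _ _ => le_rfl
  rw [lf_half fun _ _ => rfl] at h1
  refine le_trans ((Finset.abs_sum_le_sum_abs _ _).trans (Finset.sum_le_sum fun i _ =>
    (Finset.abs_sum_le_sum_abs _ _).trans (Finset.sum_le_sum fun j _ => ?_))) h1
  split_ifs
  · exact h _ _
  · simp

theorem antiC_tp (B : Matrix (S × Bool) (S × Bool) ℝ) {c : (Fin N → S × Bool) → ℝ} (hc : AntiC c) :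
    AntiC (tp (fun _ : Fin N => B) *ᵥ c) := by
  intro π k
  simp only [mulVec, dotProduct, tp, Matrix.of_apply, Finset.mul_sum]
  rw [← Equiv.sum_comp (Equiv.arrowCongr π.symm (Equiv.refl (S × Bool)))]
  refine Finset.sum_congr rfl fun k' _ => ?_
  have e : Equiv.arrowCongr π.symm (Equiv.refl (S × Bool)) k' = k' ∘ π := rfl
  rw [e, hc π k', mul_left_comm]
  congr 2
  exact Equiv.prod_comp π fun l => B (k l) (k' l)

variable {M : Mdl S Cl}

omit [Fintype Cl] [DecidableEq Cl] in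
theorem Mdl.OK.site_of_orb (h : M.OK) (d : (Fin N → S × Bool) → ℝ) :
    let c := tp (fun _ : Fin N => sp M.Uᵀ) *ᵥ d
    c ⬝ᵥ c = d ⬝ᵥ d ∧ qf (ob (Fin N) (sp M.T0)) c = qf (M.Lo N) d ∧
      qf (M.Hs N) c = qf (M.Ho N) d := by
  intro c
  have h1 : sp M.U * sp M.Uᵀ = 1 := by rw [sp_mul, h.orth, sp_one]
  have h2 : (tp fun _ : Fin N => sp M.Uᵀ)ᵀ = tp fun _ : Fin N => sp M.U := by
    simp only [tp_transpose, sp_transpose, transpose_transpose]
  refine ⟨?_, ?_, ?_⟩
  · rw [← qf_tmul, h2, lf_inv h1, qf_one]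
  · rw [qf_conj, h2, lf_conj_ob h1, sp_mul, sp_mul, Mdl.Lo, Mdl.T0]
    simp only [Matrix.mul_assoc]
    rw [h.orth, Matrix.mul_one, ← Matrix.mul_assoc, h.orth, Matrix.one_mul]
  · rw [qf_conj, h2, Mdl.Hs, lf_conj_Hm h1]
    simp only [sp_mul, lf_dens]
    rfl

omit [Fintype Cl] [DecidableEq Cl] in
theorem Mdl.OK.exists_orb (h : M.OK) {c : (Fin N → S × Bool) → ℝ} (hc : AntiC c) :
    ∃ d, AntiC d ∧ c = tp (fun _ : Fin N => sp M.Uᵀ) *ᵥ d := by
  refine ⟨_, antiC_tp (sp M.U) hc, ?_⟩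
  rw [mulVec_mulVec, lf_inv, one_mulVec]
  rw [sp_mul, mul_eq_one_comm.1 h.orth, sp_one]

omit [Fintype Cl] [DecidableEq Cl] in
theorem Mdl.OK.Ho_bd (h : M.OK) {t wm : ℝ} (hT : ∀ a, 0 ≤ qf M.T a ∧ qf M.T a ≤ t * (a ⬝ᵥ a))
    (hw : ∀ x y, M.w x y ≤ wm) (hwm : 0 ≤ wm) (d : (Fin N → S × Bool) → ℝ) :
    0 ≤ qf (M.Ho N) d ∧ qf (M.Ho N) d ≤ (N * t + (N : ℝ) ^ 2 / 2 * wm) * (d ⬝ᵥ d) := by
  obtain ⟨h1, -, h2⟩ := h.site_of_orb d
  rw [← h1, ← h2, Mdl.Hs, lf_Hm]
  generalize tp (fun _ : Fin N => sp M.Uᵀ) *ᵥ d = c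
  have a1 : 0 ≤ qf (ob (Fin N) (sp M.T)) c := by
    rw [ob, qf_sum]
    refine Finset.sum_nonneg fun i _ => one_ge i (fun v => ?_) c
    rw [qf_sp]
    exact Finset.sum_nonneg fun _ _ => (hT _).1
  have a2 : qf (ob (Fin N) (sp M.T)) c ≤ N * t * (c ⬝ᵥ c) := by
    rw [ob, qf_sum]
    refine (Finset.sum_le_sum fun i _ => one_le i (t := t) (fun v => ?_) c).trans (le_of_eq ?_)
    · rw [qf_sp]
      refine (Finset.sum_le_sum fun _ _ => (hT _).2).trans (le_of_eq ?_)
      rw [← Finset.mul_sum]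
      simp only [dotProduct, Fintype.sum_prod_type]
      rw [Finset.sum_comm]
    · simp [mul_assoc]
  refine ⟨add_nonneg a1 (Finset.sum_nonneg fun k _ => mul_nonneg (mul_nonneg (by norm_num)
    (Finset.sum_nonneg fun _ _ => Finset.sum_nonneg fun _ _ => h.w_nonneg _ _)) (sq_nonneg _)), ?_⟩
  rw [add_mul]
  refine add_le_add a2 ?_
  rw [dot_self_eq, Finset.mul_sum]
  exact Finset.sum_le_sum fun k _ => mul_le_mul_of_nonneg_right
    (lf_cnt (fun _ => hwm) fun _ _ => hw _ _) (sq_nonneg _)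

end Vale.Agent.P370.Lat
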