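import Vale.Agent.P370.LatNum
import Vale.Agent.P370.LatFib

/-! Part M: eliminating the mediators gives the 2-local Hamiltonian. -/

namespace Vale.Agent.P370.Lat

open Matrix Finset

variable {H : LH} {m : MP}

section pauli

variable {n : ℕ}

private theorem pq_mulVec {a : ℕ × Bool} (h : a.1 < n) (v : (Fin n → Bool) → ℝ) :
    pq n a *ᵥ v = pauli a v := by
  funext x
  have h1 : ∀ b, setBit x a.1 b = Function.update x ⟨a.1, h⟩ b := fun b => by
    funext i
    simp only [setBit, Function.update_apply, Fin.ext_iff]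
  have h2 : bit x a.1 = x ⟨a.1, h⟩ := dif_pos h
  rw [pq, dif_pos h, one_mulVec', pauli, h1, h2, Fintype.sum_bool]
  have h3 := Function.update_eq_self ⟨a.1, h⟩ x
  cases hx : x ⟨a.1, h⟩ <;> rw [hx] at h3 <;> cases a.2 <;> simp [pm, h3]

private theorem pq_symm (a : ℕ × Bool) : (pq n a)ᵀ = pq n a := by
  unfold pq
  split_ifs
  · rw [one_transpose]
    congr 1
    ext β β'
    cases β <;> cases β' <;> simp [pm]
  · exact transpose_zero

private theorem pq_sq {a : ℕ × Bool} (h : a.1 < n) : pq n a * pq n a = 1 := by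
  rw [pq, dif_pos h, one_mul_one, ← one_id ⟨a.1, h⟩]
  congr 1
  ext β β'
  cases β <;> cases β' <;> cases a.2 <;> simp [pm, Matrix.mul_apply]

private theorem pq_comm {a b : ℕ × Bool} (h : a.1 < b.1) (hb : b.1 < n) :
    pq n b * pq n a = pq n a * pq n b := by
  rw [pq, pq, dif_pos hb, dif_pos (h.trans hb)]
  exact one_comm (fun e => h.ne' (congrArg Fin.val e)) _ _

private theorem pq_norm {a : ℕ × Bool} (h : a.1 < n) (v : (Fin n → Bool) → ℝ) :
    (pq n a *ᵥ v) ⬝ᵥ (pq n a *ᵥ v) = v ⬝ᵥ v := by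
  rw [← qf_tmul, pq_symm, pq_sq h, qf_one]

private theorem abs_dot_le {K : Type} [Fintype K] (x y : K → ℝ) :
    |x ⬝ᵥ y| ≤ (x ⬝ᵥ x + y ⬝ᵥ y) / 2 := by
  have h1 := dot_self_nonneg (x + y)
  have h2 := dot_self_nonneg (x - y)
  simp only [add_dotProduct, dotProduct_add, sub_dotProduct, dotProduct_sub,
    dotProduct_comm y x] at h1 h2
  rw [abs_le]
  constructor <;> linarith

private theorem abs_pq {a : ℕ × Bool} (h : a.1 < n) (v : (Fin n → Bool) → ℝ) :
    |qf (pq n a) v| ≤ v ⬝ᵥ v := by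
  have := abs_dot_le v (pq n a *ᵥ v)
  rw [pq_norm h] at this
  exact this.trans (by linarith)

private theorem abs_pq2 {a b : ℕ × Bool} (h : a.1 < n) (hb : b.1 < n) (v : (Fin n → Bool) → ℝ) :
    |qf (pq n a * pq n b) v| ≤ v ⬝ᵥ v := by
  have := abs_dot_le (pq n a *ᵥ v) (pq n b *ᵥ v)
  rw [pq_norm h, pq_norm hb, ← qf_tmul, pq_symm] at this
  exact this.trans (by linarith)

private theorem sum_pick {a0 : ℕ × Bool} (h : a0.1 < n) (F : ℕ × Bool → ℝ) :
    ∑ q : Fin n, ((if a0 = (q.val, true) then F (q, true) else 0) +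
      if a0 = (q.val, false) then F (q, false) else 0) = F a0 := by
  obtain ⟨q0, p⟩ := a0
  rw [Finset.sum_eq_single ⟨q0, h⟩]
  · cases p <;> simp
  · intro q _ hq
    have : q0 ≠ q.val := fun e => hq (Fin.ext e.symm)
    simp [this]
  · simp

end pauli

private theorem term_lt (hH : H.OK) (e : Fin H.two.length) :
    (H.term e).1.1 < (H.term e).2.1.1 ∧ (H.term e).2.1.1 < H.nq := hH.two_lt _ (term_mem e.2)

private theorem list_range (f : ℕ → ℚ) (n : ℕ) :
    (((List.range n).map f).sum : ℝ) = ∑ e : Fin n, (f e : ℝ) := by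
  rw [← Finset.sum_range fun e => (f e : ℝ)]
  induction n with
  | zero => simp
  | succ n ih =>
    rw [List.range_succ, List.map_append, List.sum_append, Finset.sum_range_succ, ← ih]
    simp

private theorem en_eq (hH : H.OK) (v : (Fin H.nq → Bool) → ℝ) :
    H.en v = (H.one.map fun t => (t.2 : ℝ) * qf (pq H.nq t.1) v).sum + ∑ e : Fin H.two.length,
      ((H.term e).2.2 : ℝ) * qf (pq H.nq (H.term e).1 * pq H.nq (H.term e).2.1) v := by
  rw [LH.en, ← Fin.sum_univ_fun_getElem H.two]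
  congr 1
  · refine congrArg List.sum (List.map_congr_left fun t ht => ?_)
    rw [qf, pq_mulVec (hH.one_lt t ht)]
    rfl
  · refine Finset.sum_congr rfl fun e _ => ?_
    have h := term_lt hH e
    rw [qf, ← mulVec_mulVec, pq_mulVec h.2, pq_mulVec (h.1.trans h.2),
      show H.two[e.1] = H.term e from (List.getD_eq_getElem _ _ e.2).symm]
    rfl

theorem Ogen_symm (e : ℕ) : (Ogen H m (pq H.nq) e)ᵀ = Ogen H m (pq H.nq) e := by
  simp only [Ogen, transpose_add, transpose_smul, transpose_one, pq_symm]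

private theorem qf_O2 (hH : H.OK) (e : Fin H.two.length) (v : (Fin H.nq → Bool) → ℝ) :
    qf (Ogen H m (pq H.nq) e * Ogen H m (pq H.nq) e) v =
      ((o0 H m.y e : ℝ) ^ 2 + (o1 H m.y e : ℝ) ^ 2 + (o2 H m.y e : ℝ) ^ 2) * (v ⬝ᵥ v) +
      2 * (o0 H m.y e : ℝ) * o1 H m.y e * qf (pq H.nq (H.term e).1) v +
      2 * (o0 H m.y e : ℝ) * o2 H m.y e * qf (pq H.nq (H.term e).2.1) v +
      2 * (o1 H m.y e : ℝ) * o2 H m.y e *
        qf (pq H.nq (H.term e).1 * pq H.nq (H.term e).2.1) v := by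
  have h := term_lt hH e
  simp only [Ogen, add_mul, mul_add, smul_mul_assoc, mul_smul_comm, Matrix.one_mul, Matrix.mul_one,
    pq_sq h.2, pq_sq (h.1.trans h.2), pq_comm h.1 h.2, qf_add, qf_smul, qf_one]
  ring

theorem Ogen_bd (hH : H.OK) (hm : m.OK H) (e : Fin H.two.length) (y : (Fin H.nq → Bool) → ℝ) :
    (Ogen H m (pq H.nq) e *ᵥ y) ⬝ᵥ (Ogen H m (pq H.nq) e *ᵥ y) ≤
      1 / (36 * (m.P : ℝ) ^ 98) * (y ⬝ᵥ y) := by
  have h := term_lt hH e
  have key : ∀ a b g : ℝ, |g| ≤ y ⬝ᵥ y → 2 * a * b * g ≤ 2 * |a| * |b| * (y ⬝ᵥ y) :=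
    fun a b g hg => (le_abs_self _).trans (by
      rw [abs_mul, abs_mul, abs_mul, abs_two]
      gcongr)
  have h1 := key (o0 H m.y e) (o1 H m.y e) _ (abs_pq (h.1.trans h.2) y)
  have h2 := key (o0 H m.y e) (o2 H m.y e) _ (abs_pq h.2 y)
  have h3 := key (o1 H m.y e) (o2 H m.y e) _ (abs_pq2 (h.1.trans h.2) h.2 y)
  have h4 : |(o0 H m.y e : ℝ)| + |(o1 H m.y e : ℝ)| + |(o2 H m.y e : ℝ)| ≤
      1 / (6 * (m.P : ℝ) ^ 49) := by exact_mod_cast o_bd hm e.2
  have h5 := mul_le_mul_of_nonneg_right (pow_le_pow_left₀ (by positivity) h4 2) (dot_self_nonneg y)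
  rw [← qf_tmul, Ogen_symm, qf_O2 hH, ← sq_abs (o0 H m.y e : ℝ), ← sq_abs (o1 H m.y e : ℝ),
    ← sq_abs (o2 H m.y e : ℝ), show 36 * (m.P : ℝ) ^ 98 = (6 * (m.P : ℝ) ^ 49) ^ 2 by ring,
    ← _root_.one_div_pow]
  linarith

private theorem sign_eq (hH : H.OK) (hm : m.OK H) (e : Fin H.two.length) :
    2 * o1 H m.y e * o2 H m.y e / Del H m.P m.y e = -(E1 m.P * (H.term e).2.2) := by
  have hP : 0 < m.P := lt_of_lt_of_le (by positivity) hm.P30
  have hE : 0 < E1 m.P := by unfold E1; positivity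
  have hj := (jj_bd hm e.2).1
  have hb : (0 : ℚ) < H.bd := by exact_mod_cast hH.bd_pos
  have hβ : (H.term e).2.2 ≠ 0 :=
    abs_pos.1 (lt_of_lt_of_le (by positivity) (hH.two_bd _ (term_mem e.2)).2)
  have hac : ∀ p, ac p ≠ 0 := fun p => by cases p <;> norm_num [ac]
  have h1 : o1 H m.y e * o2 H m.y e * (H.term e).2.2 = (jj H m.y e / 2) ^ 2 *
      (H.sg e * ((H.term e).2.2 * ac (H.term e).1.2 * ac (H.term e).2.1.2)) := by
    unfold o1 o2
    ring
  have h2 : H.sg e * ((H.term e).2.2 * ac (H.term e).1.2 * ac (H.term e).2.1.2) < 0 := by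
    unfold LH.sg LH.same
    split_ifs with h
    · rw [one_mul]
      exact of_decide_eq_true h
    · have := lt_of_le_of_ne (not_lt.1 fun h' => h (decide_eq_true h'))
        (mul_ne_zero (mul_ne_zero hβ (hac _)) (hac _)).symm
      linarith
  have h3 : o1 H m.y e * o2 H m.y e * (H.term e).2.2 < 0 :=
    h1 ▸ mul_neg_of_pos_of_neg (by positivity) h2
  rw [Del, mul_assoc]
  generalize o1 H m.y e * o2 H m.y e = x, (H.term e).2.2 = β at *
  rcases mul_neg_iff.1 h3 with ⟨h4, h5⟩ | ⟨h4, h5⟩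
  · rw [abs_of_pos h4, abs_of_neg h5]
    field_simp
  · rw [abs_of_neg h4, abs_of_pos h5]
    have := h4.ne
    field_simp

private theorem sum_hone (l : List ((ℕ × Bool) × ℚ)) {n : ℕ} (hl : ∀ t ∈ l, t.1.1 < n)
    (g : ℕ × Bool → ℝ) :
    ∑ q : Fin n, (((l.map fun t => if t.1 = (q.val, true) then t.2 else 0).sum : ℚ) * g (q, true) +
      ((l.map fun t => if t.1 = (q.val, false) then t.2 else 0).sum : ℚ) * g (q, false)) =
      (l.map fun t => (t.2 : ℝ) * g t.1).sum := by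
  induction l with
  | nil => simp
  | cons t l ih =>
    rw [List.map_cons, List.sum_cons, ← ih fun s hs => hl s (List.mem_cons_of_mem _ hs),
      ← sum_pick (hl t List.mem_cons_self) fun a => (t.2 : ℝ) * g a, ← Finset.sum_add_distrib]
    refine Finset.sum_congr rfl fun q _ => ?_
    simp only [List.map_cons, List.sum_cons, Rat.cast_add, apply_ite ((↑) : ℚ → ℝ), Rat.cast_zero,
      add_mul, ite_mul, zero_mul]
    ring

private theorem sum_phi (hH : H.OK) (g : ℕ × Bool → ℝ) :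
    ∑ q : Fin H.nq, ((phi H m.P m.y (q, true) : ℝ) * g (q, true) +
      (phi H m.P m.y (q, false) : ℝ) * g (q, false)) =
    E1 m.P * (H.one.map fun t => (t.2 : ℝ) * g t.1).sum - ∑ e : Fin H.two.length,
      (((jj H m.y e / 2 * ac (H.term e).1.2 -
          2 * o0 H m.y e * o1 H m.y e / Del H m.P m.y e : ℚ) : ℝ) * g (H.term e).1 +
        ((jj H m.y e / 2 * ac (H.term e).2.1.2 -
          2 * o0 H m.y e * o2 H m.y e / Del H m.P m.y e : ℚ) : ℝ) * g (H.term e).2.1) := by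
  rw [← sum_hone H.one hH.one_lt, Finset.mul_sum,
    Finset.sum_congr rfl fun (e : Fin H.two.length) _ => congrArg₂ (· + ·)
      (sum_pick ((term_lt hH e).1.trans (term_lt hH e).2) fun a => ((jj H m.y e / 2 * ac a.2 -
          2 * o0 H m.y e * o1 H m.y e / Del H m.P m.y e : ℚ) : ℝ) * g a).symm
      (sum_pick (term_lt hH e).2 fun a => ((jj H m.y e / 2 * ac a.2 -
          2 * o0 H m.y e * o2 H m.y e / Del H m.P m.y e : ℚ) : ℝ) * g a).symm]
  simp only [← Finset.sum_add_distrib]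
  rw [Finset.sum_comm, ← Finset.sum_sub_distrib]
  refine Finset.sum_congr rfl fun q _ => ?_
  simp only [phi, LH.hone, Rat.cast_sub, Rat.cast_mul (E1 m.P), list_range, Rat.cast_add,
    apply_ite ((↑) : ℚ → ℝ), Rat.cast_zero, sub_mul, Finset.sum_mul, add_mul,
    ite_mul, zero_mul, Finset.sum_add_distrib]
  ring

theorem qf_elim (hH : H.OK) (hm : m.OK H) (v : (Fin H.nq → Bool) → ℝ) :
    qf (Agen H m (pq H.nq) - ∑ e : Fin H.two.length, (1 / (Del H m.P m.y e : ℝ)) •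
      (Ogen H m (pq H.nq) e * Ogen H m (pq H.nq) e)) v =
      ((Cst H m.P m.u m.y - Ccore H m : ℚ) : ℝ) * (v ⬝ᵥ v) + E1 m.P * H.en v := by
  have h1 : ((Cst H m.P m.u m.y - Ccore H m : ℚ) : ℝ) = m.P * (H.nq + H.two.length) +
      ∑ e : Fin H.two.length, ((jj H m.y e / 2 * (cc (H.term e).1.2 + cc (H.term e).2.1.2) -
        (o0 H m.y e ^ 2 + o1 H m.y e ^ 2 + o2 H m.y e ^ 2) / Del H m.P m.y e : ℚ) : ℝ) := by
    rw [← list_range fun e => jj H m.y e / 2 * (cc (H.term e).1.2 + cc (H.term e).2.1.2) -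
      (o0 H m.y e ^ 2 + o1 H m.y e ^ 2 + o2 H m.y e ^ 2) / Del H m.P m.y e, Cst, Ccore]
    push_cast
    ring
  simp only [Agen, qf_sub, qf_add, qf_sum, qf_smul, qf_one, qf_O2 hH]
  rw [sum_phi hH fun a => qf (pq H.nq a) v, h1, en_eq hH, add_mul, mul_add (E1 m.P : ℝ),
    Finset.sum_mul, Finset.mul_sum]
  have h2 : ∀ a b c d e f g h : ℝ, c + d - (b + e) = f + g →
      a + (h - b) + c + d - e = a + f + (h + g) := fun a b c d e f g h h0 => by linarith
  refine h2 _ _ _ _ _ _ _ _ ?_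
  simp only [← Finset.sum_add_distrib, ← Finset.sum_sub_distrib]
  refine Finset.sum_congr rfl fun e _ => ?_
  have h3 : 2 * (o1 H m.y e : ℝ) * o2 H m.y e / Del H m.P m.y e = -(E1 m.P * (H.term e).2.2) := by
    exact_mod_cast sign_eq hH hm e
  push_cast
  linear_combination -qf (pq H.nq (H.term e).1 * pq H.nq (H.term e).2.1) v * h3

theorem en_bd (hH : H.OK) (hm : m.OK H) (v : (Fin H.nq → Bool) → ℝ) :
    |H.en v| ≤ (m.P : ℝ) ^ 2 / 64 * (v ⬝ᵥ v) := by
  have hv := dot_self_nonneg v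
  have key : ∀ (β : ℚ) (g : ℝ), |β| ≤ H.bd → |g| ≤ v ⬝ᵥ v → |β * g| ≤ H.bd * (v ⬝ᵥ v) :=
    fun β g h1 h2 => by
      have : |(β : ℝ)| ≤ H.bd := by exact_mod_cast h1
      rw [abs_mul]
      gcongr
  have h1 : |(H.one.map fun t => (t.2 : ℝ) * qf (pq H.nq t.1) v).sum| ≤
      H.one.length * (H.bd * (v ⬝ᵥ v)) := by
    rw [← Fin.sum_univ_fun_getElem H.one]
    refine (Finset.abs_sum_le_sum_abs _ _).trans ((Finset.sum_le_card_nsmul _ _ _ fun i _ =>
      key _ _ (hH.one_bd _ (List.getElem_mem _))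
        (abs_pq (hH.one_lt _ (List.getElem_mem _)) v)).trans_eq ?_)
    simp
  have h2 : |∑ e : Fin H.two.length,
      ((H.term e).2.2 : ℝ) * qf (pq H.nq (H.term e).1 * pq H.nq (H.term e).2.1) v| ≤
      H.two.length * (H.bd * (v ⬝ᵥ v)) := by
    refine (Finset.abs_sum_le_sum_abs _ _).trans ((Finset.sum_le_card_nsmul _ _ _ fun e _ =>
      key _ _ (hH.two_bd _ (term_mem e.2)).1
        (abs_pq2 ((term_lt hH e).1.trans (term_lt hH e).2) (term_lt hH e).2 v)).trans_eq ?_)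
    simp
  have h3 : (8 : ℝ) * (H.nq + H.one.length + H.two.length + H.bd + 4) ≤ m.P := by
    exact_mod_cast hm.Psz
  have h4 : (0 : ℝ) ≤ H.nq := Nat.cast_nonneg _
  have h5 : (0 : ℝ) ≤ H.one.length := Nat.cast_nonneg _
  have h6 : (0 : ℝ) ≤ H.two.length := Nat.cast_nonneg _
  have h7 : (0 : ℝ) ≤ H.bd := Nat.cast_nonneg _
  have h8 : ((H.one.length : ℝ) + H.two.length) * H.bd ≤ m.P / 8 * (m.P / 8) := by
    gcongr <;> linarith
  rw [en_eq hH]
  refine (abs_add_le _ _).trans ?_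
  nlinarith [mul_le_mul_of_nonneg_right h8 hv]

end Vale.Agent.P370.Lat
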