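import Vale.Agent.P370.LatMdl

/-! Part M: mediator qubits.
`med_lower`: for fixed `e` split `z` by `z e` (involution `z ↦ update z e (!z e)`); with `a = V z` (`z e = false`), `b = V (flip z)`:
`D |b|² + 2 b ⬝ O a ≥ -|O a|² / D`, and `|O a|² = qf (O * O) a ≥ 0` (`qf_tmul`).
`med_upper`: `V 0 = v`, `V (Pi.single e true) = -(1 / D e) • O e *ᵥ v`, all other `V z = 0`; e.g.
`V z = (if z = 0 then v else 0) + ∑ e, if z = update 0 e true then .. else 0`.  Then
`∑ |V z|² = |v|² + ∑ |O v|²/D²` and `Emed = qf (A - ∑ O²/D) v + ∑ qf A (O v)/D²`. -/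

namespace Vale.Agent.P370.Lat

open Matrix Finset

variable {Y ε : Type} [Fintype Y] [DecidableEq Y] [Fintype ε] [DecidableEq ε]

omit [DecidableEq Y] in
theorem latmed_symm {O : Matrix Y Y ℝ} (hO : Oᵀ = O) (a b : Y → ℝ) :
    a ⬝ᵥ O *ᵥ b = b ⬝ᵥ O *ᵥ a := by
  rw [dotProduct_mulVec, ← mulVec_transpose, hO, dotProduct_comm]

omit [DecidableEq Y] [DecidableEq ε] in
theorem latmed_qf (A : Matrix Y Y ℝ) {O : ε → Matrix Y Y ℝ} (D : ε → ℝ) (hO : ∀ e, (O e)ᵀ = O e)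
    (y : Y → ℝ) : qf (A - ∑ e, (1 / D e) • (O e * O e)) y =
      qf A y - ∑ e, 1 / D e * ((O e *ᵥ y) ⬝ᵥ (O e *ᵥ y)) := by
  rw [qf_sub, qf_sum]
  refine congrArg _ (Finset.sum_congr rfl fun e _ => ?_)
  rw [qf_smul, ← qf_tmul, hO]

theorem latmed_flip (e : ε) (f : (ε → Bool) → ℝ) :
    ∑ z, f (Function.update z e (!z e)) = ∑ z, f z :=
  Equiv.sum_comp (Function.Involutive.toPerm (fun z : ε → Bool => Function.update z e (!z e))
    fun z => by simp) f

omit [DecidableEq Y] in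
theorem latmed_sq {D : ℝ} (hD : 0 < D) (b c : Y → ℝ) :
    -(1 / D * (c ⬝ᵥ c)) ≤ D * (b ⬝ᵥ b) + 2 * (b ⬝ᵥ c) := by
  have h := dot_self_nonneg (D • b + c)
  simp only [add_dotProduct, dotProduct_add, smul_dotProduct, dotProduct_smul, smul_eq_mul,
    dotProduct_comm c b] at h
  have h2 := div_nonneg h hD.le
  have h3 : (D * (D * (b ⬝ᵥ b) + b ⬝ᵥ c) + (D * (b ⬝ᵥ c) + c ⬝ᵥ c)) / D =
      D * (b ⬝ᵥ b) + 2 * (b ⬝ᵥ c) + 1 / D * (c ⬝ᵥ c) := by
    field_simp
    ring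
  linarith

theorem med_lower (A : Matrix Y Y ℝ) {O : ε → Matrix Y Y ℝ} {D : ε → ℝ} (hO : ∀ e, (O e)ᵀ = O e)
    (hD : ∀ e, 0 < D e) (V : (ε → Bool) → Y → ℝ) :
    ∑ z, qf (A - ∑ e, (1 / D e) • (O e * O e)) (V z) ≤ Emed A O D V := by
  simp only [latmed_qf A D hO, Finset.sum_sub_distrib, Emed]
  rw [Finset.sum_comm, sub_eq_add_neg, ← Finset.sum_neg_distrib]
  refine add_le_add le_rfl (Finset.sum_le_sum fun e _ => ?_)
  have h1 : ∑ z, V z ⬝ᵥ O e *ᵥ V (Function.update z e (!z e)) =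
      ∑ z, 2 * (if z e then V z ⬝ᵥ O e *ᵥ V (Function.update z e (!z e)) else 0) := by
    simp only [two_mul, Finset.sum_add_distrib]
    rw [← latmed_flip e fun z =>
      if z e then V z ⬝ᵥ O e *ᵥ V (Function.update z e (!z e)) else 0]
    nth_rewrite 2 [latmed_flip e fun z =>
      if z e then V z ⬝ᵥ O e *ᵥ V (Function.update z e (!z e)) else 0]
    rw [← Finset.sum_add_distrib]
    refine Finset.sum_congr rfl fun z _ => ?_
    simp only [Function.update_self, Function.update_idem, Bool.not_not, Function.update_eq_self]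
    rw [latmed_symm (hO e) (V (Function.update z e (!z e)))]
    cases z e <;> simp
  rw [h1, ← latmed_flip e fun z => 1 / D e * ((O e *ᵥ V z) ⬝ᵥ (O e *ᵥ V z)), Finset.mul_sum,
    ← Finset.sum_add_distrib, ← Finset.sum_neg_distrib]
  refine Finset.sum_le_sum fun z _ => ?_
  split_ifs
  · exact latmed_sq (hD e) _ _
  · have := mul_nonneg (one_div_pos.2 (hD e)).le
      (dot_self_nonneg (O e *ᵥ V (Function.update z e (!z e))))
    linarith

omit [Fintype Y] [DecidableEq Y] in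
theorem latmed_ex (v : Y → ℝ) (w : ε → Y → ℝ) : ∃ V : (ε → Bool) → Y → ℝ,
    (∀ F : (ε → Bool) → (Y → ℝ) → ℝ, (∀ z, F z 0 = 0) →
      ∑ z, F z (V z) = F (fun _ => false) v + ∑ e, F (fun e' => decide (e' = e)) (w e)) ∧
    V (fun _ => false) = v ∧ (∀ e, V (fun e' => decide (e' = e)) = w e) ∧
    ∀ z e e', e ≠ e' → z e = true → z e' = true → V z = 0 := by
  set s : ε → ε → Bool := fun e e' => decide (e' = e) with hs
  have hinj : Function.Injective s := fun e e' h => by simpa [hs] using congrFun h e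
  have hne : ∀ e, s e ≠ fun _ => false := fun e h => by simpa [hs] using congrFun h e
  set V : (ε → Bool) → Y → ℝ := Function.update (Function.extend s w 0) (fun _ => false) v
  have h0 : V (fun _ => false) = v := Function.update_self ..
  have h1 : ∀ e, V (s e) = w e := fun e =>
    (Function.update_of_ne (hne e) _ _).trans (hinj.extend_apply _ _ _)
  have h2 : ∀ z, z ≠ (fun _ => false) → (¬ ∃ e, s e = z) → V z = 0 := fun z hz hz' =>
    (Function.update_of_ne hz _ _).trans (Function.extend_apply' _ _ _ hz')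
  refine ⟨V, fun F hF => ?_, h0, h1, fun z e e' he hz hz' => h2 z ?_ ?_⟩
  · rw [← Finset.sum_subset (Finset.subset_univ (insert (fun _ => false) (univ.image s)))
      fun z _ hz => by
        rw [h2 z (fun h => hz (by simp [h])) (fun h => hz (by simp [h])), hF],
      Finset.sum_insert (by simpa using hne), Finset.sum_image hinj.injOn, h0]
    simp only [h1]
    rfl
  · rintro rfl
    exact absurd hz (by simp)
  · rintro ⟨e'', rfl⟩
    simp only [hs, decide_eq_true_eq] at hz hz'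
    exact he (hz.trans hz'.symm)

theorem med_upper (A : Matrix Y Y ℝ) {O : ε → Matrix Y Y ℝ} {D : ε → ℝ} (hO : ∀ e, (O e)ᵀ = O e)
    {D0 o2 a β : ℝ} (hD0 : 0 < D0) (hD : ∀ e, D0 ≤ D e) (ho : 0 ≤ o2)
    (hO2 : ∀ e y, (O e *ᵥ y) ⬝ᵥ (O e *ᵥ y) ≤ o2 * (y ⬝ᵥ y)) (hβ : β ≤ a)
    (ha : ∀ y, qf (A - ∑ e, (1 / D e) • (O e * O e)) y ≤ a * (y ⬝ᵥ y)) {v : Y → ℝ}
    (hv0 : 0 < v ⬝ᵥ v) (hv : qf (A - ∑ e, (1 / D e) • (O e * O e)) v ≤ β * (v ⬝ᵥ v)) :
    ∃ V : (ε → Bool) → Y → ℝ, 0 < ∑ z, V z ⬝ᵥ V z ∧ Emed A O D V ≤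
      (β + Fintype.card ε * (o2 / D0 ^ 2) * (a - β + Fintype.card ε * (o2 / D0))) *
        ∑ z, V z ⬝ᵥ V z := by
  have hDp : ∀ e, 0 < D e := fun e => hD0.trans_le (hD e)
  set w : ε → Y → ℝ := fun e => (-(1 / D e)) • (O e *ᵥ v) with hw
  obtain ⟨V, hF, h0, h1, h2⟩ := latmed_ex v w
  have e1 : ∑ z, V z ⬝ᵥ V z = v ⬝ᵥ v + ∑ e, w e ⬝ᵥ w e := hF (fun _ y => y ⬝ᵥ y) (by simp)
  have e2 : ∑ z, qf A (V z) = qf A v + ∑ e, qf A (w e) := hF (fun _ y => qf A y) (by simp [qf])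
  have e3 : ∀ e, ∑ z, (if z e then V z ⬝ᵥ V z else 0) = w e ⬝ᵥ w e := fun e => by
    rw [hF (fun z y => if z e then y ⬝ᵥ y else 0) (by simp)]
    simp
  have e4 : ∀ e, ∑ z, V z ⬝ᵥ O e *ᵥ V (Function.update z e (!z e)) =
      2 * (w e ⬝ᵥ O e *ᵥ v) := fun e => by
    rw [hF (fun z y => y ⬝ᵥ O e *ᵥ V (Function.update z e (!z e))) (by simp),
      Finset.sum_eq_single e, two_mul, latmed_symm (hO e) v, ← h1 e]
    · have a1 : Function.update (fun _ : ε => false) e (!false) = fun e' => decide (e' = e) := by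
        funext e'
        by_cases h : e' = e <;> simp [h]
      have a2 : Function.update (fun e' : ε => decide (e' = e)) e (!decide (e = e)) =
          fun _ => false := by
        funext e'
        by_cases h : e' = e <;> simp [h]
      rw [a1, a2, h0]
    · intro e' _ he
      rw [h2 _ e' e he (by simp [he]) (by simp [he.symm]), mulVec_zero, dotProduct_zero]
    · simp
  have e5 : ∀ e, w e ⬝ᵥ w e = (1 / D e) ^ 2 * ((O e *ᵥ v) ⬝ᵥ (O e *ᵥ v)) := fun e => by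
    simp only [hw, smul_dotProduct, dotProduct_smul, smul_eq_mul]
    ring
  have e6 : Emed A O D V = qf (A - ∑ e, (1 / D e) • (O e * O e)) v + ∑ e, qf A (w e) := by
    rw [Emed, e2, latmed_qf A D hO, add_right_comm, sub_eq_add_neg, ← Finset.sum_neg_distrib]
    refine congrArg (fun x => qf A v + x + _) (Finset.sum_congr rfl fun e _ => ?_)
    rw [e3, e4, e5]
    simp only [hw, smul_dotProduct, smul_eq_mul]
    have := (hDp e).ne'
    field_simp
    ring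
  have hinv : ∀ e, 1 / D e ≤ 1 / D0 := fun e => one_div_le_one_div_of_le hD0 (hD e)
  have b1 : ∀ y, qf A y ≤ (a + Fintype.card ε * (o2 / D0)) * (y ⬝ᵥ y) := fun y => by
    have c1 := ha y
    have c2 : ∑ e, 1 / D e * ((O e *ᵥ y) ⬝ᵥ (O e *ᵥ y)) ≤ ∑ _e : ε, 1 / D0 * (o2 * (y ⬝ᵥ y)) :=
      Finset.sum_le_sum fun e _ =>
        mul_le_mul (hinv e) (hO2 e y) (dot_self_nonneg _) (one_div_pos.2 hD0).le
    rw [latmed_qf A D hO] at c1
    rw [Finset.sum_const, Finset.card_univ, nsmul_eq_mul] at c2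
    have c3 : (Fintype.card ε : ℝ) * (1 / D0 * (o2 * (y ⬝ᵥ y))) =
        Fintype.card ε * (o2 / D0) * (y ⬝ᵥ y) := by ring
    linarith
  have b2 : ∑ e, qf A (w e) ≤ (a + Fintype.card ε * (o2 / D0)) * ∑ e, w e ⬝ᵥ w e := by
    rw [Finset.mul_sum]
    exact Finset.sum_le_sum fun e _ => b1 _
  have b3 : ∑ e, w e ⬝ᵥ w e ≤ Fintype.card ε * (o2 / D0 ^ 2) * (v ⬝ᵥ v) := by
    have c2 : ∑ e, w e ⬝ᵥ w e ≤ ∑ _e : ε, (1 / D0) ^ 2 * (o2 * (v ⬝ᵥ v)) :=
      Finset.sum_le_sum fun e _ => (e5 e).trans_le (mul_le_mul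
        (pow_le_pow_left₀ (one_div_pos.2 (hDp e)).le (hinv e) 2) (hO2 e v) (dot_self_nonneg _)
        (sq_nonneg _))
    rw [Finset.sum_const, Finset.card_univ, nsmul_eq_mul] at c2
    exact c2.trans_eq (by ring)
  have b4 : 0 ≤ ∑ e, w e ⬝ᵥ w e := Finset.sum_nonneg fun e _ => dot_self_nonneg _
  have b5 : 0 ≤ (Fintype.card ε : ℝ) * (o2 / D0) := by positivity
  have b6 : 0 ≤ (Fintype.card ε : ℝ) * (o2 / D0 ^ 2) := by positivity
  refine ⟨V, by linarith, ?_⟩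
  rw [e1, e6]
  generalize (Fintype.card ε : ℝ) * (o2 / D0) = γ at *
  generalize (Fintype.card ε : ℝ) * (o2 / D0 ^ 2) = η at *
  generalize ∑ e, w e ⬝ᵥ w e = W at *
  have b7 : 0 ≤ a - β + γ := by linarith
  nlinarith [mul_le_mul_of_nonneg_left b3 b7, mul_nonneg (mul_nonneg b6 b7) b4]

end Vale.Agent.P370.Lat
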