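import Vale.Agent.P370.LatAbs
import Vale.Agent.P370.LatEff
import Vale.Agent.P370.LatH
import Vale.Agent.P370.LatMed

/-! Part M: the lattice model simulates the 2-local Hamiltonian (see `notes/P370.md`). -/

namespace Vale.Agent.P370

open Lat

open Matrix Finset

variable {H : LH} {m : MP}

theorem Del_bd (hH : H.OK) (hm : m.OK H) {e : ℕ} (he : e < H.two.length) :
    1 / (32 * m.P ^ 46) ≤ Del H m.P m.y e ∧ Del H m.P m.y e ≤ 1 / m.P ^ 42 :=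
  Del_bd' hH hm he

theorem epsh_bd (hH : H.OK) (hm : m.OK H) (q a b : ℕ) :
    0 ≤ epsh H m.P m.u m.y q a b ∧ epsh H m.P m.u m.y q a b ≤ 2 * m.P :=
  epsh_bd' hH hm q a b

theorem Cst_bd (hH : H.OK) (hm : m.OK H) : |Cst H m.P m.u m.y| ≤ m.P ^ 2 :=
  Cst_bd' hH hm

/-- the real sizes -/
private theorem sizes (hH : H.OK) (hm : m.OK H) :
    (2 : ℝ) ^ 30 ≤ m.P ∧ (0 : ℝ) < m.s ∧ (m.s : ℝ) * (m.P : ℝ) ^ 62 ≤ m.δ ∧
      (H.nq : ℝ) + H.two.length ≤ m.P / 8 ∧ |(H.thr : ℝ)| ≤ m.P / 8 := by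
  have h1 : (8 : ℝ) * (H.nq + H.one.length + H.two.length + H.bd + 4) ≤ m.P := by
    exact_mod_cast hm.Psz
  have h2 : |(H.thr : ℝ)| ≤ H.bd := by exact_mod_cast hH.thr_bd
  have h3 : (0 : ℝ) ≤ H.nq := Nat.cast_nonneg _
  have h4 : (0 : ℝ) ≤ H.one.length := Nat.cast_nonneg _
  have h5 : (0 : ℝ) ≤ H.two.length := Nat.cast_nonneg _
  have h6 : (0 : ℝ) ≤ H.bd := Nat.cast_nonneg _
  refine ⟨by exact_mod_cast hm.P30, by exact_mod_cast hm.s_pos, by exact_mod_cast hm.δ_ge,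
    by linarith, by linarith⟩

private theorem card_clu : (Fintype.card (Clu H) : ℝ) = H.nq + H.two.length := by
  simp [Clu]

private theorem w_loss (hH : H.OK) (hm : m.OK H) (w : Site H → Site H → ℝ)
    (hw : ∀ a a', |w a a' - wnom H m a a'| ≤ 1 / (m.P : ℝ) ^ 58)
    (c : (Fin H.Nel → Site H × Bool) → ℝ) :
    |Elat (Tm H m) w m.s c - Elat (fun x y => m.δ * (mdl H m).T0 x y + m.s * (mdl H m).T x y)
      (mdl H m).w m.s c| ≤ m.s * (1 / (8 * (m.P : ℝ) ^ 56)) * nsq c := by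
  obtain ⟨hP, hs, -, hn, -⟩ := sizes hH hm
  have hT : Tm H m = fun x y => m.δ * (mdl H m).T0 x y + m.s * (mdl H m).T x y :=
    funext fun x => funext fun y => Tm_eq x y
  rw [← hT]
  refine (Elat_sub_le (Tm H m) (w' := (mdl H m).w) hs.le hw c).trans ?_
  have h0 : 0 ≤ nsq c := by rw [nsq_eq]; exact dot_self_nonneg c
  have hP0 : (0 : ℝ) < m.P := by linarith [show (0 : ℝ) < 2 ^ 30 by positivity]
  have hN : (H.Nel : ℝ) ≤ m.P / 2 := by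
    have h5 : (0 : ℝ) ≤ H.two.length := Nat.cast_nonneg _
    simp only [LH.Nel, Nat.cast_add, Nat.cast_mul, Nat.cast_ofNat]
    linarith
  have h2 : (H.Nel : ℝ) ^ 2 ≤ (m.P / 2) ^ 2 := pow_le_pow_left₀ (Nat.cast_nonneg _) hN 2
  have h3 : (H.Nel : ℝ) ^ 2 / 2 * (1 / (m.P : ℝ) ^ 58) ≤ 1 / (8 * (m.P : ℝ) ^ 56) :=
    calc _ ≤ ((m.P : ℝ) / 2) ^ 2 / 2 * (1 / (m.P : ℝ) ^ 58) := by gcongr
      _ = _ := by field_simp; norm_num
  gcongr

private theorem num_yes {P L t : ℝ} (hP : 2 ^ 30 ≤ P) (hL0 : 0 ≤ L) (hL : L ≤ P / 8)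
    (ht : |t| ≤ P / 8) :
    L * (1 / (36 * P ^ 98) / (1 / (32 * P ^ 46)) ^ 2) *
      (1 / P ^ 55 * (P ^ 2 / 64) - 1 / P ^ 55 * t +
        L * (1 / (36 * P ^ 98) / (1 / (32 * P ^ 46)))) + 1 / (8 * P ^ 56) ≤
      1 / P ^ 55 * (1 / 32) := by
  have hP0 : 0 < P := by linarith [show (0 : ℝ) < 2 ^ 30 by positivity]
  have ht1 := (abs_le.1 ht).1
  have e1 : 1 / (36 * P ^ 98) / (1 / (32 * P ^ 46)) ^ 2 = 256 / (9 * P ^ 6) := by
    field_simp; norm_num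
  have e2 : 1 / (36 * P ^ 98) / (1 / (32 * P ^ 46)) = 8 / (9 * P ^ 52) := by
    field_simp; norm_num
  have h1 : 1 / P ^ 55 * (P ^ 2 / 64) - 1 / P ^ 55 * t ≤ 1 / (72 * P ^ 51) := by
    rw [← mul_sub]
    calc _ ≤ 1 / P ^ 55 * (P ^ 4 / 72) := by
          gcongr
          have : P ^ 2 * 2 ^ 30 ≤ P ^ 2 * P := by gcongr
          have h2 : P ^ 3 * 2 ^ 30 ≤ P ^ 3 * P := by gcongr
          nlinarith
      _ = _ := by field_simp
  have h2 : L * (8 / (9 * P ^ 52)) ≤ 1 / (9 * P ^ 51) :=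
    calc _ ≤ P / 8 * (8 / (9 * P ^ 52)) := by gcongr
      _ = _ := by field_simp
  have h3 : 1 / (72 * P ^ 51) + 1 / (9 * P ^ 51) = 1 / (8 * P ^ 51) := by field_simp; norm_num
  have h4 : L * (256 / (9 * P ^ 6)) * (1 / P ^ 55 * (P ^ 2 / 64) - 1 / P ^ 55 * t +
      L * (8 / (9 * P ^ 52))) ≤ 4 / (9 * P ^ 56) :=
    calc _ ≤ L * (256 / (9 * P ^ 6)) * (1 / (8 * P ^ 51)) := by
          gcongr
          linarith
      _ ≤ P / 8 * (256 / (9 * P ^ 6)) * (1 / (8 * P ^ 51)) := by gcongr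
      _ = _ := by field_simp; norm_num
  have h5 : 4 / (9 * P ^ 56) + 1 / (8 * P ^ 56) ≤ 1 / P ^ 55 * (1 / 32) :=
    calc _ = 1 / P ^ 55 * (41 / 72 / P) := by field_simp; norm_num
      _ ≤ _ := mul_le_mul_of_nonneg_left (by rw [div_le_iff₀ hP0]; linarith) (by positivity)
  rw [e1, e2]
  linarith

theorem lat_yes (hH : H.OK) (hm : m.OK H) (w : Site H → Site H → ℝ)
    (hw : ∀ a a', |w a a' - wnom H m a a'| ≤ 1 / (m.P : ℝ) ^ 58) (hy : H.Yes) :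
    ∃ c : (Fin H.Nel → Site H × Bool) → ℝ, AntiC c ∧ 0 < nsq c ∧
      Elat (Tm H m) w m.s c ≤ ((lvl H m + m.s * E1 m.P * (H.thr + 1 / 32) : ℚ) : ℝ) * nsq c := by
  obtain ⟨hP, hs, -, hn, ht⟩ := sizes hH hm
  have hP0 : (0 : ℝ) < m.P := by linarith [show (0 : ℝ) < 2 ^ 30 by positivity]
  have hE : (E1 m.P : ℝ) = 1 / (m.P : ℝ) ^ 55 := by simp [E1]
  have hE0 : (0 : ℝ) < E1 m.P := by rw [hE]; positivity
  obtain ⟨v, hv0, hv⟩ := hy
  rw [← dot_self_eq] at hv0 hv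
  have hD : ∀ e : Fin H.two.length, 1 / (32 * (m.P : ℝ) ^ 46) ≤ (Del H m.P m.y e : ℝ) := fun e => by
    exact_mod_cast (Del_bd hH hm e.2).1
  obtain ⟨V, hV0, hV⟩ := med_upper (Agen H m (pq H.nq))
    (O := fun e : Fin H.two.length => Ogen H m (pq H.nq) e) (fun e => Ogen_symm e)
    (a := ((Cst H m.P m.u m.y - Ccore H m : ℚ) : ℝ) + E1 m.P * ((m.P : ℝ) ^ 2 / 64))
    (β := ((Cst H m.P m.u m.y - Ccore H m : ℚ) : ℝ) + E1 m.P * H.thr)
    (by positivity) hD (by positivity) (Ogen_bd hH hm)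
    (by
      have : (H.thr : ℝ) ≤ (m.P : ℝ) ^ 2 / 64 := by nlinarith [(abs_le.1 ht).2]
      gcongr)
    (fun y => by
      rw [qf_elim hH hm, add_mul, mul_assoc]
      gcongr
      exact (abs_le.1 (en_bd hH hm y)).2)
    hv0 (by
      rw [qf_elim hH hm, add_mul, mul_assoc]
      gcongr)
  set lam := ((Cst H m.P m.u m.y - Ccore H m : ℚ) : ℝ) + E1 m.P * H.thr + _ with hlam
  obtain ⟨c, hc, hc0, hE2⟩ := (mdl_ok hm).abs_upper mdl_Nel m.δ hs.le (lam := lam)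
    (v := fun k => V (fun e => k (.inr e)) fun q => k (.inl q))
    (by rw [dot_clu]; exact hV0) (by rw [qf_Heff hH, dot_clu]; exact hV)
  refine ⟨c, hc, hc0, ?_⟩
  have h1 := (abs_le.1 (w_loss hH hm w hw c)).2
  have h2 := num_yes hP (Nat.cast_nonneg H.two.length)
    (by linarith [show (0 : ℝ) ≤ H.nq from Nat.cast_nonneg _]) ht
  have h3 : (mdl H m).C0 + lam + 1 / (8 * (m.P : ℝ) ^ 56) ≤
      Cst H m.P m.u m.y + E1 m.P * (H.thr + 1 / 32) := by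
    rw [hlam, mdl_C0, Fintype.card_fin, hE, add_sub_add_left_eq_sub]
    push_cast
    linarith
  rw [card_clu] at hE2
  have h4 := mul_le_mul_of_nonneg_right (mul_le_mul_of_nonneg_left h3 hs.le) hc0.le
  simp only [lvl]
  push_cast
  linarith

private theorem num_no {P n t C : ℝ} (hP : 2 ^ 30 ≤ P) (hn : n ≤ P / 8) (ht : |t| ≤ P / 8)
    (hC : C - P * n ≤ 1 / P ^ 49) :
    C + 1 / P ^ 55 * (t + 1 / 4) ≤ n * (P - 2 / P ^ 49) + 1 / P ^ 40 ∧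
      1 / P ^ 55 * (t + 1 / 4) ≤ 1 := by
  have hP1 : 1 ≤ P := by linarith [show (1 : ℝ) ≤ 2 ^ 30 by norm_num]
  have hP0 : 0 < P := by linarith
  have h1 : 1 / P ^ 55 * (t + 1 / 4) ≤ 1 / P ^ 48 :=
    calc _ ≤ 1 / P ^ 55 * P ^ 7 := by
          gcongr
          have : P ^ 1 ≤ P ^ 7 := pow_le_pow_right₀ hP1 (by norm_num)
          linarith [(abs_le.1 ht).2]
      _ = _ := by field_simp
  have h2 : 1 / P ^ 49 ≤ 1 / P ^ 48 := by gcongr; norm_num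
  have h3 : n * (2 / P ^ 49) ≤ 1 / P ^ 48 :=
    calc _ ≤ P / 2 * (2 / P ^ 49) := by gcongr; linarith
      _ = _ := by field_simp
  have h4 : 3 * (1 / P ^ 48) ≤ 1 / P ^ 40 :=
    calc _ ≤ P ^ 8 * (1 / P ^ 48) := by
          gcongr
          have : P ^ 1 ≤ P ^ 8 := pow_le_pow_right₀ hP1 (by norm_num)
          linarith
      _ = _ := by field_simp
  have h5 : 1 / P ^ 48 ≤ 1 := by
    rw [div_le_one (by positivity)]
    exact one_le_pow₀ hP1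
  constructor
  · rw [mul_sub]
    linarith
  · linarith

theorem lat_no (hH : H.OK) (hm : m.OK H) (w : Site H → Site H → ℝ)
    (hw : ∀ a a', |w a a' - wnom H m a a'| ≤ 1 / (m.P : ℝ) ^ 58) (hn : H.No)
    (c : (Fin H.Nel → Site H × Bool) → ℝ) (hc : AntiC c) :
    ((lvl H m + m.s * E1 m.P * (H.thr + 1 / 4 - 1 / 32) : ℚ) : ℝ) * nsq c ≤
      Elat (Tm H m) w m.s c := by
  obtain ⟨hP, hs, hδ, hsz, ht⟩ := sizes hH hm
  have hP1 : (1 : ℝ) ≤ m.P := by linarith [show (1 : ℝ) ≤ 2 ^ 30 by norm_num]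
  have hP0 : (0 : ℝ) < m.P := by linarith
  have hE : (E1 m.P : ℝ) = 1 / (m.P : ℝ) ^ 55 := by simp [E1]
  have hE0 : (0 : ℝ) < E1 m.P := by rw [hE]; positivity
  have hδ0 : (0 : ℝ) < m.δ := lt_of_lt_of_le (by positivity) hδ
  have hD : ∀ e : Fin H.two.length, (0 : ℝ) < (Del H m.P m.y e : ℝ) := fun e => by
    have : 1 / (32 * (m.P : ℝ) ^ 46) ≤ (Del H m.P m.y e : ℝ) := by
      exact_mod_cast (Del_bd hH hm e.2).1
    exact lt_of_lt_of_le (by positivity) this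
  have hN : (H.Nel : ℝ) ≤ 3 * m.P / 8 := by
    have h5 : (0 : ℝ) ≤ H.two.length := Nat.cast_nonneg _
    simp only [LH.Nel, Nat.cast_add, Nat.cast_mul, Nat.cast_ofNat]
    linarith
  have hb : (H.Nel : ℝ) * (2 * m.P) + (H.Nel : ℝ) ^ 2 / 2 * m.P ≤ (m.P : ℝ) ^ 3 / 8 :=
    calc _ ≤ 3 * (m.P : ℝ) / 8 * (2 * m.P) + (3 * (m.P : ℝ) / 8) ^ 2 / 2 * m.P := by gcongr
      _ ≤ _ := by
        have : (m.P : ℝ) ^ 2 * 2 ^ 30 ≤ (m.P : ℝ) ^ 2 * m.P := by gcongr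
        nlinarith
  have hC : ((Cst H m.P m.u m.y - Ccore H m : ℚ) : ℝ) - m.P * (H.nq + H.two.length) ≤
      1 / (m.P : ℝ) ^ 49 := by exact_mod_cast (abs_le.1 (Cst_sub hH hm)).2
  have hC2 : (Cst H m.P m.u m.y : ℝ) ≤ (m.P : ℝ) ^ 2 := by
    exact_mod_cast (abs_le.1 (Cst_bd hH hm)).2
  obtain ⟨h1, h2⟩ := num_no hP hsz ht hC
  have key := (mdl_ok hm).abs_lower mdl_Nel hδ0 hs (b := (m.P : ℝ) ^ 3 / 8)
    (lam := ((Cst H m.P m.u m.y - Ccore H m : ℚ) : ℝ) + E1 m.P * (H.thr + 1 / 4))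
    (by positivity)
    (fun d => by
      have := (mdl_ok hm).Ho_bd (T_bd hH hm) (wm := m.P)
        (fun x y => Rat.cast_le.2 (wnom_bd hm x y).2) hP0.le d
      exact ⟨this.1, this.2.trans (mul_le_mul_of_nonneg_right hb (dot_self_nonneg d))⟩)
    (by
      have h3 : (m.P : ℝ) ^ 3 ≤ (m.P : ℝ) ^ 62 := pow_le_pow_right₀ hP1 (by norm_num)
      have h4 : (m.P : ℝ) ^ 2 * 2 ^ 30 ≤ (m.P : ℝ) ^ 2 * m.P := by gcongr
      have h5 : (1 : ℝ) ≤ (m.P : ℝ) ^ 2 := one_le_pow₀ hP1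
      have h6 : (mdl H m).C0 + (((Cst H m.P m.u m.y - Ccore H m : ℚ) : ℝ) +
          E1 m.P * (H.thr + 1 / 4)) ≤ (m.P : ℝ) ^ 62 / 2 := by
        rw [mdl_C0, hE]
        push_cast
        nlinarith
      nlinarith [mul_le_mul_of_nonneg_left h6 hs.le])
    (by positivity) (hub hm) (mdl_f_ge hH hm) (by rw [card_clu, hE]; exact h1)
    (fun v => by
      rw [qf_Heff hH, dot_clu, Finset.mul_sum]
      refine le_trans (Finset.sum_le_sum fun z _ => ?_)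
        (med_lower _ (O := fun e : Fin H.two.length => Ogen H m (pq H.nq) e)
          (fun e => Ogen_symm e) hD _)
      rw [qf_elim hH hm, add_mul, mul_assoc]
      gcongr
      rw [dot_self_eq]
      exact hn _) hc
  have h0 : 0 ≤ nsq c := by rw [nsq_eq]; exact dot_self_nonneg c
  have h3 := (abs_le.1 (w_loss hH hm w hw c)).1
  have h4 : 2 * (m.s : ℝ) ^ 2 * ((m.P : ℝ) ^ 3 / 8) ^ 2 / m.δ + m.s * (1 / (8 * (m.P : ℝ) ^ 56)) ≤
      m.s * E1 m.P * (1 / 32) :=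
    calc _ ≤ 2 * (m.s : ℝ) ^ 2 * ((m.P : ℝ) ^ 3 / 8) ^ 2 / (m.s * (m.P : ℝ) ^ 62) +
          m.s * (1 / (8 * (m.P : ℝ) ^ 56)) := by gcongr
      _ = m.s * E1 m.P * (5 / 32 / m.P) := by rw [hE]; field_simp; norm_num
      _ ≤ _ := mul_le_mul_of_nonneg_left (by rw [div_le_iff₀ hP0]; linarith) (by positivity)
  have h5 := mul_le_mul_of_nonneg_right h4 h0
  rw [card_clu, mdl_C0] at key
  simp only [lvl]
  push_cast at key ⊢
  linarith

end Vale.Agent.P370
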