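import Vale.Agent.P370.LatAlg

/-! Part M: the abstract orbital model and the concrete model (definitions). -/

namespace Vale.Agent.P370.Lat

open Matrix Finset

variable {S Cl : Type} [Fintype S] [DecidableEq S] [Fintype Cl] [DecidableEq Cl] {N : ℕ}

noncomputable section

/-- orbitals (rows of `U`), their levels and clusters, the small one-body term and the interaction -/
structure Mdl (S Cl : Type) where
  U : Matrix S S ℝ
  lev : S → ℕ
  cl : S → Cl
  ao : Cl → Bool → S
  T : Matrix S S ℝ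
  w : S → S → ℝ

namespace Mdl

variable (M : Mdl S Cl)

structure OK : Prop where
  orth : M.U * M.Uᵀ = 1
  U_blk : ∀ o x, M.U o x ≠ 0 → M.cl o = M.cl x
  T_blk : ∀ x y, M.T x y ≠ 0 → M.cl x = M.cl y
  lev_ao : ∀ c β, M.lev (M.ao c β) = 1
  cl_ao : ∀ c β, M.cl (M.ao c β) = c
  ao_ne : ∀ c, M.ao c false ≠ M.ao c true
  ao_surj : ∀ o, M.lev o = 1 → ∃ β, o = M.ao (M.cl o) β
  w_symm : ∀ x y, M.w x y = M.w y x
  w_nonneg : ∀ x y, 0 ≤ M.w x y

/-- the core orbitals -/
def core : Finset S := univ.filter fun p => M.lev p = 0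

/-- the large one-body term in the site basis -/
def T0 : Matrix S S ℝ := M.Uᵀ * diagonal (fun o => (M.lev o : ℝ)) * M.U

/-- the small one-body term in the orbital basis -/
def To : Matrix S S ℝ := M.U * M.T * M.Uᵀ

/-- energy of the core -/
def C0 : ℝ := ∑ p ∈ M.core, 2 * M.To p p + ∑ p ∈ M.core, ∑ q ∈ M.core, ∑ x, ∑ y,
  M.w x y * (2 * M.U p x ^ 2 * M.U q y ^ 2 - M.U p x * M.U q x * M.U p y * M.U q y)

/-- mean field operator -/
def Fm : Matrix S S ℝ := Matrix.of fun o o' => M.To o o' + ∑ p ∈ M.core, ∑ x, ∑ y,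
  M.w x y * (2 * M.U p x ^ 2 * M.U o y * M.U o' y - M.U p x * M.U o' x * M.U o y * M.U p y)

/-- restriction to the active orbitals -/
def act (A : Matrix S S ℝ) : Matrix S S ℝ :=
  Matrix.of fun o o' => if M.lev o = 1 ∧ M.lev o' = 1 then A o o' else 0

/-- small part of the Hamiltonian, site basis -/
def Hs (N : ℕ) : Matrix (Fin N → S × Bool) (Fin N → S × Bool) ℝ :=
  Hm (Fin N) (sp M.T) M.w fun x => sp (dens 1 x)

/-- small part of the Hamiltonian, orbital basis -/
def Ho (N : ℕ) : Matrix (Fin N → S × Bool) (Fin N → S × Bool) ℝ :=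
  Hm (Fin N) (sp M.To) M.w fun x => sp (dens M.U x)

/-- large part of the Hamiltonian, orbital basis -/
def Lo (N : ℕ) : Matrix (Fin N → S × Bool) (Fin N → S × Bool) ℝ :=
  ob (Fin N) (sp (diagonal fun o => (M.lev o : ℝ)))

/-- Hamiltonian of the active electrons -/
def Qa (N : ℕ) : Matrix (Fin N → S × Bool) (Fin N → S × Bool) ℝ :=
  Hm (Fin N) (sp (M.act M.Fm)) M.w fun x => sp (M.act (dens M.U x))

/-- configurations of the lowest level -/
def Good (k : Fin N → S × Bool) : Prop :=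
  Function.Injective k ∧ (∀ a, M.lev a.1 = 0 → ∃ i, k i = a) ∧ ∀ i, M.lev (k i).1 ≤ 1

/-- at most one active electron in every cluster -/
def Sgl (k : Fin N → S × Bool) : Prop :=
  ∀ i j, M.lev (k i).1 = 1 → M.lev (k j).1 = 1 → M.cl (k i).1 = M.cl (k j).1 → i = j

/-- vectors supported on good configurations -/
def GS (u : (Fin N → S × Bool) → ℝ) : Prop := ∀ k, u k ≠ 0 → M.Good k

/-- forget the bit of an active orbital -/
def pt (a : S × Bool) : S × Bool := if M.lev a.1 = 1 then (M.ao (M.cl a.1) false, a.2) else a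

/-- the part of `u` with the pattern `p` -/
def cut (p : Fin N → S × Bool) (u : (Fin N → S × Bool) → ℝ) : (Fin N → S × Bool) → ℝ :=
  fun k => if (fun i => M.pt (k i)) = p then u k else 0

/-- the bits of a configuration -/
def bits (k : Fin N → S × Bool) : Cl → Bool := fun c => decide (∃ i, (k i).1 = M.ao c true)

/-- mean field on a cluster -/
def f (c : Cl) : Matrix Bool Bool ℝ := Matrix.of fun β β' => M.Fm (M.ao c β) (M.ao c β')

/-- active density at a site -/
def R (x : S) : Matrix Bool Bool ℝ :=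
  Matrix.of fun β β' => M.U (M.ao (M.cl x) β) x * M.U (M.ao (M.cl x) β') x

/-- the effective qubit Hamiltonian -/
def Heff : Matrix (Cl → Bool) (Cl → Bool) ℝ :=
  ∑ c, one c (M.f c) + (1 / 2 : ℝ) • ∑ x, ∑ y,
    (if M.cl x = M.cl y then 0 else M.w x y) • (one (M.cl x) (M.R x) * one (M.cl y) (M.R y))

/-- two active electrons in one cluster cost at least `Uc` -/
def Hub (Uc : ℝ) : Prop := ∀ (c : Cl) (α : Bool → Bool → ℝ),
  Uc * ∑ β, ∑ β', α β β' ^ 2 ≤ ∑ x, ∑ y, if M.cl x = c ∧ M.cl y = c then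
    M.w x y * (∑ β, ∑ β', M.U (M.ao c β) x * M.U (M.ao c β') y * α β β') ^ 2 else 0

end Mdl

/-- energy of qubits `Y` coupled to mediator qubits `ε` -/
def Emed {Y ε : Type} [Fintype Y] [Fintype ε] [DecidableEq ε] (A : Matrix Y Y ℝ)
    (O : ε → Matrix Y Y ℝ) (D : ε → ℝ) (V : (ε → Bool) → Y → ℝ) : ℝ :=
  ∑ z, qf A (V z) + ∑ e, (D e * ∑ z, (if z e then V z ⬝ᵥ V z else 0) +
    ∑ z, V z ⬝ᵥ O e *ᵥ V (Function.update z e (!z e)))

/-- eigenvectors of `lap3` (rows) -/
def ev3 : Matrix (Fin 3) (Fin 3) ℝ :=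
  !![1 / √3, 1 / √3, 1 / √3; -1 / √2, 0, 1 / √2; 1 / √6, -2 / √6, 1 / √6]

/-- eigenvalues of `lap3` -/
def lv3 : Fin 3 → ℕ := ![0, 1, 3]

/-- Pauli matrices, `true` is `X` and `false` is `Z` -/
def pm (p : Bool) : Matrix Bool Bool ℝ :=
  Matrix.of fun β β' => if p then (if β = β' then 0 else 1) else
    (if β = β' then (if β then -1 else 1) else 0)

/-- projection onto the state `1` -/
def nm : Matrix Bool Bool ℝ := Matrix.of fun β β' => if β = true ∧ β' = true then 1 else 0

/-- clusters -/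
abbrev Clu (H : LH) : Type := Fin H.nq ⊕ Fin H.two.length

/-- the concrete model -/
def mdl (H : LH) (m : MP) : Mdl (Site H) (Clu H) where
  U := Matrix.of fun o x => match o, x with
    | .inl (q, a, b), .inl (q', a', b') => if q = q' then ev3 a a' * ev3 b b' else 0
    | .inr (e, β), .inr (e', σ) => if e = e' then (if β = true ∧ σ = true then -1 else 1) / √2 else 0
    | _, _ => 0
  lev o := match o with
    | .inl (_, a, b) => lv3 a + lv3 b
    | .inr _ => 1
  cl o := match o with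
    | .inl (q, _, _) => .inl q
    | .inr (e, _) => .inr e
  ao c β := match c with
    | .inl q => if β then .inl (q, 0, 1) else .inl (q, 1, 0)
    | .inr e => .inr (e, β)
  T := Matrix.of fun x y => match x, y with
    | .inl (q, a, b), .inl (q', a', b') =>
        if q = q' ∧ a = a' ∧ b = b' then (epsh H m.P m.u m.y q a b : ℝ) else 0
    | .inr (e, σ), .inr (e', σ') =>
        if e = e' then (if σ = σ' then (m.P : ℝ) + Del H m.P m.y e / 2 else -(Del H m.P m.y e / 2))
        else 0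
    | _, _ => 0
  w x y := (wnom H m x y : ℝ)

/-- Pauli matrix on a qubit -/
def pq (n : ℕ) (a : ℕ × Bool) : Matrix (Fin n → Bool) (Fin n → Bool) ℝ :=
  if h : a.1 < n then one ⟨a.1, h⟩ (pm a.2) else 0

/-- the same on the space of all clusters -/
def pc (H : LH) (a : ℕ × Bool) : Matrix (Clu H → Bool) (Clu H → Bool) ℝ :=
  if h : a.1 < H.nq then one (Sum.inl ⟨a.1, h⟩) (pm a.2) else 0

/-- energy of the core of the concrete model -/
def Ccore (H : LH) (m : MP) : ℚ :=
  ((List.range H.nq).map fun q =>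
    2 * (e0q H m.P m.u m.y q + ez H m.P m.y q / 3 + ex H m.P m.y q / 9) +
      (9 * m.u / H.K + 12 * w0 H m.P) / 81).sum

/-- the qubit part, in terms of a family `p` of Pauli operators -/
def Agen {K : Type} [DecidableEq K] (H : LH) (m : MP) (p : ℕ × Bool → Matrix K K ℝ) :
    Matrix K K ℝ :=
  ((m.P : ℝ) * (H.nq + H.two.length)) • (1 : Matrix K K ℝ) +
    ∑ q : Fin H.nq, ((phi H m.P m.y (q, true) : ℝ) • p (q, true) +
      (phi H m.P m.y (q, false) : ℝ) • p (q, false)) +
    ∑ e : Fin H.two.length,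
      ((jj H m.y e / 2 * (cc (H.term e).1.2 + cc (H.term e).2.1.2) : ℚ) : ℝ) • (1 : Matrix K K ℝ) +
    ∑ e : Fin H.two.length, (((jj H m.y e / 2 * ac (H.term e).1.2 : ℚ) : ℝ) • p (H.term e).1 +
      ((jj H m.y e / 2 * ac (H.term e).2.1.2 : ℚ) : ℝ) • p (H.term e).2.1)

/-- the coupling to the mediator `e` -/
def Ogen {K : Type} [DecidableEq K] (H : LH) (m : MP) (p : ℕ × Bool → Matrix K K ℝ) (e : ℕ) :
    Matrix K K ℝ :=
  (o0 H m.y e : ℝ) • (1 : Matrix K K ℝ) + (o1 H m.y e : ℝ) • p (H.term e).1 +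
    (o2 H m.y e : ℝ) • p (H.term e).2.1

end

end Vale.Agent.P370.Lat
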