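import Vale.Agent.P370.LatMdl

/-! Part M: sizes of the parameters (all in `ℚ`).  `2 ≤ K ≤ P/8`, `K = two.length + 2`, `jj ≤ 1/(3 K P^49)`,
`|ac| ∈ [1/12, 1/6]`, `0 < cc ≤ 7/18`, `1/bd ≤ |β| ≤ bd ≤ P/8` for `β = (H.term e).2.2` (`List.getD_eq_getElem`, `H.OK.two_bd`),
`|hone| ≤ one.length * bd ≤ P²/64`.  Bound list sums termwise (`List.sum_le_card_nsmul`, or induction / `Finset.sum_range`). -/

namespace Vale.Agent.P370.Lat

open Matrix Finset

variable {H : LH} {m : MP}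

private theorem ln_list {α : Type} (l : List α) (g : α → ℚ) (B : ℚ) (h : ∀ t ∈ l, |g t| ≤ B) :
    |(l.map g).sum| ≤ l.length * B := by
  induction l with
  | nil => simp
  | cons a l ih =>
    rw [List.map_cons, List.sum_cons, List.length_cons]
    have h1 := h a List.mem_cons_self
    have h2 := ih fun t ht => h t (List.mem_cons_of_mem _ ht)
    have h3 := abs_add_le (g a) (l.map g).sum
    push_cast
    linarith

private theorem ln_range (n : ℕ) (g : ℕ → ℚ) (B : ℚ) (h : ∀ t < n, |g t| ≤ B) :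
    |((List.range n).map g).sum| ≤ n * B := by
  simpa using ln_list (List.range n) g B fun t ht => h t (List.mem_range.1 ht)

private theorem ln_K (hm : m.OK H) : (0 : ℚ) < m.P ∧ (2 : ℚ) ≤ H.K ∧ 8 * (H.K : ℚ) ≤ m.P ∧
    (H.two.length : ℚ) ≤ H.K ∧ 8 * (H.bd : ℚ) ≤ m.P ∧ 8 * (H.one.length : ℚ) ≤ m.P ∧
    8 * ((H.nq : ℚ) + H.two.length) ≤ m.P ∧ (1000 : ℚ) ≤ m.P := by
  have h1 := hm.P30
  have h2 := hm.Psz
  have h3 : (H.K : ℚ) = H.two.length + 2 := by simp [LH.K]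
  have a1 : (0 : ℚ) ≤ H.nq := Nat.cast_nonneg _
  have a2 : (0 : ℚ) ≤ H.one.length := Nat.cast_nonneg _
  have a3 : (0 : ℚ) ≤ H.two.length := Nat.cast_nonneg _
  have a4 : (0 : ℚ) ≤ H.bd := Nat.cast_nonneg _
  norm_num at h1
  refine ⟨?_, ?_, ?_, ?_, ?_, ?_, ?_, ?_⟩ <;> linarith

private theorem ln_ac (p : Bool) : 1 / 12 ≤ |ac p| ∧ |ac p| ≤ 1 / 6 := by
  cases p <;> simp only [ac] <;> norm_num [abs_of_pos, abs_of_neg]

private theorem ln_cc (p : Bool) : 0 ≤ cc p ∧ cc p ≤ 7 / 18 := by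
  cases p <;> simp only [cc] <;> norm_num

private theorem ln_sg (e : ℕ) : |H.sg e| = 1 := by
  unfold LH.sg
  split_ifs <;> simp

private theorem ln_w0 (hm : m.OK H) : 0 ≤ w0 H m.P ∧ w0 H m.P ≤ 1 := by
  obtain ⟨hP, hK, -, -, -, -, -, hP'⟩ := ln_K hm
  unfold w0
  refine ⟨by positivity, ?_⟩
  rw [div_le_one (by positivity)]
  exact one_le_mul_of_one_le_of_one_le (one_le_pow₀ (by linarith)) (one_le_pow₀ (by linarith))

private theorem ln_t (hm : m.OK H) : 0 < 1 / m.P ^ 49 ∧ 1 / m.P ^ 49 ≤ 1 ∧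
    m.P * (1 / m.P ^ 52) ≤ 1 / m.P ^ 49 := by
  obtain ⟨hP, -, -, -, -, -, -, hP'⟩ := ln_K hm
  have h1 : (1 : ℚ) ≤ m.P := by linarith
  refine ⟨by positivity, ?_, ?_⟩
  · rw [div_le_one (by positivity)]
    exact one_le_pow₀ h1
  · have : m.P * (1 / m.P ^ 52) = 1 / m.P ^ 51 := by field_simp
    rw [this]
    exact one_div_le_one_div_of_le (by positivity) (pow_le_pow_right₀ h1 (by norm_num))

theorem term_mem {e : ℕ} (he : e < H.two.length) : H.term e ∈ H.two := by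
  unfold LH.term
  rw [List.getD_eq_getElem _ _ he]
  exact List.getElem_mem he

theorem jj_bd (hm : m.OK H) {e : ℕ} (he : e < H.two.length) :
    0 < jj H m.y e ∧ jj H m.y e * (3 * H.K * m.P ^ 49) ≤ 1 ∧
      1 ≤ jj H m.y e * (6 * H.K * m.P ^ 49) := by
  obtain ⟨hP, hK, -⟩ := ln_K hm
  obtain ⟨h1, h2⟩ := hm.y_bd e he
  have hp : 0 < m.P ^ 49 := by positivity
  have hy : 0 < m.y e := hp.trans_le h1
  have hK0 : (0 : ℚ) < H.K := by linarith
  unfold jj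
  refine ⟨by positivity, ?_, ?_⟩
  · have : 1 / (3 * H.K * m.y e) * (3 * H.K * m.P ^ 49) = m.P ^ 49 / m.y e := by field_simp
    rw [this, div_le_one hy]
    exact h1
  · have : 1 / (3 * H.K * m.y e) * (6 * H.K * m.P ^ 49) = 2 * m.P ^ 49 / m.y e := by
      field_simp; norm_num
    rw [this, one_le_div hy]
    exact h2

private theorem ln_j (hm : m.OK H) {e : ℕ} (he : e < H.two.length) :
    H.K * jj H m.y e ≤ 1 / 3 * (1 / m.P ^ 49) ∧ jj H m.y e ≤ 1 / 6 * (1 / m.P ^ 49) ∧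
      4 / 3 * (1 / m.P ^ 50) ≤ jj H m.y e := by
  obtain ⟨hP, hK, hK', -⟩ := ln_K hm
  obtain ⟨j0, j1, j2⟩ := jj_bd hm he
  have hp : 0 < m.P ^ 49 := by positivity
  have h1 : H.K * jj H m.y e ≤ 1 / 3 * (1 / m.P ^ 49) := by
    rw [mul_one_div, le_div_iff₀ hp]
    linarith
  refine ⟨h1, ?_, ?_⟩
  · have := mul_le_mul_of_nonneg_right hK j0.le
    linarith
  · rw [mul_one_div, div_le_iff₀ (by positivity), pow_succ]
    have := mul_le_mul_of_nonneg_left hK' (mul_pos j0 hp).le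
    linarith

private theorem ln_o (hm : m.OK H) {e : ℕ} (he : e < H.two.length) :
    |o0 H m.y e| ≤ 7 / 18 * jj H m.y e ∧
      |o1 H m.y e| = jj H m.y e / 2 * |ac (H.term e).1.2| ∧
      |o2 H m.y e| = jj H m.y e / 2 * |ac (H.term e).2.1.2| := by
  have j0 : 0 < jj H m.y e / 2 := half_pos (jj_bd hm he).1
  refine ⟨?_, ?_, ?_⟩
  · rw [o0, abs_mul, abs_of_pos j0]
    have h1 := abs_add_le (cc (H.term e).1.2) (H.sg e * cc (H.term e).2.1.2)
    rw [abs_mul, ln_sg, one_mul, abs_of_nonneg (ln_cc _).1, abs_of_nonneg (ln_cc _).1] at h1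
    have h2 := (ln_cc (H.term e).1.2).2
    have h3 := (ln_cc (H.term e).2.1.2).2
    have h4 := mul_le_mul_of_nonneg_left (h1.trans (add_le_add h2 h3)) j0.le
    linarith
  · rw [o1, abs_mul, abs_of_pos j0]
  · rw [o2, abs_mul, ln_sg, one_mul, abs_mul, abs_of_pos j0]

theorem Del_bd' (hH : H.OK) (hm : m.OK H) {e : ℕ} (he : e < H.two.length) :
    1 / (32 * m.P ^ 46) ≤ Del H m.P m.y e ∧ Del H m.P m.y e ≤ 1 / m.P ^ 42 := by
  obtain ⟨hP, -, -, -, hb, -⟩ := ln_K hm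
  obtain ⟨-, j1, j2⟩ := ln_j hm he
  obtain ⟨-, e1, e2⟩ := ln_o hm he
  obtain ⟨b1, b2⟩ := hH.two_bd _ (term_mem he)
  have j0 := (jj_bd hm he).1
  have hbd : (0 : ℚ) < H.bd := by exact_mod_cast hH.bd_pos
  have hβ : 0 < |(H.term e).2.2| := lt_of_lt_of_le (by positivity) b2
  obtain ⟨a1, a2⟩ := ln_ac (H.term e).1.2
  obtain ⟨a3, a4⟩ := ln_ac (H.term e).2.1.2
  rw [Del, abs_mul, e1, e2, E1]
  generalize |(H.term e).2.2| = β at *
  generalize |ac (H.term e).1.2| = A at *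
  generalize |ac (H.term e).2.1.2| = A' at *
  generalize jj H m.y e = j at *
  have hA : 1 / 12 * (1 / 12) ≤ A * A' := mul_le_mul a1 a3 (by norm_num) (by linarith)
  have hA' : A * A' ≤ 1 / 6 * (1 / 6) := mul_le_mul a2 a4 (by linarith) (by norm_num)
  have hj : (4 / 3 * (1 / m.P ^ 50)) * (4 / 3 * (1 / m.P ^ 50)) ≤ j * j :=
    mul_le_mul j2 j2 (by positivity) j0.le
  have hj' : j * j ≤ (1 / 6 * (1 / m.P ^ 49)) * (1 / 6 * (1 / m.P ^ 49)) :=
    mul_le_mul j1 j1 j0.le (by positivity)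
  have hn : 2 * (j / 2 * A * (j / 2 * A')) = 1 / 2 * ((j * j) * (A * A')) := by ring
  rw [hn]
  constructor
  · rw [le_div_iff₀ (by positivity)]
    have h1 := mul_le_mul hj hA (by norm_num) (by positivity)
    have h2 : 1 / (32 * m.P ^ 46) * (1 / m.P ^ 55 * β) ≤
        1 / (32 * m.P ^ 46) * (1 / m.P ^ 55 * (m.P / 8)) := by
      gcongr
      linarith
    have h3 : 1 / (32 * m.P ^ 46) * (1 / m.P ^ 55 * (m.P / 8)) =
        1 / 256 * (1 / m.P ^ 50 * (1 / m.P ^ 50)) := by field_simp; norm_num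
    have h4 : 0 ≤ 1 / m.P ^ 50 * (1 / m.P ^ 50) := by positivity
    linarith
  · rw [div_le_iff₀ (by positivity)]
    have h1 := mul_le_mul hj' hA' (by linarith) (by positivity)
    have h5 : 1 / m.P ≤ β := (one_div_le_one_div_of_le hbd (by linarith)).trans b2
    have h2 : 1 / m.P ^ 42 * (1 / m.P ^ 55 * (1 / m.P)) ≤ 1 / m.P ^ 42 * (1 / m.P ^ 55 * β) := by
      gcongr
    have h3 : 1 / m.P ^ 42 * (1 / m.P ^ 55 * (1 / m.P)) = 1 / m.P ^ 49 * (1 / m.P ^ 49) := by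
      field_simp
    have h4 : 0 ≤ 1 / m.P ^ 49 * (1 / m.P ^ 49) := by positivity
    linarith

theorem o_bd (hm : m.OK H) {e : ℕ} (he : e < H.two.length) :
    |o0 H m.y e| + |o1 H m.y e| + |o2 H m.y e| ≤ 1 / (6 * m.P ^ 49) := by
  obtain ⟨-, j1, -⟩ := ln_j hm he
  obtain ⟨e0, e1, e2⟩ := ln_o hm he
  have j0 := half_pos (jj_bd hm he).1
  have h1 := mul_le_mul_of_nonneg_left (ln_ac (H.term e).1.2).2 j0.le
  have h2 := mul_le_mul_of_nonneg_left (ln_ac (H.term e).2.1.2).2 j0.le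
  have h3 : 1 / (6 * m.P ^ 49) = 1 / 6 * (1 / m.P ^ 49) := by rw [div_mul_div_comm, one_mul]
  rw [e1, e2, h3]
  linarith

private theorem ln_div (hH : H.OK) (hm : m.OK H) {e : ℕ} (he : e < H.two.length) {z : ℚ}
    (hz : |z| ≤ (|o0 H m.y e| + |o1 H m.y e| + |o2 H m.y e|) ^ 2) :
    |z / Del H m.P m.y e| ≤ 1 / m.P ^ 52 := by
  have hP := (ln_K hm).1
  have h1 := (Del_bd' hH hm he).1
  have h0 : 0 < Del H m.P m.y e := lt_of_lt_of_le (by positivity) h1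
  have h2 := pow_le_pow_left₀ (by positivity) (o_bd hm he) 2
  rw [abs_div, abs_of_pos h0, div_le_iff₀ h0]
  refine (hz.trans h2).trans (le_trans ?_ (mul_le_mul_of_nonneg_left h1 (by positivity)))
  have h3 : (1 / (6 * m.P ^ 49)) ^ 2 = 1 / 36 * (1 / m.P ^ 98) := by field_simp; norm_num
  have h4 : 1 / m.P ^ 52 * (1 / (32 * m.P ^ 46)) = 1 / 32 * (1 / m.P ^ 98) := by field_simp
  have h5 : 0 ≤ 1 / m.P ^ 98 := by positivity
  linarith

private theorem ln_sum (hm : m.OK H) (g : ℕ → ℚ)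
    (h : ∀ e < H.two.length, |g e| ≤ jj H m.y e + 2 * (1 / m.P ^ 52)) :
    |((List.range H.two.length).map g).sum| ≤ 7 / 12 * (1 / m.P ^ 49) := by
  obtain ⟨hP, hK, hK', hL, -⟩ := ln_K hm
  obtain ⟨t0, -, t2⟩ := ln_t hm
  have hK0 : (0 : ℚ) < H.K := by linarith
  have h1 := ln_range _ g (1 / 3 * (1 / m.P ^ 49) / H.K + 2 * (1 / m.P ^ 52)) fun e he => by
    have h2 : jj H m.y e ≤ 1 / 3 * (1 / m.P ^ 49) / H.K := by
      rw [le_div_iff₀ hK0, mul_comm]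
      exact (ln_j hm he).1
    linarith [h e he]
  have h2 := mul_le_mul_of_nonneg_right hL
    (show 0 ≤ 1 / 3 * (1 / m.P ^ 49) / H.K + 2 * (1 / m.P ^ 52) by positivity)
  rw [mul_add (H.K : ℚ), mul_div_cancel₀ _ hK0.ne'] at h2
  have h3 := mul_le_mul_of_nonneg_right hK' (show 0 ≤ 1 / m.P ^ 52 by positivity)
  linarith

theorem phi_bd (hH : H.OK) (hm : m.OK H) (a : ℕ × Bool) : |phi H m.P m.y a| ≤ 1 / m.P ^ 49 := by
  obtain ⟨hP, -, -, -, hb, ho, -, hP'⟩ := ln_K hm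
  obtain ⟨t0, -, t2⟩ := ln_t hm
  have h1 : |H.hone a| ≤ H.one.length * H.bd := ln_list _ _ _ fun t ht => by
    split_ifs
    · exact hH.one_bd t ht
    · simp
  have h2 : |E1 m.P * H.hone a| ≤ 1 / 64 * (1 / m.P ^ 49) := by
    have h3 : (H.one.length : ℚ) * H.bd ≤ m.P / 8 * (m.P / 8) :=
      mul_le_mul (by linarith) (by linarith) (Nat.cast_nonneg _) (by positivity)
    rw [abs_mul, E1, abs_of_pos (by positivity)]
    refine (mul_le_mul_of_nonneg_left (h1.trans h3) (by positivity)).trans ?_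
    have h4 : 1 / m.P ^ 55 * (m.P / 8 * (m.P / 8)) = 1 / 64 * (1 / m.P ^ 53) := by
      field_simp; norm_num
    have h5 : 1 / m.P ^ 53 ≤ 1 / m.P ^ 49 :=
      one_div_le_one_div_of_le (by positivity) (pow_le_pow_right₀ (by linarith) (by norm_num))
    linarith
  rw [phi]
  refine (abs_sub _ _).trans (le_trans (add_le_add h2 (ln_sum hm _ fun e he => ?_)) (by linarith))
  have j0 := half_pos (jj_bd hm he).1
  have k : ∀ (C : Prop) [Decidable C] (z : ℚ),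
      |z| ≤ (|o0 H m.y e| + |o1 H m.y e| + |o2 H m.y e|) ^ 2 →
      |if C then jj H m.y e / 2 * ac a.2 - z / Del H m.P m.y e else 0| ≤
        jj H m.y e / 2 + 1 / m.P ^ 52 := by
    intro C _ z hz
    split_ifs
    · refine (abs_sub _ _).trans (add_le_add ?_ (ln_div hH hm he hz))
      rw [abs_mul, abs_of_pos j0]
      exact mul_le_of_le_one_right j0.le ((ln_ac _).2.trans (by norm_num))
    · rw [abs_zero]
      positivity
  have p0 := abs_nonneg (o0 H m.y e)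
  have p1 := abs_nonneg (o1 H m.y e)
  have p2 := abs_nonneg (o2 H m.y e)
  refine (abs_add_le _ _).trans (le_trans (add_le_add (k _ _ ?_) (k _ _ ?_)) (by linarith))
  · rw [abs_mul, abs_mul, abs_two]
    nlinarith [mul_nonneg p0 p2, mul_nonneg p1 p2]
  · rw [abs_mul, abs_mul, abs_two]
    nlinarith [mul_nonneg p0 p1, mul_nonneg p1 p2]

private theorem ln_e (hH : H.OK) (hm : m.OK H) (q : ℕ) :
    |ex H m.P m.y q| ≤ 6 ∧ |ez H m.P m.y q| ≤ 7 ∧ 0 ≤ m.u / H.K ∧ m.u / H.K ≤ m.P / 2 ∧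
      m.P / 2 ≤ e0q H m.P m.u m.y q ∧ e0q H m.P m.u m.y q ≤ m.P + 3 := by
  obtain ⟨hP, hK, -, -, -, -, -, hP'⟩ := ln_K hm
  obtain ⟨-, t1, -⟩ := ln_t hm
  obtain ⟨w1, w2⟩ := ln_w0 hm
  obtain ⟨x1, x2⟩ := abs_le.1 ((phi_bd hH hm (q, true)).trans t1)
  obtain ⟨z1, z2⟩ := abs_le.1 ((phi_bd hH hm (q, false)).trans t1)
  have hu := hm.u_ge
  have u0 : 0 ≤ m.u / H.K := div_nonneg (by linarith) (by linarith)
  have u1 : m.u / H.K ≤ m.P / 2 := div_le_div₀ hP.le hm.u_le (by norm_num) hK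
  have u2 : m.u / (9 * H.K) = 1 / 9 * (m.u / H.K) := by rw [div_mul_div_comm, one_mul]
  rw [e0q, u2, ex, ez]
  refine ⟨abs_le.2 ⟨?_, ?_⟩, abs_le.2 ⟨?_, ?_⟩, u0, u1, ?_, ?_⟩ <;> linarith

theorem epsh_bd' (hH : H.OK) (hm : m.OK H) (q a b : ℕ) :
    0 ≤ epsh H m.P m.u m.y q a b ∧ epsh H m.P m.u m.y q a b ≤ 2 * m.P := by
  obtain ⟨h1, h2, -, -, h3, h4⟩ := ln_e hH hm q
  obtain ⟨-, -, -, -, -, -, -, hP'⟩ := ln_K hm
  obtain ⟨x1, x2⟩ := abs_le.1 h1
  obtain ⟨z1, z2⟩ := abs_le.1 h2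
  unfold epsh
  split_ifs <;> constructor <;> linarith

theorem Cst_sub (hH : H.OK) (hm : m.OK H) :
    |Cst H m.P m.u m.y - Ccore H m - m.P * (H.nq + H.two.length)| ≤ 1 / m.P ^ 49 := by
  obtain ⟨t0, -, -⟩ := ln_t hm
  have hP := (ln_K hm).1
  have h1 := ln_sum hm (fun e => jj H m.y e / 2 * (cc (H.term e).1.2 + cc (H.term e).2.1.2) -
      (o0 H m.y e ^ 2 + o1 H m.y e ^ 2 + o2 H m.y e ^ 2) / Del H m.P m.y e) fun e he => by
    have j0 := half_pos (jj_bd hm he).1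
    have p0 := abs_nonneg (o0 H m.y e)
    have p1 := abs_nonneg (o1 H m.y e)
    have p2 := abs_nonneg (o2 H m.y e)
    have h2 := ln_div hH hm he (z := o0 H m.y e ^ 2 + o1 H m.y e ^ 2 + o2 H m.y e ^ 2) (by
      rw [abs_of_nonneg (by positivity), ← sq_abs (o0 H m.y e), ← sq_abs (o1 H m.y e),
        ← sq_abs (o2 H m.y e)]
      nlinarith [mul_nonneg p0 p1, mul_nonneg p1 p2, mul_nonneg p0 p2])
    obtain ⟨c1, c2⟩ := ln_cc (H.term e).1.2
    obtain ⟨c3, c4⟩ := ln_cc (H.term e).2.1.2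
    have h3 : |jj H m.y e / 2 * (cc (H.term e).1.2 + cc (H.term e).2.1.2)| ≤ jj H m.y e / 2 := by
      rw [abs_of_nonneg (by positivity)]
      exact mul_le_of_le_one_right j0.le (by linarith)
    have h4 : 0 ≤ 1 / m.P ^ 52 := by positivity
    refine (abs_sub _ _).trans ?_
    linarith
  rw [Cst, Ccore, add_assoc, add_sub_cancel_left, add_sub_cancel_left]
  linarith

theorem Cst_bd' (hH : H.OK) (hm : m.OK H) : |Cst H m.P m.u m.y| ≤ m.P ^ 2 := by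
  obtain ⟨hP, -, -, -, -, -, hn, hP'⟩ := ln_K hm
  obtain ⟨-, t1, -⟩ := ln_t hm
  obtain ⟨w1, w2⟩ := ln_w0 hm
  obtain ⟨s1, s2⟩ := abs_le.1 ((Cst_sub hH hm).trans t1)
  have h1 : |Ccore H m| ≤ H.nq * (3 * m.P) := ln_range _ _ _ fun q _ => by
    obtain ⟨h1, h2, h3, h4, h5, h6⟩ := ln_e hH hm q
    obtain ⟨x1, x2⟩ := abs_le.1 h1
    obtain ⟨z1, z2⟩ := abs_le.1 h2
    rw [mul_div_assoc 9 m.u]
    exact abs_le.2 ⟨by linarith, by linarith⟩
  obtain ⟨c1, c2⟩ := abs_le.1 h1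
  have a1 : 0 ≤ m.P * H.nq := by positivity
  have a2 : 0 ≤ m.P * H.two.length := by positivity
  have a3 := mul_le_mul_of_nonneg_left hn hP.le
  have a4 := mul_le_mul_of_nonneg_left hP' hP.le
  rw [sq]
  exact abs_le.2 ⟨by linarith, by linarith⟩

theorem wnom_bd (hm : m.OK H) (x y : Site H) : 0 ≤ wnom H m x y ∧ wnom H m x y ≤ m.P := by
  obtain ⟨hP, hK, -, -, -, -, -, hP'⟩ := ln_K hm
  obtain ⟨-, t1, -⟩ := ln_t hm
  obtain ⟨w1, w2⟩ := ln_w0 hm
  have hu := hm.u_ge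
  have hu' := hm.u_le
  have u0 : 0 ≤ m.u / H.K := div_nonneg (by linarith) (by linarith)
  have u1 : m.u / H.K ≤ m.P / 2 := div_le_div₀ hP.le hm.u_le (by norm_num) hK
  have hc : ∀ (q a b : ℕ) (e : Fin H.two.length) (σ : Bool),
      0 ≤ contact H m.y q a b e σ ∧ contact H m.y q a b e σ ≤ m.P := by
    intro q a b e σ
    have j0 := (jj_bd hm e.2).1
    have j1 := (ln_j hm e.2).2.1
    unfold contact
    split_ifs <;> constructor <;> linarith
  rcases x with ⟨q, a, b⟩ | ⟨e, σ⟩ <;> rcases y with ⟨q', a', b'⟩ | ⟨e', σ'⟩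
  · simp only [wnom]
    split_ifs <;> constructor <;> linarith
  · exact hc _ _ _ _ _
  · exact hc _ _ _ _ _
  · have h1 : 1 ≤ m.dt e := (one_le_pow₀ (by linarith)).trans (hm.dt_bd e e.2).1
    have h2 : 0 ≤ 1 / (9 * m.dt e) := by positivity
    have h3 : 1 / (9 * m.dt e) ≤ 1 := by
      rw [div_le_one (by positivity)]
      linarith
    simp only [wnom]
    split_ifs <;> constructor <;> linarith

end Vale.Agent.P370.Lat
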