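import Vale.Agent.P370.LatNum

/-! Part M: the concrete model satisfies the axioms.  Sums over `Site H`: `Fintype.sum_sum_type`, `Fintype.sum_prod_type`,
`Fin.sum_univ_three`, `Fintype.sum_bool`.  First prove `ev3 * ev3ᵀ = 1` and `ev3ᵀ * diagonal lv3 * ev3 = lap3` entrywise (put
`√2 * √2 = 2` etc. into `field_simp`/`nlinarith`), then use them for the products.
`T_bd`: on a wire the form is `P (a² + b²) + Del/2 (a - b)²`.  `hub`: on a qubit keep only the terms `x = y = (2,1)`, `x = y = (1,2)`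
and the adjacent pairs among `(0,2), (1,2), (2,2)`; amplitudes `U (ao false) (a,b) = (a-1)/√6`, `U (ao true) (a,b) = (b-1)/√6`; the sum is at
least `min (u/K) w0 / 36 * (α00² + 2 α01² + 2 α10² + 4 α11²)`.  On a wire all weights are `≥ 1/(9 P^39)` and the change of basis is orthogonal. -/

namespace Vale.Agent.P370.Lat

open Matrix Finset

variable {H : LH} {m : MP}

private theorem lo_U_ne {o x : Site H} (h : (mdl H m).cl x ≠ (mdl H m).cl o) :
    (mdl H m).U o x = 0 := by
  rcases o with ⟨q, a, b⟩ | ⟨e, β⟩ <;> rcases x with ⟨q', a', b'⟩ | ⟨e', σ⟩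
  · exact if_neg fun hq => h (by subst hq; rfl)
  · rfl
  · rfl
  · exact if_neg fun hq => h (by subst hq; rfl)

private theorem lo_sum_inl (m : MP) (q : Fin H.nq) (F : Site H → ℝ)
    (hF : ∀ x, (mdl H m).cl x ≠ .inl q → F x = 0) :
    ∑ x, F x = ∑ a : Fin 3, ∑ b : Fin 3, F (.inl (q, a, b)) := by
  rw [Fintype.sum_sum_type, Fintype.sum_prod_type, Finset.sum_eq_single q, Fintype.sum_prod_type,
    Finset.sum_eq_zero (s := univ) (f := fun y => F (.inr y)), add_zero]
  · rintro ⟨e, σ⟩ -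
    exact hF _ (by simp [mdl])
  · intro q' _ hq
    exact Finset.sum_eq_zero fun y _ => hF _ (by simpa [mdl] using hq)
  · simp

private theorem lo_sum_inr (m : MP) (e : Fin H.two.length) (F : Site H → ℝ)
    (hF : ∀ x, (mdl H m).cl x ≠ .inr e → F x = 0) :
    ∑ x, F x = F (.inr (e, true)) + F (.inr (e, false)) := by
  rw [Fintype.sum_sum_type, Finset.sum_eq_zero (s := univ) (f := fun y => F (.inl y)), zero_add,
    Fintype.sum_prod_type, Finset.sum_eq_single e, Fintype.sum_bool]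
  · intro q' _ hq
    exact Finset.sum_eq_zero fun y _ => hF _ (by simpa [mdl] using hq)
  · simp
  · rintro ⟨q, a, b⟩ -
    exact hF _ (by simp [mdl])

private theorem lo_s2 : (1 / √2 : ℝ) * (1 / √2) = 1 / 2 := by
  rw [div_mul_div_comm, Real.mul_self_sqrt (by norm_num), one_mul]

private theorem lo_s3 : (1 / √3 : ℝ) * (1 / √3) = 1 / 3 := by
  rw [div_mul_div_comm, Real.mul_self_sqrt (by norm_num), one_mul]

private theorem lo_ev0 (a : Fin 3) : ev3 0 a = 1 / √3 := by
  fin_cases a <;> rfl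

private theorem lo_ev1 (a : Fin 3) : ev3 1 a = ((a.val : ℝ) - 1) * (1 / √2) := by
  fin_cases a <;> simp [ev3] <;> ring

private def loG (β : Bool) (a b : Fin 3) : ℝ := if β then (b.val : ℝ) - 1 else (a.val : ℝ) - 1

private theorem lo_act1 (q : Fin H.nq) (β : Bool) (a b : Fin 3) :
    (mdl H m).U ((mdl H m).ao (.inl q) β) (.inl (q, a, b)) =
      loG β a b * ((1 / √2) * (1 / √3)) := by
  cases β
  · have : (mdl H m).U ((mdl H m).ao (.inl q) false) (.inl (q, a, b)) = ev3 1 a * ev3 0 b :=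
      if_pos rfl
    rw [this, lo_ev0, lo_ev1, mul_assoc]
    rfl
  · have : (mdl H m).U ((mdl H m).ao (.inl q) true) (.inl (q, a, b)) = ev3 0 a * ev3 1 b :=
      if_pos rfl
    rw [this, lo_ev0, lo_ev1, mul_comm, mul_assoc]
    rfl

private theorem lo_act (q : Fin H.nq) (β β' : Bool) (a b a' b' : Fin 3) :
    (mdl H m).U ((mdl H m).ao (.inl q) β) (.inl (q, a, b)) *
      (mdl H m).U ((mdl H m).ao (.inl q) β') (.inl (q, a', b')) =
      loG β a b * loG β' a' b' / 6 := by
  rw [lo_act1, lo_act1, mul_mul_mul_comm, mul_mul_mul_comm (1 / √2 : ℝ), lo_s2, lo_s3]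
  ring

private theorem lo_cl_ao (c : Clu H) (β : Bool) : (mdl H m).cl ((mdl H m).ao c β) = c := by
  rcases c with q | e <;> cases β <;> rfl

private theorem lo_wire (e : Fin H.two.length) (β β' σ σ' : Bool) :
    (mdl H m).U ((mdl H m).ao (.inr e) β) (.inr (e, σ)) *
      (mdl H m).U ((mdl H m).ao (.inr e) β') (.inr (e, σ')) =
      (if β = true ∧ σ = true then -1 else 1) * (if β' = true ∧ σ' = true then -1 else 1) / 2 := by
  have : ∀ β σ, (mdl H m).U ((mdl H m).ao (.inr e) β) (.inr (e, σ)) =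
      (if β = true ∧ σ = true then -1 else 1) / √2 := fun _ _ => if_pos rfl
  rw [this, this, div_mul_div_comm, Real.mul_self_sqrt (by norm_num)]

private noncomputable def loW (A B : ℝ) : Matrix (Fin 3) (Fin 3) ℝ := !![A, B, 0; B, A, B; 0, B, A]

private theorem lo_w (q q' : Fin H.nq) (a b a' b' : Fin 3) :
    (mdl H m).w (.inl (q, a, b)) (.inl (q', a', b')) =
      if q = q' ∧ b = b' then loW ((m.u : ℝ) / H.K) (w0 H m.P) a a' else 0 := by
  show ((if q = q' ∧ b = b' then (if a = a' then m.u / H.K else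
    if a.val + 1 = a' ∨ a'.val + 1 = a then w0 H m.P else 0) else 0 : ℚ) : ℝ) = _
  by_cases h : q = q' ∧ b = b'
  · rw [if_pos h, if_pos h]
    fin_cases a <;> fin_cases a' <;> simp [loW]
  · rw [if_neg h, if_neg h, Rat.cast_zero]


private theorem lo_s6 : (1 / √6 : ℝ) * (1 / √6) = 1 / 6 := by
  rw [div_mul_div_comm, Real.mul_self_sqrt (by norm_num), one_mul]

private theorem lo_ev2 (a : Fin 3) : ev3 2 a = (if a = 1 then -2 else 1) * (1 / √6) := by
  fin_cases a <;> simp [ev3] <;> ring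

private theorem lo_evsum (t : Fin 3 → ℝ) (a a' : Fin 3) :
    ∑ c, ev3 c a * t c * ev3 c a' = t 0 / 3 + t 1 * ((a.val - 1) * (a'.val - 1)) / 2 +
      t 2 * ((if a = 1 then -2 else 1) * (if a' = 1 then -2 else 1)) / 6 := by
  rw [Fin.sum_univ_three, lo_ev0, lo_ev0, lo_ev1, lo_ev1, lo_ev2, lo_ev2]
  linear_combination t 0 * lo_s3 + t 1 * ((a.val - 1) * (a'.val - 1)) * lo_s2 +
    t 2 * ((if a = 1 then -2 else 1) * (if a' = 1 then -2 else 1)) * lo_s6

private theorem lo_col (a a' : Fin 3) : ∑ c, ev3 c a * ev3 c a' = if a = a' then 1 else 0 := by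
  have := lo_evsum (fun _ => 1) a a'
  simp only [mul_one] at this
  rw [this]
  fin_cases a <;> fin_cases a' <;> simp <;> norm_num

private theorem lo_lap (a a' : Fin 3) :
    ∑ c, ev3 c a * (lv3 c : ℝ) * ev3 c a' = (lap3 a a' : ℝ) := by
  rw [lo_evsum (fun c => (lv3 c : ℝ))]
  fin_cases a <;> fin_cases a' <;> simp [lv3, lap3] <;> norm_num

private theorem lo_Uq (q : Fin H.nq) (a b a' b' : Fin 3) :
    (mdl H m).U (.inl (q, a, b)) (.inl (q, a', b')) = ev3 a a' * ev3 b b' := if_pos rfl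

private theorem lo_off {x y : Site H} (h : (mdl H m).cl x ≠ (mdl H m).cl y) (t : Site H → ℝ) :
    ∑ o, (mdl H m).U o x * t o * (mdl H m).U o y = 0 := by
  refine Finset.sum_eq_zero fun o _ => ?_
  by_cases h1 : (mdl H m).cl x = (mdl H m).cl o
  · rw [lo_U_ne (x := y) fun h2 => h (h1.trans h2.symm), mul_zero]
  · rw [lo_U_ne h1, zero_mul, zero_mul]

private theorem lo_wcol (e : Fin H.two.length) (σ σ' : Bool) :
    ∑ o, (mdl H m).U o (.inr (e, σ)) * (mdl H m).U o (.inr (e, σ')) = if σ = σ' then 1 else 0 := by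
  rw [lo_sum_inr m e _ fun o ho => by rw [lo_U_ne (Ne.symm ho), zero_mul]]
  refine (congrArg₂ (· + ·) (lo_wire e true true σ σ') (lo_wire e false false σ σ')).trans ?_
  cases σ <;> cases σ' <;> simp <;> norm_num

private theorem lo_orth : (mdl H m).Uᵀ * (mdl H m).U = 1 := by
  ext x y
  rw [Matrix.mul_apply, Matrix.one_apply]
  simp only [transpose_apply]
  by_cases h : (mdl H m).cl x = (mdl H m).cl y
  · rcases x with ⟨q, a, b⟩ | ⟨e, σ⟩ <;> rcases y with ⟨q', a', b'⟩ | ⟨e', σ'⟩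
    · obtain rfl : q = q' := Sum.inl.inj h
      rw [lo_sum_inl m q _ fun o ho => by rw [lo_U_ne (Ne.symm ho), zero_mul]]
      simp only [lo_Uq, mul_mul_mul_comm (ev3 _ a), ← Finset.mul_sum, ← Finset.sum_mul, lo_col]
      by_cases ha : a = a' <;> by_cases hb : b = b' <;> simp [ha, hb]
    · exact absurd h (by simp [mdl])
    · exact absurd h (by simp [mdl])
    · obtain rfl : e = e' := Sum.inr.inj h
      rw [lo_wcol]
      simp
  · have := lo_off h fun _ => 1
    simp only [mul_one] at this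
    rw [this, if_neg fun hxy => h (by rw [hxy])]

private theorem lo_T_ne {x y : Site H} (h : (mdl H m).cl x ≠ (mdl H m).cl y) :
    (mdl H m).T x y = 0 := by
  rcases x with ⟨q, a, b⟩ | ⟨e, β⟩ <;> rcases y with ⟨q', a', b'⟩ | ⟨e', σ⟩
  · exact if_neg fun hq => h (by obtain ⟨rfl, -⟩ := hq; rfl)
  · rfl
  · rfl
  · exact if_neg fun hq => h (by subst hq; rfl)

private theorem lo_Tw (e : Fin H.two.length) (σ σ' : Bool) :
    (mdl H m).T (.inr (e, σ)) (.inr (e, σ')) =
      if σ = σ' then (m.P : ℝ) + Del H m.P m.y e / 2 else -(Del H m.P m.y e / 2) := if_pos rfl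

private theorem lo_P (hm : m.OK H) : (1000 : ℝ) ≤ m.P ∧ (2 : ℝ) ≤ H.K ∧ (H.K : ℝ) ≤ m.P := by
  have h1 := hm.P30
  have h2 := hm.Psz
  have h3 : (H.K : ℚ) = H.two.length + 2 := by simp [LH.K]
  have a1 : (0 : ℚ) ≤ H.nq := Nat.cast_nonneg _
  have a2 : (0 : ℚ) ≤ H.one.length := Nat.cast_nonneg _
  have a3 : (0 : ℚ) ≤ H.two.length := Nat.cast_nonneg _
  have a4 : (0 : ℚ) ≤ H.bd := Nat.cast_nonneg _
  norm_num at h1
  have b1 : (1000 : ℚ) ≤ m.P := by linarith
  have b2 : (2 : ℚ) ≤ H.K := by linarith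
  have b3 : (H.K : ℚ) ≤ m.P := by linarith
  exact ⟨by exact_mod_cast b1, by exact_mod_cast b2, by exact_mod_cast b3⟩

theorem mdl_ok (hm : m.OK H) : (mdl H m).OK := by
  refine ⟨mul_eq_one_comm.1 lo_orth, fun o x h => ?_, fun x y h => ?_, fun c β => ?_, lo_cl_ao,
    fun c => ?_, fun o h => ?_, fun x y => ?_, fun x y => ?_⟩
  · by_contra h'
    exact h (lo_U_ne (Ne.symm h'))
  · by_contra h'
    exact h (lo_T_ne h')
  · rcases c with q | e <;> cases β <;> rfl
  · rcases c with q | e <;> simp [mdl]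
  · rcases o with ⟨q, a, b⟩ | ⟨e, σ⟩
    · have h' : lv3 a + lv3 b = 1 := h
      have : (a = 1 ∧ b = 0) ∨ (a = 0 ∧ b = 1) := by
        revert h'
        fin_cases a <;> fin_cases b <;> simp [lv3]
      rcases this with ⟨rfl, rfl⟩ | ⟨rfl, rfl⟩
      · exact ⟨false, rfl⟩
      · exact ⟨true, rfl⟩
    · exact ⟨σ, rfl⟩
  · show ((wnom H m x y : ℚ) : ℝ) = (wnom H m y x : ℚ)
    congr 1
    rcases x with ⟨q, a, b⟩ | ⟨e, σ⟩ <;> rcases y with ⟨q', a', b'⟩ | ⟨e', σ'⟩
    · simp only [wnom, eq_comm (a := q), eq_comm (a := b), eq_comm (a := a), or_comm]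
    · rfl
    · rfl
    · by_cases h : e = e'
      · subst h
        simp only [wnom, eq_comm (a := σ)]
      · simp only [wnom, if_neg h, if_neg (Ne.symm h)]
  · show (0 : ℝ) ≤ (wnom H m x y : ℚ)
    exact_mod_cast (wnom_bd hm x y).1

theorem mdl_core : (mdl H m).core = univ.image fun q : Fin H.nq => (Sum.inl (q, 0, 0) : Site H) := by
  ext o
  simp only [Mdl.core, mem_filter, mem_univ, true_and, mem_image]
  rcases o with ⟨q, a, b⟩ | ⟨e, σ⟩
  · show lv3 a + lv3 b = 0 ↔ _
    fin_cases a <;> fin_cases b <;> simp [lv3]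
  · simp [mdl]

theorem mdl_Nel : H.Nel = 2 * (mdl H m).core.card + Fintype.card (Clu H) := by
  rw [mdl_core, Finset.card_image_of_injective _ fun q q' h => by simpa using h]
  simp only [card_univ, Fintype.card_fin, Fintype.card_sum, LH.Nel]
  omega

theorem Tm_eq (x y : Site H) :
    Tm H m x y = m.δ * (mdl H m).T0 x y + m.s * (mdl H m).T x y := by
  have hT0 : (mdl H m).T0 x y =
      ∑ o, (mdl H m).U o x * ((mdl H m).lev o : ℝ) * (mdl H m).U o y := by
    simp only [Mdl.T0, Matrix.mul_apply (M := (mdl H m).Uᵀ * _), mul_diagonal, transpose_apply]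
  rw [hT0]
  by_cases h : (mdl H m).cl x = (mdl H m).cl y
  · rcases x with ⟨q, a, b⟩ | ⟨e, σ⟩ <;> rcases y with ⟨q', a', b'⟩ | ⟨e', σ'⟩
    · obtain rfl : q = q' := Sum.inl.inj h
      rw [lo_sum_inl m q _ fun o ho => by rw [lo_U_ne (Ne.symm ho), zero_mul, zero_mul]]
      have h1 : ∀ c d : Fin 3, (mdl H m).U (.inl (q, c, d)) (.inl (q, a, b)) *
          ((mdl H m).lev (.inl (q, c, d)) : ℝ) * (mdl H m).U (.inl (q, c, d)) (.inl (q, a', b')) =
          (ev3 c a * (lv3 c : ℝ) * ev3 c a') * (ev3 d b * ev3 d b') +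
            (ev3 c a * ev3 c a') * (ev3 d b * (lv3 d : ℝ) * ev3 d b') := by
        intro c d
        have : (mdl H m).lev (.inl (q, c, d)) = lv3 c + lv3 d := rfl
        rw [lo_Uq, lo_Uq, this]
        push_cast
        ring
      have h2 : (mdl H m).T (.inl (q, a, b)) (.inl (q, a', b')) =
          if q = q ∧ a = a' ∧ b = b' then (epsh H m.P m.u m.y q a b : ℝ) else 0 := rfl
      simp only [h1, h2, Finset.sum_add_distrib, ← Finset.mul_sum, ← Finset.sum_mul, lo_col,
        lo_lap, Tm, hop, epsS]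
      by_cases ha : a = a' <;> by_cases hb : b = b' <;> simp [ha, hb]
    · exact absurd h (by simp [mdl])
    · exact absurd h (by simp [mdl])
    · obtain rfl : e = e' := Sum.inr.inj h
      have h1 : ∑ o, (mdl H m).U o (.inr (e, σ)) * ((mdl H m).lev o : ℝ) *
          (mdl H m).U o (.inr (e, σ')) = if σ = σ' then 1 else 0 := by
        rw [← lo_wcol (m := m) e]
        refine Finset.sum_congr rfl fun o _ => ?_
        rcases o with ⟨q, a, b⟩ | ⟨e', β⟩
        · have : (mdl H m).U (.inl (q, a, b)) (.inr (e, σ')) = 0 := rfl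
          rw [this, mul_zero, mul_zero]
        · have : (mdl H m).lev (.inr (e', β)) = 1 := rfl
          rw [this, Nat.cast_one, mul_one]
      rw [h1, lo_Tw]
      simp only [Tm, hop, epsS]
      by_cases hs : σ = σ' <;> simp [hs] <;> ring
  · rw [lo_off h, lo_T_ne h, Tm, if_neg fun hxy => h (by rw [hxy])]
    have : hop H m x y = 0 := by
      rcases x with ⟨q, a, b⟩ | ⟨e, σ⟩ <;> rcases y with ⟨q', a', b'⟩ | ⟨e', σ'⟩
      · exact if_neg fun hq => h (by subst hq; rfl)
      · rfl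
      · rfl
      · exact if_neg fun hq => h (by subst hq; rfl)
    simp [this]

theorem T_bd (hH : H.OK) (hm : m.OK H) (a : Site H → ℝ) :
    0 ≤ qf (mdl H m).T a ∧ qf (mdl H m).T a ≤ 2 * m.P * (a ⬝ᵥ a) := by
  have hP := (lo_P hm).1
  have h1 : qf (mdl H m).T a = ∑ z : Fin H.nq × Fin 3 × Fin 3,
      (epsh H m.P m.u m.y z.1 z.2.1 z.2.2 : ℝ) * a (.inl z) ^ 2 +
      ∑ e : Fin H.two.length, (m.P * (a (.inr (e, true)) ^ 2 + a (.inr (e, false)) ^ 2) +
        Del H m.P m.y e / 2 * (a (.inr (e, true)) - a (.inr (e, false))) ^ 2) := by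
    rw [qf_eq_sum, Fintype.sum_sum_type, Fintype.sum_prod_type (α₂ := Bool)]
    congr 1
    · refine Finset.sum_congr rfl ?_
      rintro ⟨q, c, d⟩ -
      have h2 : (mdl H m).T (.inl (q, c, d)) (.inl (q, c, d)) = (epsh H m.P m.u m.y q c d : ℝ) :=
        if_pos ⟨rfl, rfl, rfl⟩
      rw [Finset.sum_eq_single (Sum.inl (q, c, d)), h2]
      · ring
      · rintro (⟨q', a', b'⟩ | ⟨e, σ⟩) - hx
        · have : (mdl H m).T (.inl (q, c, d)) (.inl (q', a', b')) = 0 :=
            if_neg (by rintro ⟨rfl, rfl, rfl⟩; exact hx rfl)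
          rw [this, mul_zero, zero_mul]
        · have : (mdl H m).T (.inl (q, c, d)) (.inr (e, σ)) = 0 := rfl
          rw [this, mul_zero, zero_mul]
      · simp
    · refine Finset.sum_congr rfl fun e _ => ?_
      rw [Fintype.sum_bool,
        lo_sum_inr m e _ fun y hy => by rw [lo_T_ne (Ne.symm hy), mul_zero, zero_mul],
        lo_sum_inr m e _ fun y hy => by rw [lo_T_ne (Ne.symm hy), mul_zero, zero_mul]]
      simp only [lo_Tw]
      simp
      ring
  have h2 : a ⬝ᵥ a = ∑ z : Fin H.nq × Fin 3 × Fin 3, a (.inl z) ^ 2 +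
      ∑ e : Fin H.two.length, (a (.inr (e, true)) ^ 2 + a (.inr (e, false)) ^ 2) := by
    rw [dot_self_eq, Fintype.sum_sum_type, Fintype.sum_prod_type (α₂ := Bool)]
    simp only [Fintype.sum_bool]
  have he : ∀ q c d : ℕ, (0 : ℝ) ≤ (epsh H m.P m.u m.y q c d : ℝ) ∧
      (epsh H m.P m.u m.y q c d : ℝ) ≤ 2 * m.P := fun q c d =>
    ⟨by exact_mod_cast (epsh_bd' hH hm q c d).1, by exact_mod_cast (epsh_bd' hH hm q c d).2⟩
  have hD : ∀ e : Fin H.two.length, (0 : ℝ) ≤ (Del H m.P m.y e : ℝ) ∧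
      (Del H m.P m.y e : ℝ) ≤ 1 := fun e => by
    obtain ⟨d1, d2⟩ := Del_bd' hH hm e.2
    have p1 : (1 : ℚ) ≤ m.P := le_trans (by norm_num) hm.P30
    have d3 : (0 : ℚ) ≤ 1 / (32 * m.P ^ 46) := by positivity
    have d4 : 1 / m.P ^ 42 ≤ 1 := by
      rw [div_le_one (by positivity)]
      exact one_le_pow₀ p1
    exact ⟨by exact_mod_cast d3.trans d1, by exact_mod_cast d2.trans d4⟩
  rw [h1, h2, mul_add, Finset.mul_sum, Finset.mul_sum]
  constructor
  · refine add_nonneg (Finset.sum_nonneg fun z _ => mul_nonneg (he _ _ _).1 (sq_nonneg _))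
      (Finset.sum_nonneg fun e _ => ?_)
    have := (hD e).1
    have : (0 : ℝ) ≤ m.P := by linarith
    positivity
  · refine add_le_add (Finset.sum_le_sum fun z _ =>
      mul_le_mul_of_nonneg_right (he _ _ _).2 (sq_nonneg _)) (Finset.sum_le_sum fun e _ => ?_)
    have k1 := mul_le_mul_of_nonneg_right (hD e).2
      (sq_nonneg (a (.inr (e, true)) - a (.inr (e, false))))
    have k2 := mul_le_mul_of_nonneg_right hP
      (add_nonneg (sq_nonneg (a (.inr (e, true)))) (sq_nonneg (a (.inr (e, false)))))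
    nlinarith [sq_nonneg (a (.inr (e, true)) + a (.inr (e, false))),
      sq_nonneg (a (.inr (e, true))), sq_nonneg (a (.inr (e, false)))]

theorem hub (hm : m.OK H) : (mdl H m).Hub (1 / (m.P : ℝ) ^ 40) := by
  obtain ⟨hP, hK, hK'⟩ := lo_P hm
  have hP0 : (0 : ℝ) < m.P := by linarith
  have hP1 : (1 : ℝ) ≤ m.P := by linarith
  have hK0 : (0 : ℝ) < H.K := by linarith
  have hu : (1 : ℝ) ≤ m.u := by exact_mod_cast hm.u_ge
  have t0 : (0 : ℝ) ≤ 1 / (m.P : ℝ) ^ 40 := by positivity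
  have ht : ∀ n : ℕ, n ≤ 39 → 36 * (1 / (m.P : ℝ) ^ 40) ≤ 1 / (m.P : ℝ) ^ n := fun n hn => by
    refine le_trans ?_ (one_div_le_one_div_of_le (by positivity) (pow_le_pow_right₀ hP1 hn))
    have : 1 / (m.P : ℝ) ^ 39 = m.P * (1 / (m.P : ℝ) ^ 40) := by field_simp
    rw [this]
    exact mul_le_mul_of_nonneg_right (by linarith) t0
  rintro (q | e) α
  · rw [lo_sum_inl m q _ fun x hx => Finset.sum_eq_zero fun y _ => if_neg fun h => hx h.1]
    have h1 : ∀ a b : Fin 3, (∑ y, if (mdl H m).cl (.inl (q, a, b)) = .inl q ∧ (mdl H m).cl y = .inl q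
        then (mdl H m).w (.inl (q, a, b)) y * (∑ β, ∑ β', (mdl H m).U ((mdl H m).ao (.inl q) β)
          (.inl (q, a, b)) * (mdl H m).U ((mdl H m).ao (.inl q) β') y * α β β') ^ 2 else 0) =
        ∑ a', loW ((m.u : ℝ) / H.K) (w0 H m.P) a a' *
          (∑ β, ∑ β', loG β a b * loG β' a' b / 6 * α β β') ^ 2 := by
      intro a b
      rw [lo_sum_inl m q _ fun y hy => if_neg fun h => hy h.2]
      refine Finset.sum_congr rfl fun a' _ => ?_
      rw [Finset.sum_eq_single b, if_pos ⟨rfl, rfl⟩, lo_w, if_pos ⟨rfl, rfl⟩]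
      · simp only [lo_act]
      · intro b' _ hb
        rw [if_pos ⟨rfl, rfl⟩, lo_w, if_neg fun h => hb h.2.symm, zero_mul]
      · simp
    simp only [h1]
    have hA : 36 * (1 / (m.P : ℝ) ^ 40) ≤ (m.u : ℝ) / H.K :=
      (ht 1 (by norm_num)).trans (by rw [pow_one]; exact div_le_div₀ (by linarith) hu hK0 hK')
    have hB : 36 * (1 / (m.P : ℝ) ^ 40) ≤ (w0 H m.P : ℝ) := by
      refine (ht 32 (by norm_num)).trans ?_
      rw [w0]
      push_cast
      refine one_div_le_one_div_of_le (by positivity) ?_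
      rw [show (m.P : ℝ) ^ 32 = (m.P : ℝ) ^ 2 * (m.P : ℝ) ^ 30 by ring]
      gcongr
    generalize 1 / (m.P : ℝ) ^ 40 = t at *
    have h2 : ∀ a a', 36 * t * loW 1 1 a a' ≤ loW ((m.u : ℝ) / H.K) (w0 H m.P) a a' := by
      intro a a'
      fin_cases a <;> fin_cases a' <;> simp [loW, hA, hB]
    refine le_trans ?_ (Finset.sum_le_sum fun a _ => Finset.sum_le_sum fun b _ =>
      Finset.sum_le_sum fun a' _ => mul_le_mul_of_nonneg_right (h2 a a') (sq_nonneg _))
    simp only [mul_comm 36 t, mul_assoc t, ← Finset.mul_sum]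
    refine mul_le_mul_of_nonneg_left ?_ t0
    simp only [Fin.sum_univ_three, Fintype.sum_bool, loG, loW]
    simp
    nlinarith [sq_nonneg (α true true + α false false), sq_nonneg (α true false + α false true),
      sq_nonneg (α true true), sq_nonneg (α false false), sq_nonneg (α true false),
      sq_nonneg (α false true)]
  · rw [lo_sum_inr m e _ fun x hx => Finset.sum_eq_zero fun y _ => if_neg fun h => hx h.1,
      lo_sum_inr m e _ fun y hy => if_neg fun h => hy h.2,
      lo_sum_inr m e _ fun y hy => if_neg fun h => hy h.2,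
      if_pos ⟨rfl, rfl⟩, if_pos ⟨rfl, rfl⟩, if_pos ⟨rfl, rfl⟩, if_pos ⟨rfl, rfl⟩]
    have hw : ∀ σ σ', 1 / (m.P : ℝ) ^ 40 ≤ (mdl H m).w (.inr (e, σ)) (.inr (e, σ')) := by
      intro σ σ'
      show _ ≤ ((if e = e then (if σ = σ' then m.u / 3 else 1 / (9 * m.dt e)) else 0 : ℚ) : ℝ)
      rw [if_pos rfl]
      split_ifs
      · have := ht 0 (by norm_num)
        push_cast
        rw [pow_zero] at this
        linarith
      · have h1 := ht 39 le_rfl
        have h2 : (m.dt e : ℝ) ≤ (m.P : ℝ) ^ 39 := by exact_mod_cast (hm.dt_bd e e.2).2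
        have h3 : (m.P : ℝ) ^ 30 ≤ (m.dt e : ℝ) := by exact_mod_cast (hm.dt_bd e e.2).1
        have h4 : (0 : ℝ) < m.dt e := lt_of_lt_of_le (by positivity) h3
        have h5 := one_div_le_one_div_of_le h4 h2
        push_cast
        rw [show (1 : ℝ) / (9 * m.dt e) = 1 / 9 * (1 / m.dt e) by rw [div_mul_div_comm, one_mul]]
        linarith
    refine le_trans (le_of_eq ?_) (add_le_add
      (add_le_add (mul_le_mul_of_nonneg_right (hw _ _) (sq_nonneg _))
        (mul_le_mul_of_nonneg_right (hw _ _) (sq_nonneg _)))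
      (add_le_add (mul_le_mul_of_nonneg_right (hw _ _) (sq_nonneg _))
        (mul_le_mul_of_nonneg_right (hw _ _) (sq_nonneg _))))
    simp only [lo_wire, Fintype.sum_bool]
    simp
    ring

end Vale.Agent.P370.Lat
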