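import Vale.Agent.P370.ParPT

/-! The parameters of the lattice model are computable in polynomial time.

Plan.  Projections of `LH` by `PT.of_enc`/`PT.retag`; then unfold the definitions one after the other
(`pt_iteP`, `pt_neq`, equality of pairs `ℕ × Bool`, `PT.getD`, `pt_qsum`, `PT.map`, `fun_prop`). -/

namespace Vale.Agent.P370

open Vale.Agent.Lib.H23 Vale.Agent.P338 Vale.Agent.P049

variable {α : Type} [Enc α] {b : α → ℕ} {H : α → LH}

theorem lp_tab (hH : PT H) :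
    PT fun x => ((⟨(H x).nq⟩ : Un), (H x).one, (H x).two, (H x).thr, (⟨(H x).bd⟩ : Un)) :=
  hH.of_enc fun _ => rfl

theorem lp_one (hH : PT H) : PT fun x => (H x).one := (lp_tab hH).snd.fst

theorem lp_two (hH : PT H) : PT fun x => (H x).two := (lp_tab hH).snd.snd.fst

theorem lp_bool {β : Type} [Enc β] (f : Bool → β) {p : α → Bool} (hp : PT p) :
    PT fun x => f (p x) :=
  (PT.cond hp (PT.const (f true)) (PT.const (f false))).congr fun x => by cases p x <;> rfl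

theorem lp_peq {f g : α → ℕ × Bool} (hf : PT f) (hg : PT g) : PT fun x => decide (f x = g x) :=
  ((pt_neq hf.fst hg.fst).and (hf.snd.xor hg.snd).not).congr fun x => by
    rcases f x with ⟨a, p⟩
    rcases g x with ⟨c, q⟩
    cases p <;> cases q <;> simp

theorem pt_nq (hH : PT H) : PT fun x => (⟨(H x).nq⟩ : Un) := by
  exact (lp_tab hH).fst


theorem pt_ne (hH : PT H) : PT fun x => (⟨(H x).two.length⟩ : Un) := by
  exact PT_unLen (lp_two hH)


theorem pt_KU (hH : PT H) : PT fun x => (⟨(H x).K⟩ : Un) := by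
  exact (PT_unAdd (pt_ne hH) (PT.const (⟨2⟩ : Un))).congr fun _ => rfl


theorem pt_K (hH : PT H) : PT fun x => (H x).K := by
  exact PT_unn (pt_KU hH)


theorem pt_Nel (hH : PT H) : PT fun x => (⟨(H x).Nel⟩ : Un) := by
  exact (PT_unAdd (PT_unMul (PT.const (⟨3⟩ : Un)) (pt_nq hH)) (pt_ne hH)).congr fun _ => rfl


theorem pt_thr (hH : PT H) : PT fun x => (H x).thr := by
  exact (lp_tab hH).snd.snd.snd.fst


theorem pt_term (hH : PT H) {e : α → ℕ} (he : PT e) : PT fun x => (H x).term (e x) := by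
  exact PT.getD (lp_two hH) he (PT.const _)


theorem pt_same (hH : PT H) {e : α → ℕ} (he : PT e) : PT fun x => (H x).same (e x) := by
  have h := pt_term hH he
  exact pt_qlt (pt_qmul (pt_qmul h.snd.snd (lp_bool ac h.fst.snd)) (lp_bool ac h.snd.fst.snd))
    (PT.const 0)


theorem pt_yq (hb : BPT b) {e : α → ℕ} (he : PT e) : PT fun x => yq (b x) (e x) := by
  exact pt_qadd (pt_qpow hb.Pq 49) (pt_qmul (PT.const 128) (pt_qcast he))


theorem lp_jj (hb : BPT b) (hH : PT H) {e : α → ℕ} (he : PT e) :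
    PT fun x => jj (H x) (yq (b x)) (e x) :=
  pt_qdiv (PT.const 1) (pt_qmul (pt_qmul (PT.const 3) (pt_qcast (pt_K hH))) (pt_yq hb he))

theorem lp_sg (hH : PT H) {e : α → ℕ} (he : PT e) : PT fun x => (H x).sg (e x) :=
  lp_bool (fun p => if p = true then (1 : ℚ) else -1) (pt_same hH he)

theorem lp_o0 (hb : BPT b) (hH : PT H) {e : α → ℕ} (he : PT e) :
    PT fun x => o0 (H x) (yq (b x)) (e x) :=
  pt_qmul (pt_qdiv (lp_jj hb hH he) (PT.const 2)) (pt_qadd (lp_bool cc (pt_term hH he).fst.snd)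
    (pt_qmul (lp_sg hH he) (lp_bool cc (pt_term hH he).snd.fst.snd)))

theorem lp_o1 (hb : BPT b) (hH : PT H) {e : α → ℕ} (he : PT e) :
    PT fun x => o1 (H x) (yq (b x)) (e x) :=
  pt_qmul (pt_qdiv (lp_jj hb hH he) (PT.const 2)) (lp_bool ac (pt_term hH he).fst.snd)

theorem lp_o2 (hb : BPT b) (hH : PT H) {e : α → ℕ} (he : PT e) :
    PT fun x => o2 (H x) (yq (b x)) (e x) :=
  pt_qmul (lp_sg hH he)
    (pt_qmul (pt_qdiv (lp_jj hb hH he) (PT.const 2)) (lp_bool ac (pt_term hH he).snd.fst.snd))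

theorem lp_E1 (hb : BPT b) : PT fun x => E1 (Pq (b x)) := pt_qdiv (PT.const 1) (pt_qpow hb.Pq 55)

theorem pt_Del (hb : BPT b) (hH : PT H) {e : α → ℕ} (he : PT e) :
    PT fun x => Del (H x) (Pq (b x)) (yq (b x)) (e x) := by
  exact pt_qdiv (pt_qmul (PT.const 2) (pt_qabs (pt_qmul (lp_o1 hb hH he) (lp_o2 hb hH he))))
    (pt_qmul (lp_E1 hb) (pt_qabs (pt_term hH he).snd.snd))


theorem lp_hone (hH : PT H) {a : α → ℕ × Bool} (ha : PT a) : PT fun x => (H x).hone (a x) :=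
  pt_qsum (PT.map (f := fun x (t : (ℕ × Bool) × ℚ) => if t.1 = a x then t.2 else 0)
    (pt_iteP (lp_peq PT.snd'.fst (ha.comp PT.fst')) PT.snd'.snd (PT.const 0)) (lp_one hH))

theorem lp_phi (hb : BPT b) (hH : PT H) {a : α → ℕ × Bool} (ha : PT a) :
    PT fun x => phi (H x) (Pq (b x)) (yq (b x)) (a x) := by
  have hb' : BPT fun p : α × ℕ => b p.1 := hb.comp PT.fst'
  have hH' : PT fun p : α × ℕ => H p.1 := hH.comp PT.fst'
  have ha' : PT fun p : α × ℕ => a p.1 := ha.comp PT.fst'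
  have h1 := pt_qmul (pt_qdiv (lp_jj hb' hH' PT.snd') (PT.const 2)) (lp_bool ac ha'.snd)
  have h2 := pt_qmul (PT.const 2) (lp_o0 hb' hH' PT.snd')
  have h3 := pt_Del hb' hH' PT.snd'
  exact pt_qsub (pt_qmul (lp_E1 hb) (lp_hone hH ha)) (pt_qsum (PT.map (pt_qadd
    (pt_iteP (lp_peq (pt_term hH' PT.snd').fst ha')
      (pt_qsub h1 (pt_qdiv (pt_qmul h2 (lp_o1 hb' hH' PT.snd')) h3)) (PT.const 0))
    (pt_iteP (lp_peq (pt_term hH' PT.snd').snd.fst ha')
      (pt_qsub h1 (pt_qdiv (pt_qmul h2 (lp_o2 hb' hH' PT.snd')) h3)) (PT.const 0)))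
    (PT_range (pt_ne hH))))

theorem lp_w0 (hb : BPT b) (hH : PT H) : PT fun x => w0 (H x) (Pq (b x)) :=
  pt_qdiv (PT.const 1) (pt_qmul (pt_qpow (pt_qcast (pt_K hH)) 2) (pt_qpow hb.Pq 30))

theorem lp_ex (hb : BPT b) (hH : PT H) {q : α → ℕ} (hq : PT q) :
    PT fun x => ex (H x) (Pq (b x)) (yq (b x)) (q x) :=
  pt_qmul (PT.const 6) (lp_phi hb hH (hq.pair (PT.const true)))

theorem lp_ez (hb : BPT b) (hH : PT H) {q : α → ℕ} (hq : PT q) :
    PT fun x => ez (H x) (Pq (b x)) (yq (b x)) (q x) :=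
  pt_qsub (pt_qdiv (pt_qmul (PT.const 2) (lp_w0 hb hH)) (PT.const 9))
    (pt_qmul (PT.const 6) (lp_phi hb hH (hq.pair (PT.const false))))

theorem lp_e0q (hb : BPT b) (hH : PT H) {q : α → ℕ} (hq : PT q) :
    PT fun x => e0q (H x) (Pq (b x)) (uq (b x)) (yq (b x)) (q x) :=
  pt_qadd (pt_qsub (pt_qsub (pt_qsub (pt_qsub hb.Pq (pt_qdiv (lp_ez hb hH hq) (PT.const 6)))
    (pt_qdiv (lp_ex hb hH hq) (PT.const 6)))
    (pt_qdiv hb.uq (pt_qmul (PT.const 9) (pt_qcast (pt_K hH)))))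
    (pt_qdiv (pt_qmul (PT.const 2) (lp_w0 hb hH)) (PT.const 9)))
    (pt_qdiv (lp_w0 hb hH) (PT.const 27))

theorem lp_iteC {p : Prop} [Decidable p] {f : α → ℚ} (hf : PT f) :
    PT fun x => if p then f x else 0 := by
  split_ifs
  exacts [hf, PT.const 0]

theorem lp_n (hH : PT H) : PT fun x => (((H x).nq : ℚ) + (H x).two.length) :=
  pt_qadd (pt_qcast (PT_unn (pt_nq hH))) (pt_qcast (lp_two hH).length)

theorem pt_epsh (hb : BPT b) (hH : PT H) {q : α → ℕ} (hq : PT q) (a a' : ℕ) :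
    PT fun x => epsh (H x) (Pq (b x)) (uq (b x)) (yq (b x)) (q x) a a' := by
  exact pt_qadd (pt_qadd (lp_e0q hb hH hq) (lp_iteC (lp_ez hb hH hq))) (lp_iteC (lp_ex hb hH hq))


theorem pt_Cst (hb : BPT b) (hH : PT H) :
    PT fun x => Cst (H x) (Pq (b x)) (uq (b x)) (yq (b x)) := by
  have hb' : BPT fun p : α × ℕ => b p.1 := hb.comp PT.fst'
  have hH' : PT fun p : α × ℕ => H p.1 := hH.comp PT.fst'
  have ht := pt_term hH' PT.snd'
  exact pt_qadd (pt_qadd (pt_qsum (PT.map (pt_qadd (pt_qmul (PT.const 2)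
    (pt_qadd (pt_qadd (lp_e0q hb' hH' PT.snd') (pt_qdiv (lp_ez hb' hH' PT.snd') (PT.const 3)))
      (pt_qdiv (lp_ex hb' hH' PT.snd') (PT.const 9))))
    (pt_qdiv (pt_qadd (pt_qdiv (pt_qmul (PT.const 9) hb'.uq) (pt_qcast (pt_K hH')))
      (pt_qmul (PT.const 12) (lp_w0 hb' hH'))) (PT.const 81))) (PT_range (pt_nq hH))))
    (pt_qmul hb.Pq (lp_n hH))) (pt_qsum (PT.map (pt_qsub
      (pt_qmul (pt_qdiv (lp_jj hb' hH' PT.snd') (PT.const 2))
        (pt_qadd (lp_bool cc ht.fst.snd) (lp_bool cc ht.snd.fst.snd)))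
      (pt_qdiv (pt_qadd (pt_qadd (pt_qpow (lp_o0 hb' hH' PT.snd') 2)
        (pt_qpow (lp_o1 hb' hH' PT.snd') 2)) (pt_qpow (lp_o2 hb' hH' PT.snd') 2))
        (pt_Del hb' hH' PT.snd'))) (PT_range (pt_ne hH))))


theorem pt_delq (hb : BPT b) (hH : PT H) : PT fun x => delq (b x) (H x) := by
  exact pt_qdiv (pt_qcast hb.lamb) (pt_qmul (hb.pwQ 62886) (pt_qmul
    (pt_qmul (PT.const 2) (pt_qcast (pt_K hH))) (pt_qsub (pt_qpow hb.Pq 30) (PT.const 2))))


theorem pt_dtq (hb : BPT b) (hH : PT H) {e : α → ℕ} (he : PT e) :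
    PT fun x => dtq (b x) (H x) (e x) := by
  exact pt_qadd (PT.const 2) (pt_qdiv (pt_qcast hb.lamb) (pt_qmul (hb.pwQ 62991)
    (pt_qmul (pt_qmul (PT.const 3) hb.sq) (pt_Del hb hH he))))


theorem pt_thrq (hb : BPT b) (hH : PT H) (t : ℚ) : PT fun x => thrq (b x) (H x) t := by
  have h1 : PT fun x => lvl (H x) (mp (b x) (H x)) :=
    pt_qadd (pt_qmul (pt_delq hb hH) (lp_n hH)) (pt_qmul hb.sq (pt_Cst hb hH))
  exact pt_qdiv (pt_qadd (pt_qadd (pt_qmul (pt_qcast (PT_unn (pt_Nel hH))) hb.e0) h1)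
    (pt_qmul (pt_qmul hb.sq (lp_E1 hb)) (pt_qadd (pt_thr hH) (PT.const t)))) (pt_qpow hb.sq 2)


end Vale.Agent.P370
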