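import Vale.Agent.P370.LatMdl

/-! Part M: Slater-Condon rules, abstract form.  `core`, `act` are disjoint predicates on the modes,
`u` is antisymmetric and supported on injective configurations which contain all core modes and
otherwise only active modes. -/

namespace Vale.Agent.P370.Lat

open Matrix Finset

variable {S Cl : Type} [Fintype S] [DecidableEq S] [Fintype Cl] [DecidableEq Cl] {N : ℕ}

/-- restriction of a matrix to the modes with `act` -/
def rs {M : Type} (act : M → Prop) [DecidablePred act] (A : Matrix M M ℝ) : Matrix M M ℝ :=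
  Matrix.of fun a b => if act a ∧ act b then A a b else 0

variable {core : Finset (S × Bool)} {act : S × Bool → Prop} [DecidablePred act]
  {u : (Fin N → S × Bool) → ℝ}

omit [Fintype S] in
private theorem sum_single (f : S × Bool → ℝ) (a b : S × Bool) :
    ∑ p ∈ core, f p * Matrix.single p p (1 : ℝ) a b = if a ∈ core ∧ b = a then f a else 0 := by
  by_cases h : b = a
  · subst h
    simp [Matrix.single_apply]
  · rw [if_neg fun h' => h h'.2]
    refine Finset.sum_eq_zero fun p _ => ?_
    rw [Matrix.single_apply, if_neg fun h' => h (h'.2.symm.trans h'.1), mul_zero]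

omit [Fintype S] [DecidableEq S] in
/-- a core mode in a set `J` of slots stays in `J` if only the slots of `J` change -/
private theorem core_stay {k k' : Fin N → S × Bool} (hk : Function.Injective k) {p : S × Bool}
    (hp : ∃ l, k' l = p) {J : Fin N → Prop} (hJ : ∀ l, ¬ J l → k' l = k l) {i : Fin N} (hi : J i)
    (hki : k i = p) : ∃ l, J l ∧ k' l = p := by
  obtain ⟨l, hl⟩ := hp
  refine ⟨l, by_contra fun h => h ?_, hl⟩
  rw [hk ((hJ l h).symm.trans (hl.trans hki.symm))]
  exact hi

theorem sc_one (hd : ∀ p ∈ core, ¬ act p)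
    (hu : ∀ k, u k ≠ 0 → Function.Injective k ∧ (∀ p ∈ core, ∃ i, k i = p) ∧
      ∀ i, k i ∈ core ∨ act (k i)) (i : Fin N) (A : Matrix (S × Bool) (S × Bool) ℝ) :
    qf (one i A) u = ∑ p ∈ core, A p p * qf (one i (Matrix.single p p 1)) u +
      qf (one i (rs act A)) u := by
  have h1 : ∑ p ∈ core, A p p * qf (one i (Matrix.single p p 1)) u =
      qf (one i (∑ p ∈ core, A p p • Matrix.single p p 1)) u := by
    simp only [one_sum, qf_sum, one_smul', qf_smul]
  rw [h1, ← qf_add, ← one_add, qf_one_eq, qf_one_eq]
  refine Finset.sum_congr rfl fun k _ => Finset.sum_congr rfl fun b _ => ?_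
  by_cases h0 : u k = 0
  · simp [h0]
  by_cases h0' : u (Function.update k i b) = 0
  · simp [h0']
  obtain ⟨hk1, hk2, hk3⟩ := hu k h0
  obtain ⟨hl1, hl2, hl3⟩ := hu _ h0'
  have ha : k i ∈ core → b = k i := fun h => by
    obtain ⟨l, rfl, hl⟩ := core_stay hk1 (hl2 _ h) (J := fun l => l = i)
      (fun l hl => Function.update_of_ne hl _ _) rfl rfl
    rwa [Function.update_self] at hl
  have hb : b ∈ core → k i = b := fun h => by
    obtain ⟨l, rfl, hl⟩ := core_stay hl1 (hk2 _ h) (J := fun l => l = i)
      (fun l hl => (Function.update_of_ne hl _ _).symm) rfl (Function.update_self ..)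
    exact hl
  have hb' := hl3 i
  rw [Function.update_self] at hb'
  congr 2
  simp only [Matrix.add_apply, Matrix.sum_apply, Matrix.smul_apply, smul_eq_mul, sum_single, rs,
    Matrix.of_apply]
  by_cases h : k i ∈ core
  · rw [if_pos ⟨h, ha h⟩, if_neg fun h' => hd _ h h'.1, add_zero, ha h]
  · rw [if_neg fun h' => h h'.1, if_pos, zero_add]
    exact ⟨(hk3 i).resolve_left h, hb'.resolve_left fun h' => h (hb h' ▸ h')⟩

/-- two-slot forms with a general kernel -/
private def Phi (u : (Fin N → S × Bool) → ℝ) (i j : Fin N)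
    (F : S × Bool → S × Bool → S × Bool → S × Bool → ℝ) : ℝ :=
  ∑ k, ∑ b, ∑ d, u k * F (k i) b (k j) d * u (Function.update (Function.update k i b) j d)

private theorem qf_Phi {i j : Fin N} (hij : i ≠ j) (A B : Matrix (S × Bool) (S × Bool) ℝ) :
    qf (one i A * one j B) u = Phi u i j fun a b c d => A a b * B c d := by
  simp only [qf_two_eq hij, Phi, mul_assoc]

omit [DecidableEq S] in
private theorem Phi_add (i j : Fin N) (F G : S × Bool → S × Bool → S × Bool → S × Bool → ℝ) :
    Phi u i j F + Phi u i j G = Phi u i j fun a b c d => F a b c d + G a b c d := by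
  simp only [Phi, mul_add, add_mul, Finset.sum_add_distrib]

omit [DecidableEq S] in
private theorem Phi_mul (i j : Fin N) (t : ℝ) (F : S × Bool → S × Bool → S × Bool → S × Bool → ℝ) :
    t * Phi u i j F = Phi u i j fun a b c d => t * F a b c d := by
  simp only [Phi, Finset.mul_sum, mul_assoc, mul_left_comm t]

omit [DecidableEq S] in
private theorem Phi_sum (i j : Fin N) (s : Finset (S × Bool))
    (F : S × Bool → S × Bool → S × Bool → S × Bool → S × Bool → ℝ) :
    ∑ p ∈ s, Phi u i j (F p) = Phi u i j fun a b c d => ∑ p ∈ s, F p a b c d := by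
  simp only [Phi, Finset.mul_sum, Finset.sum_mul, Finset.sum_comm (s := s)]

omit [DecidableEq S] in
private theorem Phi_swap (ha : AntiC u) {i j : Fin N} (hij : i ≠ j)
    (F : S × Bool → S × Bool → S × Bool → S × Bool → ℝ) :
    Phi u i j F = Phi u i j fun a b c d => -F a d c b := by
  refine Finset.sum_congr rfl fun k _ => ?_
  rw [Finset.sum_comm]
  refine Finset.sum_congr rfl fun b _ => Finset.sum_congr rfl fun d _ => ?_
  have h : Function.update (Function.update k i d) j b =
      Function.update (Function.update k i b) j d ∘ Equiv.swap i j := by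
    funext l
    by_cases h1 : l = i
    · subst h1
      simp [Function.update_of_ne hij]
    by_cases h2 : l = j
    · subst h2
      simp [Function.update_of_ne hij]
    simp [Equiv.swap_apply_of_ne_of_ne h1 h2, Function.update_of_ne h1, Function.update_of_ne h2]
  rw [h, ha, Equiv.Perm.sign_swap hij]
  simp

omit [DecidableEq S] in
private theorem Phi_congr {i j : Fin N} {F G : S × Bool → S × Bool → S × Bool → S × Bool → ℝ}
    (h : ∀ k b d, u k ≠ 0 → u (Function.update (Function.update k i b) j d) ≠ 0 →
      F (k i) b (k j) d = G (k i) b (k j) d) : Phi u i j F = Phi u i j G := by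
  refine Finset.sum_congr rfl fun k _ => Finset.sum_congr rfl fun b _ =>
    Finset.sum_congr rfl fun d _ => ?_
  by_cases h0 : u k = 0
  · simp [h0]
  by_cases h1 : u (Function.update (Function.update k i b) j d) = 0
  · simp [h1]
  rw [h k b d h0 h1]

theorem sc_two (hd : ∀ p ∈ core, ¬ act p) (ha : AntiC u)
    (hu : ∀ k, u k ≠ 0 → Function.Injective k ∧ (∀ p ∈ core, ∃ i, k i = p) ∧
      ∀ i, k i ∈ core ∨ act (k i)) {i j : Fin N} (hij : i ≠ j)
    (A B : Matrix (S × Bool) (S × Bool) ℝ) :
    qf (one i A * one j B) u =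
      ∑ p ∈ core, ∑ q ∈ core, (A p p * B q q - A p q * B q p) *
        qf (one i (Matrix.single p p 1) * one j (Matrix.single q q 1)) u +
      ∑ p ∈ core, qf (one i (Matrix.single p p 1) *
        one j (rs act (Matrix.of fun c d => A p p * B c d - A p d * B c p))) u +
      ∑ q ∈ core, qf (one i (rs act (Matrix.of fun a b => A a b * B q q - A a q * B q b)) *
        one j (Matrix.single q q 1)) u +
      qf (one i (rs act A) * one j (rs act B)) u := by
  simp only [qf_Phi hij, Phi_mul, Phi_sum, Phi_add]
  have h1 : (Phi u i j fun a b c d => A a b * B c d) =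
      (Phi u i j fun a b c d =>
        if (a ∈ core ∧ d = a) ∨ (c ∈ core ∧ b = c) then 0 else A a b * B c d) +
      Phi u i j fun a b c d =>
        if (a ∈ core ∧ d = a) ∨ (c ∈ core ∧ b = c) then A a b * B c d else 0 := by
    rw [Phi_add]
    refine Phi_congr fun k b d _ _ => ?_
    split_ifs <;> simp
  rw [h1, Phi_swap ha hij fun a b c d =>
    if (a ∈ core ∧ d = a) ∨ (c ∈ core ∧ b = c) then A a b * B c d else 0, Phi_add]
  refine Phi_congr fun k b d h0 h0' => ?_
  obtain ⟨hk1, hk2, hk3⟩ := hu k h0
  obtain ⟨hl1, hl2, hl3⟩ := hu _ h0'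
  have ei : Function.update (Function.update k i b) j d i = b := by
    rw [Function.update_of_ne hij, Function.update_self]
  have ej : Function.update (Function.update k i b) j d j = d := Function.update_self ..
  have eo : ∀ l, ¬ (l = i ∨ l = j) → Function.update (Function.update k i b) j d l = k l :=
    fun l hl => by
      rw [Function.update_of_ne fun h => hl (Or.inr h), Function.update_of_ne fun h => hl (Or.inl h)]
  have hac : k i ≠ k j := fun h => hij (hk1 h)
  have hbd : b ≠ d := fun h => hij (hl1 (ei.trans (h.trans ej.symm)))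
  have f1 : ∀ l, l = i ∨ l = j → k l ∈ core → b = k l ∨ d = k l := fun l hl h => by
    obtain ⟨l', rfl | rfl, h'⟩ := core_stay hk1 (hl2 _ h) eo hl rfl
    exacts [Or.inl (ei.symm.trans h'), Or.inr (ej.symm.trans h')]
  have f2 : ∀ l, l = i ∨ l = j → ∀ x, Function.update (Function.update k i b) j d l = x →
      x ∈ core → k i = x ∨ k j = x := fun l hl x hx h => by
    obtain ⟨l', rfl | rfl, h'⟩ := core_stay hl1 (hk2 _ h) (fun l hl => (eo l hl).symm) hl hx
    exacts [Or.inl h', Or.inr h']
  have g1 := f1 i (Or.inl rfl)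
  have g2 := f1 j (Or.inr rfl)
  have g3 := f2 i (Or.inl rfl) b ei
  have g4 := f2 j (Or.inr rfl) d ej
  have g5 := hk3 i
  have g6 := hk3 j
  have g7 := hl3 i
  have g8 := hl3 j
  rw [ei] at g7
  rw [ej] at g8
  generalize k i = a, k j = c at *
  have e1 : ∀ (p : S × Bool) (x : ℝ), Matrix.single p p (1 : ℝ) a b * x =
      x * Matrix.single p p (1 : ℝ) a b := fun p x => mul_comm _ _
  simp only [e1, ← mul_assoc, ← Finset.sum_mul, sum_single, rs, Matrix.of_apply]
  have hda := hd a
  have hdb := hd b
  have hdc := hd c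
  have hdd := hd d
  clear f1 f2 eo ei ej hk1 hk2 hk3 hl1 hl2 hl3 h0 h0' h1 hu e1
  by_cases h1 : a ∈ core <;> by_cases h2 : c ∈ core
  · rcases g1 h1 with rfl | rfl <;> rcases g2 h2 with rfl | rfl <;>
      simp_all [eq_comm, sub_eq_add_neg]
  · rcases g1 h1 with rfl | rfl
    · have h3 : d ∉ core := fun h => by rcases g4 h with rfl | rfl <;> contradiction
      simp_all [eq_comm, sub_eq_add_neg]
    · simp_all [eq_comm, sub_eq_add_neg]
  · rcases g2 h2 with rfl | rfl
    · simp_all [eq_comm, sub_eq_add_neg]
    · have h3 : b ∉ core := fun h => by rcases g3 h with rfl | rfl <;> contradiction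
      simp_all [eq_comm, sub_eq_add_neg]
  · have h3 : b ∉ core := fun h => by rcases g3 h with rfl | rfl <;> contradiction
    have h4 : d ∉ core := fun h => by rcases g4 h with rfl | rfl <;> contradiction
    simp_all

end Vale.Agent.P370.Lat
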