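import Vale.Agent.P370.LatMdl
import Vale.Agent.P370.LatFib

/-! Part M: patterns are conserved; configurations with two active electrons in one cluster cost energy.
`Fm_blk`: `U_blk`, `T_blk`.  An entry of `sp (M.act A)` with `A` block diagonal is nonzero only between modes with the same
`pt`; so `Qa k k' ≠ 0` forces equal patterns (entries of `one i A * one j B` through `one_apply'` or `tp_mul`), and
`qf_eq_sum` + `Finset.sum_fiberwise` give `qf_cut`.
`multi`: `Pa c = sp (diagonal [lev = 1 ∧ cl = c])`.  `one_ge` for `sp (act Fm) - μ • ∑ c, Pa c` (use `qf_sp`, `ao_surj`,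
`ao_ne` to rewrite sums over active orbitals as sums over `(c, β)`), and the number of active slots is `card Cl`
(hypothesis `hn`).  `two_ge` for `pair w ρ i j - Uc ∑ c, one i (Pa c) * one j (Pa c)` (fix both spins, drop the terms with
`cl x ≠ cl y`, `Hub`); the subtracted operator is diagonal and its sum over `i ≠ j` is at least 2 if `Sgl` fails. -/

namespace Vale.Agent.P370.Lat

open Matrix Finset

variable {S Cl : Type} [Fintype S] [DecidableEq S] [Fintype Cl] [DecidableEq Cl] {N : ℕ}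

variable {M : Mdl S Cl}

omit [Fintype Cl] [DecidableEq Cl] in
theorem Mdl.OK.Fm_blk (h : M.OK) {o o' : S} (hne : M.Fm o o' ≠ 0) : M.cl o = M.cl o' := by
  by_contra hc
  refine hne ?_
  have h1 : M.To o o' = 0 := by
    rw [Mdl.To, Matrix.mul_apply]
    refine sum_eq_zero fun y _ => ?_
    rw [Matrix.mul_apply, sum_mul]
    refine sum_eq_zero fun x _ => ?_
    by_contra h2
    obtain ⟨h3, h4⟩ := mul_ne_zero_iff.1 h2
    obtain ⟨h5, h6⟩ := mul_ne_zero_iff.1 h3
    exact hc ((h.U_blk _ _ h5).trans ((h.T_blk _ _ h6).trans (h.U_blk _ _ h4).symm))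
  rw [Mdl.Fm, Matrix.of_apply, h1, zero_add]
  refine sum_eq_zero fun p _ => sum_eq_zero fun x _ => sum_eq_zero fun y _ => ?_
  have h2 : M.U o y * M.U o' y = 0 := by
    by_contra h2
    obtain ⟨h3, h4⟩ := mul_ne_zero_iff.1 h2
    exact hc ((h.U_blk _ _ h3).trans (h.U_blk _ _ h4).symm)
  have h3 : M.U p x * M.U o' x * M.U o y * M.U p y = 0 := by
    by_contra h3
    obtain ⟨h4, h5⟩ := mul_ne_zero_iff.1 h3
    obtain ⟨h6, h7⟩ := mul_ne_zero_iff.1 h4
    obtain ⟨h8, h9⟩ := mul_ne_zero_iff.1 h6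
    exact hc ((h.U_blk _ _ h7).trans ((h.U_blk _ _ h5).symm.trans
      ((h.U_blk _ _ h8).trans (h.U_blk _ _ h9).symm)))
  rw [h3, mul_assoc, h2, mul_zero, sub_zero, mul_zero]

omit [Fintype Cl] [DecidableEq Cl] in
theorem Mdl.dot_cut (M : Mdl S Cl) (u : (Fin N → S × Bool) → ℝ) :
    u ⬝ᵥ u = ∑ p, M.cut p u ⬝ᵥ M.cut p u := by
  simp only [dot_self_eq, Mdl.cut]
  rw [sum_comm]
  refine sum_congr rfl fun k _ => ?_
  simp

/-- matrices that conserve the pattern -/
private def Blk (M : Mdl S Cl) (B : Matrix (Fin N → S × Bool) (Fin N → S × Bool) ℝ) : Prop :=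
  ∀ k k', B k k' ≠ 0 → (fun i => M.pt (k i)) = fun i => M.pt (k' i)

omit [Fintype S] [DecidableEq S] [Fintype Cl] [DecidableEq Cl] in
private theorem blk_sum {α : Type} {s : Finset α}
    {B : α → Matrix (Fin N → S × Bool) (Fin N → S × Bool) ℝ} (h : ∀ a, Blk M (B a)) :
    Blk M (∑ a ∈ s, B a) := by
  intro k k' hne
  rw [Matrix.sum_apply] at hne
  obtain ⟨a, -, ha⟩ := exists_ne_zero_of_sum_ne_zero hne
  exact h a k k' ha

omit [Fintype S] [DecidableEq S] [Fintype Cl] [DecidableEq Cl] in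
private theorem blk_smul (c : ℝ) {B : Matrix (Fin N → S × Bool) (Fin N → S × Bool) ℝ}
    (h : Blk M B) : Blk M (c • B) := fun k k' hne => h k k' (right_ne_zero_of_mul hne)

omit [Fintype Cl] [DecidableEq Cl] in
private theorem blk_mul {B C : Matrix (Fin N → S × Bool) (Fin N → S × Bool) ℝ}
    (h : Blk M B) (h' : Blk M C) : Blk M (B * C) := by
  intro k k' hne
  rw [Matrix.mul_apply] at hne
  obtain ⟨a, -, ha⟩ := exists_ne_zero_of_sum_ne_zero hne
  exact (h k a (left_ne_zero_of_mul ha)).trans (h' a k' (right_ne_zero_of_mul ha))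

omit [Fintype S] [Fintype Cl] [DecidableEq Cl] in
private theorem blk_one (i : Fin N) {A : Matrix S S ℝ}
    (h : ∀ o o', A o o' ≠ 0 → M.cl o = M.cl o') : Blk M (one i (sp (M.act A))) := by
  intro k k' hne
  rw [one_apply'] at hne
  obtain ⟨h1, h2⟩ := (@ite_ne_right_iff _ _ (_) _ _).1 hne
  obtain ⟨h3, h4⟩ := ite_ne_right_iff.1 h2
  obtain ⟨h5, h6⟩ := ite_ne_right_iff.1 h4
  funext l
  by_cases hl : l = i
  · rw [hl, Mdl.pt, Mdl.pt, if_pos h5.1, if_pos h5.2, h _ _ h6, h3]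
  · rw [h1 l hl]

omit [Fintype Cl] [DecidableEq Cl] in
theorem Mdl.OK.qf_cut (h : M.OK) (u : (Fin N → S × Bool) → ℝ) :
    qf (M.Qa N) u = ∑ p, qf (M.Qa N) (M.cut p u) := by
  have hb : Blk M (M.Qa N) := by
    intro k k' hne
    by_cases h1 : ob (Fin N) (sp (M.act M.Fm)) k k' = 0
    · rw [Mdl.Qa, Hm, Matrix.add_apply, h1, zero_add] at hne
      have h2 : ∀ x o o', dens M.U x o o' ≠ 0 → M.cl o = M.cl o' := fun x o o' e =>
        (h.U_blk _ _ (left_ne_zero_of_mul e)).trans (h.U_blk _ _ (right_ne_zero_of_mul e)).symm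
      exact blk_smul _ (blk_sum fun i => blk_sum fun j => blk_sum fun x => blk_sum fun y =>
        blk_smul _ (blk_mul (blk_one i (h2 x)) (blk_one j (h2 y)))) k k' hne
    · exact blk_sum (fun i => blk_one i fun _ _ => h.Fm_blk) k k' h1
  simp only [qf_eq_sum, Mdl.cut]
  rw [sum_comm]
  conv_rhs => rw [sum_comm]
  rw [sum_comm]
  refine sum_congr rfl fun k _ => ?_
  rw [sum_comm]
  refine sum_congr rfl fun k' _ => ?_
  by_cases h1 : M.Qa N k k' = 0
  · simp [h1]
  · rw [hb k k' h1]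
    simp

omit [DecidableEq Cl] in
private theorem sec_sum (h : M.OK) (g : S → ℝ) :
    ∑ o, (if M.lev o = 1 then g o else 0) = ∑ c, ∑ β, g (M.ao c β) := by
  rw [← sum_filter, ← Fintype.sum_prod_type']
  refine (sum_bij (fun t _ => M.ao t.1 t.2) (fun t _ => mem_filter.2 ⟨mem_univ _, h.lev_ao _ _⟩)
    ?_ (fun o ho => ?_) fun _ _ => rfl).symm
  · rintro ⟨c, β⟩ - ⟨c', β'⟩ - e
    have h1 : c = c' := by rw [← h.cl_ao c β, ← h.cl_ao c' β', e]
    subst h1
    cases β <;> cases β'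
    · rfl
    · exact absurd e (h.ao_ne c)
    · exact absurd e.symm (h.ao_ne c)
    · rfl
  · obtain ⟨β, hβ⟩ := h.ao_surj o (mem_filter.1 ho).2
    exact ⟨(M.cl o, β), mem_univ _, hβ.symm⟩

private theorem sec_act (h : M.OK) (a : S → ℝ) :
    qf (M.act M.Fm) a = ∑ c, qf (M.f c) fun β => a (M.ao c β) := by
  have e : ∀ o, ∑ o', a o * M.act M.Fm o o' * a o' = if M.lev o = 1 then
      ∑ c, ∑ β, a o * M.Fm o (M.ao c β) * a (M.ao c β) else 0 := fun o => by
    rw [← sec_sum h fun o' => a o * M.Fm o o' * a o']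
    split_ifs with h1
    · refine sum_congr rfl fun o' _ => ?_
      simp [Mdl.act, h1]
    · simp [Mdl.act, h1]
  simp only [qf_eq_sum, e]
  rw [sec_sum h]
  refine sum_congr rfl fun c _ => sum_congr rfl fun β _ => ?_
  refine sum_eq_single c (fun c' _ hc => sum_eq_zero fun β' _ => ?_) fun hc => absurd (mem_univ _) hc
  have h1 : M.Fm (M.ao c β) (M.ao c' β') = 0 := by
    by_contra h1
    have h2 := h.Fm_blk h1
    rw [h.cl_ao, h.cl_ao] at h2
    exact hc h2.symm
  rw [h1, mul_zero, zero_mul]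

private theorem sec_one (h : M.OK) {μ : ℝ} (hf : ∀ c a, μ * (a ⬝ᵥ a) ≤ qf (M.f c) a) (i : Fin N)
    (u : (Fin N → S × Bool) → ℝ) :
    μ * ∑ k, (if M.lev (k i).1 = 1 then 1 else 0) * u k ^ 2 ≤ qf (one i (sp (M.act M.Fm))) u := by
  have h1 := one_ge i (A := sp (M.act M.Fm) -
    μ • sp (diagonal fun o => if M.lev o = 1 then 1 else 0)) (fun a => by
      rw [qf_sub, qf_smul, qf_sp, qf_sp, mul_sum, sub_nonneg]
      refine sum_le_sum fun σ _ => ?_
      rw [sec_act h, qf_diagonal]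
      simp only [ite_mul, one_mul, zero_mul]
      rw [sec_sum h fun o => a (o, σ) ^ 2, mul_sum]
      refine sum_le_sum fun c _ => ?_
      rw [← dot_self_eq fun β => a (M.ao c β, σ)]
      exact hf c _) u
  rwa [one_sub, one_smul', qf_sub, qf_smul, sp_diagonal, one_diagonal, qf_diagonal,
    sub_nonneg] at h1

private theorem sec_cmp {ι K α β : Type} [Fintype ι] [DecidableEq ι] [Fintype K] [DecidableEq K]
    [Fintype α] [Fintype β] {i j : ι} (hij : i ≠ j) (c : α → ℝ) (φ ψ : α → K → ℝ) (c' : β → ℝ)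
    (φ' ψ' : β → K → ℝ) (h : ∀ g : K → K → ℝ,
      ∑ t, c' t * (∑ a, φ' t a * ∑ b, ψ' t b * g a b) ^ 2 ≤
        ∑ t, c t * (∑ a, φ t a * ∑ b, ψ t b * g a b) ^ 2) (v : (ι → K) → ℝ) :
    ∑ t, c' t * qf (one i (vecMulVec (φ' t) (φ' t)) * one j (vecMulVec (ψ' t) (ψ' t))) v ≤
      ∑ t, c t * qf (one i (vecMulVec (φ t) (φ t)) * one j (vecMulVec (ψ t) (ψ t))) v := by
  have e : ∀ (x y : K → ℝ) (g : K → K → ℝ), ∑ a, ∑ b, ∑ a', ∑ b',
      g a b * vecMulVec x x a a' * vecMulVec y y b b' * g a' b' =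
        (∑ a, x a * ∑ b, y b * g a b) ^ 2 := by
    intro x y g
    simp only [mul_sum]
    rw [sq, sum_mul]
    refine sum_congr rfl fun a _ => ?_
    rw [sum_mul]
    refine sum_congr rfl fun b _ => ?_
    rw [mul_sum]
    refine sum_congr rfl fun a' _ => ?_
    rw [mul_sum]
    refine sum_congr rfl fun b' _ => ?_
    rw [vecMulVec_apply, vecMulVec_apply]
    ring
  have h1 := two_ge hij univ (Sum.elim c fun t => -c' t)
    (fun t => vecMulVec (Sum.elim φ φ' t) (Sum.elim φ φ' t))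
    (fun t => vecMulVec (Sum.elim ψ ψ' t) (Sum.elim ψ ψ' t)) (fun g => by
      simp only [e, Fintype.sum_sum_type, Sum.elim_inl, Sum.elim_inr, neg_mul, sum_neg_distrib]
      linarith [h g]) v
  simp only [Fintype.sum_sum_type, Sum.elim_inl, Sum.elim_inr, neg_mul, sum_neg_distrib] at h1
  linarith

/-- the active part of a column of `U`, with a spin -/
private noncomputable def sph (M : Mdl S Cl) (x : S) (σ : Bool) (a : S × Bool) : ℝ :=
  if a.2 = σ then (if M.lev a.1 = 1 then M.U a.1 x else 0) else 0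

omit [Fintype S] [DecidableEq S] [Fintype Cl] [DecidableEq Cl] in
private theorem sec_rho (x : S) :
    sp (M.act (dens M.U x)) = ∑ σ, vecMulVec (sph M x σ) (sph M x σ) := by
  ext ⟨o, s⟩ ⟨o', s'⟩
  simp only [sp, Mdl.act, dens, sph, Matrix.sum_apply, Matrix.of_apply, vecMulVec_apply,
    Fintype.sum_bool]
  cases s <;> cases s' <;> by_cases h1 : M.lev o = 1 <;> by_cases h2 : M.lev o' = 1 <;>
    simp [h1, h2]

private theorem sec_sph (h : M.OK) (x : S) (σ : Bool) (g : S × Bool → ℝ) :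
    ∑ a, sph M x σ a * g a = ∑ β, M.U (M.ao (M.cl x) β) x * g (M.ao (M.cl x) β, σ) := by
  have e : ∑ a, sph M x σ a * g a = ∑ o, if M.lev o = 1 then M.U o x * g (o, σ) else 0 := by
    rw [Fintype.sum_prod_type]
    refine sum_congr rfl fun o _ => ?_
    simp [sph]
  rw [e, sec_sum h]
  refine sum_eq_single (M.cl x) (fun c _ hc => sum_eq_zero fun β _ => ?_)
    fun hc => absurd (mem_univ _) hc
  have h1 : M.U (M.ao c β) x = 0 := by
    by_contra h1
    have h2 := h.U_blk _ _ h1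
    rw [h.cl_ao] at h2
    exact hc h2
  rw [h1, zero_mul]

private theorem sec_hub (h : M.OK) {Uc : ℝ} (hU : M.Hub Uc) (σ τ : Bool)
    (g : S × Bool → S × Bool → ℝ) :
    ∑ t : Cl × Bool × Bool, Uc * g (M.ao t.1 t.2.1, σ) (M.ao t.1 t.2.2, τ) ^ 2 ≤
      ∑ t : S × S, M.w t.1 t.2 * (∑ a, sph M t.1 σ a * ∑ b, sph M t.2 τ b * g a b) ^ 2 := by
  simp only [Fintype.sum_prod_type, sec_sph h, ← mul_sum]
  rw [mul_sum]
  refine (sum_le_sum fun c _ => hU c fun β β' => g (M.ao c β, σ) (M.ao c β', τ)).trans ?_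
  rw [sum_comm]
  refine sum_le_sum fun x _ => ?_
  rw [sum_comm]
  refine sum_le_sum fun y _ => ?_
  rw [sum_eq_single (M.cl x) (fun c _ hc => if_neg fun e => hc e.1.symm)
    fun hc => absurd (mem_univ _) hc]
  split_ifs with e
  · rw [e.2]
    simp only [mul_sum, mul_assoc]
    exact le_rfl
  · exact mul_nonneg (h.w_nonneg x y) (sq_nonneg _)

/-- two active electrons in the same cluster -/
private def Dbl (M : Mdl S Cl) (k : Fin N → S × Bool) (i j : Fin N) : Prop :=
  M.lev (k i).1 = 1 ∧ M.lev (k j).1 = 1 ∧ M.cl (k i).1 = M.cl (k j).1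

open Classical in
private theorem sec_two (h : M.OK) {Uc : ℝ} (hU0 : 0 ≤ Uc) (hU : M.Hub Uc) {i j : Fin N}
    (hij : i ≠ j) (u : (Fin N → S × Bool) → ℝ) :
    Uc * ∑ k, (if Dbl M k i j then 1 else 0) * u k ^ 2 ≤
      qf (pair M.w (fun x => sp (M.act (dens M.U x))) i j) u := by
  have h1 := sec_cmp hij (fun t : (S × S) × Bool × Bool => M.w t.1.1 t.1.2)
    (fun t => sph M t.1.1 t.2.1) (fun t => sph M t.1.2 t.2.2)
    (fun _ : (Cl × Bool × Bool) × Bool × Bool => Uc)
    (fun t => Pi.single (M.ao t.1.1 t.1.2.1, t.2.1) 1)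
    (fun t => Pi.single (M.ao t.1.1 t.1.2.2, t.2.2) 1) (fun g => by
      rw [Fintype.sum_prod_type_right, Fintype.sum_prod_type_right (α₂ := Bool × Bool)]
      refine sum_le_sum fun (z : Bool × Bool) _ => le_trans (le_of_eq ?_) (sec_hub h hU z.1 z.2 g)
      simp [Pi.single_apply]) u
  refine le_trans ?_ (h1.trans_eq ?_)
  · have e : ∀ a : S × Bool, vecMulVec (Pi.single a (1 : ℝ)) (Pi.single a (1 : ℝ)) =
        diagonal (Pi.single a (1 : ℝ)) := fun a => by
      ext b c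
      rw [vecMulVec_apply, diagonal_apply]
      by_cases h2 : b = c
      · subst h2
        by_cases h3 : b = a <;> simp [h3]
      · by_cases h3 : b = a
        · subst h3
          simp [h2, Ne.symm h2]
        · simp [h2, h3]
    simp only [e, one_diagonal, diagonal_mul_diagonal, qf_diagonal, ← mul_sum]
    refine mul_le_mul_of_nonneg_left ?_ hU0
    rw [sum_comm]
    refine sum_le_sum fun k _ => ?_
    rw [← sum_mul]
    refine mul_le_mul_of_nonneg_right ?_ (sq_nonneg _)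
    have h0 : ∀ t ∈ (univ : Finset ((Cl × Bool × Bool) × Bool × Bool)), (0 : ℝ) ≤
        (Pi.single (M.ao t.1.1 t.1.2.1, t.2.1) 1 : S × Bool → ℝ) (k i) *
          (Pi.single (M.ao t.1.1 t.1.2.2, t.2.2) 1 : S × Bool → ℝ) (k j) := fun t _ => by
      rw [Pi.single_apply, Pi.single_apply]
      split_ifs <;> norm_num
    split_ifs with h2
    · obtain ⟨β, hβ⟩ := h.ao_surj _ h2.1
      obtain ⟨β', hβ'⟩ := h.ao_surj _ h2.2.1
      refine le_trans (le_of_eq ?_)
        (single_le_sum h0 (mem_univ ((M.cl (k i).1, β, β'), (k i).2, (k j).2)))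
      dsimp only
      rw [← hβ, h2.2.2, ← hβ', Pi.single_eq_same, Pi.single_eq_same, mul_one]
    · exact sum_nonneg h0
  · simp only [pair, sec_rho, one_sum, sum_mul_sum]
    simp only [qf_sum, qf_smul, Fintype.sum_prod_type, mul_sum]

theorem Mdl.OK.multi (h : M.OK) {μ Uc : ℝ} (hU0 : 0 ≤ Uc) (hU : M.Hub Uc)
    (hf : ∀ c a, μ * (a ⬝ᵥ a) ≤ qf (M.f c) a) {u : (Fin N → S × Bool) → ℝ}
    (hn : ∀ k, u k ≠ 0 → (univ.filter fun i => M.lev (k i).1 = 1).card = Fintype.card Cl)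
    (hs : ∀ k, u k ≠ 0 → ¬ M.Sgl k) :
    (Fintype.card Cl * μ + Uc) * (u ⬝ᵥ u) ≤ qf (M.Qa N) u := by
  classical
  rw [Mdl.Qa, Hm, qf_add, qf_smul, ob, qf_sum, qf_sum, add_mul, dot_self_eq]
  refine add_le_add (le_trans (le_of_eq ?_) (sum_le_sum fun i _ => sec_one h hf i u)) ?_
  · rw [← mul_sum, sum_comm, mul_comm _ μ, mul_assoc, mul_sum]
    congr 1
    refine sum_congr rfl fun k _ => ?_
    by_cases h0 : u k = 0
    · simp [h0]
    · rw [← sum_mul, sum_boole, hn k h0]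
  · have h1 : ∑ i, ∑ j ∈ univ.erase i, Uc * ∑ k, (if Dbl M k i j then 1 else 0) * u k ^ 2 ≤
        ∑ i, qf (∑ j ∈ univ.erase i, pair M.w (fun x => sp (M.act (dens M.U x))) i j) u := by
      refine sum_le_sum fun i _ => ?_
      rw [qf_sum]
      exact sum_le_sum fun j hj => sec_two h hU0 hU (ne_of_mem_erase hj).symm u
    have h2 : 2 * ∑ k, u k ^ 2 ≤
        ∑ i, ∑ j ∈ univ.erase i, ∑ k, (if Dbl M k i j then 1 else 0) * u k ^ 2 := by
      rw [sum_congr rfl fun i _ => sum_comm, sum_comm, mul_sum]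
      refine sum_le_sum fun k _ => ?_
      simp only [← sum_mul]
      by_cases h0 : u k = 0
      · simp [h0]
      refine mul_le_mul_of_nonneg_right ?_ (sq_nonneg _)
      have h3 := hs k h0
      simp only [Mdl.Sgl, not_forall] at h3
      obtain ⟨i, j, a1, a2, a3, a4⟩ := h3
      have h4 : ∀ i j, (0 : ℝ) ≤ if Dbl M k i j then 1 else 0 := fun i j => by
        split_ifs <;> norm_num
      have h5 : ∀ i j, j ≠ i → Dbl M k i j →
          (1 : ℝ) ≤ ∑ l ∈ univ.erase i, if Dbl M k i l then 1 else 0 := fun i j b1 b2 =>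
        le_trans (if_pos b2).ge
          (single_le_sum (fun l _ => h4 i l) (mem_erase.2 ⟨b1, mem_univ j⟩))
      have h6 := add_le_sum (s := univ)
        (f := fun i => ∑ l ∈ univ.erase i, if Dbl M k i l then (1 : ℝ) else 0)
        (fun i _ => sum_nonneg fun l _ => h4 i l) (mem_univ i) (mem_univ j) a4
      linarith [h5 i j (Ne.symm a4) ⟨a1, a2, a3⟩, h5 j i a4 ⟨a2, a1, a3.symm⟩]
    simp only [← mul_sum] at h1
    linarith [mul_le_mul_of_nonneg_left h2 hU0]

end Vale.Agent.P370.Lat
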