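import Vale.Agent.P370.LatSec1

/-! Part M: a pattern with one active electron per cluster carries the effective Hamiltonian.
`i ↦ cl (k0 i).1` is a bijection from the active slots to `Cl` (injective by `Sgl`, cardinality `hn`); let `slot` be the inverse.
`cfg x i = (ao c (x c), (k0 i).2)` for an active slot in the cluster `c`, else `k0 i`.  `cfg` is a bijection onto the
configurations with the pattern of `k0`.  With `J k x = [k = cfg x]`: `cut p u = J *ᵥ (u ∘ cfg)`, `Jᵀ * J = 1`, and for block
diagonal `A`: `one i (sp (act A)) * J = J * one c (of fun β β' => A (ao c β) (ao c β'))` if `i = slot c`, `0` if the slot `i` is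
not active (compare `one_mulVec'`).  For `A = dens U x` the small matrix is `R x` if `cl x = c` and `0` else (`U_blk`).
`qf_conj`; `i ≠ j` iff the clusters differ. -/

namespace Vale.Agent.P370.Lat

open Matrix Finset

variable {S Cl : Type} [Fintype S] [DecidableEq S] [Fintype Cl] [DecidableEq Cl] {N : ℕ}

variable {M : Mdl S Cl}

private theorem two_apply {ι K : Type} [Fintype ι] [DecidableEq ι] [Fintype K] [DecidableEq K]
    {i j : ι} (h : i ≠ j) (A B : Matrix K K ℝ) (k k' : ι → K) :
    (one i A * one j B) k k' =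
      if ∀ l, l ≠ i → l ≠ j → k l = k' l then A (k i) (k' i) * B (k j) (k' j) else 0 := by
  rw [one, one, tp_mul]
  simp only [tp, Matrix.of_apply]
  rw [← Finset.mul_prod_erase _ _ (Finset.mem_univ i),
    ← Finset.mul_prod_erase _ _ (Finset.mem_erase.2 ⟨h.symm, Finset.mem_univ j⟩),
    Function.update_self, Function.update_self, Function.update_of_ne h,
    Function.update_of_ne h.symm, Matrix.mul_one, Matrix.one_mul,
    Finset.prod_congr rfl (g := fun l => if k l = k' l then 1 else 0) fun l hl => by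
      have h1 := Finset.ne_of_mem_erase hl
      have h2 := Finset.ne_of_mem_erase (Finset.mem_of_mem_erase hl)
      rw [Function.update_of_ne h1, Function.update_of_ne h2, Matrix.mul_one, Matrix.one_apply]]
  simp only [Finset.prod_boole, Finset.mem_erase, Finset.mem_univ, and_true, mul_ite, mul_one,
    mul_zero, and_imp]
  exact if_congr ⟨fun H l h1 h2 => H l h2 h1, fun H l h1 h2 => H l h2 h1⟩ rfl rfl

/-- the configuration with given bits -/
private def cfg (M : Mdl S Cl) (k0 : Fin N → S × Bool) (x : Cl → Bool) (i : Fin N) : S × Bool :=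
  if M.lev (k0 i).1 = 1 then (M.ao (M.cl (k0 i).1) (x (M.cl (k0 i).1)), (k0 i).2) else k0 i

/-- the block of a cluster -/
private def blk (M : Mdl S Cl) (A : Matrix S S ℝ) (c : Cl) : Matrix Bool Bool ℝ :=
  Matrix.of fun β β' => A (M.ao c β) (M.ao c β')

/-- the slots of the active electrons -/
private structure Slot (M : Mdl S Cl) (k0 : Fin N → S × Bool) (slot : Cl → Fin N) : Prop where
  lev : ∀ c, M.lev (k0 (slot c)).1 = 1
  cl : ∀ c, M.cl (k0 (slot c)).1 = c
  surj : ∀ i, M.lev (k0 i).1 = 1 → slot (M.cl (k0 i).1) = i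

omit [Fintype S] [DecidableEq S] [DecidableEq Cl] in
private theorem exists_slot {k0 : Fin N → S × Bool} (hs : M.Sgl k0)
    (hn : (univ.filter fun i => M.lev (k0 i).1 = 1).card = Fintype.card Cl) :
    ∃ slot, Slot M k0 slot := by
  let g : {i // M.lev (k0 i).1 = 1} → Cl := fun i => M.cl (k0 i.1).1
  have hg : Function.Injective g := fun i j e => Subtype.ext (hs _ _ i.2 j.2 e)
  have hb : Function.Bijective g :=
    (Fintype.bijective_iff_injective_and_card g).2 ⟨hg, by rw [Fintype.card_subtype, hn]⟩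
  choose sl hsl using hb.2
  exact ⟨fun c => (sl c).1, fun c => (sl c).2, hsl, fun i hi => hs _ _ (sl _).2 hi (hsl _)⟩

omit [Fintype Cl] [DecidableEq Cl] in
private theorem ao_inj (h : M.OK) {c c' : Cl} {β β' : Bool} (e : M.ao c β = M.ao c' β') :
    c = c' ∧ β = β' := by
  have hc : c = c' := by rw [← h.cl_ao c β, e, h.cl_ao]
  subst hc
  refine ⟨rfl, ?_⟩
  have := h.ao_ne c
  cases β <;> cases β'
  · rfl
  · exact absurd e this
  · exact absurd e.symm this
  · rfl

variable {k0 : Fin N → S × Bool} {slot : Cl → Fin N}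

omit [Fintype S] [DecidableEq S] [Fintype Cl] [DecidableEq Cl] in
private theorem Slot.inj (H : Slot M k0 slot) : Function.Injective slot := fun c c' e => by
  rw [← H.cl c, e, H.cl]

omit [Fintype S] [DecidableEq S] [Fintype Cl] [DecidableEq Cl] in
private theorem Slot.cfg_slot (H : Slot M k0 slot) (x : Cl → Bool) (c : Cl) :
    cfg M k0 x (slot c) = (M.ao c (x c), (k0 (slot c)).2) := by
  rw [cfg, if_pos (H.lev c), H.cl]

omit [Fintype S] [DecidableEq S] [Fintype Cl] [DecidableEq Cl] in
private theorem Slot.lev_ne (H : Slot M k0 slot) {i : Fin N} (hi : i ∉ Set.range slot) :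
    M.lev (k0 i).1 ≠ 1 := fun e => hi ⟨_, H.surj i e⟩

omit [Fintype S] [DecidableEq S] [Fintype Cl] [DecidableEq Cl] in
private theorem Slot.cfg_not (H : Slot M k0 slot) (x : Cl → Bool) {i : Fin N}
    (hi : i ∉ Set.range slot) : cfg M k0 x i = k0 i := by
  rw [cfg, if_neg (H.lev_ne hi)]

omit [Fintype Cl] [DecidableEq Cl] in
private theorem pt_cfg (h : M.OK) (x : Cl → Bool) (i : Fin N) :
    M.pt (cfg M k0 x i) = M.pt (k0 i) := by
  unfold cfg
  split_ifs with hi
  · simp only [Mdl.pt, h.lev_ao, h.cl_ao, hi, if_true]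
  · rfl

omit [Fintype Cl] [DecidableEq Cl] in
private theorem Slot.bits_cfg (H : Slot M k0 slot) (h : M.OK) (x : Cl → Bool) :
    M.bits (cfg M k0 x) = x := by
  funext c
  rw [Mdl.bits, Bool.eq_iff_iff, decide_eq_true_iff]
  constructor
  · rintro ⟨i, hi⟩
    by_cases hr : i ∈ Set.range slot
    · obtain ⟨c', rfl⟩ := hr
      rw [H.cfg_slot] at hi
      obtain ⟨rfl, e⟩ := ao_inj h hi
      exact e
    · rw [H.cfg_not x hr] at hi
      exact absurd (by rw [hi, h.lev_ao]) (H.lev_ne hr)
  · intro hx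
    exact ⟨slot c, by rw [H.cfg_slot, hx]⟩

omit [Fintype Cl] [DecidableEq Cl] in
private theorem Slot.exists_cfg (H : Slot M k0 slot) (h : M.OK) {k : Fin N → S × Bool}
    (hk : ∀ i, M.pt (k i) = M.pt (k0 i)) : ∃ x, cfg M k0 x = k := by
  have hl : ∀ a : S × Bool, M.lev (M.pt a).1 = 1 ↔ M.lev a.1 = 1 := fun a => by
    unfold Mdl.pt
    split_ifs with ha
    · simp only [h.lev_ao, ha]
    · rfl
  have hl' : ∀ i, M.lev (k i).1 = 1 ↔ M.lev (k0 i).1 = 1 := fun i => by
    rw [← hl, hk, hl]
  choose β hβ using fun c => h.ao_surj (k (slot c)).1 ((hl' _).2 (H.lev c))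
  refine ⟨β, funext fun i => ?_⟩
  have e := hk i
  by_cases hr : i ∈ Set.range slot
  · obtain ⟨c, rfl⟩ := hr
    rw [Mdl.pt, Mdl.pt, if_pos ((hl' _).2 (H.lev c)), if_pos (H.lev c), H.cl, Prod.mk.injEq] at e
    have hc := (ao_inj h e.1).1
    have hb := hβ c
    rw [hc] at hb
    rw [H.cfg_slot, ← hb, ← e.2]
  · rw [Mdl.pt, Mdl.pt, if_neg (H.lev_ne hr), if_neg fun e' => H.lev_ne hr ((hl' _).1 e')] at e
    rw [H.cfg_not β hr, e]

omit [Fintype Cl] [DecidableEq Cl] in
private theorem Slot.cond (H : Slot M k0 slot) (h : M.OK) (x y : Cl → Bool) (c c' : Cl) :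
    (∀ l, l ≠ slot c → l ≠ slot c' → cfg M k0 x l = cfg M k0 y l) ↔
      ∀ d, d ≠ c → d ≠ c' → x d = y d := by
  constructor
  · intro G d h1 h2
    have e := G (slot d) (H.inj.ne h1) (H.inj.ne h2)
    rw [H.cfg_slot, H.cfg_slot, Prod.mk.injEq] at e
    exact (ao_inj h e.1).2
  · intro G l h1 h2
    by_cases hr : l ∈ Set.range slot
    · obtain ⟨d, rfl⟩ := hr
      rw [H.cfg_slot, H.cfg_slot, G d (fun e => h1 (by rw [e])) fun e => h2 (by rw [e])]
    · rw [H.cfg_not x hr, H.cfg_not y hr]

omit [Fintype Cl] [DecidableEq Cl] in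
private theorem Slot.ent_slot (H : Slot M k0 slot) (h : M.OK) (A : Matrix S S ℝ)
    (x y : Cl → Bool) (c : Cl) :
    sp (M.act A) (cfg M k0 x (slot c)) (cfg M k0 y (slot c)) = blk M A c (x c) (y c) := by
  rw [H.cfg_slot, H.cfg_slot]
  simp [sp, Mdl.act, blk, h.lev_ao]

omit [Fintype S] [DecidableEq S] [Fintype Cl] [DecidableEq Cl] in
private theorem Slot.ent_not (H : Slot M k0 slot) (A : Matrix S S ℝ) (x y : Cl → Bool)
    {i : Fin N} (hi : i ∉ Set.range slot) :
    sp (M.act A) (cfg M k0 x i) (cfg M k0 y i) = 0 := by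
  rw [H.cfg_not x hi, H.cfg_not y hi]
  simp [sp, Mdl.act, H.lev_ne hi]

private theorem Slot.ob_ent (H : Slot M k0 slot) (h : M.OK) (A : Matrix S S ℝ)
    (x y : Cl → Bool) :
    ob (Fin N) (sp (M.act A)) (cfg M k0 x) (cfg M k0 y) = (∑ c, one c (blk M A c)) x y := by
  rw [ob, Matrix.sum_apply, Matrix.sum_apply]
  refine (Fintype.sum_of_injective slot H.inj _ _ (fun i hi => ?_) fun c => ?_).symm
  · rw [one_apply', H.ent_not A x y hi, ite_self]
  · rw [one_apply', one_apply', H.ent_slot h]
    have := H.cond h x y c c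
    by_cases G : ∀ d, d ≠ c → x d = y d
    · rw [if_pos G, if_pos fun l hl => this.2 (fun d hd _ => G d hd) l hl hl]
    · rw [if_neg G, if_neg fun G' => G fun d hd => this.1 (fun l hl _ => G' l hl) d hd hd]

omit [Fintype Cl] in
private theorem blk_dens (h : M.OK) (a : S) (c : Cl) :
    blk M (dens M.U a) c = if M.cl a = c then M.R a else 0 := by
  split_ifs with hc
  · subst hc
    rfl
  · ext β β'
    have : M.U (M.ao c β) a = 0 := by
      by_contra hne
      exact hc (by rw [← h.U_blk _ _ hne, h.cl_ao])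
    simp [blk, dens, this]

private theorem Slot.pair_ent (H : Slot M k0 slot) (h : M.OK) (x y : Cl → Bool) :
    (∑ i : Fin N, ∑ j ∈ univ.erase i, pair M.w (fun a => sp (M.act (dens M.U a))) i j)
        (cfg M k0 x) (cfg M k0 y) =
      (∑ a, ∑ b, (if M.cl a = M.cl b then 0 else M.w a b) •
        (one (M.cl a) (M.R a) * one (M.cl b) (M.R b))) x y := by
  have e1 : ∀ i : Fin N, (∑ j ∈ univ.erase i, pair M.w (fun a => sp (M.act (dens M.U a))) i j)
      (cfg M k0 x) (cfg M k0 y) = ∑ j, if i = j then 0 else ∑ a, ∑ b, M.w a b *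
        (one i (sp (M.act (dens M.U a))) * one j (sp (M.act (dens M.U b))))
          (cfg M k0 x) (cfg M k0 y) := fun i => by
    rw [Matrix.sum_apply, ← Finset.add_sum_erase _ _ (mem_univ i), if_pos rfl, zero_add]
    refine Finset.sum_congr rfl fun j hj => ?_
    rw [if_neg (Finset.ne_of_mem_erase hj).symm]
    simp only [pair, Matrix.sum_apply, Matrix.smul_apply, smul_eq_mul]
  have e2 : ∑ c, ∑ c', (if c = c' then 0 else ∑ a, ∑ b, M.w a b *
      (one c (blk M (dens M.U a) c) * one c' (blk M (dens M.U b) c')) x y) =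
      (∑ i : Fin N, ∑ j ∈ univ.erase i, pair M.w (fun a => sp (M.act (dens M.U a))) i j)
        (cfg M k0 x) (cfg M k0 y) := by
    rw [Matrix.sum_apply]
    refine Fintype.sum_of_injective slot H.inj _ _ (fun i hi => ?_) fun c => ?_
    · rw [e1]
      refine Finset.sum_eq_zero fun j _ => ?_
      split_ifs with hij
      · rfl
      · simp only [two_apply hij, H.ent_not _ x y hi, zero_mul, ite_self, mul_zero,
          Finset.sum_const_zero]
    · rw [e1]
      refine Fintype.sum_of_injective slot H.inj _ _ (fun j hj => ?_) fun c' => ?_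
      · split_ifs with hij
        · rfl
        · simp only [two_apply hij, H.ent_not _ x y hj, ite_self, mul_zero,
            Finset.sum_const_zero]
      · by_cases hc : c = c'
        · rw [if_pos hc, if_pos (by rw [hc])]
        · rw [if_neg hc, if_neg (H.inj.ne hc)]
          simp only [two_apply hc, two_apply (H.inj.ne hc), H.ent_slot h, H.cond h]
  rw [← e2]
  have e3 : ∀ c c', (if c = c' then 0 else ∑ a, ∑ b, M.w a b *
      (one c (blk M (dens M.U a) c) * one c' (blk M (dens M.U b) c')) x y) =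
      ∑ a, ∑ b, if M.cl b = c' then (if M.cl a = c then
        ((if M.cl a = M.cl b then 0 else M.w a b) •
          (one (M.cl a) (M.R a) * one (M.cl b) (M.R b))) x y else 0) else 0 := fun c c' => by
    by_cases hc : c = c'
    · rw [if_pos hc]
      refine (Finset.sum_eq_zero fun a _ => Finset.sum_eq_zero fun b _ => ?_).symm
      by_cases h1 : M.cl b = c'
      · by_cases h2 : M.cl a = c
        · rw [if_pos h1, if_pos h2, if_pos (by rw [h1, h2, hc]), zero_smul, Matrix.zero_apply]
        · rw [if_pos h1, if_neg h2]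
      · rw [if_neg h1]
    · rw [if_neg hc]
      refine Finset.sum_congr rfl fun a _ => Finset.sum_congr rfl fun b _ => ?_
      rw [blk_dens h, blk_dens h]
      by_cases h1 : M.cl b = c'
      · by_cases h2 : M.cl a = c
        · subst h1 h2
          simp only [if_true, if_neg hc, Matrix.smul_apply, smul_eq_mul]
        · simp only [if_neg h2, one_zero, Matrix.zero_mul, Matrix.zero_apply, mul_zero, ite_self]
      · simp only [if_neg h1, one_zero, Matrix.zero_apply, mul_zero]
  simp only [e3, Matrix.sum_apply]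
  rw [Finset.sum_comm]
  refine (Finset.sum_congr rfl fun c' _ => Finset.sum_comm).trans (Finset.sum_comm.trans ?_)
  refine Finset.sum_congr rfl fun a _ => ?_
  refine (Finset.sum_congr rfl fun c' _ => Finset.sum_comm).trans (Finset.sum_comm.trans ?_)
  refine Finset.sum_congr rfl fun b _ => ?_
  rw [Finset.sum_comm]
  simp only [Finset.sum_ite_eq, Finset.mem_univ, if_true]

private theorem Slot.qf_cut (H : Slot M k0 slot) (h : M.OK)
    (Q : Matrix (Fin N → S × Bool) (Fin N → S × Bool) ℝ) (u : (Fin N → S × Bool) → ℝ) :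
    qf Q (M.cut (fun i => M.pt (k0 i)) u) =
      qf (Q.submatrix (cfg M k0) (cfg M k0)) fun x => u (cfg M k0 x) := by
  have hi : Function.Injective (cfg M k0) :=
    Function.LeftInverse.injective (g := M.bits) (H.bits_cfg h)
  have h0 : ∀ k, k ∉ Set.range (cfg M k0) → M.cut (fun i => M.pt (k0 i)) u k = 0 := fun k hk => by
    rw [Mdl.cut, if_neg fun e => hk (H.exists_cfg h (congrFun e))]
  have h1 : ∀ x, M.cut (fun i => M.pt (k0 i)) u (cfg M k0 x) = u (cfg M k0 x) := fun x => by
    rw [Mdl.cut, if_pos (funext (pt_cfg h x))]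
  rw [qf_eq_sum, qf_eq_sum]
  refine (Fintype.sum_of_injective _ hi _ _ (fun k hk => ?_) fun x => ?_).symm
  · simp only [h0 k hk, zero_mul, Finset.sum_const_zero]
  · refine Fintype.sum_of_injective _ hi _ _ (fun k hk => ?_) fun y => ?_
    · rw [h0 k hk, mul_zero]
    · rw [h1, h1, Matrix.submatrix_apply]

theorem Mdl.OK.single (h : M.OK) {k0 : Fin N → S × Bool} (hs : M.Sgl k0)
    (hn : (univ.filter fun i => M.lev (k0 i).1 = 1).card = Fintype.card Cl) :
    ∃ cfg : (Cl → Bool) → Fin N → S × Bool,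
      (∀ x i, M.pt (cfg x i) = M.pt (k0 i)) ∧ (∀ x, M.bits (cfg x) = x) ∧
      ∀ u : (Fin N → S × Bool) → ℝ,
        qf (M.Qa N) (M.cut (fun i => M.pt (k0 i)) u) = qf M.Heff (fun x => u (cfg x)) ∧
        M.cut (fun i => M.pt (k0 i)) u ⬝ᵥ M.cut (fun i => M.pt (k0 i)) u =
          (fun x => u (cfg x)) ⬝ᵥ fun x => u (cfg x) := by
  obtain ⟨slot, H⟩ := exists_slot hs hn
  refine ⟨cfg M k0, pt_cfg h, H.bits_cfg h, fun u => ⟨?_, ?_⟩⟩
  · rw [H.qf_cut h]
    congr 1
    ext x y
    rw [Matrix.submatrix_apply, Mdl.Qa, Hm, Mdl.Heff, Matrix.add_apply, Matrix.add_apply,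
      Matrix.smul_apply, Matrix.smul_apply, H.ob_ent h, H.pair_ent h]
    rfl
  · have hi : Function.Injective (cfg M k0) :=
      Function.LeftInverse.injective (g := M.bits) (H.bits_cfg h)
    rw [← qf_one, ← qf_one, H.qf_cut h, Matrix.submatrix_one _ hi]

end Vale.Agent.P370.Lat
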