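import Vale.Agent.P370.NucDefs

/-! The concrete layout and the instance attached to a 2-local Hamiltonian. -/

namespace Vale.Agent.P370

def bH (H : LH) : ℕ := 30 + Nat.size (8 * (H.nq + H.one.length + H.two.length + H.bd + 4))

/-- height of wire `e` -/
def yq (b e : ℕ) : ℚ := Pq b ^ 49 + 128 * e

def delq (b : ℕ) (H : LH) : ℚ := lamb b / (2 ^ (62886 * b) * (2 * H.K * (Pq b ^ 30 - 2)))

/-- length of the weak link of wire `e` -/
def dtq (b : ℕ) (H : LH) (e : ℕ) : ℚ :=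
  2 + lamb b / (2 ^ (62991 * b) * (3 * sq b * Del H (Pq b) (yq b) e))

def mp (b : ℕ) (H : LH) : MP := ⟨Pq b, delq b H, sq b, uq b, yq b, dtq b H⟩

/-- horizontal position of slot `m` -/
def Xs (b m : ℕ) : ℚ := 4 * Pq b ^ 60 * m

def Dy (b : ℕ) (H : LH) : ℚ := 2 + Pq b ^ 31 * H.K * (Pq b ^ 30 - 2)

def qpos (b : ℕ) (H : LH) (q i : ℕ) : ℚ :=
  if i = H.K ∨ i = 2 * H.K then Xs b (3 * q * H.K + i - 1) + Pq b ^ 30 else Xs b (3 * q * H.K + i)

def qx (b : ℕ) (H : LH) (q : ℕ) : Chain := ⟨3, H.K, qpos b H q, 62886 * b⟩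

def qy (b : ℕ) (H : LH) : Chain := ⟨3, 1, fun j => ((j : ℚ) - 2) * Dy b H, 62855 * b⟩

def slot (H : LH) (a : ℕ × Bool) (e : ℕ) : ℕ := (3 * a.1 + acol a.2) * H.K + e + 1

def wpos (b : ℕ) (H : LH) (e i : ℕ) : ℚ :=
  if H.same e then
    (if i = 0 then Xs b (slot H (H.term e).1 e) else Xs b (slot H (H.term e).2.1 e) +
      (if i = 1 then 0 else if i = 2 then Pq b ^ 60 else if i = 3 then Pq b ^ 60 + dtq b H e
        else if i = 4 then 2 * Pq b ^ 60 else 3 * Pq b ^ 60))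
  else
    (if i = 5 then Xs b (slot H (H.term e).2.1 e) else Xs b (slot H (H.term e).1 e) +
      (if i = 0 then 0 else if i = 1 then Pq b ^ 60 else if i = 2 then 2 * Pq b ^ 60
        else if i = 3 then 2 * Pq b ^ 60 + dtq b H e else 3 * Pq b ^ 60))

def wx (b : ℕ) (H : LH) (e : ℕ) : Chain := ⟨2, 3, wpos b H e, 62991 * b⟩

def wy (b e : ℕ) : Chain := ⟨1, 1, fun _ => yq b e, 62991 * b⟩

def lay (b : ℕ) (H : LH) : Lay (Fin H.nq ⊕ Fin H.two.length) (Site H) where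
  cx := Sum.elim (fun q => qx b H q) fun e => wx b H e
  cy := Sum.elim (fun _ => qy b H) fun e => wy b e
  cl := Sum.map Prod.fst Prod.fst
  ax := Sum.elim (fun p => p.2.1) fun p => if p.2 then 1 else 0
  ay := Sum.elim (fun p => p.2.2) fun _ => 0
  eps := epsS H (mp b H)

def VqH (b : ℕ) (H : LH) (q : ℚ × ℚ × ℚ) : ℚ := (lay b H).Vloc b q.1 q.2.1 q.2.2

/-- threshold in physical units -/
def thrq (b : ℕ) (H : LH) (t : ℚ) : ℚ :=
  (H.Nel * e0 b + lvl H (mp b H) + sq b * E1 (Pq b) * (H.thr + t)) / sq b ^ 2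

def instOf (H : LH) : Inst :=
  ⟨scaleNuc (sq (bH H)) (nucQ (bH H) (VqH (bH H) H)), H.Nel, thrq (bH H) H (1 / 16),
    thrq (bH H) H (3 / 16)⟩

/-- the size condition on `b` -/
structure BOK (b : ℕ) (H : LH) : Prop where
  b30 : 30 ≤ b
  sz : 8 * (H.nq + H.one.length + H.two.length + H.bd + 4 : ℚ) ≤ Pq b

end Vale.Agent.P370
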