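import Vale.Agent.P370.LayNum

/-! The layout is good.

Plan.  `D = P^60`.  Qubit `q` occupies the slots `3 q K, …, 3 q K + 3 K - 1`.  All dots of wire `e` lie
in the windows `[Xs m, Xs m + 3 D]`, `m` one of its two slots; `slot % K = e + 1 ∈ [1, K - 2]`, so
different wires have different slots; `q₁ < q₂` gives `slot₁ < slot₂`; `slot < 3 nq K ≤ P^2`.
Separation: qubit/qubit in `x`, qubit/wire and wire/wire in `y` (`wd ≤ 2`, heights differ by `128`).
`H.term e ∈ H.two` for `e < length` (`List.getD_eq_getElem`). -/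

namespace Vale.Agent.P370

variable {b : ℕ} {H : LH}

theorem lg_pos (b : ℕ) : 0 < Pq b := by unfold Pq; positivity

theorem lg_ge (hb : 30 ≤ b) : (2 : ℚ) ^ 30 ≤ Pq b := pow_le_pow_right₀ (by norm_num) hb

theorem lg_pow (hb : 30 ≤ b) {c : ℚ} (hc : c ≤ 2 ^ 30) {i j : ℕ} (h : i < j) :
    c * Pq b ^ i ≤ Pq b ^ j :=
  calc c * Pq b ^ i ≤ Pq b * Pq b ^ i :=
        mul_le_mul_of_nonneg_right (hc.trans (lg_ge hb)) (pow_pos (lg_pos b) i).le
    _ = Pq b ^ (i + 1) := (pow_succ' _ _).symm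
    _ ≤ Pq b ^ j := pow_le_pow_right₀ (le_trans (by norm_num) (lg_ge hb)) h

theorem lg_inv (hb : 30 ≤ b) {i j : ℕ} (h : i < j) : 1 / Pq b ^ j ≤ 1 / Pq b ^ i := by
  have e := lg_pow hb (c := 1) (by norm_num) h
  rw [one_mul] at e
  exact one_div_le_one_div_of_le (pow_pos (lg_pos b) _) e

theorem Xs_mono (b : ℕ) {m m' : ℕ} (h : m ≤ m') : Xs b m ≤ Xs b m' :=
  mul_le_mul_of_nonneg_left (Nat.cast_le.2 h) (by have := lg_pos b; positivity)

theorem Xs_step (b : ℕ) {m m' : ℕ} (h : m < m') : Xs b m + 4 * Pq b ^ 60 ≤ Xs b m' := by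
  refine le_trans (le_of_eq ?_) (Xs_mono b (Nat.succ_le_of_lt h))
  simp only [Xs, Nat.succ_eq_add_one, Nat.cast_add, Nat.cast_one]
  ring

theorem Xs_nonneg (b m : ℕ) : 0 ≤ Xs b m := by
  have := lg_pos b
  unfold Xs
  positivity

theorem lg_sz (hb : BOK b H) : 8 * ((H.nq : ℚ) + H.two.length) ≤ Pq b := by
  have h := hb.sz
  have h1 : (0 : ℚ) ≤ H.one.length := Nat.cast_nonneg _
  have h2 : (0 : ℚ) ≤ H.bd := Nat.cast_nonneg _
  linarith

theorem Xs_top (hb : BOK b H) : Xs b (3 * H.nq * H.K) ≤ Pq b ^ 64 / 2 := by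
  have h1 := lg_sz hb
  have h2 := (K_bd hb).2
  have h3 : (0 : ℚ) ≤ H.two.length := Nat.cast_nonneg _
  have h4 : (0 : ℚ) ≤ H.nq := Nat.cast_nonneg _
  have h5 : 8 * (H.nq : ℚ) * (8 * H.K) ≤ Pq b * Pq b :=
    mul_le_mul (by linarith) h2 (by positivity) (lg_pos b).le
  have h6 := mul_le_mul_of_nonneg_left h5 (pow_pos (lg_pos b) 60).le
  have h7 := lg_pow hb.b30 (c := 2) (by norm_num) (show 62 < 64 by norm_num)
  have h8 : Pq b ^ 60 * (Pq b * Pq b) = Pq b ^ 62 := by ring
  have h9 := pow_pos (lg_pos b) 62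
  have e : Xs b (3 * H.nq * H.K) = 3 / 16 * (Pq b ^ 60 * (8 * (H.nq : ℚ) * (8 * H.K))) := by
    unfold Xs
    push_cast
    ring
  linarith

theorem lg_wd (hb : 30 ≤ b) : Chain.wd b ≤ 2 := by
  have h := lg_pow hb (c := 9) (by norm_num) (show 0 < 104 by norm_num)
  rw [pow_zero, mul_one] at h
  have h1 : 9 * rho b ≤ 1 := by
    rw [rho, mul_one_div, div_le_one (pow_pos (lg_pos b) _)]
    exact h
  unfold Chain.wd
  linarith

theorem lg_sep (hb : 30 ≤ b) {c c' : Chain} (h : c.pos (c.n - 1) + 58 ≤ c'.pos 0) :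
    c.hi b + 9 ≤ c'.lo b - 9 := by
  have := lg_wd hb
  unfold Chain.hi Chain.lo
  linarith

theorem term_mem {e : ℕ} (he : e < H.two.length) : H.term e ∈ H.two := by
  rw [LH.term, List.getD_eq_getElem _ _ he]
  exact List.getElem_mem he

theorem slot_mod (a : ℕ × Bool) {e : ℕ} (he : e < H.two.length) : slot H a e % H.K = e + 1 := by
  rw [slot, add_assoc, Nat.mul_add_mod', Nat.mod_eq_of_lt]
  unfold LH.K
  omega

theorem acol_bd (p : Bool) : 1 ≤ acol p ∧ acol p ≤ 2 := by cases p <;> simp [acol]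

theorem slot_lt (hH : H.OK) {e : ℕ} (he : e < H.two.length) :
    slot H (H.term e).1 e < slot H (H.term e).2.1 e ∧ slot H (H.term e).2.1 e < 3 * H.nq * H.K := by
  obtain ⟨h1, h2⟩ := hH.two_lt _ (term_mem he)
  have h3 := acol_bd (H.term e).1.2
  have h4 := acol_bd (H.term e).2.1.2
  have hK : H.K = H.two.length + 2 := rfl
  have h5 := Nat.mul_lt_mul_of_pos_right (show 3 * (H.term e).1.1 + acol (H.term e).1.2 <
    3 * (H.term e).2.1.1 + acol (H.term e).2.1.2 by omega) (show 0 < H.K by omega)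
  have h6 := Nat.mul_le_mul_right H.K (show 3 * (H.term e).2.1.1 + acol (H.term e).2.1.2 + 1 ≤
    3 * H.nq by omega)
  rw [add_mul _ 1, one_mul] at h6
  unfold slot
  omega

/-- the dots of a wire lie in the windows of its slots -/
theorem wpos_win (hH : H.OK) (hb : BOK b H) {e : ℕ} (he : e < H.two.length) (i : ℕ) :
    ∃ m, (m = slot H (H.term e).1 e ∨ m = slot H (H.term e).2.1 e) ∧
      Xs b m ≤ wpos b H e i ∧ wpos b H e i ≤ Xs b m + 3 * Pq b ^ 60 := by
  obtain ⟨h1, h2⟩ := dtq_bd hH hb he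
  have h3 := lg_pow hb.b30 (c := 1) (by norm_num) (show 39 < 60 by norm_num)
  have h4 := pow_pos (lg_pos b) 30
  have h5 := pow_pos (lg_pos b) 60
  unfold wpos
  split_ifs
  all_goals first
    | exact ⟨_, Or.inl rfl, by linarith, by linarith⟩
    | exact ⟨_, Or.inr rfl, by linarith, by linarith⟩

theorem qpos_win (hb : BOK b H) (q : ℕ) {i : ℕ} (hi : i < 3 * H.K) :
    Xs b (3 * q * H.K) ≤ qpos b H q i ∧ qpos b H q i ≤ Xs b (3 * q * H.K + 3 * H.K - 1) := by
  have hK := (K_bd hb).1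
  have h3 := lg_pow hb.b30 (c := 1) (by norm_num) (show 30 < 60 by norm_num)
  have h4 := pow_pos (lg_pos b) 30
  unfold qpos
  split_ifs with h
  · have h1 := Xs_mono b (show 3 * q * H.K ≤ 3 * q * H.K + i - 1 by omega)
    have h2 := Xs_step b (show 3 * q * H.K + i - 1 < 3 * q * H.K + 3 * H.K - 1 by omega)
    constructor <;> linarith
  · exact ⟨Xs_mono b (by omega), Xs_mono b (by omega)⟩

theorem qpos_lt (hb : BOK b H) {q q' i i' : ℕ} (h : q < q') (hi : i < 3 * H.K)
    (hi' : i' < 3 * H.K) : qpos b H q i + 4 * Pq b ^ 60 ≤ qpos b H q' i' := by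
  have h1 := (qpos_win hb q hi).2
  have h2 := (qpos_win hb q' hi').1
  have h3 := Nat.mul_le_mul_right H.K (show 3 * q + 3 ≤ 3 * q' by omega)
  rw [add_mul] at h3
  have h4 := Xs_step b (show 3 * q * H.K + 3 * H.K - 1 < 3 * q' * H.K by omega)
  linarith

theorem qx_good (hb : BOK b H) {q : ℕ} (hq : q < H.nq) : (qx b H q).Good b := by
  obtain ⟨hK, hK'⟩ := K_bd hb
  have h3 := lg_pow hb.b30 (c := 2) (by norm_num) (show 30 < 60 by norm_num)
  have h4 := pow_pos (lg_pos b) 30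
  refine ⟨by simp [qx], le_rfl, by change 1 ≤ H.K; omega, ?_, fun i hi => ?_, fun i hi => ?_,
    Nat.mul_le_mul_right b (by norm_num), Nat.mul_le_mul_right b (by norm_num), fun a ha => ?_⟩
  · have : (0 : ℚ) ≤ H.K := Nat.cast_nonneg _
    change (H.K : ℚ) ≤ _
    linarith
  · change qpos b H q i + _ ≤ qpos b H q (i + 1)
    unfold qpos
    split_ifs with h1 h2 h2
    · omega
    · have := Xs_step b (show 3 * q * H.K + i - 1 < 3 * q * H.K + (i + 1) by omega)
      linarith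
    · exact le_rfl
    · have := Xs_step b (show 3 * q * H.K + i < 3 * q * H.K + (i + 1) by omega)
      linarith
  · obtain ⟨h1, h2⟩ := qpos_win hb q (i := i) hi
    have h5 := Nat.mul_le_mul_right H.K (show 3 * q + 3 ≤ 3 * H.nq by omega)
    rw [add_mul] at h5
    change |qpos b H q i| ≤ _
    rw [abs_of_nonneg ((Xs_nonneg _ _).trans h1)]
    exact h2.trans ((Xs_mono b (by omega)).trans (Xs_top hb))
  · rw [tau_qx hb q (show a < 2 from Nat.lt_of_succ_lt_succ ha)]
    exact (delq_bd hb).2.trans (lg_inv hb.b30 (by norm_num))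

theorem qy_good (hb : BOK b H) : (qy b H).Good b := by
  obtain ⟨h1, h2⟩ := Dy_bd hb
  have h3 := lg_pow hb.b30 (c := 1) (by norm_num) (show 30 < 60 by norm_num)
  have h4 := lg_pow hb.b30 (c := 4) (by norm_num) (show 62 < 64 by norm_num)
  have h5 := pow_pos (lg_pos b) 60
  have h6 := lg_ge hb.b30
  refine ⟨by simp [qy], le_rfl, le_rfl, ?_, fun i _ => ?_, fun i hi => ?_,
    Nat.mul_le_mul_right b (by norm_num), Nat.mul_le_mul_right b (by norm_num), fun a _ => ?_⟩
  · change ((1 : ℕ) : ℚ) ≤ _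
    push_cast
    linarith
  · change ((i : ℚ) - 2) * Dy b H + _ ≤ (((i + 1 : ℕ) : ℚ) - 2) * Dy b H
    push_cast
    linarith
  · change |((i : ℚ) - 2) * Dy b H| ≤ _
    change i < 3 at hi
    rw [abs_le]
    interval_cases i <;> push_cast <;> constructor <;> linarith
  · rw [tau_qy hb a]
    exact (delq_bd hb).2.trans (lg_inv hb.b30 (by norm_num))

theorem wx_good (hH : H.OK) (hb : BOK b H) {e : ℕ} (he : e < H.two.length) :
    (wx b H e).Good b := by
  obtain ⟨h1, h2⟩ := dtq_bd hH hb he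
  obtain ⟨s1, s2⟩ := slot_lt hH he
  have h3 := lg_pow hb.b30 (c := 2) (by norm_num) (show 39 < 60 by norm_num)
  have h4 := pow_pos (lg_pos b) 30
  have h5 := Xs_step b s1
  have h6 := lg_ge hb.b30
  refine ⟨by simp [wx], by simp [wx], by simp [wx], ?_, fun i hi => ?_, fun i _ => ?_,
    Nat.mul_le_mul_right b (by norm_num), Nat.mul_le_mul_right b (by norm_num), fun a ha => ?_⟩
  · change ((3 : ℕ) : ℚ) ≤ _
    push_cast
    linarith
  · change wpos b H e i + _ ≤ wpos b H e (i + 1)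
    have hi' : i < 5 := Nat.lt_of_succ_lt_succ hi
    unfold wpos
    interval_cases i <;> cases H.same e <;> norm_num <;> linarith
  · obtain ⟨m, hm, h7, h8⟩ := wpos_win hH hb he i
    have h9 := Xs_step b (show m < 3 * H.nq * H.K by omega)
    have h10 := Xs_top hb
    have h11 := pow_pos (lg_pos b) 60
    change |wpos b H e i| ≤ _
    rw [abs_of_nonneg ((Xs_nonneg _ _).trans h7)]
    linarith
  · obtain rfl : a = 0 := by
      change a + 1 < 2 at ha
      omega
    obtain ⟨d1, d2⟩ := Del_bd' hH hb he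
    obtain ⟨q1, q2⟩ := sq_bd hb.b30
    have d3 : 1 / Pq b ^ 42 ≤ 1 := by
      simpa only [pow_zero, div_one] using lg_inv hb.b30 (show 0 < 42 by norm_num)
    have q3 := q2.trans (lg_inv hb.b30 (show 62914 < 62980 by norm_num))
    have q0 : 0 ≤ sq b := le_trans (one_div_pos.2 (pow_pos (lg_pos b) _)).le q1
    have d4 := mul_le_of_le_one_right q0 (d2.trans d3)
    rw [tau_wx hH hb he]
    generalize 1 / Pq b ^ 62914 = y at q3 ⊢
    linarith

theorem wy_good (hb : BOK b H) {e : ℕ} (he : e < H.two.length) : (wy b e).Good b := by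
  obtain ⟨h1, h2⟩ := yq_bd hb he
  have h4 := lg_pow hb.b30 (c := 4) (by norm_num) (show 49 < 64 by norm_num)
  have h5 := pow_pos (lg_pos b) 49
  have h6 := lg_ge hb.b30
  refine ⟨le_rfl, by simp [wy], le_rfl, ?_, fun i hi => absurd hi (by simp [wy, Chain.n]),
    fun i _ => ?_, Nat.mul_le_mul_right b (by norm_num), Nat.mul_le_mul_right b (by norm_num),
    fun a ha => absurd ha (by simp [wy])⟩
  · change ((1 : ℕ) : ℚ) ≤ _
    push_cast
    linarith
  · change |yq b e| ≤ _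
    rw [abs_le]
    constructor <;> linarith

theorem yq_lt (b : ℕ) {e e' : ℕ} (h : e < e') : yq b e + 58 ≤ yq b e' := by
  have h1 : (e : ℚ) + 1 ≤ e' := by exact_mod_cast h
  unfold yq
  linarith

theorem qy_nonpos (hb : BOK b H) {k : ℕ} (hk : k < 3) : (qy b H).pos k ≤ 0 := by
  have h1 : (k : ℚ) ≤ 2 := by exact_mod_cast Nat.le_of_lt_succ hk
  exact mul_nonpos_of_nonpos_of_nonneg (sub_nonpos.2 h1)
    ((pow_pos (lg_pos b) _).le.trans (Dy_bd hb).1)

theorem wpos_far (hH : H.OK) (hb : BOK b H) {e e' : ℕ} (he : e < H.two.length)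
    (he' : e' < H.two.length) (h : e ≠ e') (i i' : ℕ) :
    Pq b ^ 30 ≤ |wpos b H e i - wpos b H e' i'| := by
  obtain ⟨m, hm, h1, h2⟩ := wpos_win hH hb he i
  obtain ⟨m', hm', h3, h4⟩ := wpos_win hH hb he' i'
  have e1 : m % H.K = e + 1 := by rcases hm with rfl | rfl <;> exact slot_mod _ he
  have e2 : m' % H.K = e' + 1 := by rcases hm' with rfl | rfl <;> exact slot_mod _ he'
  have h5 := lg_pow hb.b30 (c := 1) (by norm_num) (show 30 < 60 by norm_num)
  rcases lt_trichotomy m m' with c | rfl | c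
  · have := Xs_step b c
    exact le_abs.2 (Or.inr (by linarith))
  · omega
  · have := Xs_step b c
    exact le_abs.2 (Or.inl (by linarith))

theorem lay_good (hH : H.OK) (hb : BOK b H) : (lay b H).Good b := by
  have hK := (K_bd hb).1
  have z1 := lg_sz hb
  have z2 : (0 : ℚ) ≤ H.two.length := Nat.cast_nonneg _
  have z3 : (0 : ℚ) ≤ H.nq := Nat.cast_nonneg _
  have p1 := lg_pow hb.b30 (c := 1) (by norm_num) (show 30 < 49 by norm_num)
  have p2 := lg_pow hb.b30 (c := 1) (by norm_num) (show 30 < 60 by norm_num)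
  have p3 := lg_pow hb.b30 (c := 58) (by norm_num) (show 0 < 30 by norm_num)
  rw [pow_zero] at p3
  have qq : ∀ q q' : ℕ, q < q' → (qx b H q).hi b + 9 ≤ (qx b H q').lo b - 9 := fun q q' h => by
    have := qpos_lt hb h (show 3 * H.K - 1 < 3 * H.K by omega) (show 0 < 3 * H.K by omega)
    refine lg_sep hb.b30 ?_
    change qpos b H q (3 * H.K - 1) + 58 ≤ qpos b H q' 0
    linarith
  have qw : ∀ e < H.two.length, (qy b H).hi b + 9 ≤ (wy b e).lo b - 9 := fun e he => by
    have h1 := qy_nonpos hb (show 2 < 3 by norm_num)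
    have h2 := (yq_bd hb he).1
    refine lg_sep hb.b30 ?_
    change (qy b H).pos 2 + 58 ≤ yq b e
    linarith
  have qw' : ∀ e < H.two.length, ∀ k < 3, Pq b ^ 30 ≤ yq b e - (qy b H).pos k := fun e he k hk => by
    have h1 := qy_nonpos hb hk
    have h2 := (yq_bd hb he).1
    linarith
  refine ⟨?_, ?_, ?_, ?_, ?_, ?_, ?_, ?_, ?_, ?_, fun σ => (eps_bd hH hb σ).1,
    fun σ => (eps_bd hH hb σ).2⟩
  · rintro (q | e)
    exacts [qx_good hb q.2, wx_good hH hb e.2]
  · rintro (q | e)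
    exacts [qy_good hb, wy_good hb e.2]
  · rintro (⟨q, x, y⟩ | ⟨e, x⟩) (⟨q', x', y'⟩ | ⟨e', x'⟩) h1 h2 h3
    · obtain rfl : q = q' := Sum.inl.inj h1
      rw [Fin.ext (show (x : ℕ) = x' from h2), Fin.ext (show (y : ℕ) = y' from h3)]
    · cases h1
    · cases h1
    · obtain rfl : e = e' := Sum.inr.inj h1
      cases x <;> cases x' <;> first | rfl | cases h2
  · rintro (⟨q, x, y⟩ | ⟨e, x⟩)
    · exact x.2
    · cases x
      exacts [Nat.zero_lt_two, Nat.one_lt_two]
  · rintro (⟨q, x, y⟩ | ⟨e, x⟩)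
    exacts [y.2, Nat.zero_lt_one]
  · rintro (q | e) a a' h1 h2
    · exact ⟨Sum.inl (q, ⟨a, h1⟩, ⟨a', h2⟩), rfl, rfl, rfl⟩
    · change a < 2 at h1
      change a' < 1 at h2
      obtain rfl : a' = 0 := by omega
      interval_cases a
      exacts [⟨Sum.inr (e, false), rfl, rfl, rfl⟩, ⟨Sum.inr (e, true), rfl, rfl, rfl⟩]
  · simp only [Fintype.card_sum, Fintype.card_fin]
    push_cast
    linarith
  · simp only [Fintype.card_sum, Fintype.card_prod, Fintype.card_fin, Fintype.card_bool]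
    push_cast
    linarith
  · rintro (q | e) (q' | e') h
    · rcases lt_or_gt_of_ne fun c : q = q' => h (congrArg _ c) with c | c
      exacts [Or.inl (qq q q' c), Or.inr (Or.inl (qq q' q c))]
    · exact Or.inr (Or.inr (Or.inl (qw e' e'.2)))
    · exact Or.inr (Or.inr (Or.inr (qw e e.2)))
    · rcases lt_or_gt_of_ne fun c : e = e' => h (congrArg _ c) with c | c
      exacts [Or.inr (Or.inr (Or.inl (lg_sep hb.b30 (yq_lt b c)))),
        Or.inr (Or.inr (Or.inr (lg_sep hb.b30 (yq_lt b c))))]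
  · rintro (q | e) (q' | e') h j hj k hk j' hj' k' hk'
    · refine Or.inl ?_
      change _ ≤ |qpos b H q j - qpos b H q' j'|
      rcases lt_or_gt_of_ne fun c : q = q' => h (congrArg _ c) with c | c
      · have := qpos_lt hb (q := q) (q' := q') c hj hj'
        exact le_abs.2 (Or.inr (by linarith))
      · have := qpos_lt hb (q := q') (q' := q) c hj' hj
        exact le_abs.2 (Or.inl (by linarith))
    · exact Or.inr (le_abs.2 (Or.inr ((qw' e' e'.2 k hk).trans_eq (neg_sub _ _).symm)))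
    · exact Or.inr (le_abs.2 (Or.inl (qw' e e.2 k' hk')))
    · exact Or.inl (wpos_far hH hb e.2 e'.2 (fun c => h (congrArg _ (Fin.ext c))) j j')

end Vale.Agent.P370
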