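import Vale.Agent.P370.LayDefs
import Vale.Agent.P370.ParB
import Vale.Agent.P370.LatMain

/-! Numerical facts about the layout. -/

namespace Vale.Agent.P370

variable {b : ℕ} {H : LH}

private theorem Pge (hb : BOK b H) : (2 : ℚ) ^ 30 ≤ Pq b := pow_le_pow_right₀ (by norm_num) hb.b30

private theorem P1 (hb : BOK b H) : 1 ≤ Pq b := le_trans (by norm_num) (Pge hb)

private theorem P0 (hb : BOK b H) : 0 < Pq b := lt_of_lt_of_le one_pos (P1 hb)

private theorem two_pow (b c : ℕ) : (2 : ℚ) ^ (c * b) = Pq b ^ c := pow_mul' 2 c b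

/-- `c P^i ≤ P^j` -/
private theorem Pmul (hb : BOK b H) {c : ℚ} (hc : c ≤ 2 ^ 30) {i j : ℕ} (h : i < j) :
    c * Pq b ^ i ≤ Pq b ^ j :=
  calc c * Pq b ^ i ≤ Pq b * Pq b ^ i :=
        mul_le_mul_of_nonneg_right (hc.trans (Pge hb)) (pow_pos (P0 hb) i).le
    _ = Pq b ^ (i + 1) := (pow_succ' _ _).symm
    _ ≤ Pq b ^ j := pow_le_pow_right₀ (P1 hb) h

private theorem lam_bd (hb : BOK b H) : (62 : ℚ) ≤ lamb b ∧ 100 * (lamb b : ℚ) ≤ Pq b := by
  obtain ⟨-, -, h1, h2⟩ := lamb_bd hb.b30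
  have h6 : (lamb b : ℚ) ≤ 3 * b := by exact_mod_cast h2
  have h7 : 1000000 * (b : ℚ) ≤ Pq b := by
    have := b_le_PR hb.b30
    rw [← Pq_cast] at this
    exact_mod_cast this
  have h8 : (0 : ℚ) ≤ b := Nat.cast_nonneg b
  exact ⟨by exact_mod_cast h1, by linarith⟩

private theorem sq_pos (hb : BOK b H) : 0 < sq b :=
  lt_of_lt_of_le (one_div_pos.2 (pow_pos (P0 hb) _)) (sq_bd hb.b30).1

private theorem szs (hb : BOK b H) :
    8 * ((H.nq : ℚ) + H.two.length + 4) ≤ Pq b ∧ 8 * (H.bd : ℚ) ≤ Pq b := by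
  have h := hb.sz
  have h1 : (0 : ℚ) ≤ H.nq := Nat.cast_nonneg _
  have h2 : (0 : ℚ) ≤ H.one.length := Nat.cast_nonneg _
  have h3 : (0 : ℚ) ≤ H.two.length := Nat.cast_nonneg _
  have h4 : (0 : ℚ) ≤ H.bd := Nat.cast_nonneg _
  constructor <;> linarith

theorem bok_bH (H : LH) : BOK (bH H) H := by
  refine ⟨Nat.le_add_right _ _, ?_⟩
  have h := (Nat.lt_size_self (8 * (H.nq + H.one.length + H.two.length + H.bd + 4))).le.trans
    (Nat.pow_le_pow_right two_pos (Nat.le_add_left _ 30))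
  unfold Pq bH
  exact_mod_cast h

theorem K_bd (hb : BOK b H) : 2 ≤ H.K ∧ 8 * (H.K : ℚ) ≤ Pq b := by
  refine ⟨Nat.le_add_left _ _, ?_⟩
  have h1 : (0 : ℚ) ≤ H.nq := Nat.cast_nonneg _
  have := (szs hb).1
  simp only [LH.K, Nat.cast_add, Nat.cast_ofNat]
  linarith

theorem Nel_bd (hH : H.OK) (hb : BOK b H) : 1 ≤ H.Nel ∧ (H.Nel : ℚ) ≤ Pq b := by
  refine ⟨by have := hH.nq_pos; unfold LH.Nel; omega, ?_⟩
  have h1 : (0 : ℚ) ≤ H.nq := Nat.cast_nonneg _
  have h3 : (0 : ℚ) ≤ H.two.length := Nat.cast_nonneg _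
  have := (szs hb).1
  simp only [LH.Nel, Nat.cast_add, Nat.cast_mul, Nat.cast_ofNat]
  linarith

private theorem KP (hb : BOK b H) :
    Pq b ^ 30 ≤ H.K * (Pq b ^ 30 - 2) ∧ 8 * (H.K * (Pq b ^ 30 - 2)) ≤ Pq b ^ 31 := by
  obtain ⟨h1, h2⟩ := K_bd hb
  have h3 : (2 : ℚ) ≤ H.K := by exact_mod_cast h1
  have h4 := Pmul hb (c := 4) (by norm_num) (i := 0) (j := 30) (by norm_num)
  rw [pow_zero] at h4
  rw [pow_succ (Pq b) 30]
  generalize Pq b ^ 30 = y at *
  constructor <;> nlinarith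

theorem delq_bd (hb : BOK b H) :
    sq b * Pq b ^ 62 ≤ delq b H ∧ delq b H ≤ 1 / Pq b ^ 62915 := by
  obtain ⟨h1, h2⟩ := KP hb
  obtain ⟨h3, h4⟩ := lam_bd hb
  have h0 := P0 hb
  have h5 := (sq_bd hb.b30).2
  have hY := pow_pos h0 62886
  have h30 := pow_pos h0 30
  rw [show 62980 = 62886 + 32 + 62 from rfl, pow_add, pow_add, le_div_iff₀ (by positivity)] at h5
  rw [delq, two_pow, show 62915 = 62886 + 29 from rfl, pow_add, mul_assoc 2,
    le_div_iff₀ (mul_pos hY (by linarith)),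
    div_le_div_iff₀ (mul_pos hY (by linarith)) (by positivity)]
  have h6 : 2 * (H.K * (Pq b ^ 30 - 2)) ≤ Pq b ^ 32 := by
    linarith [pow_le_pow_right₀ (P1 hb) (show 31 ≤ 32 by norm_num), pow_pos h0 31]
  have h7 : lamb b * Pq b ^ 29 ≤ 2 * (H.K * (Pq b ^ 30 - 2)) := by
    have : lamb b * Pq b ^ 29 ≤ Pq b * Pq b ^ 29 := by gcongr; linarith
    rw [← pow_succ', show 29 + 1 = 30 from rfl] at this
    linarith
  have hs := sq_pos hb
  generalize Pq b ^ 62886 = Y at *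
  constructor
  · calc _ ≤ sq b * Pq b ^ 62 * (Y * Pq b ^ 32) := by gcongr
      _ ≤ _ := by linarith
  · rw [one_mul, mul_left_comm]
    gcongr

theorem yq_bd (hb : BOK b H) {e : ℕ} (he : e < H.two.length) :
    Pq b ^ 49 ≤ yq b e ∧ yq b e ≤ 2 * Pq b ^ 49 := by
  have h1 : (e : ℚ) ≤ H.two.length := by exact_mod_cast he.le
  have h2 : (0 : ℚ) ≤ e := Nat.cast_nonneg _
  have h3 : (0 : ℚ) ≤ H.nq := Nat.cast_nonneg _
  have h4 := (szs hb).1
  have h5 := Pmul hb (c := 16) (by norm_num) (i := 1) (j := 49) (by norm_num)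
  rw [pow_one] at h5
  unfold yq
  constructor <;> linarith

private theorem aux_ok (hb : BOK b H) {dt : ℕ → ℚ}
    (h : ∀ e < H.two.length, Pq b ^ 30 ≤ dt e ∧ dt e ≤ Pq b ^ 39) :
    (⟨Pq b, delq b H, sq b, uq b, yq b, dt⟩ : MP).OK H :=
  ⟨Pge hb, hb.sz, sq_pos hb, (delq_bd hb).1, (uq_bd hb.b30).1, (uq_bd hb.b30).2,
    fun _ he => yq_bd hb he, h⟩

theorem Del_bd' (hH : H.OK) (hb : BOK b H) {e : ℕ} (he : e < H.two.length) :
    1 / (32 * Pq b ^ 46) ≤ Del H (Pq b) (yq b) e ∧ Del H (Pq b) (yq b) e ≤ 1 / Pq b ^ 42 :=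
  Del_bd hH (aux_ok hb (dt := fun _ => Pq b ^ 30) fun _ _ =>
    ⟨le_rfl, pow_le_pow_right₀ (P1 hb) (by norm_num)⟩) he

private theorem Del_pos (hH : H.OK) (hb : BOK b H) {e : ℕ} (he : e < H.two.length) :
    0 < Del H (Pq b) (yq b) e :=
  lt_of_lt_of_le (by have := P0 hb; positivity) (Del_bd' hH hb he).1

theorem dtq_bd (hH : H.OK) (hb : BOK b H) {e : ℕ} (he : e < H.two.length) :
    Pq b ^ 30 ≤ dtq b H e ∧ dtq b H e ≤ Pq b ^ 39 := by
  obtain ⟨h1, h2⟩ := Del_bd' hH hb he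
  obtain ⟨h3, h4⟩ := lam_bd hb
  obtain ⟨h5, h6⟩ := sq_bd hb.b30
  have h0 := P0 hb
  have hD := Del_pos hH hb he
  have hs := sq_pos hb
  have hY := pow_pos h0 62980
  rw [div_le_iff₀ (by positivity)] at h1 h5
  rw [le_div_iff₀ (by positivity)] at h2 h6
  rw [pow_succ (Pq b) 62980] at h5
  rw [dtq, two_pow, show 62991 = 62980 + 11 from rfl, pow_add]
  generalize Pq b ^ 62980 = Y at *
  generalize Del H (Pq b) (yq b) e = D at *
  have h7 : Pq b ^ 31 ≤ lamb b / (Y * Pq b ^ 11 * (3 * sq b * D)) := by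
    rw [le_div_iff₀ (by positivity)]
    calc _ = 3 * (sq b * Y * (D * Pq b ^ 42)) := by ring
      _ ≤ 3 * (1 * 1) := by gcongr
      _ ≤ _ := by linarith
  have h8 : lamb b / (Y * Pq b ^ 11 * (3 * sq b * D)) ≤ Pq b ^ 37 := by
    rw [div_le_iff₀ (by positivity)]
    calc (lamb b : ℚ) ≤ 3 / 32 * Pq b * (1 * 1) := by linarith
      _ ≤ 3 / 32 * Pq b * (sq b * (Y * Pq b) * (D * (32 * Pq b ^ 46))) := by gcongr
      _ = _ := by ring
  have h9 := pow_le_pow_right₀ (P1 hb) (show 30 ≤ 31 by norm_num)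
  have h10 := Pmul hb (c := 2) (by norm_num) (show 37 < 39 by norm_num)
  have h11 := Pmul hb (c := 2) (by norm_num) (show 0 < 37 by norm_num)
  rw [pow_zero] at h11
  constructor <;> linarith

theorem mp_ok (hH : H.OK) (hb : BOK b H) : (mp b H).OK H :=
  aux_ok hb fun _ he => dtq_bd hH hb he

theorem Dy_bd (hb : BOK b H) : Pq b ^ 60 ≤ Dy b H ∧ Dy b H ≤ Pq b ^ 62 := by
  obtain ⟨h1, h2⟩ := KP hb
  have h0 := pow_pos (P0 hb) 31
  have h3 := mul_le_mul_of_nonneg_left h1 h0.le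
  have h4 := mul_le_mul_of_nonneg_left h2 h0.le
  rw [← pow_add] at h3 h4
  rw [show 31 + 31 = 62 from rfl] at h4
  have h5 := pow_le_pow_right₀ (P1 hb) (show 60 ≤ 31 + 30 by norm_num)
  have h6 := Pmul hb (c := 4) (by norm_num) (show 0 < 62 by norm_num)
  rw [pow_zero] at h6
  unfold Dy
  constructor <;> linarith

theorem tau_qx (hb : BOK b H) (q : ℕ) {a : ℕ} (ha : a < 2) : (qx b H q).tau b a = delq b H := by
  have hK := (K_bd hb).1
  have h : qpos b H q ((a + 1) * H.K) - qpos b H q ((a + 1) * H.K - 1) = Pq b ^ 30 := by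
    have h1 : (a + 1) * H.K = H.K ∨ (a + 1) * H.K = 2 * H.K := by
      interval_cases a <;> simp
    rw [qpos, qpos, if_pos h1, if_neg (by omega), Nat.add_sub_assoc (by omega), add_sub_cancel_left]
  simp only [Chain.tau, qx, h, delq]

theorem tau_qy (_hb : BOK b H) (a : ℕ) : (qy b H).tau b a = delq b H := by
  simp only [Chain.tau, qy, delq, mul_one, Nat.add_sub_cancel, two_pow, Dy]
  rw [show 62886 = 62855 + 31 from rfl, pow_add]
  generalize Pq b ^ 62855 = Y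
  congr 1
  push_cast
  ring

theorem tau_wx (hH : H.OK) (hb : BOK b H) {e : ℕ} (he : e < H.two.length) :
    (wx b H e).tau b 0 = sq b * Del H (Pq b) (yq b) e / 2 := by
  have h : wpos b H e 3 - wpos b H e 2 = dtq b H e := by
    unfold wpos
    generalize dtq b H e = d
    cases H.same e <;> simp
  have h1 : (0 : ℚ) < lamb b := lt_of_lt_of_le (by norm_num) (lam_bd hb).1
  have hD := Del_pos hH hb he
  have hs := sq_pos hb
  have hY := pow_pos (P0 hb) 62991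
  simp only [Chain.tau, wx, zero_add, one_mul, Nat.add_one_sub_one, h, dtq, two_pow,
    add_sub_cancel_left]
  generalize Pq b ^ 62991 = Y at *
  field_simp
  norm_num

private theorem lap_eq {c : Chain} {d : ℚ} (hn : c.ng = 3) (h : ∀ a < 2, c.tau b a = d)
    (a a' : Fin 3) : c.lap b a a' = d * lap3 a a' := by
  have h0 := h 0 (by norm_num)
  have h1 := h 1 (by norm_num)
  fin_cases a <;> fin_cases a' <;> simp [Chain.lap, lap3, hn, h0, h1, mul_two]

theorem T0_eq_hop (hH : H.OK) (hb : BOK b H) (σ σ' : Site H) :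
    (lay b H).T0 b σ σ' = hop H (mp b H) σ σ' := by
  rcases σ with ⟨q, a, c⟩ | ⟨e, s⟩ <;> rcases σ' with ⟨q', a', c'⟩ | ⟨e', s'⟩
  · simp only [Lay.T0, lay, hop, Sum.map_inl, Sum.inl.injEq, Sum.elim_inl, Fin.val_inj,
      lap_eq (c := qx b H q) rfl fun _ h => tau_qx hb q h,
      lap_eq (c := qy b H) rfl fun a _ => tau_qy hb a, mp, mul_add, mul_ite, mul_zero]
  · simp [Lay.T0, lay, hop]
  · simp [Lay.T0, lay, hop]
  · have h := tau_wx hH hb e.2
    have h2 : (wx b H e).ng = 2 := rfl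
    have h3 : (wy b e).lap b 0 0 = 0 := by simp [Chain.lap, wy]
    simp only [Lay.T0, lay, hop, Sum.map_inr, Sum.inr.injEq, Sum.elim_inr, mp, h3, ite_self,
      add_zero, if_true]
    cases s <;> cases s' <;> simp [Chain.lap, h, h2]

private theorem small (hb : BOK b H) :
    delq b H * Pq b ≤ 1 / Pq b ^ 62900 / 4 ∧ sq b * Pq b ^ 2 ≤ 1 / Pq b ^ 62900 / 4 := by
  have h0 := P0 hb
  have h1 := (delq_bd hb).2
  have h2 := (sq_bd hb.b30).2
  have hY := pow_pos h0 62900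
  rw [show 62915 = 62900 + 15 from rfl, pow_add, ← div_div, le_div_iff₀ (by positivity)] at h1
  rw [show 62980 = 62900 + 80 from rfl, pow_add, ← div_div, le_div_iff₀ (by positivity)] at h2
  have h3 := Pmul hb (c := 4) (by norm_num) (show 1 < 15 by norm_num)
  have h4 := Pmul hb (c := 4) (by norm_num) (show 2 < 80 by norm_num)
  have hs := sq_pos hb
  have hd : 0 ≤ delq b H := le_trans (by positivity) (delq_bd hb).1
  rw [pow_one] at h3
  generalize 1 / Pq b ^ 62900 = y at *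
  constructor
  · linarith [mul_le_mul_of_nonneg_left h3 hd]
  · linarith [mul_le_mul_of_nonneg_left h4 hs.le]

theorem eps_bd (hH : H.OK) (hb : BOK b H) (σ : Site H) :
    0 ≤ epsS H (mp b H) σ ∧ epsS H (mp b H) σ ≤ 1 / Pq b ^ 62900 := by
  obtain ⟨h1, h2⟩ := small hb
  have h0 := P0 hb
  have hs := sq_pos hb
  have hd : 0 ≤ delq b H := le_trans (by positivity) (delq_bd hb).1
  have h3 := Pmul hb (c := 2) (by norm_num) (show 1 < 2 by norm_num)
  rw [pow_one] at h3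
  have h4 := mul_le_mul_of_nonneg_left h3 hs.le
  have h5 := mul_le_mul_of_nonneg_left (P1 hb) hd
  have h6 := mul_pos hs h0
  rcases σ with ⟨q, a, c⟩ | ⟨e, s⟩
  · obtain ⟨h7, h8⟩ := epsh_bd hH (mp_ok hH hb) q a c
    have h9 := mul_le_mul_of_nonneg_left h8 hs.le
    refine ⟨mul_nonneg hs.le h7, ?_⟩
    simp only [epsS, mp] at h9 ⊢
    generalize 1 / Pq b ^ 62900 = y at *
    linarith
  · simp only [epsS, mp]
    generalize 1 / Pq b ^ 62900 = y at *
    constructor <;> linarith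

theorem lvl_bd (hH : H.OK) (hb : BOK b H) {t : ℚ} (ht : |t| ≤ 1) :
    |lvl H (mp b H) + sq b * E1 (Pq b) * (H.thr + t)| ≤ 1 / Pq b ^ 62900 := by
  obtain ⟨h1, h2⟩ := small hb
  obtain ⟨h3, h4⟩ := szs hb
  have h0 := P0 hb
  have hP := Pge hb
  have hs := sq_pos hb
  have hd : 0 ≤ delq b H := le_trans (by positivity) (delq_bd hb).1
  have h5 : |delq b H * ((H.nq : ℚ) + H.two.length)| ≤ delq b H * Pq b := by
    rw [abs_of_nonneg (by positivity)]
    gcongr
    linarith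
  have h6 : |sq b * Cst H (Pq b) (uq b) (yq b)| ≤ sq b * Pq b ^ 2 := by
    have := Cst_bd hH (mp_ok hH hb)
    simp only [mp] at this
    rw [abs_mul, abs_of_pos hs]
    exact mul_le_mul_of_nonneg_left this hs.le
  have h7 : |sq b * E1 (Pq b) * (H.thr + t)| ≤ sq b * Pq b ^ 2 := by
    have e0 : 0 < E1 (Pq b) := by unfold E1; positivity
    have e1 : E1 (Pq b) ≤ 1 := (div_le_one (pow_pos h0 _)).2 (one_le_pow₀ (P1 hb))
    have e2 : |H.thr + t| ≤ Pq b ^ 2 := by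
      refine (abs_add_le _ _).trans ?_
      nlinarith [hH.thr_bd]
    rw [abs_mul, abs_mul, abs_of_pos hs, abs_of_pos e0]
    calc _ ≤ sq b * 1 * Pq b ^ 2 := by gcongr
      _ = _ := by rw [mul_one]
  have h8 : 0 ≤ sq b * Pq b ^ 2 := by positivity
  simp only [lvl, mp]
  refine ((abs_add_le _ _).trans (add_le_add_left (abs_add_le _ _) _)).trans ?_
  generalize 1 / Pq b ^ 62900 = y at *
  linarith

theorem thrq_gap (hb : BOK b H) : 1 ≤ thrq b H (3 / 16) - thrq b H (1 / 16) := by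
  have h0 := P0 hb
  have hs := sq_pos hb
  have h2 := (sq_bd hb.b30).2
  have h3 := mul_le_mul_of_nonneg_left
    (Pmul hb (c := 8) (by norm_num) (show 55 < 62980 by norm_num)) hs.le
  rw [le_div_iff₀ (pow_pos h0 _)] at h2
  have e : thrq b H (3 / 16) - thrq b H (1 / 16) = 1 / (sq b * (8 * Pq b ^ 55)) := by
    unfold thrq E1
    field_simp
    ring
  rw [e, one_le_div (by positivity)]
  exact h3.trans h2

end Vale.Agent.P370
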