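import Vale.Agent.P370.Defs

/-! Part MB: definitions and the basic API (bounded measurable functions with bounded support). -/

namespace Vale.Agent.P370

open MeasureTheory

/-- configurations of `N` electrons -/
abbrev EN (N : ℕ) : Type := Fin N → E3

/-- measurable, bounded, with bounded support -/
structure Nice {Y : Type} [NormedAddCommGroup Y] [MeasurableSpace Y] (f : Y → ℝ) : Prop where
  meas : Measurable f
  bd : ∃ M, ∀ x, |f x| ≤ M
  supp : ∃ R, ∀ x, f x ≠ 0 → ‖x‖ ≤ R

section nice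

variable {Y : Type} [NormedAddCommGroup Y]

section
variable [MeasurableSpace Y] {f h : Y → ℝ}

lemma nice_zero : Nice (fun _ : Y => (0 : ℝ)) :=
  ⟨measurable_const, ⟨0, by simp⟩, ⟨0, by simp⟩⟩

lemma Nice.add (hf : Nice f) (hh : Nice h) : Nice fun x => f x + h x := by
  obtain ⟨M, hM⟩ := hf.bd
  obtain ⟨M', hM'⟩ := hh.bd
  obtain ⟨R, hR⟩ := hf.supp
  obtain ⟨R', hR'⟩ := hh.supp
  refine ⟨hf.meas.add hh.meas, ⟨M + M', fun x => (abs_add_le _ _).trans (add_le_add (hM x) (hM' x))⟩,
    ⟨max R R', fun x hx => ?_⟩⟩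
  by_cases h1 : f x = 0
  · exact (hR' x (by simpa [h1] using hx)).trans (le_max_right _ _)
  · exact (hR x h1).trans (le_max_left _ _)

/-- a nice function times a bounded measurable function -/
lemma Nice.mul_bdd (hf : Nice f) (hm : Measurable h) (hb : ∃ M, ∀ x, |h x| ≤ M) :
    Nice fun x => f x * h x := by
  obtain ⟨M, hM⟩ := hf.bd
  obtain ⟨M', hM'⟩ := hb
  obtain ⟨R, hR⟩ := hf.supp
  refine ⟨hf.meas.mul hm, ⟨M * M', fun x => ?_⟩, ⟨R, fun x hx => hR x (left_ne_zero_of_mul hx)⟩⟩
  rw [abs_mul]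
  exact mul_le_mul (hM x) (hM' x) (abs_nonneg _) ((abs_nonneg _).trans (hM x))

lemma Nice.mul (hf : Nice f) (hh : Nice h) : Nice fun x => f x * h x := hf.mul_bdd hh.meas hh.bd

lemma Nice.const_mul (hf : Nice f) (c : ℝ) : Nice fun x => c * f x := by
  simpa only [mul_comm] using hf.mul_bdd (h := fun _ => c) measurable_const ⟨|c|, fun _ => le_rfl⟩

lemma Nice.neg (hf : Nice f) : Nice fun x => -f x := by
  simpa using hf.const_mul (-1)

lemma Nice.sub (hf : Nice f) (hh : Nice h) : Nice fun x => f x - h x := by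
  simpa only [sub_eq_add_neg] using hf.add hh.neg

lemma Nice.sq (hf : Nice f) : Nice fun x => f x ^ 2 := by
  simpa only [pow_two] using hf.mul hf

lemma Nice.abs (hf : Nice f) : Nice fun x => |f x| := by
  obtain ⟨M, hM⟩ := hf.bd
  obtain ⟨R, hR⟩ := hf.supp
  exact ⟨hf.meas.abs, ⟨M, fun x => by simpa using hM x⟩, ⟨R, fun x hx => hR x (by simpa using hx)⟩⟩

lemma nice_sum {ι : Type} (s : Finset ι) {F : ι → Y → ℝ} (hF : ∀ i ∈ s, Nice (F i)) :
    Nice fun x => ∑ i ∈ s, F i x := by
  classical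
  induction s using Finset.induction_on with
  | empty => simpa using nice_zero
  | insert a s ha ih =>
    simp only [Finset.sum_insert ha]
    exact (hF a (Finset.mem_insert_self _ _)).add
      (ih fun i hi => hF i (Finset.mem_insert_of_mem hi))

lemma nice_of_cont [OpensMeasurableSpace Y] (hc : Continuous f) (hs : HasCompactSupport f) :
    Nice f := by
  obtain ⟨M, hM⟩ := hc.bounded_above_of_compact_support hs
  obtain ⟨R, hR⟩ := hs.isCompact.isBounded.exists_norm_le
  exact ⟨hc.measurable, ⟨M, hM⟩, ⟨R, fun x hx => hR x (subset_tsupport _ hx)⟩⟩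

end

variable [MeasureSpace Y] [BorelSpace Y] [ProperSpace Y] {f : Y → ℝ}

/-- a locally integrable function times a nice function is integrable -/
lemma Nice.integrable_mul (hf : Nice f) {W : Y → ℝ} (hW : LocallyIntegrable W volume) :
    Integrable fun x => W x * f x := by
  obtain ⟨M, hM⟩ := hf.bd
  obtain ⟨R, hR⟩ := hf.supp
  have h1 : IntegrableOn W (Metric.closedBall 0 R) := hW.integrableOn_isCompact
    (isCompact_closedBall _ _)
  have h2 : IntegrableOn (fun x => W x * f x) (Metric.closedBall 0 R) :=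
    Integrable.mul_bdd (c := M) h1 hf.meas.aestronglyMeasurable (ae_of_all _ hM)
  refine (integrableOn_iff_integrable_of_support_subset ?_).1 h2
  intro x hx
  simpa using hR x (right_ne_zero_of_mul hx)

lemma Nice.integrable [IsFiniteMeasureOnCompacts (volume : Measure Y)] (hf : Nice f) :
    Integrable f := by
  simpa using hf.integrable_mul (W := fun _ => 1) (locallyIntegrable_const 1)

end nice

/-! test functions -/

def TestN {N : ℕ} (f : EN N → ℝ) : Prop := ContDiff ℝ 1 f ∧ HasCompactSupport f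

/-- derivative in the coordinate `k` of electron `i` -/
noncomputable def dN {N : ℕ} (f : EN N → ℝ) (i : Fin N) (k : Fin 3) (x : EN N) : ℝ :=
  fderiv ℝ f x (Pi.single i (Pi.single k 1))

lemma Test1.nice {f : E3 → ℝ} (h : Test1 f) : Nice f := nice_of_cont h.1.continuous h.2

lemma Test1.nice_grad {f : E3 → ℝ} (h : Test1 f) (k : Fin 3) : Nice fun x => grad f x k :=
  nice_of_cont ((h.1.continuous_fderiv one_ne_zero).clm_apply continuous_const)
    (h.2.fderiv_apply (𝕜 := ℝ) _)

lemma TestN.nice {N : ℕ} {f : EN N → ℝ} (h : TestN f) : Nice f :=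
  nice_of_cont h.1.continuous h.2

lemma TestN.nice_dN {N : ℕ} {f : EN N → ℝ} (h : TestN f) (i : Fin N) (k : Fin 3) :
    Nice (dN f i k) :=
  nice_of_cont ((h.1.continuous_fderiv one_ne_zero).clm_apply continuous_const)
    (h.2.fderiv_apply (𝕜 := ℝ) _)

/-- the one-body energy of electron `i` -/
noncomputable def AN (V : E3 → ℝ) {N : ℕ} (i : Fin N) (f : EN N → ℝ) : ℝ :=
  ∫ x, (1 / 2 * ∑ k, dN f i k x ^ 2 + V (x i) * f x ^ 2)

/-- the interaction energy of electrons `i` and `j` -/
noncomputable def WN {N : ℕ} (i j : Fin N) (f : EN N → ℝ) : ℝ :=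
  ∫ x, 1 / d3 (x i) (x j) * f x ^ 2

/-- the many-body energy of a real function of the positions -/
noncomputable def ER (V : E3 → ℝ) (s : ℝ) {N : ℕ} (f : EN N → ℝ) : ℝ :=
  ∫ x, (1 / 2 * ∑ i, ∑ k, dN f i k x ^ 2 +
    (∑ i, V (x i) + s * ∑ i, ∑ j, if i < j then 1 / d3 (x i) (x j) else 0) * f x ^ 2)

section
variable {S : Type} {N : ℕ}

/-- tensor products -/
noncomputable def tp (g : S → E3 → ℝ) (k : Fin N → S) (x : EN N) : ℝ := ∏ i, g (k i) (x i)

/-- coefficients in the tensor product family -/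
noncomputable def cfm (g : S → E3 → ℝ) (f : EN N → ℝ) (k : Fin N → S) : ℝ := ∫ x, f x * tp g k x

lemma nice_prod {h : Fin N → E3 → ℝ} (hh : ∀ i, Nice (h i)) :
    Nice fun x : EN N => ∏ i, h i (x i) := by
  choose M hM using fun i => (hh i).bd
  choose R hR using fun i => (hh i).supp
  refine ⟨Finset.measurable_prod _ fun i _ => (hh i).meas.comp (measurable_pi_apply i),
    ⟨∏ i, M i, fun x => ?_⟩, ⟨∑ i, |R i|, fun x hx => ?_⟩⟩
  · rw [Finset.abs_prod]
    exact Finset.prod_le_prod (fun i _ => abs_nonneg _) fun i _ => hM i _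
  · refine (pi_norm_le_iff_of_nonneg (Finset.sum_nonneg fun i _ => abs_nonneg _)).2 fun i => ?_
    exact ((hR i _ (Finset.prod_ne_zero_iff.1 hx i (Finset.mem_univ _))).trans (le_abs_self _)).trans
      (Finset.single_le_sum (f := fun i => |R i|) (fun i _ => abs_nonneg _) (Finset.mem_univ i))

lemma nice_tp {g : S → E3 → ℝ} (hg : ∀ a, Nice (g a)) (k : Fin N → S) : Nice (tp g k) :=
  nice_prod fun i => hg (k i)

/-- an orthonormal family of nice functions -/
structure ONm {Y K : Type} [NormedAddCommGroup Y] [MeasureSpace Y] [DecidableEq K]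
    (e : K → Y → ℝ) : Prop where
  nice : ∀ a, Nice (e a)
  on : ∀ a a', ∫ x, e a x * e a' x = if a = a' then 1 else 0

variable [Fintype S] [DecidableEq S]

/-- slices -/
noncomputable def sl {n : ℕ} (g : S → E3 → ℝ) (i : Fin (n + 1)) (f : EN (n + 1) → ℝ) (a : S)
    (x : EN n) : ℝ := ∫ y, g a y * f (i.insertNth y x)

/-- the projection acting on the coordinate `i` -/
noncomputable def Pj (g : S → E3 → ℝ) (i : Fin N) (f : EN N → ℝ) (x : EN N) : ℝ :=
  ∑ a, g a (x i) * ∫ y, g a y * f (Function.update x i y)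

/-- hopping term of electron `i`, spinless -/
def hopN (T : S → S → ℝ) (i : Fin N) (b : (Fin N → S) → ℝ) : ℝ :=
  ∑ k, ∑ a, b k * T (k i) a * b (Function.update k i a)

/-- the lattice energy for fixed spins -/
def Elat0 (T w : S → S → ℝ) (s : ℝ) (b : (Fin N → S) → ℝ) : ℝ :=
  ∑ i, hopN T i b + s * ∑ i, ∑ j, if i < j then ∑ k, w (k i) (k j) * b k ^ 2 else 0

/-- the component of a coefficient vector with given spins -/
def spc (c : (Fin N → S × Bool) → ℝ) (ς : Fin N → Bool) (k : Fin N → S) : ℝ :=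
  c fun i => (k i, ς i)

/-- linear combinations of tensor products -/
noncomputable def lc (g : S → E3 → ℝ) (b : (Fin N → S) → ℝ) (x : EN N) : ℝ := ∑ k, b k * tp g k x

/-- Gram matrix -/
noncomputable def gram (g : S → E3 → ℝ) (a a' : S) : ℝ := ∫ x, g a x * g a' x

/-- Coulomb matrix elements -/
noncomputable def cmat (g : S → E3 → ℝ) (a a' b b' : S) : ℝ :=
  ∫ x, ∫ y, 1 / d3 x y * (g a x * g a' x * (g b y * g b' y))

variable {g gt : S → E3 → ℝ} {Mg εd : ℝ}

omit [Fintype S] [DecidableEq S] in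
lemma Basis.nice_g (hB : Basis g gt Mg εd) (a : S) : Nice (g a) := by
  obtain ⟨R, hR⟩ := hB.g_supp
  refine ⟨hB.g_meas a, ⟨Mg, hB.g_bd a⟩, ⟨|R|, fun x hx => ?_⟩⟩
  exact (pi_norm_le_iff_of_nonneg (abs_nonneg _)).2 fun k => (hR a x hx k).trans (le_abs_self _)

omit [Fintype S] [DecidableEq S] in
lemma Basis.nice_gt (hB : Basis g gt Mg εd) (a : S) : Nice (gt a) := (hB.gt_test a).nice

omit [Fintype S] in
lemma Basis.on (hB : Basis g gt Mg εd) : ONm g := by
  refine ⟨hB.nice_g, fun a a' => ?_⟩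
  split_ifs with h
  · subst h
    simpa only [pow_two] using hB.g_norm a
  · simp [hB.g_disj a a' h]

omit [Fintype S] in
lemma ONm.tp (h : ONm g) : ONm (tp g : (Fin N → S) → EN N → ℝ) := by
  refine ⟨nice_tp h.nice, fun k k' => ?_⟩
  simp only [P370.tp, ← Finset.prod_mul_distrib]
  rw [integral_fintype_prod_volume_eq_prod (fun i y => g (k i) y * g (k' i) y)]
  simp only [h.on, Finset.prod_ite_zero, Finset.mem_univ, forall_const, Finset.prod_const_one,
    funext_iff]

omit [DecidableEq S] in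
lemma nice_lc (hg : ∀ a, Nice (g a)) (b : (Fin N → S) → ℝ) : Nice (lc g b) :=
  nice_sum _ fun k _ => (nice_tp hg k).const_mul _

end

/-! Fubini in the coordinate `i` -/

lemma integrable_ins {n : ℕ} (i : Fin (n + 1)) {F : EN (n + 1) → ℝ} (hF : Integrable F) :
    Integrable (fun q : E3 × EN n => F (i.insertNth q.1 q.2)) (volume.prod volume) :=
  ((volume_preserving_piFinSuccAbove (fun _ : Fin (n + 1) => E3) i).symm _).integrable_comp_of_integrable hF

lemma integral_ins {n : ℕ} (i : Fin (n + 1)) {F : EN (n + 1) → ℝ} (hF : Integrable F) :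
    ∫ x, F x = ∫ x' : EN n, ∫ y : E3, F (i.insertNth y x') := by
  rw [← integral_prod_symm _ (integrable_ins i hF)]
  exact (((volume_preserving_piFinSuccAbove (fun _ : Fin (n + 1) => E3) i).symm _).integral_comp'
    F).symm

lemma integrable_ins_int {n : ℕ} (i : Fin (n + 1)) {F : EN (n + 1) → ℝ} (hF : Integrable F) :
    Integrable fun x' : EN n => ∫ y : E3, F (i.insertNth y x') :=
  (integrable_ins i hF).integral_prod_right

end Vale.Agent.P370
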