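import Vale.Agent.P370.MBBasic

/-! Part MB: Bessel type identities and `L²` estimates for nice functions.

Plan: `bessel_bilin`: expand the product, `integral_finsetSum`, orthonormality.  `bessel_psd`:
`0 ≤ ∫ qf T (r · x)` for the remainders `r a = h a - ∑ k, c a k * e k`, then `bessel_bilin` for each
pair `a, a'`.  `sq_sum_le`: pointwise Cauchy-Schwarz (`Finset.sum_mul_sq_le_sq_mul_sq`).
`abs_int_mul_le`: `2 |u v| ≤ t u² + v² / t` pointwise and optimise, or the discriminant
(`discrim_le_zero`). -/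

namespace Vale.Agent.P370

open MeasureTheory

variable {Y : Type} [NormedAddCommGroup Y] [MeasureSpace Y] [BorelSpace Y] [ProperSpace Y]
  [IsFiniteMeasureOnCompacts (volume : Measure Y)]
  {K : Type} [Fintype K] [DecidableEq K] {e : K → Y → ℝ}

lemma bes_comb (he : ONm e) {h : Y → ℝ} (hh : Nice h) (c : K → ℝ) :
    ∫ x, h x * ∑ k, c k * e k x = ∑ k, c k * ∫ y, h y * e k y := by
  simp only [Finset.mul_sum, mul_left_comm (h _)]
  rw [integral_finsetSum _ fun k _ => ((hh.mul (he.nice k)).const_mul _).integrable]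
  simp only [integral_const_mul]

omit [BorelSpace Y] [ProperSpace Y] [IsFiniteMeasureOnCompacts (volume : Measure Y)] in
lemma bes_nice (he : ONm e) (c : K → ℝ) : Nice fun x => ∑ k, c k * e k x :=
  nice_sum _ fun k _ => (he.nice k).const_mul _

lemma bes_coef (he : ONm e) (c : K → ℝ) (k : K) : ∫ y, (∑ l, c l * e l y) * e k y = c k := by
  simp only [mul_comm _ (e k _)]
  rw [bes_comb he (he.nice k)]
  simp [he.on]

lemma bessel_bilin (he : ONm e) {h h' : Y → ℝ} (hh : Nice h) (hh' : Nice h') :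
    ∫ x, (h x - ∑ k, (∫ y, h y * e k y) * e k x) * (h' x - ∑ k, (∫ y, h' y * e k y) * e k x) =
      (∫ x, h x * h' x) - ∑ k, (∫ y, h y * e k y) * ∫ y, h' y * e k y := by
  have n1 := bes_nice he fun k => ∫ y, h y * e k y
  have n2 := bes_nice he fun k => ∫ y, h' y * e k y
  simp only [mul_sub (h _ - _)]
  rw [integral_sub ((hh.sub n1).mul hh').integrable ((hh.sub n1).mul n2).integrable,
    bes_comb he (hh.sub n1)]
  simp only [sub_mul]
  rw [integral_sub (hh.mul hh').integrable (n1.mul hh').integrable]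
  have e1 : ∀ k, ∫ y, (h y * e k y - (∑ l, (∫ y, h y * e l y) * e l y) * e k y) = 0 := fun k => by
    rw [integral_sub (hh.mul (he.nice k)).integrable (n1.mul (he.nice k)).integrable, bes_coef he,
      sub_self]
  simp only [e1, mul_zero, Finset.sum_const_zero, sub_zero, mul_comm _ (h' _)]
  rw [bes_comb he hh']

lemma bessel_sq (he : ONm e) {h : Y → ℝ} (hh : Nice h) :
    ∫ x, (h x - ∑ k, (∫ y, h y * e k y) * e k x) ^ 2 =
      (∫ x, h x ^ 2) - ∑ k, (∫ y, h y * e k y) ^ 2 := by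
  simpa only [pow_two] using bessel_bilin he hh hh

lemma bessel_le (he : ONm e) {h : Y → ℝ} (hh : Nice h) :
    ∑ k, (∫ y, h y * e k y) ^ 2 ≤ ∫ x, h x ^ 2 := by
  have h0 : 0 ≤ ∫ x, (h x - ∑ k, (∫ y, h y * e k y) * e k x) ^ 2 :=
    integral_nonneg fun x => sq_nonneg _
  rw [bessel_sq he hh] at h0
  linarith

lemma bessel_psd (he : ONm e) {S : Type} [Fintype S] {T : S → S → ℝ} (hT : ∀ c, 0 ≤ qf T c)
    {h : S → Y → ℝ} (hh : ∀ a, Nice (h a)) :
    ∑ k, qf T (fun a => ∫ y, h a y * e k y) ≤ ∫ x, qf T (fun a => h a x) := by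
  have nr : ∀ a, Nice fun x => h a x - ∑ k, (∫ y, h a y * e k y) * e k x := fun a =>
    (hh a).sub (bes_nice he _)
  have key : ∀ {r : S → Y → ℝ}, (∀ a, Nice (r a)) →
      ∫ x, qf T (fun a => r a x) = ∑ a, ∑ a', T a a' * ∫ x, r a x * r a' x := by
    intro r hr
    simp only [qf, mul_comm (r _ _) (T _ _), mul_assoc]
    rw [integral_finsetSum _ fun a _ => integrable_finsetSum _ fun a' _ =>
      (((hr a).mul (hr a')).const_mul _).integrable]
    refine Finset.sum_congr rfl fun a _ => ?_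
    rw [integral_finsetSum _ fun a' _ => (((hr a).mul (hr a')).const_mul _).integrable]
    simp only [integral_const_mul]
  have h0 : 0 ≤ ∫ x, qf T (fun a => h a x - ∑ k, (∫ y, h a y * e k y) * e k x) :=
    integral_nonneg fun x => hT _
  rw [key nr] at h0
  simp only [bessel_bilin he (hh _) (hh _)] at h0
  simp only [mul_sub, Finset.sum_sub_distrib] at h0
  rw [key hh]
  refine le_of_eq_of_le ?_ (sub_nonneg.1 h0)
  simp only [qf, Finset.mul_sum]
  rw [Finset.sum_comm]
  refine Finset.sum_congr rfl fun a _ => ?_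
  rw [Finset.sum_comm]
  exact Finset.sum_congr rfl fun a' _ => Finset.sum_congr rfl fun k _ => by ring

lemma sq_comb (he : ONm e) (c : K → ℝ) : ∫ x, (∑ k, c k * e k x) ^ 2 = ∑ k, c k ^ 2 := by
  simp only [pow_two]
  rw [bes_comb he (bes_nice he c)]
  simp only [bes_coef he]

omit [BorelSpace Y] [ProperSpace Y] [IsFiniteMeasureOnCompacts (volume : Measure Y)]
  [DecidableEq K] in
lemma sq_sum_le {u : K → Y → ℝ} (hu : ∀ k, Integrable fun x => u k x ^ 2) (c : K → ℝ) :
    ∫ x, (∑ k, c k * u k x) ^ 2 ≤ (∑ k, c k ^ 2) * ∑ k, ∫ x, u k x ^ 2 := by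
  rw [← integral_finsetSum _ fun k _ => hu k, ← integral_const_mul]
  exact integral_mono_of_nonneg (ae_of_all _ fun x => sq_nonneg _)
    ((integrable_finsetSum _ fun k _ => hu k).const_mul _)
    (ae_of_all _ fun x => Finset.sum_mul_sq_le_sq_mul_sq _ _ _)

lemma abs_int_mul_le {u v : Y → ℝ} (hu : Nice u) (hv : Nice v) {A B : ℝ} (hA : 0 ≤ A) (hB : 0 ≤ B)
    (h1 : ∫ x, u x ^ 2 ≤ A ^ 2) (h2 : ∫ x, v x ^ 2 ≤ B ^ 2) : ∫ x, |u x * v x| ≤ A * B := by
  have key : ∀ t : ℝ, 0 ≤ A ^ 2 * (t * t) + (-2 * ∫ x, |u x * v x|) * t + B ^ 2 := by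
    intro t
    have a1 : ∫ x, 2 * t * |u x * v x| ≤ ∫ x, (t * t * u x ^ 2 + v x ^ 2) := by
      refine integral_mono ((hu.mul hv).abs.const_mul _).integrable
        ((hu.sq.const_mul _).add hv.sq).integrable fun x => ?_
      have := sq_nonneg (t * |u x| - |v x|)
      have a2 := sq_abs (u x)
      have a3 := sq_abs (v x)
      simp only [abs_mul]
      nlinarith
    rw [integral_const_mul, integral_add (hu.sq.const_mul _).integrable hv.sq.integrable,
      integral_const_mul] at a1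
    nlinarith [mul_le_mul_of_nonneg_left h1 (mul_self_nonneg t)]
  have h3 := discrim_le_zero key
  rw [discrim] at h3
  refine (abs_le_of_sq_le_sq' ?_ (mul_nonneg hA hB)).2
  nlinarith

end Vale.Agent.P370
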