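import Vale.Agent.P370.MBBasic

/-! Part MB: Coulomb integrals in three dimensions.

Plan: `‖x - p‖ ≤ d3 x p` and `locallyIntegrable_of_norm_le_rpow` (translate) give `coul_locInt`.
For the explicit constants pass to `EuclideanSpace ℝ (Fin 3)` (`PiLp.volume_preserving_toLp`,
`integral_fun_norm_addHaar`, `EuclideanSpace.volume_ball_fin_three`): the integrals of `1 / d3` and
`1 / d3 ^ 2` over the unit ball are `2 π ≤ 7` and `4 π ≤ 13`.  Then
`|ρ y| / d3 x y ^ p ≤ M * indicator (d3 x y < 1) (1 / d3 x y ^ p) + |ρ y|`. -/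

namespace Vale.Agent.P370

open MeasureTheory

lemma d3_nonneg (x y : E3) : 0 ≤ d3 x y := Real.sqrt_nonneg _

lemma d3_comm (x y : E3) : d3 x y = d3 y x := by
  unfold d3
  exact congrArg _ (Finset.sum_congr rfl fun k _ => by ring)

lemma d3_cont : Continuous fun q : E3 × E3 => d3 q.1 q.2 := by
  unfold d3
  fun_prop

lemma mbc_meas (x : E3) : Measurable (d3 x) :=
  (d3_cont.comp (Continuous.prodMk_right x)).measurable

lemma mbc_int (φ : ℝ → ℝ) (x : E3) :
    ∫ y, φ (d3 x y) = 4 * Real.pi * ∫ r in Set.Ioi (0 : ℝ), r ^ 2 * φ r := by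
  have h1 : ∀ y, d3 x y = ‖(MeasurableEquiv.toLp 2 (Fin 3 → ℝ) (x - y) :
      EuclideanSpace ℝ (Fin 3))‖ := fun y => by
    simp [d3, EuclideanSpace.norm_eq]
  simp only [h1]
  rw [integral_sub_left_eq_self (fun y => φ ‖(MeasurableEquiv.toLp 2 (Fin 3 → ℝ) y :
      EuclideanSpace ℝ (Fin 3))‖) volume x,
    MeasurePreserving.integral_comp' (f := MeasurableEquiv.toLp 2 (Fin 3 → ℝ))
      (PiLp.volume_preserving_toLp (Fin 3)) fun z => φ ‖z‖,
    integral_fun_norm_addHaar, Measure.real, EuclideanSpace.volume_ball_fin_three]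
  simp only [finrank_euclideanSpace, Fintype.card_fin, ENNReal.ofReal_one, one_pow, one_mul,
    smul_eq_mul, nsmul_eq_mul]
  rw [ENNReal.toReal_ofReal (by positivity)]
  push_cast
  ring

/-- the singular part of the kernel -/
noncomputable def mbcK (p : ℕ) (r : ℝ) : ℝ := if r < 1 then 1 / r ^ p else 0

lemma mbc_ball {p q : ℕ} (h : p + q = 2) (x : E3) :
    ∫ y, mbcK p (d3 x y) = 4 * Real.pi / (q + 1) := by
  have h1 : ∫ r in Set.Ioi (0 : ℝ), r ^ 2 * mbcK p r =
      ∫ r in Set.Ioi (0 : ℝ), (Set.Iio (1 : ℝ)).indicator (fun r => r ^ q) r := by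
    refine setIntegral_congr_fun measurableSet_Ioi fun r hr => ?_
    have h0 : r ≠ 0 := ne_of_gt hr
    simp only [mbcK, Set.indicator_apply, Set.mem_Iio]
    split_ifs
    · rw [← h, pow_add]
      field_simp
    · exact mul_zero _
  rw [mbc_int, h1, setIntegral_indicator measurableSet_Iio, Set.Ioi_inter_Iio,
    ← integral_Ioc_eq_integral_Ioo, ← intervalIntegral.integral_of_le zero_le_one, integral_pow]
  simp [div_eq_mul_inv]

lemma mbc_integrable {p : ℕ} (hp : p ≤ 2) (x : E3) : Integrable fun y => mbcK p (d3 x y) := by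
  refine Integrable.of_integral_ne_zero ?_
  rw [mbc_ball (Nat.add_sub_cancel' hp)]
  have := Real.pi_pos
  positivity

lemma mbc_le (p : ℕ) {r a M : ℝ} (hr : 0 ≤ r) (ha : 0 ≤ a) (hM : a ≤ M) :
    1 / r ^ p * a ≤ M * mbcK p r + a := by
  unfold mbcK
  split_ifs with h
  · rw [mul_comm M]
    exact (mul_le_mul_of_nonneg_left hM (by positivity)).trans (le_add_of_nonneg_right ha)
  · rw [mul_zero, zero_add]
    refine mul_le_of_le_one_left ha ?_
    exact div_le_one_of_le₀ (one_le_pow₀ (not_lt.1 h)) (by positivity)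

lemma coul_locInt (x : E3) {p : ℕ} (hp : p ≤ 2) :
    LocallyIntegrable (fun y => 1 / d3 x y ^ p) volume := by
  refine ((mbc_integrable hp x).locallyIntegrable.add (locallyIntegrable_const 1)).mono
    (((mbc_meas x).pow_const p).const_div 1).aestronglyMeasurable (ae_of_all _ fun y => ?_)
  have h0 := d3_nonneg x y
  have h1 := mbc_le p h0 zero_le_one le_rfl
  rw [Real.norm_of_nonneg (by positivity)]
  rw [mul_one, one_mul] at h1
  exact h1.trans (le_abs_self _)

lemma mbc_pot {ρ : E3 → ℝ} (hρ : Nice ρ) {M : ℝ} (hM : ∀ y, |ρ y| ≤ M) (x : E3) {p q : ℕ}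
    (h : p + q = 2) {c : ℝ} (hc : 4 * Real.pi / (q + 1) ≤ c) :
    ∫ y, |1 / d3 x y ^ p * ρ y| ≤ c * M + ∫ y, |ρ y| := by
  have hp : p ≤ 2 := by omega
  have h1 := (mbc_integrable hp x).const_mul M
  have h2 := hρ.abs.integrable
  have h3 : ∫ y, |1 / d3 x y ^ p * ρ y| ≤ ∫ y, (M * mbcK p (d3 x y) + |ρ y|) := by
    refine integral_mono (hρ.integrable_mul (coul_locInt x hp)).abs (h1.add h2) fun y => ?_
    have h0 := d3_nonneg x y
    simp only
    rw [abs_mul, abs_of_nonneg (by positivity)]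
    exact mbc_le p h0 (abs_nonneg _) (hM y)
  rw [integral_add h1 h2, integral_const_mul, mbc_ball h, mul_comm M] at h3
  exact h3.trans (add_le_add
    (mul_le_mul_of_nonneg_right hc ((abs_nonneg _).trans (hM 0))) le_rfl)

lemma pot1_le {ρ : E3 → ℝ} (hρ : Nice ρ) {M : ℝ} (hM : ∀ y, |ρ y| ≤ M) (x : E3) :
    |∫ y, 1 / d3 x y * ρ y| ≤ 7 * M + ∫ y, |ρ y| := by
  have h := mbc_pot hρ hM x (p := 1) (q := 1) rfl (c := 7) (by
    have := Real.pi_lt_d2
    push_cast
    linarith)
  simp only [pow_one] at h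
  exact (abs_integral_le_integral_abs).trans h

lemma pot2_le {ρ : E3 → ℝ} (hρ : Nice ρ) {M : ℝ} (hM : ∀ y, |ρ y| ≤ M) (x : E3) :
    |∫ y, 1 / d3 x y ^ 2 * ρ y| ≤ 13 * M + ∫ y, |ρ y| := by
  exact (abs_integral_le_integral_abs).trans (mbc_pot hρ hM x (p := 2) (q := 0) rfl (by
    have := Real.pi_lt_d2
    push_cast
    linarith))

/-- integrability on the product (`integrable_prod_iff`, `pot1_le`, `pot2_le`) -/
lemma coul_prod_integrable {ρ σ : E3 → ℝ} (hρ : Nice ρ) (hσ : Nice σ) {p : ℕ} (hp : p ≤ 2) :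
    Integrable (fun q : E3 × E3 => 1 / d3 q.1 q.2 ^ p * (ρ q.1 * σ q.2)) (volume.prod volume) := by
  have hm : AEStronglyMeasurable
      (fun q : E3 × E3 => 1 / d3 q.1 q.2 ^ p * (ρ q.1 * σ q.2)) (volume.prod volume) :=
    (((d3_cont.measurable.pow_const p).const_div 1).mul
      ((hρ.meas.comp measurable_fst).mul (hσ.meas.comp measurable_snd))).aestronglyMeasurable
  obtain ⟨M, hM⟩ := hσ.bd
  rw [integrable_prod_iff hm]
  refine ⟨ae_of_all _ fun x => ?_, Integrable.mono' (hρ.abs.integrable.mul_const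
    (4 * Real.pi / ((2 - p : ℕ) + 1) * M + ∫ y, |σ y|)) hm.norm.integral_prod_right'
    (ae_of_all _ fun x => ?_)⟩
  · simpa only [mul_left_comm (ρ x)] using (hσ.integrable_mul (coul_locInt x hp)).const_mul (ρ x)
  · rw [Real.norm_of_nonneg (integral_nonneg fun y => norm_nonneg _)]
    simp only [mul_left_comm _ (ρ x), Real.norm_eq_abs, abs_mul (ρ x)]
    rw [integral_const_mul]
    exact mul_le_mul_of_nonneg_left (mbc_pot hσ hM x (Nat.add_sub_cancel' hp) le_rfl)
      (abs_nonneg _)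

theorem Vs_meas' (s : ℝ) (l : List ((ℚ × ℚ × ℚ) × ℕ)) : Measurable (Vs s l) := by
  refine Measurable.neg ?_
  induction l with
  | nil => simp
  | cons a l ih =>
    simp only [List.map_cons, List.sum_cons, d3_comm _ (pt a.1)]
    exact ((mbc_meas _).const_div _).add ih

theorem Vs_locInt' (s : ℝ) (l : List ((ℚ × ℚ × ℚ) × ℕ)) :
    LocallyIntegrable (Vs s l) volume := by
  refine LocallyIntegrable.neg (f := fun x =>
    (l.map fun p => s * (p.2 : ℝ) / d3 x (pt p.1)).sum) ?_
  induction l with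
  | nil => simpa using locallyIntegrable_const (0 : ℝ)
  | cons a l ih =>
    simp only [List.map_cons, List.sum_cons, d3_comm _ (pt a.1)]
    refine LocallyIntegrable.add ?_ ih
    have := (coul_locInt (pt a.1) (p := 1) one_le_two).smul (s * (a.2 : ℝ))
    simpa [Pi.smul_def, div_eq_mul_inv] using this

end Vale.Agent.P370
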