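import Vale.Agent.P370.MBCoul
import Vale.Agent.P370.MBBes

/-! Part MB: matrix elements of the smooth functions `gt` versus the sharp functions `g`.

Plan: `∫ gt ^ 2 ≤ (1 + εd) ^ 2` (expand `gt = g - (g - gt)`, `abs_int_mul_le`).
`l1_close`: `gt gt' - g g' = (gt - g) gt' + g (gt' - g')`, `abs_int_mul_le`.
`cmat_close`: `D(ρ, σ) = ∫ x, ∫ y, 1 / d3 x y * (ρ x * σ y)` is bilinear on nice functions
(`coul_prod_integrable`), symmetric (`integral_integral_swap`, `d3_comm`) and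
`|D(ρ, σ)| ≤ (∫ |ρ|) * (7 M + ∫ |σ|)` if `|σ| ≤ M` (`pot1_le`).  Write
`D(ρ1, ρ2) - D(r1, r2) = D(ρ1 - r1, ρ2) + D(r1, ρ2 - r2)`; `∫ |ρ2| ≤ 4`, `∫ |r1| ≤ 1`. -/

namespace Vale.Agent.P370

open MeasureTheory

/-- the Coulomb pairing -/
noncomputable def entD (ρ σ : E3 → ℝ) : ℝ := ∫ x, ∫ y, 1 / d3 x y * (ρ x * σ y)

section pairing

variable {ρ σ ρ' σ' : E3 → ℝ}

lemma ent_int (hρ : Nice ρ) (hσ : Nice σ) :
    Integrable (fun q : E3 × E3 => 1 / d3 q.1 q.2 * (ρ q.1 * σ q.2)) (volume.prod volume) := by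
  simpa only [pow_one] using coul_prod_integrable hρ hσ (p := 1) one_le_two

lemma ent_prod (hρ : Nice ρ) (hσ : Nice σ) :
    entD ρ σ = ∫ q : E3 × E3, 1 / d3 q.1 q.2 * (ρ q.1 * σ q.2) ∂volume.prod volume :=
  (integral_prod _ (ent_int hρ hσ)).symm

lemma ent_symm (hρ : Nice ρ) (hσ : Nice σ) : entD ρ σ = entD σ ρ := by
  rw [entD, integral_integral_swap (f := fun x y => 1 / d3 x y * (ρ x * σ y)) (ent_int hρ hσ), entD]
  simp only [d3_comm, mul_comm]

lemma ent_le (hρ : Nice ρ) (hσ : Nice σ) {M A B : ℝ} (hM : ∀ y, |σ y| ≤ M) (hA : ∫ x, |ρ x| ≤ A)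
    (hB : ∫ y, |σ y| ≤ B) : |entD ρ σ| ≤ A * (7 * M + B) := by
  have h0 : 0 ≤ 7 * M + B := add_nonneg (mul_nonneg (by norm_num) ((abs_nonneg _).trans (hM 0)))
    ((integral_nonneg fun _ => abs_nonneg _).trans hB)
  refine (norm_integral_le_of_norm_le (f := fun x => ∫ y, 1 / d3 x y * (ρ x * σ y))
    (hρ.abs.integrable.mul_const (7 * M + B)) (ae_of_all _ fun x => ?_)).trans ?_
  · simp only [mul_left_comm _ (ρ x)]
    rw [integral_const_mul, Real.norm_eq_abs, abs_mul]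
    exact mul_le_mul_of_nonneg_left ((pot1_le hσ hM x).trans (by linarith)) (abs_nonneg _)
  · rw [integral_mul_const]
    exact mul_le_mul_of_nonneg_right hA h0

lemma ent_split (hρ : Nice ρ) (hσ : Nice σ) (hρ' : Nice ρ') (hσ' : Nice σ') :
    entD ρ σ - entD ρ' σ' = entD (fun x => ρ x - ρ' x) σ + entD (fun x => σ x - σ' x) ρ' := by
  rw [ent_symm (hσ.sub hσ') hρ', ent_prod hρ hσ, ent_prod hρ' hσ', ent_prod (hρ.sub hρ') hσ,
    ent_prod hρ' (hσ.sub hσ'), ← integral_sub (ent_int hρ hσ) (ent_int hρ' hσ'),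
    ← integral_add (ent_int (hρ.sub hρ') hσ) (ent_int hρ' (hσ.sub hσ'))]
  exact integral_congr_ae (ae_of_all _ fun q => by ring)

end pairing

variable {S : Type} [Fintype S] [DecidableEq S] {g gt : S → E3 → ℝ} {Mg εd : ℝ}

omit [Fintype S] [DecidableEq S] in
lemma ent_gt (hB : Basis g gt Mg εd) (h0 : 0 ≤ εd) (h1 : εd ≤ 1) (a : S) :
    ∫ x, gt a x ^ 2 ≤ 2 ^ 2 := by
  have n1 := (hB.nice_g a).sq.const_mul 2
  have n2 := ((hB.nice_g a).sub (hB.nice_gt a)).sq.const_mul 2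
  have h2 := integral_mono (hB.nice_gt a).sq.integrable (n1.add n2).integrable fun x => by
    nlinarith [sq_nonneg (2 * g a x - gt a x)]
  rw [integral_add n1.integrable n2.integrable, integral_const_mul, integral_const_mul,
    hB.g_norm] at h2
  nlinarith [hB.close a]

omit [Fintype S] [DecidableEq S] in
lemma ent_g (hB : Basis g gt Mg εd) (a : S) : ∫ x, g a x ^ 2 ≤ 1 ^ 2 := by
  rw [hB.g_norm, one_pow]

omit [Fintype S] [DecidableEq S] in
lemma ent_gg (hB : Basis g gt Mg εd) (a a' : S) : ∫ x, |g a x * g a' x| ≤ 1 := by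
  simpa only [mul_one] using abs_int_mul_le (hB.nice_g a) (hB.nice_g a') zero_le_one zero_le_one
    (ent_g hB a) (ent_g hB a')

omit [Fintype S] [DecidableEq S] in
lemma ent_bd {u : S → E3 → ℝ} (h : ∀ a x, |u a x| ≤ Mg) (a a' : S) (x : E3) :
    |u a x * u a' x| ≤ Mg ^ 2 := by
  rw [abs_mul, sq]
  exact mul_le_mul (h a x) (h a' x) (abs_nonneg _) ((abs_nonneg _).trans (h a x))

omit [Fintype S] [DecidableEq S] in
lemma ent_wex (g : S → E3 → ℝ) (a c : S) :
    wex g a c = entD (fun x => g a x * g a x) fun y => g c y * g c y := by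
  unfold wex entD
  congr 1
  funext x
  congr 1
  funext y
  ring

omit [Fintype S] [DecidableEq S] in
lemma l1_close (hB : Basis g gt Mg εd) (h0 : 0 ≤ εd) (h1 : εd ≤ 1) (a a' : S) :
    ∫ x, |gt a x * gt a' x - g a x * g a' x| ≤ 3 * εd := by
  have n1 := (hB.nice_g a).sub (hB.nice_gt a)
  have n2 := (hB.nice_g a').sub (hB.nice_gt a')
  have h2 := abs_int_mul_le n1 (hB.nice_gt a') h0 zero_le_two (hB.close a) (ent_gt hB h0 h1 a')
  have h3 := abs_int_mul_le (hB.nice_g a) n2 zero_le_one h0 (ent_g hB a) (hB.close a')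
  have m1 := (n1.mul (hB.nice_gt a')).abs
  have m2 := ((hB.nice_g a).mul n2).abs
  have h4 := integral_mono (((hB.nice_gt a).mul (hB.nice_gt a')).sub
    ((hB.nice_g a).mul (hB.nice_g a'))).abs.integrable (m1.add m2).integrable fun x => by
      refine le_of_eq_of_le ?_ (abs_add_le _ _)
      rw [← abs_neg]
      congr 1
      ring
  rw [integral_add m1.integrable m2.integrable] at h4
  linarith


omit [Fintype S] in
lemma gram_close (hB : Basis g gt Mg εd) (h0 : 0 ≤ εd) (h1 : εd ≤ 1) (a a' : S) :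
    |gram gt a a' - if a = a' then 1 else 0| ≤ 3 * εd := by
  rw [← hB.on.on a a', gram, ← integral_sub ((hB.nice_gt a).mul (hB.nice_gt a')).integrable
    ((hB.nice_g a).mul (hB.nice_g a')).integrable]
  exact abs_integral_le_integral_abs.trans (l1_close hB h0 h1 a a')


omit [Fintype S] [DecidableEq S] in
lemma wex_le (hB : Basis g gt Mg εd) (a c : S) : |wex g a c| ≤ 7 * Mg ^ 2 + 1 := by
  rw [ent_wex]
  simpa only [one_mul] using ent_le ((hB.nice_g a).mul (hB.nice_g a))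
    ((hB.nice_g c).mul (hB.nice_g c)) (ent_bd hB.g_bd c c) (ent_gg hB a a) (ent_gg hB c c)


omit [Fintype S] in
lemma cmat_close (hB : Basis g gt Mg εd) (h0 : 0 ≤ εd) (h1 : εd ≤ 1) (a a' c c' : S) :
    |cmat gt a a' c c' - if a = a' ∧ c = c' then wex g a c else 0| ≤ 42 * εd * (Mg ^ 2 + 1) := by
  have e : (if a = a' ∧ c = c' then wex g a c else 0) =
      entD (fun x => g a x * g a' x) fun y => g c y * g c' y := by
    split_ifs with h
    · rw [← h.1, ← h.2, ent_wex]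
    · rcases not_and_or.1 h with h | h <;> simp [entD, hB.g_disj _ _ h]
  have n1 := (hB.nice_gt a).mul (hB.nice_gt a')
  have n2 := (hB.nice_gt c).mul (hB.nice_gt c')
  have m1 := (hB.nice_g a).mul (hB.nice_g a')
  have m2 := (hB.nice_g c).mul (hB.nice_g c')
  have h2 := ent_le (n1.sub m1) n2 (ent_bd hB.gt_bd c c') (l1_close hB h0 h1 a a')
    (abs_int_mul_le (hB.nice_gt c) (hB.nice_gt c') zero_le_two zero_le_two (ent_gt hB h0 h1 c)
      (ent_gt hB h0 h1 c'))
  have h3 := ent_le (n2.sub m2) m1 (ent_bd hB.g_bd a a') (l1_close hB h0 h1 c c') (ent_gg hB a a')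
  rw [e]
  refine ((congrArg abs (ent_split n1 n2 m1 m2)).trans_le (abs_add_le _ _)).trans ?_
  linarith


end Vale.Agent.P370
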