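import Vale.Agent.P370.MBSchur

/-! Part MB: one-body and two-body terms with a Gram matrix close to the identity.

Plan: `δ a a' = if a = a' then 1 else 0`, `β = card S * γ`.  Write the lattice term as
`∑ k k', b k * b k' * (T (k i) (k' i) * ∏ l ≠ i, δ)` and apply `schur` to the difference
`(F - T) ∏ G + T (∏ G - ∏ δ)`.  Both pieces are (differences of) full products `∏ l, A l (k' l)` with
`A = Function.update ..`; use `row_prod`, `row_diff`, `pow_sub_one_le` (`(1 + β) ^ m ≤ 5 / 4`).
In `fin_two`: `|D - δ δ w| ∏ |G| ≤ κ ∏ l, A l (k' l)` with `A l = 1` for `l = i, j`. -/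

namespace Vale.Agent.P370

variable {S : Type} [Fintype S] [DecidableEq S] {N : ℕ} {G : S → S → ℝ} {γ : ℝ}

omit [Fintype S] [DecidableEq S] in
private lemma mbfin_split1 (i : Fin N) (c : ℝ) (f : Fin N → ℝ) :
    ∏ l, (if l = i then c else f l) = c * ∏ l ∈ Finset.univ.erase i, f l := by
  rw [← Finset.mul_prod_erase _ _ (Finset.mem_univ i), if_pos rfl]
  congr 1
  exact Finset.prod_congr rfl fun l hl => if_neg (Finset.ne_of_mem_erase hl)

omit [Fintype S] [DecidableEq S] in
private lemma mbfin_split2 {i j : Fin N} (hij : i ≠ j) (g f : Fin N → ℝ) :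
    ∏ l, (if l = i ∨ l = j then g l else f l) =
      g i * g j * ∏ l ∈ (Finset.univ.erase i).erase j, f l := by
  rw [← Finset.mul_prod_erase _ _ (Finset.mem_univ i), if_pos (Or.inl rfl),
    ← Finset.mul_prod_erase _ _ (Finset.mem_erase.2 ⟨hij.symm, Finset.mem_univ j⟩),
    if_pos (Or.inr rfl), mul_assoc]
  congr 2
  refine Finset.prod_congr rfl fun l hl => if_neg ?_
  simp only [Finset.mem_erase] at hl
  tauto

private lemma mbfin_hop (T : S → S → ℝ) (i : Fin N) (b : (Fin N → S) → ℝ) :
    hopN T i b = ∑ k, ∑ k', b k * b k' * (T (k i) (k' i) *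
      ∏ l ∈ Finset.univ.erase i, if k l = k' l then 1 else 0) := by
  refine Finset.sum_congr rfl fun k _ => ?_
  have h : ∀ a, b k * T (k i) a * b (Function.update k i a) =
      ∑ k', if Function.update k i a = k' then b k * T (k i) a * b k' else 0 := fun a => by simp
  rw [Finset.sum_congr rfl fun a _ => h a, Finset.sum_comm]
  refine Finset.sum_congr rfl fun k' _ => ?_
  simp only [Function.update_eq_iff, ite_and, Finset.sum_ite_eq', Finset.mem_univ, if_true,
    Finset.prod_ite_zero, Finset.mem_erase, and_true, Finset.prod_const_one]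
  split_ifs <;> ring

private lemma mbfin_d (a : S) : ∑ a', |if a = a' then (1 : ℝ) else 0| ≤ 1 := by
  simp [apply_ite abs]

private lemma mbfin_g (hG : ∀ a a', |G a a' - if a = a' then 1 else 0| ≤ γ) (a : S) :
    ∑ a', |G a a' - if a = a' then 1 else 0| ≤ Fintype.card S * γ :=
  (Finset.sum_le_sum fun a' _ => hG a a').trans (by simp)

theorem fin_one (hγ : 0 ≤ γ) (hGs : ∀ a a', G a a' = G a' a)
    (hG : ∀ a a', |G a a' - if a = a' then 1 else 0| ≤ γ)
    (hsm : N * (Fintype.card S * γ) ≤ 1 / 8) {F T : S → S → ℝ} {η tm : ℝ} (hη : 0 ≤ η)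
    (htm : 0 ≤ tm) (hFs : ∀ a a', F a a' = F a' a) (hTs : ∀ a a', T a a' = T a' a)
    (hF : ∀ a a', |F a a' - T a a'| ≤ η) (hT : ∀ a, ∑ a', |T a a'| ≤ tm) (i : Fin N)
    (b : (Fin N → S) → ℝ) :
    |∑ k, ∑ k', b k * b k' * (F (k i) (k' i) * ∏ l ∈ Finset.univ.erase i, G (k l) (k' l)) -
      hopN T i b| ≤
      (5 / 4 * (Fintype.card S * η) + 2 * (N * (Fintype.card S * γ)) * tm) * ∑ k, b k ^ 2 := by
  have hβ : 0 ≤ Fintype.card S * γ := by positivity
  rw [mbfin_hop, ← Finset.sum_sub_distrib]
  simp only [← Finset.sum_sub_distrib, ← mul_sub]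
  refine schur (fun k k' => ?_) (fun k => ?_) b
  · simp only [hFs (k i), hTs (k i), hGs (k _), eq_comm (a := k _)]
  · have h := row_diff (A := fun l a => if l = i then F (k i) a else G (k l) a)
      (A0 := fun l a => if l = i then T (k i) a else if k l = a then 1 else 0)
      (r := fun l => if l = i then tm else 1)
      (d := fun l => if l = i then Fintype.card S * η else Fintype.card S * γ)
      (fun l => by
        split_ifs
        · exact hT _
        · exact mbfin_d _)
      (fun l => by
        split_ifs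
        · exact (Finset.sum_le_sum fun a _ => hF _ a).trans (by simp)
        · exact mbfin_g hG _)
    have e : ∀ (k' : Fin N → S) (X : S → ℝ) (Y : Fin N → ℝ),
        ∏ l, (if l = i then X (k' l) else Y l) = X (k' i) * ∏ l ∈ Finset.univ.erase i, Y l := by
      intro k' X Y
      rw [← mbfin_split1]
      refine Finset.prod_congr rfl fun l _ => ?_
      split_ifs with hl
      · rw [hl]
      · rfl
    simp only [e, ite_add_ite, mbfin_split1, Finset.prod_const, one_pow, mul_one] at h
    have h1 := pow_sub_one_le hβ hsm (m := (Finset.univ.erase i).card)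
      ((Finset.card_le_univ _).trans (Fintype.card_fin N).le)
    have h2 : (0 : ℝ) ≤ Fintype.card S * η := by positivity
    refine h.trans ?_
    nlinarith [mul_le_mul_of_nonneg_left h1 htm, mul_le_mul_of_nonneg_left h1 h2,
      mul_le_mul_of_nonneg_left hsm h2]

theorem fin_two (hγ : 0 ≤ γ) (hGs : ∀ a a', G a a' = G a' a)
    (hG : ∀ a a', |G a a' - if a = a' then 1 else 0| ≤ γ)
    (hsm : N * (Fintype.card S * γ) ≤ 1 / 8) {D : S → S → S → S → ℝ} {w : S → S → ℝ} {κ wm : ℝ}
    (hκ : 0 ≤ κ) (hwm : 0 ≤ wm) (hDs : ∀ a a' c c', D a a' c c' = D a' a c' c)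
    (hD : ∀ a a' c c', |D a a' c c' - if a = a' ∧ c = c' then w a c else 0| ≤ κ)
    (hw : ∀ a c, |w a c| ≤ wm) {i j : Fin N} (hij : i ≠ j) (b : (Fin N → S) → ℝ) :
    |∑ k, ∑ k', b k * b k' * (D (k i) (k' i) (k j) (k' j) *
        ∏ l ∈ (Finset.univ.erase i).erase j, G (k l) (k' l)) - ∑ k, w (k i) (k j) * b k ^ 2| ≤
      (5 / 4 * (Fintype.card S ^ 2 * κ) + 2 * (N * (Fintype.card S * γ)) * wm) * ∑ k, b k ^ 2 := by
  have hβ : 0 ≤ Fintype.card S * γ := by positivity
  have e0 : ∑ k, w (k i) (k j) * b k ^ 2 =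
      ∑ k, ∑ k', b k * b k' * if k = k' then w (k i) (k j) else 0 :=
    Finset.sum_congr rfl fun k _ => by simp; ring
  rw [e0, ← Finset.sum_sub_distrib]
  simp only [← Finset.sum_sub_distrib, ← mul_sub]
  refine schur (fun k k' => ?_) (fun k => ?_) b
  · rw [hDs]
    congr 1
    · simp only [hGs (k _)]
    · by_cases hk : k = k'
      · rw [hk]
      · rw [if_neg hk, if_neg (Ne.symm hk)]
  · have h := row_diff
      (A := fun l a => if l = i ∨ l = j then if k l = a then 1 else 0 else G (k l) a)
      (A0 := fun l a => if k l = a then 1 else 0) (r := fun _ => 1)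
      (d := fun _ => Fintype.card S * γ) (fun l => mbfin_d _)
      (fun l => by
        split_ifs
        · simpa using hβ
        · exact mbfin_g hG _)
    have h' := row_prod (fun l a => if l = i ∨ l = j then 1 else |G (k l) a|)
    have h1 := pow_sub_one_le hβ hsm (m := N) le_rfl
    have h2 := pow_sub_one_le hβ hsm (m := ((Finset.univ.erase i).erase j).card)
      ((Finset.card_le_univ _).trans (Fintype.card_fin N).le)
    have h3 : ∏ l, ∑ a, (if l = i ∨ l = j then 1 else |G (k l) a|) ≤
        ∏ l, if l = i ∨ l = j then (Fintype.card S : ℝ) else 1 + Fintype.card S * γ := by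
      refine Finset.prod_le_prod (fun l _ => Finset.sum_nonneg fun a _ => ?_) fun l _ => ?_
      · split_ifs
        · exact zero_le_one
        · exact abs_nonneg _
      · split_ifs
        · simp
        · refine le_trans (Finset.sum_le_sum fun a _ => ?_)
            (Finset.sum_add_distrib.le.trans (add_le_add (mbfin_d (k l)) (mbfin_g hG (k l))))
          simpa using abs_add_le (if k l = a then (1 : ℝ) else 0) (G (k l) a - if k l = a then 1 else 0)
    rw [← h'] at h3
    simp only [mbfin_split2 hij, Finset.prod_const, one_pow, Finset.card_univ, Fintype.card_fin,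
      one_mul, ← Finset.abs_prod] at h h3
    have h4 : ∀ k' : Fin N → S, |D (k i) (k' i) (k j) (k' j) *
        ∏ l ∈ (Finset.univ.erase i).erase j, G (k l) (k' l) - if k = k' then w (k i) (k j) else 0| ≤
        κ * |∏ l ∈ (Finset.univ.erase i).erase j, G (k l) (k' l)| +
        wm * |(if k i = k' i then 1 else 0) * (if k j = k' j then 1 else 0) *
          ∏ l ∈ (Finset.univ.erase i).erase j, G (k l) (k' l) -
            ∏ l, if k l = k' l then 1 else 0| := by
      intro k'
      have e1 : (if k = k' then w (k i) (k j) else 0) =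
          w (k i) (k j) * ∏ l, if k l = k' l then 1 else 0 := by
        simp [Finset.prod_ite_zero, funext_iff]
      have e2 : (if k i = k' i ∧ k j = k' j then w (k i) (k j) else 0) =
          w (k i) (k j) * ((if k i = k' i then 1 else 0) * if k j = k' j then 1 else 0) := by
        by_cases h7 : k i = k' i <;> by_cases h8 : k j = k' j <;> simp [h7, h8]
      have h5 := hD (k i) (k' i) (k j) (k' j)
      rw [e2] at h5
      rw [e1]
      refine le_trans ?_ (add_le_add (mul_le_mul_of_nonneg_right h5 (abs_nonneg _))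
        (mul_le_mul_of_nonneg_right (hw (k i) (k j)) (abs_nonneg _)))
      rw [← abs_mul, ← abs_mul]
      refine le_trans (le_of_eq ?_) (abs_add_le _ _)
      congr 1
      ring
    refine (Finset.sum_le_sum fun k' _ => h4 k').trans ?_
    rw [Finset.sum_add_distrib, ← Finset.mul_sum, ← Finset.mul_sum]
    have h6 : (0 : ℝ) ≤ κ * (Fintype.card S * Fintype.card S) := by positivity
    nlinarith [mul_le_mul_of_nonneg_left h3 hκ, mul_le_mul_of_nonneg_left (h.trans h1) hwm,
      mul_le_mul_of_nonneg_left h2 h6, mul_le_mul_of_nonneg_left hsm h6]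

end Vale.Agent.P370
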