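import Vale.Agent.P370.MBBes

/-! Part MB: bilinearity of `form1` and the `L²` estimates used in the perturbation lemma.

Plan: `Test1` is closed under linear combinations, `grad` is linear (`fderiv_add`, `fderiv_fun_sum`),
all integrands are integrable by `Test1.nice`, `Test1.nice_grad`, `Nice.integrable_mul`.
`form1_par` is a pointwise identity under the integral.  With `c = coef g ψ`:
`∑ c gt = ∑ c g - ∑ c (g - gt)` and `ψ - ∑ c gt = (ψ - ∑ c g) + ∑ c (g - gt)`; use
`(u + v) ^ 2 ≤ 2 u ^ 2 + 2 v ^ 2`, `sq_comb`, `bessel_sq`, `sq_sum_le`, `hB.close`. -/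

namespace Vale.Agent.P370

open MeasureTheory

variable {S : Type} [Fintype S] [DecidableEq S] {g gt : S → E3 → ℝ} {Mg εd : ℝ} {V : E3 → ℝ}

lemma Test1.add {f h : E3 → ℝ} (hf : Test1 f) (hh : Test1 h) : Test1 fun x => f x + h x :=
  ⟨hf.1.add hh.1, hf.2.add hh.2⟩

lemma Test1.sub {f h : E3 → ℝ} (hf : Test1 f) (hh : Test1 h) : Test1 fun x => f x - h x :=
  ⟨hf.1.sub hh.1, hf.2.sub hh.2⟩

omit [DecidableEq S] in
lemma test1_comb (h : ∀ a, Test1 (gt a)) (c : S → ℝ) : Test1 fun x => ∑ a, c a * gt a x := by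
  refine ⟨ContDiff.sum fun a _ => contDiff_const.mul (h a).1, ?_⟩
  have := HasCompactSupport.finset_sum (s := Finset.univ) (f := fun a x => c a * gt a x)
    fun a _ => (h a).2.mul_left (f := fun _ => c a)
  rwa [Finset.sum_fn] at this

lemma mbf_diff {f : E3 → ℝ} (hf : Test1 f) (x : E3) : DifferentiableAt ℝ f x :=
  hf.1.differentiable one_ne_zero x

lemma mbf_grad_add {f h : E3 → ℝ} (hf : Test1 f) (hh : Test1 h) (x : E3) (k : Fin 3) :
    grad (fun x => f x + h x) x k = grad f x k + grad h x k := by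
  unfold grad
  rw [fderiv_fun_add (mbf_diff hf x) (mbf_diff hh x)]
  rfl

lemma mbf_grad_sub {f h : E3 → ℝ} (hf : Test1 f) (hh : Test1 h) (x : E3) (k : Fin 3) :
    grad (fun x => f x - h x) x k = grad f x k - grad h x k := by
  unfold grad
  rw [fderiv_fun_sub (mbf_diff hf x) (mbf_diff hh x)]
  rfl

omit [DecidableEq S] in
lemma mbf_grad_comb (h : ∀ a, Test1 (gt a)) (c : S → ℝ) (x : E3) (k : Fin 3) :
    grad (fun x => ∑ a, c a * gt a x) x k = ∑ a, c a * grad (gt a) x k := by
  unfold grad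
  rw [fderiv_fun_sum fun a _ => (mbf_diff (h a) x).const_mul _]
  simp only [fderiv_const_mul (mbf_diff (h _) x), sum_apply,
    smul_apply, smul_eq_mul]

lemma mbf_int (hV : LocallyIntegrable V volume) {f h : E3 → ℝ} (hf : Test1 f) (hh : Test1 h) :
    Integrable fun x => 1 / 2 * ∑ k, grad f x k * grad h x k + V x * (f x * h x) :=
  ((nice_sum _ fun k _ => (hf.nice_grad k).mul (hh.nice_grad k)).const_mul _).integrable.add
    ((hf.nice.mul hh.nice).integrable_mul hV)

lemma form1_add_pot (hV : LocallyIntegrable V volume) {U : E3 → ℝ}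
    (hU : LocallyIntegrable U volume) {f h : E3 → ℝ} (hf : Test1 f) (hh : Test1 h) :
    form1 (fun x => V x + U x) f h = form1 V f h + ∫ x, U x * (f x * h x) := by
  unfold form1
  rw [← integral_add (mbf_int hV hf hh) ((hf.nice.mul hh.nice).integrable_mul hU)]
  exact integral_congr_ae (ae_of_all _ fun x => by ring)

lemma form1_par (hV : LocallyIntegrable V volume) {f h : E3 → ℝ} (hf : Test1 f) (hh : Test1 h) :
    form1 V (fun x => f x - h x) (fun x => f x - h x) +
      form1 V (fun x => f x + h x) (fun x => f x + h x) = 2 * form1 V f f + 2 * form1 V h h := by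
  unfold form1
  rw [← integral_add (mbf_int hV (hf.sub hh) (hf.sub hh)) (mbf_int hV (hf.add hh) (hf.add hh)),
    ← integral_const_mul, ← integral_const_mul,
    ← integral_add ((mbf_int hV hf hf).const_mul _) ((mbf_int hV hh hh).const_mul _)]
  refine integral_congr_ae (ae_of_all _ fun x => ?_)
  simp only [mbf_grad_add hf hh, mbf_grad_sub hf hh, Fin.sum_univ_three]
  ring

lemma n2_par {f h : E3 → ℝ} (hf : Nice f) (hh : Nice h) :
    n2 (fun x => f x - h x) + n2 (fun x => f x + h x) = 2 * n2 f + 2 * n2 h := by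
  unfold n2
  rw [← integral_add (hf.sub hh).sq.integrable (hf.add hh).sq.integrable,
    ← integral_const_mul, ← integral_const_mul,
    ← integral_add (hf.sq.const_mul _).integrable (hh.sq.const_mul _).integrable]
  exact integral_congr_ae (ae_of_all _ fun x => by ring)

omit [DecidableEq S] in
lemma form1_comb (hV : LocallyIntegrable V volume) (h : ∀ a, Test1 (gt a)) (c : S → ℝ) :
    form1 V (fun x => ∑ a, c a * gt a x) (fun x => ∑ a, c a * gt a x) =
      qf (fun a a' => form1 V (gt a) (gt a')) c := by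
  have hi := fun a a' => ((mbf_int hV (h a) (h a')).const_mul (c a)).mul_const (c a')
  unfold form1 qf
  simp only [← integral_const_mul, ← integral_mul_const]
  rw [Finset.sum_congr rfl fun a _ => (integral_finsetSum _ fun a' _ => hi a a').symm,
    ← integral_finsetSum _ fun a _ => integrable_finsetSum _ fun a' _ => hi a a']
  refine integral_congr_ae (ae_of_all _ fun x => ?_)
  simp only [mbf_grad_comb h, Fin.sum_univ_three, Finset.sum_mul_sum]
  simp only [mul_add, Finset.mul_sum, ← Finset.sum_add_distrib]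
  exact Finset.sum_congr rfl fun a _ => Finset.sum_congr rfl fun a' _ => by ring

lemma kin_le (hV : LocallyIntegrable V volume) {Cb : ℝ} (hlow : ∀ x, -Cb ≤ V x) {f : E3 → ℝ}
    (hf : Test1 f) : kin f ≤ 2 * form1 V f f + 2 * Cb * n2 f := by
  unfold kin form1 n2
  rw [← integral_const_mul, ← integral_const_mul,
    ← integral_add ((mbf_int hV hf hf).const_mul _) (hf.nice.sq.const_mul _).integrable]
  refine integral_mono (nice_sum _ fun k _ => (hf.nice_grad k).sq).integrable
    (((mbf_int hV hf hf).const_mul _).add (hf.nice.sq.const_mul _).integrable) fun x => ?_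
  simp only [Fin.sum_univ_three]
  nlinarith [mul_le_mul_of_nonneg_right (hlow x) (sq_nonneg (f x))]

omit [DecidableEq S] in
lemma qf_close {A B : S → S → ℝ} {θ : ℝ} (h : ∀ a a', |A a a' - B a a'| ≤ θ) (c : S → ℝ) :
    |qf A c - qf B c| ≤ Fintype.card S * θ * ∑ a, c a ^ 2 := by
  have e : qf A c - qf B c = ∑ a, ∑ a', c a * (A a a' - B a a') * c a' := by
    simp only [qf, ← Finset.sum_sub_distrib]
    exact Finset.sum_congr rfl fun a _ => Finset.sum_congr rfl fun a' _ => by ring
  have e2 : Fintype.card S * θ * ∑ a, c a ^ 2 = ∑ a, ∑ a', θ / 2 * (c a ^ 2 + c a' ^ 2) := by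
    simp only [mul_add, Finset.sum_add_distrib, Finset.sum_const, Finset.card_univ, nsmul_eq_mul,
      ← Finset.mul_sum]
    ring
  rw [e, e2]
  refine (Finset.abs_sum_le_sum_abs _ _).trans (Finset.sum_le_sum fun a _ =>
    (Finset.abs_sum_le_sum_abs _ _).trans (Finset.sum_le_sum fun a' _ => ?_))
  rw [abs_mul, abs_mul, ← sq_abs (c a), ← sq_abs (c a')]
  have h1 := h a a'
  have h2 := abs_nonneg (A a a' - B a a')
  have h3 := mul_nonneg (abs_nonneg (c a)) (abs_nonneg (c a'))
  nlinarith [mul_le_mul_of_nonneg_left h1 h3, mul_nonneg (h2.trans h1) (sq_nonneg (|c a| - |c a'|))]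

lemma mbf_n2_add {f h : E3 → ℝ} (hf : Nice f) (hh : Nice h) :
    n2 (fun x => f x + h x) ≤ 2 * n2 f + 2 * n2 h := by
  have h0 : 0 ≤ n2 (fun x => f x - h x) := integral_nonneg fun x => sq_nonneg _
  linarith [n2_par hf hh]

omit [DecidableEq S] in
lemma mbf_err (hB : Basis g gt Mg εd) (c : S → ℝ) :
    n2 (fun x => ∑ a, c a * (g a x - gt a x)) ≤ Fintype.card S * εd ^ 2 * ∑ a, c a ^ 2 := by
  refine (sq_sum_le (u := fun a x => g a x - gt a x)
    (fun a => ((hB.nice_g a).sub (hB.nice_gt a)).sq.integrable) c).trans ?_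
  rw [mul_comm]
  refine mul_le_mul_of_nonneg_right ?_ (Finset.sum_nonneg fun a _ => sq_nonneg _)
  simpa using Finset.sum_le_card_nsmul Finset.univ _ _ fun a _ => hB.close a

omit [DecidableEq S] in
lemma mbf_nice_err (hB : Basis g gt Mg εd) (c : S → ℝ) :
    Nice fun x => ∑ a, c a * (g a x - gt a x) :=
  nice_sum _ fun a _ => ((hB.nice_g a).sub (hB.nice_gt a)).const_mul _

lemma n2_comb_le (hB : Basis g gt Mg εd) (c : S → ℝ) :
    n2 (fun x => ∑ a, c a * gt a x) ≤ (2 + 2 * (Fintype.card S * εd ^ 2)) * ∑ a, c a ^ 2 := by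
  have h1 := n2_par (bes_nice hB.on c) (mbf_nice_err hB c)
  have h2 : 0 ≤ n2 (fun x => ∑ a, c a * g a x + ∑ a, c a * (g a x - gt a x)) :=
    integral_nonneg fun x => sq_nonneg _
  have h3 : n2 (fun x => ∑ a, c a * g a x) = ∑ a, c a ^ 2 := sq_comb hB.on c
  have e : (fun x => ∑ a, c a * g a x - ∑ a, c a * (g a x - gt a x)) =
      fun x => ∑ a, c a * gt a x := by
    funext x
    simp [mul_sub]
  rw [e, h3] at h1
  linarith [mbf_err hB c]

omit [Fintype S] [DecidableEq S] in
lemma mbf_coef (g : S → E3 → ℝ) (ψ : E3 → ℝ) (a : S) : ∫ y, ψ y * g a y = coef g ψ a := by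
  simp only [coef, mul_comm]

lemma n2_rest_le (hB : Basis g gt Mg εd) {ψ : E3 → ℝ} (hψ : Nice ψ) :
    n2 (fun x => ψ x - ∑ a, coef g ψ a * gt a x) ≤ 2 * (n2 ψ - ∑ a, coef g ψ a ^ 2) +
      2 * (Fintype.card S * εd ^ 2) * ∑ a, coef g ψ a ^ 2 := by
  have h1 := mbf_n2_add (hψ.sub (bes_nice hB.on (coef g ψ))) (mbf_nice_err hB (coef g ψ))
  have h3 : n2 (fun x => ψ x - ∑ a, coef g ψ a * g a x) = n2 ψ - ∑ a, coef g ψ a ^ 2 := by
    simpa only [mbf_coef, n2] using bessel_sq hB.on hψ
  have e : (fun x => ψ x - ∑ a, coef g ψ a * g a x + ∑ a, coef g ψ a * (g a x - gt a x)) =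
      fun x => ψ x - ∑ a, coef g ψ a * gt a x := by
    funext x
    simp [mul_sub]
  rw [e, h3] at h1
  linarith [mbf_err hB (coef g ψ)]

lemma coef_sq_le (hB : Basis g gt Mg εd) {ψ : E3 → ℝ} (hψ : Nice ψ) :
    ∑ a, coef g ψ a ^ 2 ≤ n2 ψ := by
  simpa only [mbf_coef, n2] using bessel_le hB.on hψ

end Vale.Agent.P370
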