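import Vale.Agent.P370.MBCoul

/-! Part MB: product formulas on configuration space.

Plan: `integral_one` is `integral_fintype_prod_volume_eq_prod` (and `Integrable.fintype_prod`) for
`Function.update h i (V * h i)`.  `integral_two`: split the coordinates into `i`, `j` and the rest
(`integral_ins` twice, `Fin.prod_univ_succAbove`, or `measurePreserving_piEquivPiSubtypeProd`).
Local integrability: `locallyIntegrable_iff`; a compact set lies in a ball of radius `R`, take
`h l = indicator (closedBall 0 R) 1`.  `integral_perm`: `volume_preserving_arrowCongr'` or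
`measurePreserving_piCongrLeft`. -/

namespace Vale.Agent.P370

open MeasureTheory

variable {N : ℕ}

lemma integral_one {V : E3 → ℝ} (hV : LocallyIntegrable V volume) {h : Fin N → E3 → ℝ}
    (hh : ∀ l, Nice (h l)) (i : Fin N) :
    Integrable (fun x : EN N => V (x i) * ∏ l, h l (x l)) ∧
    ∫ x : EN N, V (x i) * ∏ l, h l (x l) =
      (∫ y, V y * h i y) * ∏ l ∈ Finset.univ.erase i, ∫ y, h l y := by
  have e : ∀ x : EN N, V (x i) * ∏ l, h l (x l) =
      ∏ l, Function.update h i (fun y => V y * h i y) l (x l) := fun x => by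
    rw [← Finset.mul_prod_erase _ _ (Finset.mem_univ i),
      ← Finset.mul_prod_erase _ _ (Finset.mem_univ i), Function.update_self, mul_assoc]
    congr 2
    exact Finset.prod_congr rfl fun l hl => by rw [Function.update_of_ne (Finset.ne_of_mem_erase hl)]
  simp only [e]
  refine ⟨Integrable.fintype_prod (f := Function.update h i fun y => V y * h i y) fun l => ?_, ?_⟩
  · by_cases c : l = i
    · rw [c, Function.update_self]
      exact (hh i).integrable_mul hV
    · rw [Function.update_of_ne c]
      exact (hh l).integrable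
  · rw [integral_fintype_prod_volume_eq_prod (Function.update h i fun y => V y * h i y),
      ← Finset.mul_prod_erase _ _ (Finset.mem_univ i), Function.update_self]
    congr 1
    exact Finset.prod_congr rfl fun l hl => by rw [Function.update_of_ne (Finset.ne_of_mem_erase hl)]

lemma fub_mp {i j : Fin N} (hij : i ≠ j) : MeasurePreserving
    (fun x : EN N => ((x i, x j), fun l : {l // ¬ (l = i ∨ l = j)} => x l)) volume
    ((volume.prod volume).prod volume) := by
  have hb : Function.Bijective fun t : Fin 2 =>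
      (⟨![i, j] t, by fin_cases t <;> simp⟩ : {l // l = i ∨ l = j}) := by
    refine ⟨fun t t' e => ?_, ?_⟩
    · fin_cases t <;> fin_cases t' <;> simp_all [hij.symm]
    · rintro ⟨l, rfl | rfl⟩
      exacts [⟨0, rfl⟩, ⟨1, rfl⟩]
  have h1 := (volume_preserving_finTwoArrow E3).comp (volume_preserving_arrowCongr'
    (Equiv.ofBijective _ hb).symm (MeasurableEquiv.refl E3) (MeasurePreserving.id _))
  exact (h1.prod (MeasurePreserving.id volume)).comp
    (volume_preserving_piEquivPiSubtypeProd (fun _ : Fin N => E3) fun l => l = i ∨ l = j)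

lemma integral_two {i j : Fin N} (hij : i ≠ j) {K : E3 → E3 → ℝ} {h : Fin N → E3 → ℝ}
    (hh : ∀ l, Nice (h l))
    (hK : Integrable (fun q : E3 × E3 => K q.1 q.2 * (h i q.1 * h j q.2)) (volume.prod volume)) :
    Integrable (fun x : EN N => K (x i) (x j) * ∏ l, h l (x l)) ∧
    ∫ x : EN N, K (x i) (x j) * ∏ l, h l (x l) =
      (∫ y, ∫ z, K y z * (h i y * h j z)) * ∏ l ∈ (Finset.univ.erase i).erase j, ∫ y, h l y := by
  have e : ∀ c : Fin N → ℝ, ∏ l ∈ (Finset.univ.erase i).erase j, c l =
      ∏ l : {l // ¬ (l = i ∨ l = j)}, c l := fun c =>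
    Finset.prod_subtype _ (fun l => by simp [and_comm]) c
  have e' : ∀ x : EN N, K (x i) (x j) * ∏ l, h l (x l) =
      K (x i) (x j) * (h i (x i) * h j (x j)) * ∏ l : {l // ¬ (l = i ∨ l = j)}, h l (x l) := by
    intro x
    rw [← e fun l => h l (x l), ← Finset.mul_prod_erase _ _ (Finset.mem_univ i),
      ← Finset.mul_prod_erase _ _ (Finset.mem_erase.2 ⟨hij.symm, Finset.mem_univ j⟩)]
    ring
  have i1 := hK.mul_prod (Integrable.fintype_prod
    (f := fun l : {l // ¬ (l = i ∨ l = j)} => h l) fun l => (hh l).integrable)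
  have m := fub_mp hij
  simp only [e']
  refine ⟨m.integrable_comp_of_integrable i1, ?_⟩
  have h2 := integral_map m.aemeasurable (m.map_eq.symm ▸ i1.aestronglyMeasurable)
  rw [m.map_eq] at h2
  refine h2.symm.trans ?_
  rw [e, ← integral_fintype_prod_volume_eq_prod fun l : {l // ¬ (l = i ∨ l = j)} => h l,
    ← integral_prod _ hK]
  exact integral_prod_mul (fun q : E3 × E3 => K q.1 q.2 * (h i q.1 * h j q.2))
    fun u : {l // ¬ (l = i ∨ l = j)} → E3 => ∏ l : {l // ¬ (l = i ∨ l = j)}, h l (u l)

lemma fub_nice (R : ℝ) : Nice ((Metric.closedBall (0 : E3) R).indicator fun _ => (1 : ℝ)) := by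
  refine ⟨measurable_const.indicator measurableSet_closedBall, ⟨1, fun x => ?_⟩, ⟨R, fun x hx => ?_⟩⟩
  · by_cases c : x ∈ Metric.closedBall (0 : E3) R <;> simp [c]
  · simpa using Set.mem_of_indicator_ne_zero hx

lemma fub_loc {F : EN N → ℝ} (hF : ∀ R : ℝ, Integrable fun x : EN N =>
    F x * ∏ l, (Metric.closedBall (0 : E3) R).indicator (fun _ => (1 : ℝ)) (x l)) :
    LocallyIntegrable F volume := by
  refine locallyIntegrable_iff.2 fun k hk => ?_
  obtain ⟨R, hR⟩ := hk.isBounded.exists_norm_le
  refine (hF R).integrableOn.congr_fun (fun x hx => ?_) hk.measurableSet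
  refine mul_right_eq_self₀.2 (.inl (Finset.prod_eq_one fun l _ => Set.indicator_of_mem ?_ _))
  simpa using (norm_le_pi_norm x l).trans (hR x hx)

lemma locInt_one {V : E3 → ℝ} (hV : LocallyIntegrable V volume) (i : Fin N) :
    LocallyIntegrable (fun x : EN N => V (x i)) volume := by
  exact fub_loc fun R => (integral_one hV (fun _ => fub_nice R) i).1

lemma locInt_two {i j : Fin N} (hij : i ≠ j) {p : ℕ} (hp : p ≤ 2) :
    LocallyIntegrable (fun x : EN N => 1 / d3 (x i) (x j) ^ p) volume := by
  exact fub_loc fun R => (integral_two hij (K := fun y z => 1 / d3 y z ^ p) (fun _ => fub_nice R)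
    (coul_prod_integrable (fub_nice R) (fub_nice R) hp)).1

lemma locInt_coul {i j : Fin N} (hij : i ≠ j) :
    LocallyIntegrable (fun x : EN N => 1 / d3 (x i) (x j)) volume := by
  simpa using locInt_two hij (p := 1) one_le_two

lemma integral_perm (π : Equiv.Perm (Fin N)) (F : EN N → ℝ) : ∫ x : EN N, F (x ∘ π) = ∫ x, F x := by
  exact (volume_preserving_arrowCongr' π.symm (MeasurableEquiv.refl E3)
    (MeasurePreserving.id _)).integral_comp' F

end Vale.Agent.P370
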