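import Vale.Agent.P370.MBFub
import Vale.Agent.P370.MBBes

/-! Part MB: lower bound for the interaction of a pair.

Plan: `Φ = lc g b`.  Disjoint supports: `tp g k x * tp g k' x = 0` for `k ≠ k'`, so
`Φ x ^ 2 = ∑ k, b k ^ 2 * ∏ l, g (k l) (x l) ^ 2`; use `integral_two`, `coul_prod_integrable`,
`g_norm`, and `pot2_le` (density `g ^ 2 ≤ Mg ^ 2`, mass one).  `pair_lower`: with `W = 1 / d3 ≥ 0`,
`X = f - Φ`: pointwise `W f² ≥ W Φ² + 2 W Φ X ≥ W Φ² - t W² Φ² - X² / t`; `bessel_sq` for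
`hB.on.tp` computes `∫ X²`. -/

namespace Vale.Agent.P370

open MeasureTheory

variable {S : Type} [Fintype S] [DecidableEq S] {g gt : S → E3 → ℝ} {Mg εd : ℝ} {N : ℕ}

omit [DecidableEq S] in
private lemma mi_sq (hB : Basis g gt Mg εd) (b : (Fin N → S) → ℝ) (x : EN N) :
    lc g b x ^ 2 = ∑ k, b k ^ 2 * ∏ l, g (k l) (x l) ^ 2 := by
  rw [lc, sq, Finset.sum_mul_sum]
  refine Finset.sum_congr rfl fun k _ => ?_
  rw [Finset.sum_eq_single k]
  · rw [Finset.prod_pow, tp]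
    ring
  · intro k' _ hk
    obtain ⟨l, hl⟩ := Function.ne_iff.1 hk
    have : tp g k x * tp g k' x = 0 := by
      rw [tp, tp, ← Finset.prod_mul_distrib]
      exact Finset.prod_eq_zero (Finset.mem_univ l) (hB.g_disj _ _ (Ne.symm hl) _)
    rw [mul_mul_mul_comm, this, mul_zero]
  · simp

private lemma mi_int (hB : Basis g gt Mg εd) {i j : Fin N} (hij : i ≠ j) (b : (Fin N → S) → ℝ)
    {p : ℕ} (hp : p ≤ 2) : ∫ x : EN N, 1 / d3 (x i) (x j) ^ p * lc g b x ^ 2 =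
      ∑ k, b k ^ 2 * ∫ y, ∫ z, 1 / d3 y z ^ p * (g (k i) y ^ 2 * g (k j) z ^ 2) := by
  have h := fun k : Fin N → S => integral_two hij (K := fun y z => 1 / d3 y z ^ p)
    (h := fun l y => g (k l) y ^ 2) (fun l => (hB.nice_g _).sq)
    (coul_prod_integrable (hB.nice_g _).sq (hB.nice_g _).sq hp)
  simp only [mi_sq hB, Finset.mul_sum, mul_left_comm _ (b _ ^ 2)]
  rw [integral_finsetSum _ fun k _ => (h k).1.const_mul _]
  refine Finset.sum_congr rfl fun k _ => ?_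
  rw [integral_const_mul, (h k).2]
  simp only [hB.g_norm, Finset.prod_const_one, mul_one]

lemma WN_lc (hB : Basis g gt Mg εd) {i j : Fin N} (hij : i ≠ j) (b : (Fin N → S) → ℝ) :
    WN i j (lc g b) = ∑ k, wex g (k i) (k j) * b k ^ 2 := by
  have h := mi_int hB hij b (p := 1) one_le_two
  simp only [pow_one] at h
  rw [WN, h]
  refine Finset.sum_congr rfl fun k _ => ?_
  rw [mul_comm, wex]
  simp only [one_div_mul_eq_div]

lemma W2_lc (hB : Basis g gt Mg εd) {i j : Fin N} (hij : i ≠ j) (b : (Fin N → S) → ℝ) :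
    ∫ x : EN N, 1 / d3 (x i) (x j) ^ 2 * lc g b x ^ 2 ≤ (13 * Mg ^ 2 + 1) * ∑ k, b k ^ 2 := by
  rw [mi_int hB hij b le_rfl, Finset.mul_sum]
  refine Finset.sum_le_sum fun k _ => ?_
  rw [mul_comm]
  refine mul_le_mul_of_nonneg_right ?_ (sq_nonneg _)
  have h1 : ∀ y, ∫ z, 1 / d3 y z ^ 2 * (g (k i) y ^ 2 * g (k j) z ^ 2) ≤
      (13 * Mg ^ 2 + 1) * g (k i) y ^ 2 := by
    intro y
    have h2 := pot2_le (hB.nice_g (k j)).sq (M := Mg ^ 2) (fun z => by
      rw [abs_pow]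
      exact pow_le_pow_left₀ (abs_nonneg _) (hB.g_bd _ _) 2) y
    simp only [abs_pow, sq_abs, hB.g_norm] at h2
    simp only [mul_left_comm _ (g (k i) y ^ 2)]
    rw [integral_const_mul, mul_comm]
    exact mul_le_mul_of_nonneg_right (le_of_abs_le h2) (sq_nonneg _)
  refine (integral_mono_of_nonneg (ae_of_all _ fun y => integral_nonneg fun z => ?_)
    ((hB.nice_g (k i)).sq.integrable.const_mul _) (ae_of_all _ h1)).trans ?_
  · positivity
  · rw [integral_const_mul, hB.g_norm, mul_one]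

theorem pair_lower (hB : Basis g gt Mg εd) {i j : Fin N} (hij : i ≠ j) {f : EN N → ℝ}
    (hf : Nice f) {t : ℝ} (ht : 0 < t) :
    ∑ k, wex g (k i) (k j) * cfm g f k ^ 2 - t * ((13 * Mg ^ 2 + 1) * ∑ k, cfm g f k ^ 2) -
      ((∫ x, f x ^ 2) - ∑ k, cfm g f k ^ 2) / t ≤ WN i j f := by
  have hΦ : Nice (lc g (cfm g f)) := nice_lc hB.nice_g _
  have hX : ∫ x, (f x - lc g (cfm g f) x) ^ 2 = (∫ x, f x ^ 2) - ∑ k, cfm g f k ^ 2 :=
    bessel_sq hB.on.tp hf
  have i1 := hΦ.sq.integrable_mul (locInt_coul hij)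
  have i2 := hΦ.sq.integrable_mul (locInt_two hij le_rfl)
  have i3 := (hf.sub hΦ).sq.integrable
  have i4 := hf.sq.integrable_mul (locInt_coul hij)
  have h1 : ∫ x : EN N, (1 / d3 (x i) (x j) * lc g (cfm g f) x ^ 2 -
      t * (1 / d3 (x i) (x j) ^ 2 * lc g (cfm g f) x ^ 2) - (f x - lc g (cfm g f) x) ^ 2 / t) ≤
      WN i j f := by
    refine integral_mono ((i1.sub (i2.const_mul t)).sub (i3.div_const t)) i4 fun x => ?_
    have hW : 0 ≤ 1 / d3 (x i) (x j) := one_div_nonneg.2 (d3_nonneg _ _)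
    simp only [← one_div_pow]
    generalize 1 / d3 (x i) (x j) = W at *
    generalize lc g (cfm g f) x = Φ
    obtain ⟨X, hX⟩ : ∃ X, f x = Φ + X := ⟨f x - Φ, by ring⟩
    rw [hX, add_sub_cancel_left]
    have h2 : 0 ≤ (t * W * Φ + X) ^ 2 / t := by positivity
    have h3 : (t * W * Φ + X) ^ 2 / t = t * (W ^ 2 * Φ ^ 2) + 2 * W * Φ * X + X ^ 2 / t := by
      field_simp
      ring
    have h4 := mul_nonneg hW (sq_nonneg X)
    linarith
  have i5 : Integrable fun x : EN N => 1 / d3 (x i) (x j) * lc g (cfm g f) x ^ 2 -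
      t * (1 / d3 (x i) (x j) ^ 2 * lc g (cfm g f) x ^ 2) := i1.sub (i2.const_mul t)
  rw [integral_sub i5 (i3.div_const t), integral_sub i1 (i2.const_mul t),
    integral_const_mul, integral_div, hX] at h1
  have h2 : ∫ x : EN N, 1 / d3 (x i) (x j) * lc g (cfm g f) x ^ 2 = _ := WN_lc hB hij (cfm g f)
  have h3 := mul_le_mul_of_nonneg_left (W2_lc hB hij (cfm g f)) ht.le
  linarith

end Vale.Agent.P370
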