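import Vale.Agent.P370.MBSl
import Vale.Agent.P370.MBFub

/-! Part MB: the one-body lower bound for electron `i`.

Plan: `N = n + 1`.  The slice `y ↦ f (insertNth i y x)` is `Test1` and its gradient is `dN f i k`
(chain rule; `insertNth i y x = Function.update (insertNth i 0 x) i y`, `hasFDerivAt_update`).
`AN V i f = ∫ x, form1 V slice slice` by `integral_ins` (integrable: `nice_dN`, `locInt_one`).
Integrate `OB.lower` over `x` (`coef g slice a = sl g i f a x`), use `Pj_sq`, `bessel_psd` for
the family `tp g` on `EN n`, `cf_ins` and `Fin.insertNthEquiv` for `hopN`. -/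

namespace Vale.Agent.P370

open MeasureTheory

variable {S : Type} [Fintype S] [DecidableEq S]

lemma one_upd {n : ℕ} (i : Fin (n + 1)) (x : EN n) (y : E3) :
    (i.insertNth y x : EN (n + 1)) = Function.update (i.insertNth 0 x : EN (n + 1)) i y :=
  (Fin.update_insertNth (α := fun _ => E3) i 0 y x).symm

lemma test_slice {n : ℕ} (i : Fin (n + 1)) {f : EN (n + 1) → ℝ} (hf : TestN f) (x : EN n) :
    Test1 fun y : E3 => f (i.insertNth y x) := by
  constructor
  · rw [funext fun y => congrArg f (one_upd i x y)]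
    exact hf.1.comp (contDiff_update 1 _ i)
  · obtain ⟨R, hR⟩ := (nice_slice i hf.nice x).supp
    refine HasCompactSupport.intro (isCompact_closedBall (0 : E3) R) fun y hy => ?_
    by_contra h
    exact hy (mem_closedBall_zero_iff.2 (hR y h))

lemma grad_slice {n : ℕ} (i : Fin (n + 1)) {f : EN (n + 1) → ℝ} (hf : TestN f) (x : EN n) (y : E3)
    (k : Fin 3) : grad (fun y : E3 => f (i.insertNth y x)) y k = dN f i k (i.insertNth y x) := by
  have h1 := ((hf.1.differentiable one_ne_zero _).hasFDerivAt).comp y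
    (hasFDerivAt_update (𝕜 := ℝ) (i.insertNth 0 x : EN (n + 1)) (i := i) y)
  have h2 : (fun y : E3 => f (i.insertNth y x)) =
      f ∘ Function.update (i.insertNth 0 x : EN (n + 1)) i := funext fun y => by
    rw [one_upd]
    rfl
  rw [grad, h2, h1.fderiv, dN, one_upd i x y, ContinuousLinearMap.comp_apply]
  congr 1
  funext j
  by_cases h : j = i
  · subst h
    simp
  · simp [h]

omit [DecidableEq S] in
lemma one_hop {n : ℕ} (T : S → S → ℝ) (i : Fin (n + 1)) (b : (Fin (n + 1) → S) → ℝ) :
    hopN T i b = ∑ k : Fin n → S, qf T fun a => b (i.insertNth a k) := by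
  rw [hopN, ← (Fin.insertNthEquiv (fun _ => S) i).sum_comp, Fintype.sum_prod_type_right]
  refine Finset.sum_congr rfl fun k _ => Finset.sum_congr rfl fun a _ =>
    Finset.sum_congr rfl fun a' _ => ?_
  simp only [Fin.insertNthEquiv, Equiv.coe_fn_mk, Fin.insertNth_apply_same, Fin.update_insertNth]

theorem one_lower {g gt : S → E3 → ℝ} (hg : ONm g) {V : E3 → ℝ} {T : S → S → ℝ} {Γ η : ℝ}
    (hV : LocallyIntegrable V volume) (hO : OB g gt V T Γ η) (hT : ∀ c, 0 ≤ qf T c)
    {N : ℕ} (i : Fin N) {f : EN N → ℝ} (hf : TestN f) :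
    hopN T i (cfm g f) - η * (∫ x, f x ^ 2) + Γ * ∫ x, (f x - Pj g i f x) ^ 2 ≤ AN V i f := by
  obtain ⟨n, rfl⟩ : ∃ n, N = n + 1 := ⟨N - 1, by have := i.pos; omega⟩
  have hF : Integrable fun x : EN (n + 1) => 1 / 2 * ∑ k, dN f i k x ^ 2 + V (x i) * f x ^ 2 :=
    ((nice_sum _ fun k _ => (hf.nice_dN i k).sq).const_mul _).integrable.add
      (hf.nice.sq.integrable_mul (locInt_one hV i))
  have hs := nice_sl hg.nice i hf.nice
  have hq : Integrable fun x => qf T fun a => sl g i f a x := by
    refine (nice_sum _ fun a _ => nice_sum _ fun a' _ => ?_).integrable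
    simpa only [mul_comm _ (T a a')] using ((hs a).const_mul (T a a')).mul (hs a')
  have h2 := integrable_ins_int i hf.nice.sq.integrable
  have h3 : Integrable fun x => ∑ a, sl g i f a x ^ 2 :=
    (nice_sum _ fun a _ => (hs a).sq).integrable
  have h4 : hopN T i (cfm g f) ≤ ∫ x, qf T fun a => sl g i f a x := by
    rw [one_hop]
    simp only [cf_ins hg.nice i hf.nice]
    exact bessel_psd hg.tp hT hs
  have h5 : ∫ x, ((qf T fun a => sl g i f a x) - η * (∫ y : E3, f (i.insertNth y x) ^ 2) +
      Γ * ((∫ y : E3, f (i.insertNth y x) ^ 2) - ∑ a, sl g i f a x ^ 2)) ≤ AN V i f := by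
    rw [AN, integral_ins i hF]
    refine integral_mono ((hq.sub (h2.const_mul η)).add ((h2.sub h3).const_mul Γ))
      (integrable_ins_int i hF) fun x => ?_
    refine (hO.lower _ (test_slice i hf x)).trans_eq ?_
    simp only [form1, grad_slice i hf, Fin.insertNth_apply_same, pow_two]
  have h6 : Integrable fun x => (qf T fun a => sl g i f a x) -
      η * ∫ y : E3, f (i.insertNth y x) ^ 2 := hq.sub (h2.const_mul η)
  have h7 : Integrable fun x => Γ * ((∫ y : E3, f (i.insertNth y x) ^ 2) -
      ∑ a, sl g i f a x ^ 2) := (h2.sub h3).const_mul Γ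
  rw [integral_add h6 h7,
    integral_sub hq (h2.const_mul η), integral_const_mul, integral_const_mul, integral_sub h2 h3,
    ← integral_ins i hf.nice.sq.integrable,
    integral_finsetSum _ fun a _ => (hs a).sq.integrable] at h5
  rw [Pj_sq hg i hf.nice]
  linarith

end Vale.Agent.P370
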