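import Mathlib

/-! Part MB: counting pairs. -/

namespace Vale.Agent.P370

lemma pairs_le {N : ℕ} {L : ℝ} (hL : 0 ≤ L) {A B : Fin N → Fin N → ℝ}
    (h : ∀ i j, i < j → A i j - L ≤ B i j) :
    (∑ i, ∑ j, if i < j then A i j else 0) - N ^ 2 / 2 * L ≤
      ∑ i, ∑ j, if i < j then B i j else 0 := by
  have h1 : 2 * (∑ i : Fin N, ∑ j, if i < j then L else 0) ≤ N ^ 2 * L := by
    have h2 : (∑ i : Fin N, ∑ j, if i < j then L else 0) =
        ∑ i : Fin N, ∑ j, if j < i then L else 0 := Finset.sum_comm
    calc _ = ∑ i : Fin N, ∑ j, ((if i < j then L else 0) + if j < i then L else 0) := by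
          simp only [Finset.sum_add_distrib]
          rw [← h2, two_mul]
      _ ≤ ∑ i : Fin N, ∑ j : Fin N, L := by
          refine Finset.sum_le_sum fun i _ => Finset.sum_le_sum fun j _ => ?_
          split_ifs with h3 h4
          · exact absurd h3 (lt_asymm h4)
          all_goals linarith
      _ = N ^ 2 * L := by
          simp only [Finset.sum_const, Finset.card_univ, Fintype.card_fin, nsmul_eq_mul]
          ring
  have h3 : (∑ i, ∑ j, if i < j then A i j else 0) - (∑ i : Fin N, ∑ j, if i < j then L else 0) ≤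
      ∑ i, ∑ j, if i < j then B i j else 0 := by
    rw [← Finset.sum_sub_distrib]
    refine Finset.sum_le_sum fun i _ => ?_
    rw [← Finset.sum_sub_distrib]
    refine Finset.sum_le_sum fun j _ => ?_
    split_ifs with h4
    · exact h i j h4
    · simp
  linarith

end Vale.Agent.P370
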