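import Vale.Agent.P370.MBFub

/-! Part MB: splitting the energy; real and imaginary parts; spins.

Plan: all pieces are integrable (`nice_dN`, `Nice.integrable_mul` with `locInt_one`, `locInt_coul`).
`fderiv` of `Complex.reCLM ∘ Ψ`, `Complex.ofRealCLM ∘ f` by `ContinuousLinearMap.fderiv` / chain
rule, `‖z‖ ^ 2 = re ^ 2 + im ^ 2`.  `nsq_eq`, `Elat_eq`: `Equiv.arrowProdEquivProdArrow`.
`antiC_cf`: `integral_perm`, `Equiv.prod_comp`. -/

namespace Vale.Agent.P370

open MeasureTheory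

variable {N : ℕ}

lemma mbs_coul {f : EN N → ℝ} (hf : Nice f) (i j : Fin N) :
    Integrable fun x : EN N => (if i < j then 1 / d3 (x i) (x j) else 0) * f x := by
  split_ifs with h
  · exact hf.integrable_mul (locInt_coul h.ne)
  · simp

lemma mbs_pot {V : E3 → ℝ} (hV : LocallyIntegrable V volume) (s : ℝ) {f : EN N → ℝ}
    (hf : Nice f) : Integrable fun x : EN N =>
      (∑ i, V (x i) + s * ∑ i, ∑ j, if i < j then 1 / d3 (x i) (x j) else 0) * f x := by
  simp only [add_mul, mul_assoc, Finset.sum_mul]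
  exact (integrable_finsetSum _ fun i _ => hf.integrable_mul (locInt_one hV i)).add
    ((integrable_finsetSum _ fun i _ => integrable_finsetSum _ fun j _ =>
      mbs_coul hf i j).const_mul s)

lemma mbs_kin {f : EN N → ℝ} (hf : TestN f) (i : Fin N) :
    Integrable fun x => 1 / 2 * ∑ k, dN f i k x ^ 2 :=
  ((nice_sum _ fun k _ => (hf.nice_dN i k).sq).const_mul _).integrable

lemma mbs_ER {V : E3 → ℝ} (hV : LocallyIntegrable V volume) (s : ℝ) {f : EN N → ℝ}
    (hf : TestN f) : Integrable fun x : EN N => 1 / 2 * ∑ i, ∑ k, dN f i k x ^ 2 +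
      (∑ i, V (x i) + s * ∑ i, ∑ j, if i < j then 1 / d3 (x i) (x j) else 0) * f x ^ 2 :=
  ((nice_sum _ fun i _ => nice_sum _ fun k _ => (hf.nice_dN i k).sq).const_mul _).integrable.add
    (mbs_pot hV s hf.nice.sq)

lemma mbs_norm (z : ℂ) : ‖z‖ ^ 2 = z.re ^ 2 + z.im ^ 2 := by
  rw [Complex.sq_norm, Complex.normSq_apply, sq, sq]

lemma mbs_sum {S : Type} [Fintype S] (F : (Fin N → S × Bool) → ℝ) :
    ∑ k, F k = ∑ ς : Fin N → Bool, ∑ k : Fin N → S, F fun i => (k i, ς i) := by
  rw [Finset.sum_comm, ← Fintype.sum_prod_type']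
  exact Fintype.sum_equiv (Equiv.arrowProdEquivProdArrow _ _ _) _ _ fun _ => rfl

lemma ER_split {V : E3 → ℝ} (hV : LocallyIntegrable V volume) (s e0 : ℝ) {f : EN N → ℝ}
    (hf : TestN f) : ER V s f = N * e0 * (∫ x, f x ^ 2) + ∑ i, AN (fun x => V x - e0) i f +
      s * ∑ i, ∑ j, if i < j then WN i j f else 0 := by
  have h2 := hf.nice.sq
  have hA : ∀ i, Integrable fun x : EN N =>
      1 / 2 * ∑ k, dN f i k x ^ 2 + (V (x i) - e0) * f x ^ 2 := fun i =>
    (mbs_kin hf i).add (h2.integrable_mul (locInt_one (hV.sub (locallyIntegrable_const e0)) i))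
  have hW : ∀ i j : Fin N, (if i < j then WN i j f else 0) =
      ∫ x : EN N, (if i < j then 1 / d3 (x i) (x j) else 0) * f x ^ 2 := fun i j => by
    split_ifs
    · rfl
    · simp
  have h3 := fun i => integrable_finsetSum Finset.univ fun j _ => mbs_coul h2 i j
  have h4 : Integrable fun x : EN N => N * e0 * f x ^ 2 +
      ∑ i, (1 / 2 * ∑ k, dN f i k x ^ 2 + (V (x i) - e0) * f x ^ 2) :=
    (h2.integrable.const_mul _).add (integrable_finsetSum _ fun i _ => hA i)
  simp only [hW, AN, ← integral_finsetSum _ fun j _ => mbs_coul h2 _ j]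
  rw [← integral_finsetSum _ fun i _ => hA i, ← integral_finsetSum _ fun i _ => h3 i,
    ← integral_const_mul, ← integral_const_mul, ← integral_add (h2.integrable.const_mul _)
      (integrable_finsetSum _ fun i _ => hA i), ← integral_add h4
      ((integrable_finsetSum _ fun i _ => h3 i).const_mul _), ER]
  refine integral_congr_ae (ae_of_all _ fun x => ?_)
  simp only [Finset.sum_add_distrib, ← Finset.mul_sum, ← Finset.sum_mul, Finset.sum_sub_distrib,
    Finset.sum_const, Finset.card_univ, Fintype.card_fin, nsmul_eq_mul]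
  ring

lemma Test.re {Ψ : Wave N} (h : Test Ψ) (ς : Fin N → Bool) : TestN fun x => (Ψ ς x).re := by
  exact ⟨Complex.reCLM.contDiff.comp (h.2 ς).1, (h.2 ς).2.comp_left (g := Complex.re) rfl⟩

lemma Test.im {Ψ : Wave N} (h : Test Ψ) (ς : Fin N → Bool) : TestN fun x => (Ψ ς x).im := by
  exact ⟨Complex.imCLM.contDiff.comp (h.2 ς).1, (h.2 ς).2.comp_left (g := Complex.im) rfl⟩

lemma normSq_re_im {Ψ : Wave N} (h : Test Ψ) :
    normSq Ψ = (∑ ς, ∫ x, (Ψ ς x).re ^ 2) + ∑ ς, ∫ x, (Ψ ς x).im ^ 2 := by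
  rw [normSq, ← Finset.sum_add_distrib]
  refine Finset.sum_congr rfl fun ς _ => ?_
  rw [← integral_add (h.re ς).nice.sq.integrable (h.im ς).nice.sq.integrable]
  simp only [mbs_norm]

lemma energyG_re_im {V : E3 → ℝ} (hV : LocallyIntegrable V volume) (s : ℝ) {Ψ : Wave N}
    (h : Test Ψ) : energyG V s Ψ =
      (∑ ς, ER V s fun x => (Ψ ς x).re) + ∑ ς, ER V s fun x => (Ψ ς x).im := by
  rw [energyG, ← Finset.sum_add_distrib]
  refine Finset.sum_congr rfl fun ς _ => ?_
  rw [ER, ER, ← integral_add (mbs_ER hV s (h.re ς)) (mbs_ER hV s (h.im ς))]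
  refine integral_congr_ae (ae_of_all _ fun x => ?_)
  have hd := ((h.2 ς).1.differentiable one_ne_zero x).hasFDerivAt
  have h1 : fderiv ℝ (fun x => (Ψ ς x).re) x = _ := (Complex.reCLM.hasFDerivAt.comp x hd).fderiv
  have h2 : fderiv ℝ (fun x => (Ψ ς x).im) x = _ := (Complex.imCLM.hasFDerivAt.comp x hd).fderiv
  simp only [mbs_norm, dN, h1, h2, ContinuousLinearMap.comp_apply, Complex.reCLM_apply,
    Complex.imCLM_apply, Finset.sum_add_distrib]
  ring

lemma normSq_ofReal (u : (Fin N → Bool) → EN N → ℝ) :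
    normSq (fun ς x => ((u ς x : ℝ) : ℂ)) = ∑ ς, ∫ x, u ς x ^ 2 := by
  simp only [normSq, Complex.norm_real, Real.norm_eq_abs, sq_abs]

lemma energyG_ofReal (V : E3 → ℝ) (s : ℝ) {u : (Fin N → Bool) → EN N → ℝ} (hu : ∀ ς, TestN (u ς)) :
    energyG V s (fun ς x => ((u ς x : ℝ) : ℂ)) = ∑ ς, ER V s (u ς) := by
  refine Finset.sum_congr rfl fun ς _ => integral_congr_ae (ae_of_all _ fun x => ?_)
  have hd := ((hu ς).1.differentiable one_ne_zero x).hasFDerivAt
  have h1 : fderiv ℝ (fun x => ((u ς x : ℝ) : ℂ)) x = _ :=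
    (Complex.ofRealCLM.hasFDerivAt.comp x hd).fderiv
  simp only [dN, h1, ContinuousLinearMap.comp_apply, Complex.ofRealCLM_apply, Complex.norm_real,
    Real.norm_eq_abs, sq_abs]

variable {S : Type} [Fintype S] [DecidableEq S]

omit [DecidableEq S] in
lemma nsq_eq (c : (Fin N → S × Bool) → ℝ) : nsq c = ∑ ς, ∑ k, spc c ς k ^ 2 := by
  exact mbs_sum _

lemma Elat_eq (T w : S → S → ℝ) (s : ℝ) (c : (Fin N → S × Bool) → ℝ) :
    Elat T w s c = ∑ ς, Elat0 T w s (spc c ς) := by
  simp only [Elat, Elat0, Finset.sum_add_distrib, ← Finset.mul_sum]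
  congr 1
  · refine Eq.trans (Finset.sum_congr rfl fun i _ => ?_) Finset.sum_comm
    rw [mbs_sum]
    refine Finset.sum_congr rfl fun ς _ =>
      Finset.sum_congr rfl fun k _ => Finset.sum_congr rfl fun a _ => ?_
    unfold spc
    congr 2
    funext l
    by_cases e : l = i
    · subst e
      simp
    · simp [Function.update_of_ne e]
  · rw [mbs_sum]
    congr 1
    refine Finset.sum_congr rfl fun ς _ => ?_
    simp only [Finset.sum_mul]
    refine Finset.sum_comm.trans (Finset.sum_congr rfl fun i _ =>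
      Finset.sum_comm.trans (Finset.sum_congr rfl fun j _ => ?_))
    split_ifs
    · rfl
    · simp

omit [Fintype S] [DecidableEq S] in
lemma antiC_cf (g : S → E3 → ℝ) {u : (Fin N → Bool) → EN N → ℝ}
    (hu : ∀ (π : Equiv.Perm (Fin N)) ς x, u (ς ∘ π) (x ∘ π) = ((Equiv.Perm.sign π : ℤ) : ℝ) * u ς x) :
    AntiC fun k : Fin N → S × Bool => cfm g (u fun i => (k i).2) fun i => (k i).1 := by
  intro π k
  dsimp only [cfm]
  rw [← integral_const_mul, ← integral_perm π]
  refine integral_congr_ae (ae_of_all _ fun x => ?_)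
  have h1 := hu π (fun i => (k i).2) x
  have h2 : tp g (fun i => ((k ∘ π) i).1) (x ∘ π) = tp g (fun i => (k i).1) x :=
    Equiv.prod_comp π fun i => g (k i).1 (x i)
  dsimp only
  rw [← mul_assoc, ← h1, ← h2]
  rfl

end Vale.Agent.P370
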