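import Vale.Agent.P370.MBProj
import Vale.Agent.P370.MBOne
import Vale.Agent.P370.MBInt
import Vale.Agent.P370.MBSplit
import Vale.Agent.P370.MBPairs

/-! Part MB: the many-body lower bound. -/

namespace Vale.Agent.P370

open MeasureTheory

variable {S : Type} [Fintype S] [DecidableEq S]

lemma low_spin {g gt : S → E3 → ℝ} {Mg εd : ℝ} (hB : Basis g gt Mg εd)
    {V : E3 → ℝ} {T : S → S → ℝ} {e0 Γ η s : ℝ} {N : ℕ}
    (hV : LocallyIntegrable V volume)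
    (hO : OB g gt (fun x => V x - e0) T Γ η) (hΓ : 0 < Γ) (hs : 0 ≤ s)
    (hT : ∀ c, 0 ≤ qf T c) {f : EN N → ℝ} (hf : TestN f) :
    (N * e0 - N * η) * (∫ x, f x ^ 2) + Elat0 T (wex g) s (cfm g f) +
      Γ / 2 * ((∫ x, f x ^ 2) - ∑ k, cfm g f k ^ 2) -
      s ^ 2 * N ^ 4 * (13 * Mg ^ 2 + 1) / (2 * Γ) * ∑ k, cfm g f k ^ 2 ≤ ER V s f := by
  rw [ER_split hV s e0 hf]
  have hV0 : LocallyIntegrable (fun x => V x - e0) volume := hV.sub (locallyIntegrable_const e0)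
  set n2f := ∫ x, f x ^ 2 with hn
  set C := ∑ k, cfm g f k ^ 2 with hC
  have hC0 : 0 ≤ C := Finset.sum_nonneg fun k _ => sq_nonneg _
  have hY : C ≤ n2f := bessel_le hB.on.tp hf.nice
  have h1 : ∑ i, hopN T i (cfm g f) - N * (η * n2f) + Γ * ∑ i, ∫ x, (f x - Pj g i f x) ^ 2 ≤
      ∑ i, AN (fun x => V x - e0) i f := by
    have := Finset.sum_le_sum fun i (_ : i ∈ Finset.univ) => one_lower hB.on hV0 hO hT i hf
    rw [Finset.sum_add_distrib, Finset.sum_sub_distrib, Finset.sum_const,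
      Finset.card_univ, Fintype.card_fin, nsmul_eq_mul, ← Finset.mul_sum] at this
    exact this
  have h2 : Γ * (n2f - C) ≤ Γ * ∑ i, ∫ x, (f x - Pj g i f x) ^ 2 :=
    mul_le_mul_of_nonneg_left (proj_ineq hB.on hf.nice) hΓ.le
  have h3 : s * (∑ i : Fin N, ∑ j, if i < j then ∑ k, wex g (k i) (k j) * cfm g f k ^ 2 else 0) -
      s ^ 2 * N ^ 4 * (13 * Mg ^ 2 + 1) / (2 * Γ) * C - Γ / 2 * (n2f - C) ≤
      s * ∑ i, ∑ j, if i < j then WN i j f else 0 := by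
    have hK : 0 ≤ s ^ 2 * N ^ 4 * (13 * Mg ^ 2 + 1) / (2 * Γ) * C := by positivity
    have hG : 0 ≤ Γ / 2 * (n2f - C) := mul_nonneg (by positivity) (by linarith)
    rcases eq_or_lt_of_le hs with rfl | hs'
    · simp only [zero_mul] at *
      linarith
    rcases Nat.eq_zero_or_pos N with rfl | hN
    · simp only [Finset.univ_eq_empty, Finset.sum_empty, mul_zero]
      linarith
    have hN' : (0 : ℝ) < N := by exact_mod_cast hN
    have ht : 0 < s * N ^ 2 / Γ := by positivity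
    set L := s * N ^ 2 / Γ * ((13 * Mg ^ 2 + 1) * C) + (n2f - C) / (s * N ^ 2 / Γ) with hL
    have hL0 : 0 ≤ L := add_nonneg (by positivity) (div_nonneg (by linarith) ht.le)
    have h4 := pairs_le (N := N) hL0 (A := fun i j => ∑ k, wex g (k i) (k j) * cfm g f k ^ 2)
      (B := fun i j => WN i j f) fun i j hij => by
        have := pair_lower hB hij.ne hf.nice ht
        linarith
    have h5 : s * (N ^ 2 / 2 * L) =
        s ^ 2 * N ^ 4 * (13 * Mg ^ 2 + 1) / (2 * Γ) * C + Γ / 2 * (n2f - C) := by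
      rw [hL]
      field_simp
    have h6 := mul_le_mul_of_nonneg_left h4 hs
    linarith
  unfold Elat0
  linarith

lemma low_real {g gt : S → E3 → ℝ} {Mg εd : ℝ} (hB : Basis g gt Mg εd)
    {V : E3 → ℝ} {T : S → S → ℝ} {e0 Γ η s lam : ℝ} {N : ℕ}
    (hV : LocallyIntegrable V volume)
    (hO : OB g gt (fun x => V x - e0) T Γ η) (hΓ : 0 < Γ) (hs : 0 ≤ s)
    (hT : ∀ c, 0 ≤ qf T c) (hlam : lam ≤ Γ / 2)
    (hl : ∀ c : (Fin N → S × Bool) → ℝ, AntiC c → lam * nsq c ≤ Elat T (wex g) s c)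
    {u : (Fin N → Bool) → EN N → ℝ} (hu : ∀ ς, TestN (u ς))
    (ha : ∀ (π : Equiv.Perm (Fin N)) ς x,
      u (ς ∘ π) (x ∘ π) = ((Equiv.Perm.sign π : ℤ) : ℝ) * u ς x) :
    (N * e0 + lam - N * η - s ^ 2 * N ^ 4 * (13 * Mg ^ 2 + 1) / (2 * Γ)) *
      ∑ ς, ∫ x, u ς x ^ 2 ≤ ∑ ς, ER V s (u ς) := by
  have h1 := hl _ (antiC_cf g ha)
  rw [nsq_eq, Elat_eq] at h1
  have e : ∀ ς, spc (fun k : Fin N → S × Bool => cfm g (u fun i => (k i).2) fun i => (k i).1) ς =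
      cfm g (u ς) := fun ς => rfl
  simp only [e] at h1
  have h2 := Finset.sum_le_sum fun ς (_ : ς ∈ Finset.univ) => low_spin hB hV hO hΓ hs hT (hu ς)
  rw [Finset.sum_sub_distrib, Finset.sum_add_distrib, Finset.sum_add_distrib, ← Finset.mul_sum,
    ← Finset.mul_sum, ← Finset.mul_sum, Finset.sum_sub_distrib] at h2
  have h3 : ∑ ς, ∑ k, cfm g (u ς) k ^ 2 ≤ ∑ ς, ∫ x, u ς x ^ 2 :=
    Finset.sum_le_sum fun ς _ => bessel_le hB.on.tp (hu ς).nice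
  have hK : 0 ≤ s ^ 2 * N ^ 4 * (13 * Mg ^ 2 + 1) / (2 * Γ) := by positivity
  have h4 := mul_le_mul_of_nonneg_left h3 hK
  have h5 := mul_le_mul_of_nonneg_right hlam (sub_nonneg.2 h3)
  linarith

theorem mb_lower' {g gt : S → E3 → ℝ} {Mg εd : ℝ} (hB : Basis g gt Mg εd)
    {V : E3 → ℝ} {T : S → S → ℝ} {e0 Γ η s lam : ℝ} {N : ℕ}
    (hV : LocallyIntegrable V volume)
    (hO : OB g gt (fun x => V x - e0) T Γ η) (hΓ : 0 < Γ) (hs : 0 ≤ s)
    (hT : ∀ c, 0 ≤ qf T c) (hlam : lam ≤ Γ / 2)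
    (hl : ∀ c : (Fin N → S × Bool) → ℝ, AntiC c → lam * nsq c ≤ Elat T (wex g) s c)
    (Ψ : Wave N) (hΨ : Test Ψ) :
    (N * e0 + lam - N * η - s ^ 2 * N ^ 4 * (13 * Mg ^ 2 + 1) / (2 * Γ)) * normSq Ψ ≤
      energyG V s Ψ := by
  rw [normSq_re_im hΨ, energyG_re_im hV s hΨ, mul_add]
  refine add_le_add (low_real hB hV hO hΓ hs hT hlam hl hΨ.re fun π ς x => ?_)
    (low_real hB hV hO hΓ hs hT hlam hl hΨ.im fun π ς x => ?_)
  · rw [hΨ.1 π ς x]
    simp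
  · rw [hΨ.1 π ς x]
    simp

end Vale.Agent.P370
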