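import Vale.Agent.P370.MBForm

/-! Part MB: the perturbation lemma.

Plan (`n = card S`, `c = coef g ψ`, `C = ∑ c²`, `Y = n2 ψ - C ≥ 0`, `φ = ∑ c gt`, `χ = ψ - φ`,
`Qt f = form1 V f f + η n2 f ≥ 0` on `Test1` by `h0.lower`, `hT0`, `coef_sq_le`):
`Qt χ ≤ 2 Qt ψ + 2 Qt φ` (`form1_par`, `n2_par`), `Qt φ ≤ (t0 + n η + 4 η) C` (`form1_comb`,
`qf_close`, `n2_comb_le`), `kin χ ≤ 2 Qt χ + 2 Cb n2 χ`.  Pointwise
`U ψ² = U φ² + 2 U φ χ + U χ² ≥ U φ² - (16 / Γ) (U φ)² - (Γ / 16) χ² + U χ²`,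
`∫ (U φ)² ≤ n θ2 C` (`sq_sum_le`; integrable since `(U φ)² ≤ C ∑ (U gt)²`),
`∫ U φ² = qf (∫ U gt gt') c ≥ qf T1 c - n θ3 C`,
`form1 V ψ ψ - 4 θ1 Qt ψ = (1 - 4 θ1) Qt ψ - η n2 ψ ≥ qf T0 c - 4 θ1 t0 C + Γ / 2 Y - η n2 ψ`,
`n2 χ ≤ 2 Y + 2 n εd² C`.  Add up; `C ≤ n2 ψ`. -/

namespace Vale.Agent.P370

open MeasureTheory

variable {S : Type} [Fintype S] [DecidableEq S]

omit [DecidableEq S] in
lemma mbpert_qf_add (A B : S → S → ℝ) (c : S → ℝ) :
    qf (fun a a' => A a a' + B a a') c = qf A c + qf B c := by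
  simp only [qf, mul_add, add_mul, Finset.sum_add_distrib]

/-- splitting the perturbation -/
lemma mbpert_split {U ψ φ : E3 → ℝ} (hU : LocallyIntegrable U volume) (hψ : Nice ψ) (hφ : Nice φ)
    (hi : Integrable fun x => (U x * φ x) ^ 2) {Γ : ℝ} (hΓ : 0 < Γ) :
    (∫ x, U x * (φ x * φ x)) - 16 / Γ * (∫ x, (U x * φ x) ^ 2) -
      Γ / 16 * n2 (fun x => ψ x - φ x) + ∫ x, U x * (ψ x - φ x) ^ 2 ≤ ∫ x, U x * (ψ x * ψ x) := by
  have i1 := (hφ.mul hφ).integrable_mul hU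
  have i2 := hi.const_mul (16 / Γ)
  have i3 := (hψ.sub hφ).sq.integrable.const_mul (Γ / 16)
  have i4 := (hψ.sub hφ).sq.integrable_mul hU
  have i12 : Integrable fun x => U x * (φ x * φ x) - 16 / Γ * (U x * φ x) ^ 2 := i1.sub i2
  have i123 : Integrable fun x => U x * (φ x * φ x) - 16 / Γ * (U x * φ x) ^ 2 -
      Γ / 16 * (ψ x - φ x) ^ 2 := i12.sub i3
  rw [n2, ← integral_const_mul, ← integral_const_mul, ← integral_sub i1 i2, ← integral_sub i12 i3,
    ← integral_add i123 i4]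
  refine integral_mono (i123.add i4) ((hψ.mul hψ).integrable_mul hU) fun x => ?_
  have h : 0 ≤ 16 / Γ * (U x * φ x + Γ / 16 * (ψ x - φ x)) ^ 2 := by positivity
  have e : 16 / Γ * (U x * φ x + Γ / 16 * (ψ x - φ x)) ^ 2 = 16 / Γ * (U x * φ x) ^ 2 +
      2 * (U x * φ x) * (ψ x - φ x) + Γ / 16 * (ψ x - φ x) ^ 2 := by
    field_simp
    ring
  simp only
  linarith

theorem OB.pert' {g gt : S → E3 → ℝ} {Mg εd : ℝ} (hB : Basis g gt Mg εd)
    {V U : E3 → ℝ} {T0 T1 : S → S → ℝ} {Γ η Cb t0 θ1 θ2 θ3 η' : ℝ}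
    (hV : LocallyIntegrable V volume) (hU : LocallyIntegrable U volume)
    (hVm : Measurable V) (hUm : Measurable U)
    (h0 : OB g gt V T0 Γ η) (hΓ : 0 < Γ) (hη : 0 ≤ η) (hCb : 0 ≤ Cb) (hlow : ∀ x, -Cb ≤ V x)
    (hT0 : ∀ c, 0 ≤ qf T0 c ∧ qf T0 c ≤ t0 * ∑ a, c a ^ 2) (ht0 : 0 ≤ t0)
    (hεd : Fintype.card S * εd ^ 2 ≤ 1)
    (hθ1 : 0 ≤ θ1) (hθ1a : θ1 ≤ 1 / 8) (hθ1b : θ1 * (2 * Cb + 1) ≤ Γ / 16)
    (h1 : ∀ ψ, Test1 ψ → -(θ1 * (kin ψ + n2 ψ)) ≤ ∫ x, U x * ψ x ^ 2)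
    (h2 : ∀ a, Integrable (fun x => (U x * gt a x) ^ 2) ∧ ∫ x, (U x * gt a x) ^ 2 ≤ θ2)
    (h3 : ∀ a a', |(∫ x, U x * (gt a x * gt a' x)) - T1 a a'| ≤ θ3) (hθ3 : 0 ≤ θ3) (hθ2 : 0 ≤ θ2)
    (hη' : η + θ3 + Fintype.card S * θ3 + 16 * Fintype.card S * θ2 / Γ +
      θ1 * (8 * t0 + 4 * Fintype.card S * η + 16 * η) + Γ * Fintype.card S * εd ^ 2 / 4 ≤ η') :
    OB g gt (fun x => V x + U x) (fun a a' => T0 a a' + T1 a a') (Γ / 4) η' := by
  have hn : (0 : ℝ) ≤ Fintype.card S := Nat.cast_nonneg _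
  have p1 : 0 ≤ Fintype.card S * θ3 := by positivity
  have p2 : 0 ≤ 16 * Fintype.card S * θ2 / Γ := by positivity
  have p3 : 0 ≤ θ1 * (8 * t0 + 4 * Fintype.card S * η + 16 * η) := by positivity
  have p4 : 0 ≤ Γ * Fintype.card S * εd ^ 2 / 4 := by positivity
  have hQ : ∀ f, Test1 f → 0 ≤ form1 V f f + η * n2 f := fun f hf => by
    have a1 := h0.lower f hf
    have a2 := mul_nonneg hΓ.le (sub_nonneg.2 (coef_sq_le hB hf.nice))
    linarith [(hT0 (coef g f)).1]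
  refine ⟨fun ψ hψ => ?_, fun a a' => ?_⟩
  · have hlo := h0.lower ψ hψ
    have hCN := coef_sq_le hB hψ.nice
    have hrest := n2_rest_le hB hψ.nice
    generalize coef g ψ = c at hlo hCN hrest ⊢
    have hφ := test1_comb hB.gt_test c
    have hχ := hψ.sub hφ
    have e1 : ∀ x, U x * ∑ a, c a * gt a x = ∑ a, c a * (U x * gt a x) := fun x => by
      rw [Finset.mul_sum]
      exact Finset.sum_congr rfl fun a _ => mul_left_comm _ _ _
    have hi : Integrable fun x => (U x * ∑ a, c a * gt a x) ^ 2 := by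
      refine Integrable.mono' ((integrable_finsetSum Finset.univ fun a _ => (h2 a).1).const_mul
        (∑ a, c a ^ 2)) ((hUm.mul hφ.nice.meas).pow_const 2).aestronglyMeasurable
        (ae_of_all _ fun x => ?_)
      rw [Real.norm_of_nonneg (sq_nonneg _), e1]
      exact Finset.sum_mul_sq_le_sq_mul_sq _ _ _
    have hC : 0 ≤ ∑ a, c a ^ 2 := Finset.sum_nonneg fun a _ => sq_nonneg _
    have b1 : ∫ x, (U x * ∑ a, c a * gt a x) ^ 2 ≤ (∑ a, c a ^ 2) * (Fintype.card S * θ2) := by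
      simp only [e1]
      refine (sq_sum_le (fun a => (h2 a).1) c).trans (mul_le_mul_of_nonneg_left ?_ hC)
      refine (Finset.sum_le_card_nsmul _ _ θ2 fun a _ => (h2 a).2).trans (le_of_eq ?_)
      rw [nsmul_eq_mul, Finset.card_univ]
    have b2 : ∫ x, U x * ((∑ a, c a * gt a x) * ∑ a, c a * gt a x) =
        qf (fun a a' => ∫ x, U x * (gt a x * gt a' x)) c := by
      have a1 := form1_comb (hV.add hU) hB.gt_test c
      have a2 := form1_add_pot hV hU hφ hφ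
      have a3 : (fun a a' => form1 (V + U) (gt a) (gt a')) = fun a a' =>
          form1 V (gt a) (gt a') + ∫ x, U x * (gt a x * gt a' x) := by
        funext a a'
        exact form1_add_pot hV hU (hB.gt_test a) (hB.gt_test a')
      rw [a3, mbpert_qf_add, ← form1_comb hV hB.gt_test c] at a1
      exact add_left_cancel (a2.symm.trans a1)
    have b3 := (abs_le.1 (qf_close h3 c)).1
    have b4 := (abs_le.1 (qf_close h0.upper c)).2
    rw [← form1_comb hV hB.gt_test c] at b4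
    have b5 := n2_comb_le hB c
    have b6 := mbpert_split hU hψ.nice hφ.nice hi hΓ
    have b7 := h1 _ hχ
    have b8 := kin_le hV hlow hχ
    have b9 := form1_par hV hψ hφ
    have b10 := n2_par hψ.nice hφ.nice
    have b11 := hQ _ (hψ.add hφ)
    have b12 : 0 ≤ n2 fun x => ψ x - ∑ a, c a * gt a x := integral_nonneg fun x => sq_nonneg _
    obtain ⟨t1, t2⟩ := hT0 c
    rw [form1_add_pot hV hU hψ hψ, mbpert_qf_add]
    rw [b2] at b6
    generalize (n2 fun x => ψ x - ∑ a, c a * gt a x) = nχ at *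
    generalize (n2 fun x => ψ x + ∑ a, c a * gt a x) = nσ at *
    generalize (n2 fun x => ∑ a, c a * gt a x) = nφ at *
    generalize (kin fun x => ψ x - ∑ a, c a * gt a x) = kχ at *
    generalize form1 V (fun x => ψ x - ∑ a, c a * gt a x) (fun x => ψ x - ∑ a, c a * gt a x) = Fχ
      at *
    generalize form1 V (fun x => ψ x + ∑ a, c a * gt a x) (fun x => ψ x + ∑ a, c a * gt a x) = Fσ
      at *
    generalize form1 V (fun x => ∑ a, c a * gt a x) (fun x => ∑ a, c a * gt a x) = Fφ at *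
    generalize form1 V ψ ψ = F at *
    generalize n2 ψ = N at *
    generalize ∑ a, c a ^ 2 = C at *
    generalize (Fintype.card S : ℝ) = n at *
    have c1 : nφ ≤ 4 * C := by nlinarith [mul_le_mul_of_nonneg_right hεd hC]
    have c2 : Fφ + η * nφ ≤ (t0 + n * η + 4 * η) * C := by
      linarith [mul_le_mul_of_nonneg_left c1 hη]
    have c3 : Fχ + η * nχ ≤ 2 * (F + η * N) + 2 * (Fφ + η * nφ) := by
      have : η * (nχ + nσ) = η * (2 * N + 2 * nφ) := by rw [b10]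
      linarith
    have c4 : kχ + nχ ≤ 4 * (F + η * N) + 4 * ((t0 + n * η + 4 * η) * C) + (2 * Cb + 1) * nχ := by
      linarith [mul_nonneg hη b12]
    have c5 := mul_le_mul_of_nonneg_left c4 hθ1
    have c6 := mul_le_mul_of_nonneg_right hθ1b b12
    have c7 := mul_le_mul_of_nonneg_left hlo (by linarith : 0 ≤ 1 - 4 * θ1)
    have c8 := mul_le_mul_of_nonneg_left t2 hθ1
    have c9 := mul_nonneg (mul_nonneg hΓ.le (sub_nonneg.2 hCN)) (by linarith : 0 ≤ 1 / 8 - θ1)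
    have c10 := mul_le_mul_of_nonneg_left hrest hΓ.le
    have c11 := mul_le_mul_of_nonneg_left b1 (by positivity : 0 ≤ 16 / Γ)
    have c12 := mul_le_mul_of_nonneg_left hCN (by linarith : 0 ≤ η' - η)
    have c13 := mul_le_mul_of_nonneg_right hη' hC
    have c14 := mul_nonneg hθ3 hC
    have c15 : 16 / Γ * (C * (n * θ2)) = 16 * n * θ2 / Γ * C := by ring
    linarith
  · rw [form1_add_pot hV hU (hB.gt_test a) (hB.gt_test a'), add_sub_add_comm]
    refine (abs_add_le _ _).trans ?_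
    linarith [h0.upper a a', h3 a a']

end Vale.Agent.P370
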