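import Vale.Agent.P370.Defs

/-! Part MB: scaling.

Plan: for `Φ ς x = Ψ ς (s • x)`: `Test Φ`, `fderiv` picks up a factor `s`,
`d3 (s • x) (s • y) = s * d3 x y`, `pt (s * q) = s • pt q`, so the integrand of `energyG (Vs s l) s Φ`
at `x` is `s ^ 2` times the integrand of `Inst.energy Ψ` at `s • x`; `Measure.integral_comp_smul`
gives the same factor `|(s ^ finrank)⁻¹|` for energy and norm (no integrability needed).  For the
upper bound apply this to `Ψ' ς x = κ * Ψ ς (s⁻¹ • x)` with `κ` normalising. -/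

namespace Vale.Agent.P370

open MeasureTheory

variable {N : ℕ}

theorem mbs_test {Ψ : Wave N} (hΨ : Test Ψ) (κ : ℂ) {t : ℝ} (ht : t ≠ 0) :
    Test fun ς x => κ * Ψ ς (t • x) := by
  refine ⟨fun π ς x => ?_, fun ς => ⟨contDiff_const.mul ((hΨ.2 ς).1.comp (contDiff_const_smul t)),
    ((hΨ.2 ς).2.comp_smul ht).mul_left (f := fun _ => κ)⟩⟩
  exact (congrArg (κ * ·) (hΨ.1 π ς (t • x))).trans (mul_left_comm _ _ _)

theorem mbs_d3 {s : ℝ} (hs : 0 ≤ s) (x y : E3) : d3 (s • x) (s • y) = s * d3 x y := by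
  rw [d3, d3, ← Real.sqrt_sq hs, ← Real.sqrt_mul (sq_nonneg s), Real.sqrt_sq hs, Finset.mul_sum]
  exact congrArg _ (Finset.sum_congr rfl fun k _ => by simp only [Pi.smul_apply, smul_eq_mul]; ring)

theorem mbs_pt (s : ℚ) (q : ℚ × ℚ × ℚ) : pt (s * q.1, s * q.2.1, s * q.2.2) = (s : ℝ) • pt q := by
  funext k
  fin_cases k <;> simp [pt]

theorem mbsc_pot {s : ℚ} (hs : 0 < s) (l : List ((ℚ × ℚ × ℚ) × ℕ)) (a b : ℚ) (x : Fin N → E3) :
    (∑ i, Vs s l (x i) + (s : ℝ) * ∑ i, ∑ j, if i < j then 1 / d3 (x i) (x j) else 0) =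
      (s : ℝ) ^ 2 * (Inst.mk (scaleNuc s l) N a b).pot ((s : ℝ) • x) := by
  have h : (0 : ℝ) < s := by exact_mod_cast hs
  have e : ∀ u v : ℝ, (s : ℝ) ^ 2 * (u / (s * v)) = s * u / v := fun u v => by
    rw [sq, mul_assoc, ← mul_div_assoc, mul_div_mul_left _ _ h.ne', mul_div_assoc]
  simp only [Inst.pot, Vs, scaleNuc, List.map_map, Function.comp_def, mbs_pt, Pi.smul_apply,
    mbs_d3 h.le, mul_add, mul_neg, Finset.mul_sum, ← List.sum_map_mul_left, e,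
    Finset.sum_neg_distrib, mul_ite, mul_zero, mul_div_assoc]

theorem mbsc_norm (Ψ : Wave N) (κ t : ℝ) : normSq (fun ς x => κ * Ψ ς (t • x)) =
    κ ^ 2 * |(t ^ Module.finrank ℝ (Fin N → E3))⁻¹| * normSq Ψ := by
  rw [normSq, normSq, Finset.mul_sum]
  refine Finset.sum_congr rfl fun ς _ => ?_
  simp only [norm_mul, mul_pow, Complex.norm_real, Real.norm_eq_abs, sq_abs]
  rw [integral_const_mul, Measure.integral_comp_smul volume fun x => ‖Ψ ς x‖ ^ 2, smul_eq_mul,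
    mul_assoc]

theorem mbs_en {s : ℚ} (hs : 0 < s) (l : List ((ℚ × ℚ × ℚ) × ℕ)) (a b : ℚ) (Ψ : Wave N) (κ : ℝ) :
    energyG (Vs s l) s (fun ς x => κ * Ψ ς ((s : ℝ) • x)) =
      κ ^ 2 * |((s : ℝ) ^ Module.finrank ℝ (Fin N → E3))⁻¹| *
        ((s : ℝ) ^ 2 * (Inst.mk (scaleNuc s l) N a b).energy Ψ) := by
  rw [energyG, Inst.energy, Finset.mul_sum, Finset.mul_sum]
  refine Finset.sum_congr rfl fun ς _ => ?_
  rw [mul_assoc, mul_left_comm |_|, ← smul_eq_mul |_|, ← Measure.integral_comp_smul volume,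
    ← integral_const_mul, ← integral_const_mul]
  refine integral_congr_ae (Filter.Eventually.of_forall fun x => ?_)
  have e : fderiv ℝ (fun x => κ * Ψ ς ((s : ℝ) • x)) x =
      (κ : ℂ) • (s : ℝ) • fderiv ℝ (Ψ ς) ((s : ℝ) • x) := by
    rw [← fderiv_comp_smul]
    exact congrFun (fderiv_const_smul_field (f := fun x => Ψ ς ((s : ℝ) • x)) (κ : ℂ)) x
  simp only [mbsc_pot hs l a b, e, smul_apply, norm_smul, norm_mul, mul_pow,
    Complex.norm_real, Real.norm_eq_abs, sq_abs, ← Finset.mul_sum]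
  ring

theorem scale_lower' {s : ℚ} (hs : 0 < s) (l : List ((ℚ × ℚ × ℚ) × ℕ)) (N : ℕ) (a b : ℚ) {lam : ℝ}
    (h : ∀ Ψ : Wave N, Test Ψ → lam * normSq Ψ ≤ energyG (Vs s l) s Ψ) :
    ((lam / (s : ℝ) ^ 2 : ℝ) : EReal) ≤ (Inst.mk (scaleNuc s l) N a b).E0 := by
  have h0 : (0 : ℝ) < s := by exact_mod_cast hs
  refine le_iInf fun Ψ => EReal.coe_le_coe_iff.2 ?_
  have h1 := h _ (mbs_test Ψ.2.1 ((1 : ℝ) : ℂ) h0.ne')
  rw [mbsc_norm, mbs_en hs l a b, Ψ.2.2, mul_left_comm, mul_one] at h1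
  exact (div_le_iff₀' (by positivity)).2 (le_of_mul_le_mul_left h1 (by positivity))

theorem scale_upper' {s : ℚ} (hs : 0 < s) (l : List ((ℚ × ℚ × ℚ) × ℕ)) (N : ℕ) (a b : ℚ) {lam : ℝ}
    (Ψ : Wave N) (hΨ : Test Ψ) (h0 : 0 < normSq Ψ) (h : energyG (Vs s l) s Ψ ≤ lam * normSq Ψ) :
    (Inst.mk (scaleNuc s l) N a b).E0 ≤ ((lam / (s : ℝ) ^ 2 : ℝ) : EReal) := by
  have hs' : (0 : ℝ) < s := by exact_mod_cast hs
  obtain ⟨κ, hκ, h1⟩ : ∃ κ : ℝ, κ ≠ 0 ∧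
      κ ^ 2 * |((s : ℝ)⁻¹ ^ Module.finrank ℝ (Fin N → E3))⁻¹| * normSq Ψ = 1 := by
    have h1 : 0 < |((s : ℝ)⁻¹ ^ Module.finrank ℝ (Fin N → E3))⁻¹| * normSq Ψ := by positivity
    exact ⟨(√_)⁻¹, inv_ne_zero (Real.sqrt_pos.2 h1).ne', by
      rw [inv_pow, Real.sq_sqrt h1.le, mul_assoc, inv_mul_cancel₀ h1.ne']⟩
  have h2 := (mbsc_norm Ψ κ (s : ℝ)⁻¹).trans h1
  have e : Ψ = fun ς x => (κ⁻¹ : ℝ) * (κ * Ψ ς ((s : ℝ)⁻¹ • (s : ℝ) • x)) := by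
    funext ς x
    rw [inv_smul_smul₀ hs'.ne', ← mul_assoc, ← Complex.ofReal_mul, inv_mul_cancel₀ hκ,
      Complex.ofReal_one, one_mul]
  have h3 := mbs_test hΨ κ (inv_ne_zero hs'.ne')
  generalize hΦ : (fun ς x => κ * Ψ ς ((s : ℝ)⁻¹ • x) : Wave N) = Φ at h2 h3
  have e' : Ψ = fun ς x => (κ⁻¹ : ℝ) * Φ ς ((s : ℝ) • x) := by rw [← hΦ]; exact e
  refine (iInf_le _ ⟨Φ, h3, h2⟩).trans (EReal.coe_le_coe_iff.2 ?_)
  rw [e', mbsc_norm, mbs_en hs l a b, h2, mul_one, mul_comm lam] at h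
  exact (le_div_iff₀' (by positivity)).2 (le_of_mul_le_mul_left h (by positivity))

end Vale.Agent.P370
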