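import Vale.Agent.P370.MBFub

/-! Part MB: exact formulas for the trial function `lc gt b`.

Plan: `dN (tp gt k) i m x = grad (gt (k i)) (x i) m * ∏ l ≠ i, gt (k l) (x l)` (`HasFDerivAt.finset_prod`
or restrict to the line).  Expand the squares (`Finset.sum_mul_sum`), `integral_finsetSum`, and use
`integral_fintype_prod_volume_eq_prod`, `integral_one`, `integral_two`, `coul_prod_integrable`. -/

namespace Vale.Agent.P370

open MeasureTheory

variable {S : Type} [Fintype S] [DecidableEq S] {N : ℕ} {gt : S → E3 → ℝ}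

lemma trial_supp {f : EN N → ℝ} (hf : Nice f) : HasCompactSupport f := by
  obtain ⟨R, hR⟩ := hf.supp
  refine HasCompactSupport.intro (isCompact_closedBall (0 : EN N) R) fun x hx => ?_
  by_contra h0
  exact hx (by simpa using hR x h0)

lemma trial_one {Φ : E3 → ℝ} (hΦ : Integrable Φ) {h : Fin N → E3 → ℝ}
    (hh : ∀ l, Integrable (h l)) (i : Fin N) :
    Integrable (fun x : EN N => Φ (x i) * ∏ l ∈ Finset.univ.erase i, h l (x l)) ∧
    ∫ x : EN N, Φ (x i) * ∏ l ∈ Finset.univ.erase i, h l (x l) =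
      (∫ y, Φ y) * ∏ l ∈ Finset.univ.erase i, ∫ y, h l y := by
  have e : ∀ x : EN N, Φ (x i) * ∏ l ∈ Finset.univ.erase i, h l (x l) =
      ∏ l, Function.update h i Φ l (x l) := by
    intro x
    rw [← Finset.mul_prod_erase _ _ (Finset.mem_univ i), Function.update_self]
    congr 1
    exact Finset.prod_congr rfl fun l hl => by
      rw [Function.update_of_ne (Finset.ne_of_mem_erase hl)]
  simp only [e]
  constructor
  · refine Integrable.fintype_prod (f := fun l => Function.update h i Φ l) fun l => ?_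
    by_cases hl : l = i
    · subst hl; simpa using hΦ
    · simpa [Function.update_of_ne hl] using hh l
  · rw [integral_fintype_prod_volume_eq_prod (fun l y => Function.update h i Φ l y),
      ← Finset.mul_prod_erase _ _ (Finset.mem_univ i), Function.update_self]
    congr 1
    exact Finset.prod_congr rfl fun l hl => by
      rw [Function.update_of_ne (Finset.ne_of_mem_erase hl)]

omit [Fintype S] [DecidableEq S] in
lemma testN_tp (h : ∀ a, Test1 (gt a)) (k : Fin N → S) : TestN (tp gt k) := by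
  refine ⟨?_, trial_supp (nice_tp (fun a => (h a).nice) k)⟩
  exact contDiff_prod fun l _ => (h (k l)).1.comp (contDiff_apply ℝ E3 l)

omit [DecidableEq S] in
lemma testN_lc (h : ∀ a, Test1 (gt a)) (b : (Fin N → S) → ℝ) : TestN (lc gt b) := by
  refine ⟨?_, trial_supp (nice_lc (fun a => (h a).nice) b)⟩
  exact ContDiff.sum fun k _ => contDiff_const.mul (testN_tp h k).1

omit [DecidableEq S] in
lemma lc_antisym (gt : S → E3 → ℝ) {c : (Fin N → S × Bool) → ℝ} (hc : AntiC c)
    (π : Equiv.Perm (Fin N)) (ς : Fin N → Bool) (x : EN N) :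
    lc gt (spc c (ς ∘ π)) (x ∘ π) = ((Equiv.Perm.sign π : ℤ) : ℝ) * lc gt (spc c ς) x := by
  unfold lc
  rw [Finset.mul_sum]
  symm
  refine Fintype.sum_equiv (Equiv.arrowCongr π.symm (Equiv.refl S)) _ _ fun k => ?_
  have e : (Equiv.arrowCongr π.symm (Equiv.refl S)) k = k ∘ π := by
    ext l; simp [Equiv.arrowCongr]
  rw [e]
  have e1 : spc c (ς ∘ π) (k ∘ π) = ((Equiv.Perm.sign π : ℤ) : ℝ) * spc c ς k :=
    hc π fun l => (k l, ς l)
  have e2 : tp gt (k ∘ π) (x ∘ π) = tp gt k x :=
    Equiv.prod_comp π fun l => gt (k l) (x l)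
  rw [e1, e2, mul_assoc]

omit [DecidableEq S] in
lemma trial_sq (b : (Fin N → S) → ℝ) (x : EN N) :
    lc gt b x ^ 2 = ∑ k, ∑ k', b k * b k' * ∏ l, gt (k l) (x l) * gt (k' l) (x l) := by
  rw [pow_two, lc, Finset.sum_mul_sum]
  refine Finset.sum_congr rfl fun k _ => Finset.sum_congr rfl fun k' _ => ?_
  rw [Finset.prod_mul_distrib, tp, tp]
  ring

omit [DecidableEq S] in
lemma trial_int (b : (Fin N → S) → ℝ) {F : (Fin N → S) → (Fin N → S) → EN N → ℝ}
    (hF : ∀ k k', Integrable (F k k')) :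
    ∫ x, ∑ k, ∑ k', b k * b k' * F k k' x = ∑ k, ∑ k', b k * b k' * ∫ x, F k k' x := by
  rw [integral_finsetSum _ fun k _ => integrable_finsetSum _ fun k' _ => (hF k k').const_mul _]
  refine Finset.sum_congr rfl fun k _ => ?_
  rw [integral_finsetSum _ fun k' _ => (hF k k').const_mul _]
  exact Finset.sum_congr rfl fun k' _ => integral_const_mul _ _

omit [DecidableEq S] in
lemma norm_lc (h : ∀ a, Test1 (gt a)) (b : (Fin N → S) → ℝ) :
    ∫ x, lc gt b x ^ 2 = ∑ k, ∑ k', b k * b k' * ∏ l, gram gt (k l) (k' l) := by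
  simp only [trial_sq]
  rw [trial_int b (F := fun k k' x => ∏ l, gt (k l) (x l) * gt (k' l) (x l)) fun k k' =>
    (nice_prod (h := fun l y => gt (k l) y * gt (k' l) y)
      fun l => (h _).nice.mul (h _).nice).integrable]
  refine Finset.sum_congr rfl fun k _ => Finset.sum_congr rfl fun k' _ => ?_
  rw [integral_fintype_prod_volume_eq_prod (fun l y => gt (k l) y * gt (k' l) y)]
  rfl

omit [Fintype S] [DecidableEq S] in
lemma trial_dtp (h : ∀ a, Test1 (gt a)) (k : Fin N → S) (i : Fin N) (m : Fin 3) (x : EN N) :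
    dN (tp gt k) i m x =
      grad (gt (k i)) (x i) m * ∏ l ∈ Finset.univ.erase i, gt (k l) (x l) := by
  have hd : ∀ l ∈ (Finset.univ : Finset (Fin N)), HasFDerivAt (fun x : EN N => gt (k l) (x l))
      ((fderiv ℝ (gt (k l)) (x l)).comp (ContinuousLinearMap.proj l)) x := fun l _ =>
    (((h (k l)).1.differentiable one_ne_zero) (x l)).hasFDerivAt.comp x
      (ContinuousLinearMap.proj (R := ℝ) (φ := fun _ : Fin N => E3) l).hasFDerivAt
  have h2 := (HasFDerivAt.finsetProd hd).fderiv
  have e : tp gt k = fun x : EN N => ∏ l, gt (k l) (x l) := rfl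
  rw [dN, e, h2, ContinuousLinearMap.sum_apply, Finset.sum_eq_single i]
  · simp [grad, mul_comm]
  · intro l _ hl
    simp [Pi.single_eq_of_ne hl]
  · simp

omit [DecidableEq S] in
lemma trial_dlc (h : ∀ a, Test1 (gt a)) (b : (Fin N → S) → ℝ) (i : Fin N) (m : Fin 3) (x : EN N) :
    dN (lc gt b) i m x = ∑ k, b k * dN (tp gt k) i m x := by
  have hd : ∀ k ∈ (Finset.univ : Finset (Fin N → S)), HasFDerivAt (fun x => b k * tp gt k x)
      (b k • fderiv ℝ (tp gt k) x) x := fun k _ =>
    (((testN_tp h k).1.differentiable one_ne_zero) x).hasFDerivAt.const_mul (b k)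
  have h2 := (HasFDerivAt.fun_sum hd).fderiv
  have e : lc gt b = fun x => ∑ k, b k * tp gt k x := rfl
  rw [dN, e, h2, ContinuousLinearMap.sum_apply]
  rfl

omit [DecidableEq S] in
lemma AN_lc (h : ∀ a, Test1 (gt a)) {V : E3 → ℝ} (hV : LocallyIntegrable V volume) (i : Fin N)
    (b : (Fin N → S) → ℝ) : AN V i (lc gt b) = ∑ k, ∑ k', b k * b k' *
      (form1 V (gt (k i)) (gt (k' i)) * ∏ l ∈ Finset.univ.erase i, gram gt (k l) (k' l)) := by
  set Φ : S → S → E3 → ℝ := fun a a' y =>
    1 / 2 * ∑ m, grad (gt a) y m * grad (gt a') y m + V y * (gt a y * gt a' y) with hΦ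
  have iΦ : ∀ a a', Integrable (Φ a a') := fun a a' =>
    ((nice_sum _ fun m _ => ((h a).nice_grad m).mul ((h a').nice_grad m)).integrable.const_mul
      _).add (((h a).nice.mul (h a').nice).integrable_mul hV)
  have key := fun k k' : Fin N → S => trial_one (iΦ (k i) (k' i))
    (h := fun l y => gt (k l) y * gt (k' l) y)
    (fun l => ((h _).nice.mul (h _).nice).integrable) i
  have e : ∀ x : EN N, 1 / 2 * ∑ m, dN (lc gt b) i m x ^ 2 + V (x i) * lc gt b x ^ 2 =
      ∑ k, ∑ k', b k * b k' * (Φ (k i) (k' i) (x i) *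
        ∏ l ∈ Finset.univ.erase i, gt (k l) (x l) * gt (k' l) (x l)) := by
    intro x
    have e1 : ∑ m, dN (lc gt b) i m x ^ 2 = ∑ k, ∑ k', b k * b k' *
        ((∑ m, grad (gt (k i)) (x i) m * grad (gt (k' i)) (x i) m) *
          ∏ l ∈ Finset.univ.erase i, gt (k l) (x l) * gt (k' l) (x l)) := by
      simp only [trial_dlc h, trial_dtp h, pow_two, Finset.sum_mul_sum]
      rw [Finset.sum_comm]
      refine Finset.sum_congr rfl fun k _ => ?_
      rw [Finset.sum_comm]
      refine Finset.sum_congr rfl fun k' _ => ?_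
      rw [Finset.sum_mul, Finset.mul_sum, Finset.prod_mul_distrib]
      exact Finset.sum_congr rfl fun m _ => by ring
    rw [e1, trial_sq, Finset.mul_sum, Finset.mul_sum, ← Finset.sum_add_distrib]
    refine Finset.sum_congr rfl fun k _ => ?_
    rw [Finset.mul_sum, Finset.mul_sum, ← Finset.sum_add_distrib]
    refine Finset.sum_congr rfl fun k' _ => ?_
    rw [← Finset.mul_prod_erase _ _ (Finset.mem_univ i), hΦ]
    ring
  unfold AN
  simp only [e]
  rw [trial_int b fun k k' => (key k k').1]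
  refine Finset.sum_congr rfl fun k _ => Finset.sum_congr rfl fun k' _ => ?_
  rw [(key k k').2]
  rfl

omit [DecidableEq S] in
lemma WN_lc' (h : ∀ a, Test1 (gt a)) {i j : Fin N} (hij : i ≠ j) (b : (Fin N → S) → ℝ) :
    WN i j (lc gt b) = ∑ k, ∑ k', b k * b k' * (cmat gt (k i) (k' i) (k j) (k' j) *
      ∏ l ∈ (Finset.univ.erase i).erase j, gram gt (k l) (k' l)) := by
  have key := fun k k' : Fin N → S => integral_two hij (K := fun y z => 1 / d3 y z)
    (h := fun l y => gt (k l) y * gt (k' l) y) (fun l => (h _).nice.mul (h _).nice)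
    (by
      simpa only [pow_one] using coul_prod_integrable ((h (k i)).nice.mul (h (k' i)).nice)
        ((h (k j)).nice.mul (h (k' j)).nice) (p := 1) one_le_two)
  have e : ∀ x : EN N, 1 / d3 (x i) (x j) * lc gt b x ^ 2 = ∑ k, ∑ k', b k * b k' *
      (1 / d3 (x i) (x j) * ∏ l, gt (k l) (x l) * gt (k' l) (x l)) := by
    intro x
    rw [trial_sq, Finset.mul_sum]
    refine Finset.sum_congr rfl fun k _ => ?_
    rw [Finset.mul_sum]
    exact Finset.sum_congr rfl fun k' _ => by ring
  unfold WN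
  simp only [e]
  rw [trial_int b fun k k' => (key k k').1]
  refine Finset.sum_congr rfl fun k _ => Finset.sum_congr rfl fun k' _ => ?_
  rw [(key k k').2]
  rfl

end Vale.Agent.P370
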