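import Vale.Agent.P370.MBFin
import Vale.Agent.P370.MBTrial
import Vale.Agent.P370.MBEntry
import Vale.Agent.P370.MBSplit
import Vale.Agent.P370.MBPairs

/-! Part MB: the many-body upper bound. -/

namespace Vale.Agent.P370

open MeasureTheory

variable {S : Type} [Fintype S] [DecidableEq S]

omit [Fintype S] [DecidableEq S] in
lemma up_gram_symm (g : S → E3 → ℝ) (a a' : S) : gram g a a' = gram g a' a := by
  simp only [gram, mul_comm]

lemma up_form_symm (V f h : E3 → ℝ) : form1 V f h = form1 V h f := by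
  simp only [form1, mul_comm (f _), mul_comm (grad f _ _)]

omit [Fintype S] [DecidableEq S] in
lemma up_cmat_symm (g : S → E3 → ℝ) (a a' c c' : S) : cmat g a a' c c' = cmat g a' a c' c := by
  simp only [cmat, mul_comm (g a _) (g a' _), mul_comm (g c _) (g c' _)]

lemma up_spin {g gt : S → E3 → ℝ} {Mg εd : ℝ} (hB : Basis g gt Mg εd)
    {V : E3 → ℝ} {T : S → S → ℝ} {e0 Γ η s tm : ℝ} {N : ℕ}
    (hV : LocallyIntegrable V volume)
    (hO : OB g gt (fun x => V x - e0) T Γ η) (hη : 0 ≤ η) (hs : 0 ≤ s) (hεd : 0 ≤ εd)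
    (hεd1 : εd ≤ 1) (hT : ∀ a, ∑ a', |T a a'| ≤ tm) (hTs : ∀ a a', T a a' = T a' a) (htm : 0 ≤ tm)
    (hsm : N * (Fintype.card S * (3 * εd)) ≤ 1 / 8) (b : (Fin N → S) → ℝ) :
    ER V s (lc gt b) ≤ N * e0 * (∫ x, lc gt b x ^ 2) + Elat0 T (wex g) s b +
      (N * (5 / 4 * (Fintype.card S * η) + 2 * (N * (Fintype.card S * (3 * εd))) * tm) +
        s * (N ^ 2 / 2 * (5 / 4 * (Fintype.card S ^ 2 * (42 * εd * (Mg ^ 2 + 1))) +
          2 * (N * (Fintype.card S * (3 * εd))) * (7 * Mg ^ 2 + 1)))) * ∑ k, b k ^ 2 := by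
  rw [ER_split hV s e0 (testN_lc hB.gt_test b)]
  have hV0 : LocallyIntegrable (fun x => V x - e0) volume := hV.sub (locallyIntegrable_const e0)
  have hγ : 0 ≤ 3 * εd := by positivity
  have hC : 0 ≤ ∑ k, b k ^ 2 := Finset.sum_nonneg fun k _ => sq_nonneg _
  have h1 : ∑ i, AN (fun x => V x - e0) i (lc gt b) ≤ ∑ i, hopN T i b +
      N * ((5 / 4 * (Fintype.card S * η) + 2 * (N * (Fintype.card S * (3 * εd))) * tm) *
        ∑ k, b k ^ 2) := by
    have h : ∀ i ∈ Finset.univ, AN (fun x => V x - e0) i (lc gt b) ≤ hopN T i b +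
        (5 / 4 * (Fintype.card S * η) + 2 * (N * (Fintype.card S * (3 * εd))) * tm) *
          ∑ k, b k ^ 2 := fun i _ => by
      have := fin_one hγ (up_gram_symm gt) (gram_close hB hεd hεd1) hsm
        (F := fun a a' => form1 (fun x => V x - e0) (gt a) (gt a')) hη htm
        (fun a a' => up_form_symm _ _ _) hTs hO.upper hT i b
      rw [← AN_lc hB.gt_test hV0] at this
      linarith [(abs_le.1 this).2]
    have := Finset.sum_le_sum h
    rwa [Finset.sum_add_distrib, Finset.sum_const, Finset.card_univ, Fintype.card_fin,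
      nsmul_eq_mul] at this
  have h2 := pairs_le (N := N) (L := (5 / 4 * (Fintype.card S ^ 2 * (42 * εd * (Mg ^ 2 + 1))) +
      2 * (N * (Fintype.card S * (3 * εd))) * (7 * Mg ^ 2 + 1)) * ∑ k, b k ^ 2) (by positivity)
    (A := fun i j => WN i j (lc gt b)) (B := fun i j => ∑ k, wex g (k i) (k j) * b k ^ 2)
    fun i j hij => by
      have := fin_two hγ (up_gram_symm gt) (gram_close hB hεd hεd1) hsm (D := cmat gt)
        (w := wex g) (by positivity) (by positivity) (up_cmat_symm gt) (cmat_close hB hεd hεd1)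
        (wex_le hB) hij.ne b
      rw [← WN_lc' hB.gt_test hij.ne] at this
      linarith [(abs_le.1 this).2]
  have h3 := mul_le_mul_of_nonneg_left h2 hs
  unfold Elat0
  linarith

lemma up_arith {N n ε m η s tm l : ℝ} (hN : 1 ≤ N) (hn : 1 ≤ n) (hε : 0 ≤ ε) (hm : 0 ≤ m)
    (hη : 0 ≤ η) (hs : 0 ≤ s) (htm : 0 ≤ tm) (hl : 0 ≤ l) :
    4 / 3 * (N * (5 / 4 * (n * η) + 2 * (N * (n * (3 * ε))) * tm) +
        s * (N ^ 2 / 2 * (5 / 4 * (n ^ 2 * (42 * ε * (m + 1))) +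
          2 * (N * (n * (3 * ε))) * (7 * m + 1))) + 2 * (N * (n * (3 * ε))) * l) ≤
      3 * N * n * η + 100 * N ^ 3 * n ^ 2 * ε * (m + 1) * (tm + s + l) := by
  have hN0 : 0 ≤ N := by linarith
  have hn0 : 0 ≤ n := by linarith
  have a1 : N ≤ N ^ 2 := by nlinarith
  have a2 : N ^ 2 ≤ N ^ 3 := by nlinarith
  have a3 : n ≤ n ^ 2 := by nlinarith
  have b1 : N ^ 2 * n * ε ≤ N ^ 3 * n ^ 2 * ε * (m + 1) := by
    calc N ^ 2 * n * ε ≤ N ^ 3 * n ^ 2 * ε := by gcongr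
      _ ≤ _ := le_mul_of_one_le_right (by positivity) (by linarith)
  have b2 : N * n * ε ≤ N ^ 3 * n ^ 2 * ε * (m + 1) := le_trans (by gcongr) b1
  have b3 : N ^ 2 * n ^ 2 * ε * (m + 1) ≤ N ^ 3 * n ^ 2 * ε * (m + 1) := by gcongr
  have b4 : N ^ 3 * n * ε * (7 * m + 1) ≤ 7 * (N ^ 3 * n ^ 2 * ε * (m + 1)) := by
    calc N ^ 3 * n * ε * (7 * m + 1) ≤ N ^ 3 * n ^ 2 * ε * (7 * (m + 1)) := by
          gcongr
          linarith
      _ = _ := by ring
  have c0 : 0 ≤ N ^ 3 * n ^ 2 * ε * (m + 1) := by positivity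
  have c1 := mul_le_mul_of_nonneg_right b1 htm
  have c2 := mul_le_mul_of_nonneg_right b2 hl
  have c3 := mul_le_mul_of_nonneg_right b3 hs
  have c4 := mul_le_mul_of_nonneg_right b4 hs
  have c5 := mul_nonneg c0 htm
  have c6 := mul_nonneg c0 hl
  have c7 := mul_nonneg c0 hs
  have c8 : 0 ≤ N * n * η := by positivity
  nlinarith

theorem mb_upper' {g gt : S → E3 → ℝ} {Mg εd : ℝ} (hB : Basis g gt Mg εd)
    {V : E3 → ℝ} {T : S → S → ℝ} {e0 Γ η s lam tm : ℝ} {N : ℕ}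
    (hV : LocallyIntegrable V volume)
    (hO : OB g gt (fun x => V x - e0) T Γ η) (hη : 0 ≤ η) (hs : 0 ≤ s) (hεd : 0 ≤ εd)
    (hT : ∀ a, ∑ a', |T a a'| ≤ tm) (hTs : ∀ a a', T a a' = T a' a) (htm : 0 ≤ tm)
    (hN : 1 ≤ N) (hsm : 24 * N * Fintype.card S * εd ≤ 1)
    (c : (Fin N → S × Bool) → ℝ) (hc : AntiC c) (hc0 : 0 < nsq c)
    (hl : Elat T (wex g) s c ≤ lam * nsq c) :
    ∃ Ψ : Wave N, Test Ψ ∧ 0 < normSq Ψ ∧ energyG V s Ψ ≤
      (N * e0 + lam + 3 * N * Fintype.card S * η +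
        100 * N ^ 3 * Fintype.card S ^ 2 * εd * (Mg ^ 2 + 1) * (tm + s + |lam|)) * normSq Ψ := by
  have hN' : (1 : ℝ) ≤ N := by exact_mod_cast hN
  have hS : Nonempty S := by
    obtain ⟨k, -, -⟩ := Finset.exists_ne_zero_of_sum_ne_zero hc0.ne'
    exact ⟨(k ⟨0, hN⟩).1⟩
  have hn : (1 : ℝ) ≤ Fintype.card S := by exact_mod_cast Fintype.card_pos
  have hsm' : N * (Fintype.card S * (3 * εd)) ≤ 1 / 8 := by linarith
  have hεd1 : εd ≤ 1 := by
    have h1 : (1 : ℝ) ≤ N * Fintype.card S := one_le_mul_of_one_le_of_one_le hN' hn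
    have h2 := mul_le_mul_of_nonneg_right h1 hεd
    linarith
  have ht : ∀ ς, TestN (lc gt (spc c ς)) := fun ς => testN_lc hB.gt_test _
  refine ⟨fun ς x => ((lc gt (spc c ς) x : ℝ) : ℂ), ⟨fun π ς x => ?_, fun ς => ⟨?_, ?_⟩⟩, ?_⟩
  · simp only [lc_antisym gt hc π ς x, Complex.ofReal_mul, Complex.ofReal_intCast]
  · exact Complex.ofRealCLM.contDiff.comp (ht ς).1
  · exact (ht ς).2.comp_left (g := fun r : ℝ => (r : ℂ)) Complex.ofReal_zero
  rw [normSq_ofReal, energyG_ofReal V s ht]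
  rw [Elat_eq, nsq_eq] at hl
  rw [nsq_eq] at hc0
  have h1 := Finset.sum_le_sum fun ς (_ : ς ∈ Finset.univ) =>
    up_spin hB hV hO hη hs hεd hεd1 hT hTs htm hsm' (spc c ς)
  rw [Finset.sum_add_distrib, Finset.sum_add_distrib, ← Finset.mul_sum, ← Finset.mul_sum] at h1
  have h2 : |∑ ς, (∫ x, lc gt (spc c ς) x ^ 2) - ∑ ς, ∑ k, spc c ς k ^ 2| ≤
      2 * (N * (Fintype.card S * (3 * εd))) * ∑ ς, ∑ k, spc c ς k ^ 2 := by
    rw [← Finset.sum_sub_distrib, Finset.mul_sum]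
    refine (Finset.abs_sum_le_sum_abs _ _).trans (Finset.sum_le_sum fun ς _ => ?_)
    rw [norm_lc hB.gt_test]
    exact fin_norm (by positivity) (up_gram_symm gt) (gram_close hB hεd hεd1) hsm' _
  have h3 := up_arith hN' hn hεd (sq_nonneg Mg) hη hs htm (abs_nonneg lam)
  set P := ∑ ς, ∫ x, lc gt (spc c ς) x ^ 2
  set C := ∑ ς, ∑ k, spc c ς k ^ 2
  set a := 2 * (N * (Fintype.card S * (3 * εd))) with ha
  have ha0 : 0 ≤ a := by positivity
  have ha1 : a * C ≤ 1 / 4 * C := mul_le_mul_of_nonneg_right (by linarith) hc0.le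
  have hCP : C ≤ 4 / 3 * P := by linarith [(abs_le.1 h2).1]
  have hP : 0 < P := by linarith
  refine ⟨hP, ?_⟩
  have h4 : lam * C ≤ lam * P + a * |lam| * C := by
    have h5 : lam * (C - P) ≤ |lam| * (a * C) := by
      refine (le_abs_self _).trans ?_
      rw [abs_mul, abs_sub_comm]
      exact mul_le_mul_of_nonneg_left h2 (abs_nonneg _)
    linarith
  set e := N * (5 / 4 * (Fintype.card S * η) + a * tm) +
    s * (N ^ 2 / 2 * (5 / 4 * (Fintype.card S ^ 2 * (42 * εd * (Mg ^ 2 + 1))) +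
      a * (7 * Mg ^ 2 + 1))) with he
  have he0 : 0 ≤ e + a * |lam| := by positivity
  have h6 := mul_le_mul_of_nonneg_left hCP he0
  have h7 := mul_le_mul_of_nonneg_right h3 hP.le
  linarith

end Vale.Agent.P370
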