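import Vale.Agent.P370.MBLow
import Vale.Agent.P370.MBUp
import Vale.Agent.P370.MBPert
import Vale.Agent.P370.MBScale

/-! Part MB: abstract perturbation lemma, many-body bounds, scaling (see `notes/P370.md`). -/

namespace Vale.Agent.P370

open MeasureTheory

variable {S : Type} [Fintype S] [DecidableEq S]

theorem Vs_meas (s : ℝ) (l : List ((ℚ × ℚ × ℚ) × ℕ)) : Measurable (Vs s l) :=
  Vs_meas' s l

theorem Vs_locInt (s : ℝ) (l : List ((ℚ × ℚ × ℚ) × ℕ)) : LocallyIntegrable (Vs s l) volume :=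
  Vs_locInt' s l

/-- Adding a perturbation `U` to the potential. -/
theorem OB.pert {g gt : S → E3 → ℝ} {Mg εd : ℝ} (hB : Basis g gt Mg εd)
    {V U : E3 → ℝ} {T0 T1 : S → S → ℝ} {Γ η Cb t0 θ1 θ2 θ3 η' : ℝ}
    (hV : LocallyIntegrable V volume) (hU : LocallyIntegrable U volume)
    (hVm : Measurable V) (hUm : Measurable U)
    (h0 : OB g gt V T0 Γ η) (hΓ : 0 < Γ) (hη : 0 ≤ η) (hCb : 0 ≤ Cb) (hlow : ∀ x, -Cb ≤ V x)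
    (hT0 : ∀ c, 0 ≤ qf T0 c ∧ qf T0 c ≤ t0 * ∑ a, c a ^ 2) (ht0 : 0 ≤ t0)
    (hεd : Fintype.card S * εd ^ 2 ≤ 1)
    (hθ1 : 0 ≤ θ1) (hθ1a : θ1 ≤ 1 / 8) (hθ1b : θ1 * (2 * Cb + 1) ≤ Γ / 16)
    (h1 : ∀ ψ, Test1 ψ → -(θ1 * (kin ψ + n2 ψ)) ≤ ∫ x, U x * ψ x ^ 2)
    (h2 : ∀ a, Integrable (fun x => (U x * gt a x) ^ 2) ∧ ∫ x, (U x * gt a x) ^ 2 ≤ θ2)
    (h3 : ∀ a a', |(∫ x, U x * (gt a x * gt a' x)) - T1 a a'| ≤ θ3) (hθ3 : 0 ≤ θ3) (hθ2 : 0 ≤ θ2)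
    (hη' : η + θ3 + Fintype.card S * θ3 + 16 * Fintype.card S * θ2 / Γ +
      θ1 * (8 * t0 + 4 * Fintype.card S * η + 16 * η) + Γ * Fintype.card S * εd ^ 2 / 4 ≤ η') :
    OB g gt (fun x => V x + U x) (fun a a' => T0 a a' + T1 a a') (Γ / 4) η' :=
  OB.pert' hB hV hU hVm hUm h0 hΓ hη hCb hlow hT0 ht0 hεd hθ1 hθ1a hθ1b h1 h2 h3 hθ3 hθ2 hη'

/-- Many-body lower bound. -/
theorem mb_lower {g gt : S → E3 → ℝ} {Mg εd : ℝ} (hB : Basis g gt Mg εd)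
    {V : E3 → ℝ} {T : S → S → ℝ} {e0 Γ η s lam : ℝ} {N : ℕ}
    (hV : LocallyIntegrable V volume) (hVm : Measurable V)
    (hO : OB g gt (fun x => V x - e0) T Γ η) (hΓ : 0 < Γ) (hη : 0 ≤ η) (hs : 0 ≤ s)
    (hT : ∀ c, 0 ≤ qf T c) (hlam : lam ≤ Γ / 2)
    (hl : ∀ c : (Fin N → S × Bool) → ℝ, AntiC c → lam * nsq c ≤ Elat T (wex g) s c)
    (Ψ : Wave N) (hΨ : Test Ψ) :
    (N * e0 + lam - N * η - s ^ 2 * N ^ 4 * (13 * Mg ^ 2 + 1) / (2 * Γ)) * normSq Ψ ≤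
      energyG V s Ψ :=
  mb_lower' hB hV hO hΓ hs hT hlam hl Ψ hΨ

/-- Many-body upper bound. -/
theorem mb_upper {g gt : S → E3 → ℝ} {Mg εd : ℝ} (hB : Basis g gt Mg εd)
    {V : E3 → ℝ} {T : S → S → ℝ} {e0 Γ η s lam tm : ℝ} {N : ℕ}
    (hV : LocallyIntegrable V volume) (hVm : Measurable V)
    (hO : OB g gt (fun x => V x - e0) T Γ η) (hη : 0 ≤ η) (hs : 0 ≤ s) (hεd : 0 ≤ εd)
    (hT : ∀ a, ∑ a', |T a a'| ≤ tm) (hTs : ∀ a a', T a a' = T a' a) (htm : 0 ≤ tm)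
    (hN : 1 ≤ N) (hsm : 24 * N * Fintype.card S * εd ≤ 1)
    (c : (Fin N → S × Bool) → ℝ) (hc : AntiC c) (hc0 : 0 < nsq c)
    (hl : Elat T (wex g) s c ≤ lam * nsq c) :
    ∃ Ψ : Wave N, Test Ψ ∧ 0 < normSq Ψ ∧ energyG V s Ψ ≤
      (N * e0 + lam + 3 * N * Fintype.card S * η +
        100 * N ^ 3 * Fintype.card S ^ 2 * εd * (Mg ^ 2 + 1) * (tm + s + |lam|)) * normSq Ψ :=
  mb_upper' hB hV hO hη hs hεd hT hTs htm hN hsm c hc hc0 hl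

theorem scale_lower {s : ℚ} (hs : 0 < s) (l : List ((ℚ × ℚ × ℚ) × ℕ)) (N : ℕ) (a b : ℚ) {lam : ℝ}
    (h : ∀ Ψ : Wave N, Test Ψ → lam * normSq Ψ ≤ energyG (Vs s l) s Ψ) :
    ((lam / (s : ℝ) ^ 2 : ℝ) : EReal) ≤ (Inst.mk (scaleNuc s l) N a b).E0 :=
  scale_lower' hs l N a b h

theorem scale_upper {s : ℚ} (hs : 0 < s) (l : List ((ℚ × ℚ × ℚ) × ℕ)) (N : ℕ) (a b : ℚ) {lam : ℝ}
    (Ψ : Wave N) (hΨ : Test Ψ) (h0 : 0 < normSq Ψ) (h : energyG (Vs s l) s Ψ ≤ lam * normSq Ψ) :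
    (Inst.mk (scaleNuc s l) N a b).E0 ≤ ((lam / (s : ℝ) ^ 2 : ℝ) : EReal) :=
  scale_upper' hs l N a b Ψ hΨ h0 h

end Vale.Agent.P370
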