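import Vale.Agent.P370.MBSl

/-! Part MB: `1 - ∏ P_i ≤ ∑ (1 - P_i)`. -/

namespace Vale.Agent.P370

open MeasureTheory

variable {S : Type} [Fintype S] [DecidableEq S] {g : S → E3 → ℝ}

lemma proj_ins_update {n : ℕ} (j : Fin n) (y z : E3) (x : EN n) :
    Function.update ((0 : Fin (n + 1)).insertNth y x : EN (n + 1)) j.succ z =
      (0 : Fin (n + 1)).insertNth y (Function.update x j z) := by
  simp only [Fin.insertNth_zero', Fin.cons_update]

omit [DecidableEq S] in
lemma sl_Pj (hg : ∀ a, Nice (g a)) {n : ℕ} (j : Fin n) {f : EN (n + 1) → ℝ} (hf : Nice f) (a : S)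
    (x : EN n) : sl g 0 (Pj g j.succ f) a x = Pj g j (sl g 0 f a) x := by
  obtain ⟨M, hM⟩ := hf.bd
  have hm : Measurable fun q : E3 × E3 =>
      f ((0 : Fin (n + 1)).insertNth q.1 (Function.update x j q.2)) :=
    hf.meas.comp ((sl_meas_ins 0).comp
      (measurable_fst.prodMk ((measurable_update x).comp measurable_snd)))
  have hi : ∀ b, Integrable (fun q : E3 × E3 => g a q.1 * g b q.2 *
      f ((0 : Fin (n + 1)).insertNth q.1 (Function.update x j q.2))) (volume.prod volume) :=
    fun b => ((hg a).integrable.mul_prod (hg b).integrable).mul_bdd (c := M)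
      hm.aestronglyMeasurable (ae_of_all _ fun q => hM _)
  have e1 : ∀ y : E3, ((0 : Fin (n + 1)).insertNth y x : EN (n + 1)) j.succ = x j := fun y => by
    simp only [Fin.insertNth_zero', Fin.cons_succ]
  have e2 : ∀ y, g a y * Pj g j.succ f ((0 : Fin (n + 1)).insertNth y x) = ∑ b, g b (x j) *
      ∫ z, g a y * g b z * f ((0 : Fin (n + 1)).insertNth y (Function.update x j z)) := fun y => by
    simp only [Pj, proj_ins_update, e1, Finset.mul_sum, mul_assoc, integral_const_mul]
    exact Finset.sum_congr rfl fun b _ => by ring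
  simp only [sl, e2]
  rw [integral_finsetSum _ fun b _ => (hi b).integral_prod_left.const_mul _]
  simp only [Pj]
  refine Finset.sum_congr rfl fun b _ => ?_
  rw [integral_const_mul, integral_integral_swap (hi b)]
  congr 1
  refine integral_congr_ae (ae_of_all _ fun z => ?_)
  simp only [sl, ← integral_const_mul]
  exact integral_congr_ae (ae_of_all _ fun y => by ring)

lemma proj_sl_sub (hg : ∀ a, Nice (g a)) {n : ℕ} (i : Fin (n + 1)) {f h : EN (n + 1) → ℝ}
    (hf : Nice f) (hh : Nice h) (a : S) (x : EN n) :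
    sl g i (fun x => f x - h x) a x = sl g i f a x - sl g i h a x := by
  simp only [sl, mul_sub]
  exact integral_sub ((hg a).mul (nice_slice i hf x)).integrable
    ((hg a).mul (nice_slice i hh x)).integrable

theorem proj_ineq (hg : ONm g) {N : ℕ} {f : EN N → ℝ} (hf : Nice f) :
    (∫ x, f x ^ 2) - ∑ k, cfm g f k ^ 2 ≤ ∑ i, ∫ x, (f x - Pj g i f x) ^ 2 := by
  induction N with
  | zero =>
    have e : ∀ F : EN 0 → ℝ, ∫ x, F x = F 0 := fun F => by
      rw [integral_unique, Measure.real, volume_pi, Measure.pi_univ]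
      simpa using congrArg F (Subsingleton.elim _ _)
    simp [cfm, tp, e]
  | succ n ih =>
    rw [Fin.sum_univ_succ, Pj_sq hg 0 hf]
    have h1 : ∑ k, cfm g f k ^ 2 = ∑ a, ∑ k : Fin n → S, cfm g (sl g 0 f a) k ^ 2 := by
      rw [← (Fin.insertNthEquiv (fun _ => S) 0).sum_comp, Fintype.sum_prod_type]
      refine Finset.sum_congr rfl fun a _ => Finset.sum_congr rfl fun k _ => ?_
      rw [← cf_ins hg.nice 0 hf]
      rfl
    have h2 := Finset.sum_le_sum fun a (_ : a ∈ Finset.univ) => ih (nice_sl hg.nice 0 hf a)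
    rw [Finset.sum_sub_distrib, ← h1, Finset.sum_comm] at h2
    have h3 : ∑ j : Fin n, ∑ a, ∫ x, (sl g 0 f a x - Pj g j (sl g 0 f a) x) ^ 2 ≤
        ∑ j : Fin n, ∫ x, (f x - Pj g j.succ f x) ^ 2 := by
      refine Finset.sum_le_sum fun j _ => ?_
      have hP := nice_Pj hg.nice j.succ hf
      have h4 := Pj_sq hg 0 (hf.sub hP)
      have h5 : 0 ≤ ∫ x, (f x - Pj g j.succ f x - Pj g 0 (fun x => f x - Pj g j.succ f x) x) ^ 2 :=
        integral_nonneg fun x => sq_nonneg _
      simp only [proj_sl_sub hg.nice 0 hf hP, sl_Pj hg.nice j hf] at h4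
      linarith
    linarith

end Vale.Agent.P370
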