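import Vale.Agent.P370.MBBasic

/-! Part MB: Schur test and row sums of tensor products (finite sums only).

Plan: `schur`: `|b k * b k'| ≤ (b k ^ 2 + b k' ^ 2) / 2`, `Finset.sum_comm`.  `row_prod`:
`∑ k', ∏ l, A l (k' l) = ∏ l, ∑ a, A l a` (`Finset.prod_univ_sum`, `Fintype.piFinset_univ`).
`abs_prod_sub`: induction on the finite set.  `row_diff`: by `abs_prod_sub` and `row_prod` the sum
is at most `∏ (R l + D l) - ∏ R l` with the true row sums `R l ≤ r l`, `D l ≤ d l`, and this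
expression is monotone (induction, or `Finset.prod_add`).  `fin_norm`: `schur` for
`∏ G - ∏ δ`, `row_diff` with `r = 1`, `d = card S * γ`, and `pow_sub_one_le`. -/

namespace Vale.Agent.P370

variable {S : Type} [Fintype S] [DecidableEq S] {N : ℕ}

lemma schur {K : Type} [Fintype K] {M : K → K → ℝ} (hM : ∀ k k', M k k' = M k' k) {r : ℝ}
    (hr : ∀ k, ∑ k', |M k k'| ≤ r) (b : K → ℝ) :
    |∑ k, ∑ k', b k * b k' * M k k'| ≤ r * ∑ k, b k ^ 2 := by
  have h1 : ∑ k, ∑ k', b k ^ 2 * |M k k'| ≤ r * ∑ k, b k ^ 2 := by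
    rw [Finset.mul_sum]
    refine Finset.sum_le_sum fun k _ => ?_
    rw [← Finset.mul_sum, mul_comm]
    exact mul_le_mul_of_nonneg_right (hr k) (sq_nonneg _)
  have h2 : ∑ k, ∑ k', b k' ^ 2 * |M k k'| = ∑ k, ∑ k', b k ^ 2 * |M k k'| := by
    rw [Finset.sum_comm]
    exact Finset.sum_congr rfl fun k _ => Finset.sum_congr rfl fun k' _ => by rw [hM]
  have h3 : |∑ k, ∑ k', b k * b k' * M k k'| ≤
      ∑ k, ∑ k', (b k ^ 2 * |M k k'| + b k' ^ 2 * |M k k'|) / 2 := by
    refine (Finset.abs_sum_le_sum_abs _ _).trans (Finset.sum_le_sum fun k _ =>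
      (Finset.abs_sum_le_sum_abs _ _).trans (Finset.sum_le_sum fun k' _ => ?_))
    have h4 : |b k * b k'| ≤ (b k ^ 2 + b k' ^ 2) / 2 :=
      abs_le.2 ⟨by nlinarith [sq_nonneg (b k + b k')], by nlinarith [sq_nonneg (b k - b k')]⟩
    rw [abs_mul]
    refine (mul_le_mul_of_nonneg_right h4 (abs_nonneg _)).trans (le_of_eq ?_)
    ring
  simp only [← Finset.sum_div, Finset.sum_add_distrib] at h3
  linarith

omit [DecidableEq S] in
lemma row_prod (A : Fin N → S → ℝ) : ∑ k : Fin N → S, ∏ l, A l (k l) = ∏ l, ∑ a, A l a := by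
  rw [Finset.prod_univ_sum, Fintype.piFinset_univ]

lemma abs_prod_sub {ι : Type} (s : Finset ι) (m m0 : ι → ℝ) :
    |∏ l ∈ s, m l - ∏ l ∈ s, m0 l| ≤ ∏ l ∈ s, (|m0 l| + |m l - m0 l|) - ∏ l ∈ s, |m0 l| := by
  classical
  induction s using Finset.induction_on with
  | empty => simp
  | insert a s ha ih =>
    simp only [Finset.prod_insert ha]
    have h1 : |∏ l ∈ s, m l| ≤ ∏ l ∈ s, (|m0 l| + |m l - m0 l|) := by
      rw [Finset.abs_prod]
      refine Finset.prod_le_prod (fun _ _ => abs_nonneg _) fun l _ => ?_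
      simpa using abs_add_le (m0 l) (m l - m0 l)
    have e : m a * ∏ l ∈ s, m l - m0 a * ∏ l ∈ s, m0 l =
        m0 a * (∏ l ∈ s, m l - ∏ l ∈ s, m0 l) + (m a - m0 a) * ∏ l ∈ s, m l := by ring
    rw [e]
    refine (abs_add_le _ _).trans ?_
    rw [abs_mul, abs_mul]
    have h2 := mul_le_mul_of_nonneg_left ih (abs_nonneg (m0 a))
    have h3 := mul_le_mul_of_nonneg_left h1 (abs_nonneg (m a - m0 a))
    linarith

lemma mbs_mono {ι : Type} (s : Finset ι) {R D r d : ι → ℝ} (hR : ∀ l, 0 ≤ R l) (hD : ∀ l, 0 ≤ D l)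
    (hr : ∀ l, R l ≤ r l) (hd : ∀ l, D l ≤ d l) :
    ∏ l ∈ s, (R l + D l) - ∏ l ∈ s, R l ≤ ∏ l ∈ s, (r l + d l) - ∏ l ∈ s, r l := by
  classical
  induction s using Finset.induction_on with
  | empty => simp
  | insert a s ha ih =>
    simp only [Finset.prod_insert ha]
    have h1 : ∏ l ∈ s, R l ≤ ∏ l ∈ s, (R l + D l) :=
      Finset.prod_le_prod (fun l _ => hR l) fun l _ => le_add_of_nonneg_right (hD l)
    have h2 : ∏ l ∈ s, (R l + D l) ≤ ∏ l ∈ s, (r l + d l) :=
      Finset.prod_le_prod (fun l _ => add_nonneg (hR l) (hD l)) fun l _ => add_le_add (hr l) (hd l)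
    have h3 := mul_le_mul (hr a) ih (sub_nonneg.2 h1) ((hR a).trans (hr a))
    have h4 := mul_le_mul (hd a) h2 (Finset.prod_nonneg fun l _ => add_nonneg (hR l) (hD l))
      ((hD a).trans (hd a))
    linarith

omit [DecidableEq S] in
lemma row_diff {A A0 : Fin N → S → ℝ} {r d : Fin N → ℝ} (hr : ∀ l, ∑ a, |A0 l a| ≤ r l)
    (hd : ∀ l, ∑ a, |A l a - A0 l a| ≤ d l) :
    ∑ k : Fin N → S, |∏ l, A l (k l) - ∏ l, A0 l (k l)| ≤ ∏ l, (r l + d l) - ∏ l, r l := by
  refine (Finset.sum_le_sum fun k _ =>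
    abs_prod_sub Finset.univ (fun l => A l (k l)) fun l => A0 l (k l)).trans ?_
  rw [Finset.sum_sub_distrib, row_prod fun l a => |A0 l a| + |A l a - A0 l a|,
    row_prod fun l a => |A0 l a|]
  simp only [Finset.sum_add_distrib]
  exact mbs_mono _ (fun l => Finset.sum_nonneg fun _ _ => abs_nonneg _)
    (fun l => Finset.sum_nonneg fun _ _ => abs_nonneg _) hr hd

lemma pow_sub_one_le {β : ℝ} (hβ : 0 ≤ β) (h : N * β ≤ 1 / 8) {m : ℕ} (hm : m ≤ N) :
    (1 + β) ^ m - 1 ≤ 2 * (N * β) := by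
  have key : ∀ m : ℕ, m ≤ N → (1 + β) ^ m - 1 ≤ 2 * (m * β) := by
    intro m hm
    induction m with
    | zero => simp
    | succ m ih =>
      have h1 := ih (Nat.le_of_succ_le hm)
      have h2 : (m : ℝ) * β ≤ N * β :=
        mul_le_mul_of_nonneg_right (by exact_mod_cast Nat.le_of_succ_le hm) hβ
      have h3 := mul_le_mul_of_nonneg_right h1 hβ
      have h4 := mul_le_mul_of_nonneg_right (h2.trans h) hβ
      rw [pow_succ]
      push_cast
      linarith
  exact (key m hm).trans (mul_le_mul_of_nonneg_left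
    (mul_le_mul_of_nonneg_right (by exact_mod_cast hm) hβ) zero_le_two)

theorem fin_norm {G : S → S → ℝ} {γ : ℝ} (hγ : 0 ≤ γ) (hGs : ∀ a a', G a a' = G a' a)
    (hG : ∀ a a', |G a a' - if a = a' then 1 else 0| ≤ γ)
    (hsm : N * (Fintype.card S * γ) ≤ 1 / 8) (b : (Fin N → S) → ℝ) :
    |∑ k, ∑ k', b k * b k' * ∏ l, G (k l) (k' l) - ∑ k, b k ^ 2| ≤
      2 * (N * (Fintype.card S * γ)) * ∑ k, b k ^ 2 := by
  have e : ∑ k, ∑ k', b k * b k' * ∏ l, G (k l) (k' l) - ∑ k, b k ^ 2 =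
      ∑ k, ∑ k', b k * b k' *
        (∏ l, G (k l) (k' l) - ∏ l, if k l = k' l then (1 : ℝ) else 0) := by
    rw [← Finset.sum_sub_distrib]
    refine Finset.sum_congr rfl fun k _ => ?_
    simp only [mul_sub, Finset.sum_sub_distrib, Finset.prod_ite_zero, Finset.mem_univ,
      forall_const, Finset.prod_const_one, ← funext_iff, mul_ite, mul_one, mul_zero,
      Finset.sum_ite_eq, if_true, sq]
  rw [e]
  refine schur (fun k k' => ?_) (fun k => ?_) b
  · simp only [hGs (k _), eq_comm]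
  · refine (row_diff (A := fun l a => G (k l) a) (A0 := fun l a => if k l = a then 1 else 0)
      (r := fun _ => 1) (d := fun _ => Fintype.card S * γ) (fun l => ?_) fun l => ?_).trans ?_
    · simp only [apply_ite abs, abs_one, abs_zero, Finset.sum_ite_eq, Finset.mem_univ, if_true,
        le_refl]
    · refine (Finset.sum_le_card_nsmul _ _ γ fun a _ => hG _ a).trans ?_
      rw [Finset.card_univ, nsmul_eq_mul]
    · rw [Finset.prod_const, Finset.prod_const_one, Finset.card_univ, Fintype.card_fin]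
      exact pow_sub_one_le (by positivity) hsm le_rfl

end Vale.Agent.P370
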