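import Vale.Agent.P370.MBBes

/-! Part MB: slices in one coordinate. -/

namespace Vale.Agent.P370

open MeasureTheory

variable {S : Type} [Fintype S] [DecidableEq S] {n : ℕ} {g : S → E3 → ℝ}

lemma sl_meas_ins (i : Fin (n + 1)) :
    Measurable fun q : E3 × EN n => (i.insertNth q.1 q.2 : EN (n + 1)) :=
  (MeasurableEquiv.piFinSuccAbove (fun _ : Fin (n + 1) => E3) i).symm.measurable

lemma sl_norm_left (i : Fin (n + 1)) (y : E3) (x : EN n) :
    ‖y‖ ≤ ‖(i.insertNth y x : EN (n + 1))‖ := by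
  simpa using norm_le_pi_norm (i.insertNth y x : EN (n + 1)) i

lemma sl_norm_right (i : Fin (n + 1)) (y : E3) (x : EN n) :
    ‖x‖ ≤ ‖(i.insertNth y x : EN (n + 1))‖ := by
  refine (pi_norm_le_iff_of_nonneg (norm_nonneg _)).2 fun j => ?_
  simpa using norm_le_pi_norm (i.insertNth y x : EN (n + 1)) (i.succAbove j)

lemma nice_slice (i : Fin (n + 1)) {f : EN (n + 1) → ℝ} (hf : Nice f) (x : EN n) :
    Nice fun y : E3 => f (i.insertNth y x) := by
  obtain ⟨M, hM⟩ := hf.bd
  obtain ⟨R, hR⟩ := hf.supp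
  exact ⟨hf.meas.comp ((sl_meas_ins i).comp (measurable_id.prodMk measurable_const)),
    ⟨M, fun y => hM _⟩, ⟨R, fun y hy => (sl_norm_left i y x).trans (hR _ hy)⟩⟩

omit [Fintype S] [DecidableEq S] in
lemma nice_sl (hg : ∀ a, Nice (g a)) (i : Fin (n + 1)) {f : EN (n + 1) → ℝ} (hf : Nice f) (a : S) :
    Nice (sl g i f a) := by
  obtain ⟨M, hM⟩ := hf.bd
  obtain ⟨R, hR⟩ := hf.supp
  refine ⟨?_, ⟨∫ y, |g a y| * M, fun x => ?_⟩, ⟨R, fun x hx => ?_⟩⟩
  · have h : Measurable fun q : E3 × EN n => g a q.1 * f (i.insertNth q.1 q.2) :=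
      ((hg a).meas.comp measurable_fst).mul (hf.meas.comp (sl_meas_ins i))
    exact (h.stronglyMeasurable.integral_prod_left' (μ := volume)).measurable
  · refine abs_integral_le_integral_abs.trans (integral_mono_of_nonneg
      (ae_of_all _ fun y => abs_nonneg _) ((hg a).abs.integrable.mul_const M)
      (ae_of_all _ fun y => ?_))
    simp only [abs_mul]
    exact mul_le_mul_of_nonneg_left (hM _) (abs_nonneg _)
  · by_contra hlt
    apply hx
    have : ∀ y : E3, f (i.insertNth y x) = 0 := fun y => by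
      by_contra h
      exact hlt ((sl_norm_right i y x).trans (hR _ h))
    simp [sl, this]

omit [DecidableEq S] in
lemma Pj_ins (i : Fin (n + 1)) (f : EN (n + 1) → ℝ) (y : E3) (x : EN n) :
    Pj g i f (i.insertNth y x) = ∑ a, g a y * sl g i f a x := by
  simp only [Pj, sl, Fin.update_insertNth, Fin.insertNth_apply_same]

omit [DecidableEq S] in
lemma nice_Pj (hg : ∀ a, Nice (g a)) {N : ℕ} (i : Fin N) {f : EN N → ℝ} (hf : Nice f) :
    Nice (Pj g i f) := by
  obtain ⟨n, rfl⟩ : ∃ n, N = n + 1 := ⟨N - 1, by have := i.pos; omega⟩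
  have e : Pj g i f = fun x => ∑ a, g a (x i) * sl g i f a (i.removeNth x) := by
    funext x
    rw [← Pj_ins, Fin.insertNth_self_removeNth]
  rw [e]
  refine nice_sum _ fun a _ => ?_
  obtain ⟨M, hM⟩ := (hg a).bd
  obtain ⟨R, hR⟩ := (hg a).supp
  obtain ⟨M', hM'⟩ := (nice_sl hg i hf a).bd
  obtain ⟨R', hR'⟩ := (nice_sl hg i hf a).supp
  refine ⟨((hg a).meas.comp (measurable_pi_apply i)).mul ((nice_sl hg i hf a).meas.comp
    (measurable_pi_lambda _ fun j => measurable_pi_apply _)), ⟨M * M', fun x => ?_⟩,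
    ⟨max R R', fun x hx => ?_⟩⟩
  · rw [abs_mul]
    exact mul_le_mul (hM _) (hM' _) (abs_nonneg _) ((abs_nonneg _).trans (hM (x i)))
  · have h1 := hR _ (left_ne_zero_of_mul hx)
    have h2 := hR' _ (right_ne_zero_of_mul hx)
    refine (pi_norm_le_iff_of_nonneg (((norm_nonneg _).trans h1).trans (le_max_left _ _))).2
      fun j => ?_
    refine Fin.succAboveCases i (h1.trans (le_max_left _ _)) (fun j => ?_) j
    exact ((norm_le_pi_norm (i.removeNth x) j).trans h2).trans (le_max_right _ _)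

lemma Pj_sq (hg : ONm g) (i : Fin (n + 1)) {f : EN (n + 1) → ℝ} (hf : Nice f) :
    ∫ x, (f x - Pj g i f x) ^ 2 = (∫ x, f x ^ 2) - ∑ a, ∫ x, sl g i f a x ^ 2 := by
  have h1 := (hf.sub (nice_Pj hg.nice i hf)).sq.integrable
  have h2 := hf.sq.integrable
  have h3 : ∀ a, Integrable fun x => sl g i f a x ^ 2 := fun a =>
    (nice_sl hg.nice i hf a).sq.integrable
  rw [integral_ins i h1, integral_ins i h2, ← integral_finsetSum _ fun a _ => h3 a,
    ← integral_sub (integrable_ins_int i h2) (integrable_finsetSum _ fun a _ => h3 a)]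
  refine integral_congr_ae (ae_of_all _ fun x => ?_)
  have h4 := bessel_sq hg (nice_slice i hf x)
  simp only [Pj_ins, sl]
  simpa only [mul_comm] using h4

omit [Fintype S] [DecidableEq S] in
lemma cf_ins (hg : ∀ a, Nice (g a)) (i : Fin (n + 1)) {f : EN (n + 1) → ℝ} (hf : Nice f) (a : S)
    (k : Fin n → S) : cfm g f (i.insertNth a k) = cfm g (sl g i f a) k := by
  unfold cfm
  rw [integral_ins i (hf.mul (nice_tp hg _)).integrable]
  refine integral_congr_ae (ae_of_all _ fun x => ?_)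
  simp only [sl, tp, ← integral_mul_const]
  refine integral_congr_ae (ae_of_all _ fun y => ?_)
  simp only [Fin.prod_univ_succAbove _ i, Fin.insertNth_apply_same, Fin.insertNth_apply_succAbove]
  ring

end Vale.Agent.P370
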