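import Vale.Agent.P370.NucG

/-! Part E: derivatives along the axes.

Plan.  `grad_bd`: `norm_iteratedFDeriv_clm_apply_const`, `norm_iteratedFDeriv_fderiv`, `‖Pi.single k 1‖ = 1`.
`deriv_ax`: `hasDerivAt_update`, chain rule.  `dax_succ`: `iteratedDeriv_succ'` and `deriv_ax`.  `dax_bd`: induction on
`m` with `dax_succ`, `grad_bd`.  `dax_mul`: `iteratedDeriv_mul`, the binomial coefficients sum to `16`.
`dax_zero`: `Filter.EventuallyEq.iteratedDeriv_eq`, continuity of `u ↦ update y k u` at `y k`.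
`lap_zero`: `grad` of a function vanishing near `y` vanishes near `y` (`Filter.EventuallyEq.fderiv`).
`bd_shift`: `iteratedFDeriv_comp_add_right`. -/

namespace Vale.Agent.P370.Nuc

open MeasureTheory Finset

theorem contDiff_ax {n : WithTop ℕ∞} {f : E3 → ℝ} (hf : ContDiff ℝ n f) (k : Fin 3) (y : E3) :
    ContDiff ℝ n fun u => f (Function.update y k u) := by
  exact hf.comp (contDiff_update n y k)

theorem grad_bd {n : ℕ} {A : ℝ} {f : E3 → ℝ} (hf : Bd (n + 1) A f) (k : Fin 3) :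
    Bd n A fun x => grad f x k := by
  have h1 : ContDiff ℝ n (fderiv ℝ f) := hf.1.fderiv_right (by push_cast; exact le_rfl)
  refine ⟨h1.clm_apply contDiff_const, fun m hm x => ?_⟩
  have h2 := norm_iteratedFDeriv_clm_apply_const (c := (Pi.single k 1 : E3)) (x := x) (n := m)
    h1.contDiffAt (by exact_mod_cast hm)
  rw [norm_iteratedFDeriv_fderiv, Pi.norm_single, norm_one, one_mul] at h2
  exact h2.trans (hf.2 _ (by omega) x)

theorem deriv_ax {f : E3 → ℝ} (hf : Differentiable ℝ f) (k : Fin 3) (y : E3) (u : ℝ) :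
    HasDerivAt (fun v => f (Function.update y k v)) (grad f (Function.update y k u) k) u := by
  exact (hf _).hasFDerivAt.comp_hasDerivAt u (hasDerivAt_update y k u)

theorem dax_zero_eq (f : E3 → ℝ) (k : Fin 3) (y : E3) : dax 0 f k y = f y := by
  simp [dax]

theorem dax_succ {f : E3 → ℝ} (hf : Differentiable ℝ f) (m : ℕ) (k : Fin 3) (y : E3) :
    dax (m + 1) f k y = dax m (fun x => grad f x k) k y := by
  rw [dax, dax, iteratedDeriv_succ']
  congr 1
  exact funext fun u => (deriv_ax hf k y u).deriv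

theorem dax_update (m : ℕ) (f : E3 → ℝ) (k : Fin 3) (y : E3) (u : ℝ) :
    dax m f k (Function.update y k u) = iteratedDeriv m (fun v => f (Function.update y k v)) u := by
  simp [dax]

theorem dax_bd {n m : ℕ} {A : ℝ} {f : E3 → ℝ} (hf : Bd n A f) (hm : m ≤ n) (k : Fin 3) (y : E3) :
    |dax m f k y| ≤ A := by
  induction m generalizing n f with
  | zero => simpa [dax] using hf.2 0 (Nat.zero_le _) y
  | succ m ih =>
    obtain ⟨n, rfl⟩ : ∃ n', n = n' + 1 := ⟨n - 1, by omega⟩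
    rw [dax_succ (hf.1.differentiable (by simp))]
    exact ih (grad_bd hf k) (by omega)

theorem lap_bd {n : ℕ} {A : ℝ} {V : E3 → ℝ} (hV : Bd (n + 2) A V) : Bd n (3 * A) (Lap V) := by
  have h : ∀ k, Bd n A fun y => grad (fun x => grad V x k) y k := fun k =>
    grad_bd (grad_bd (n := n + 1) hV k) k
  refine ⟨ContDiff.sum fun k _ => (h k).1, fun m hm x => ?_⟩
  have e := iteratedFDeriv_fun_sum_apply (u := (univ : Finset (Fin 3))) (n := m) (x := x)
    (f := fun k y => grad (fun x => grad V x k) y k)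
    fun k _ => ((h k).1.of_le (by exact_mod_cast hm)).contDiffAt
  refine (congrArg norm e).trans_le ((norm_sum_le _ _).trans ?_)
  refine (sum_le_sum fun k _ => (h k).2 m hm x).trans_eq ?_
  simp

theorem lap_eq {V : E3 → ℝ} (hV : ContDiff ℝ 2 V) (y : E3) : Lap V y = ∑ k, dax 2 V k y := by
  refine sum_congr rfl fun k _ => ?_
  have h1 : ContDiff ℝ 1 (fderiv ℝ V) := hV.fderiv_right (by norm_num)
  have h2 : ContDiff ℝ 1 fun x => grad V x k := h1.clm_apply contDiff_const
  rw [dax_succ (hV.differentiable (by simp)), dax_succ (h2.differentiable (by simp)),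
    dax_zero_eq]

theorem dax_mul {f g : E3 → ℝ} (hf : ContDiff ℝ 4 f) (hg : ContDiff ℝ 4 g) {k : Fin 3} {y : E3}
    {A B : ℝ} (hA : ∀ m ≤ 4, |dax m f k y| ≤ A) (hB : ∀ m ≤ 4, |dax m g k y| ≤ B) :
    |dax 4 (fun x => f x * g x) k y| ≤ 16 * (A * B) := by
  have e := iteratedDeriv_fun_mul (n := 4) (x := y k) (contDiff_ax hf k y).contDiffAt
    (contDiff_ax hg k y).contDiffAt
  have h0 : 0 ≤ A := (abs_nonneg _).trans (hA 0 (by norm_num))
  refine (congrArg abs e).trans_le ((abs_sum_le_sum_abs _ _).trans ?_)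
  refine (sum_le_sum (g := fun i => (Nat.choose 4 i : ℝ) * (A * B)) fun i hi => ?_).trans_eq ?_
  · rw [mul_assoc, abs_mul, abs_mul, Nat.abs_cast]
    exact mul_le_mul_of_nonneg_left (mul_le_mul (hA i (by have := mem_range.1 hi; omega))
      (hB _ (by omega)) (abs_nonneg _) h0) (Nat.cast_nonneg _)
  · rw [← sum_mul, ← Nat.cast_sum, Nat.sum_range_choose]
    norm_num

theorem dax_zero {f : E3 → ℝ} {y : E3} (h : ∀ᶠ x in nhds y, f x = 0) (m : ℕ) (k : Fin 3) :
    dax m f k y = 0 := by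
  have h1 : Filter.Tendsto (Function.update y k) (nhds (y k)) (nhds y) := by
    have := (contDiff_update (𝕜 := ℝ) 0 y k).continuous.tendsto (y k)
    rwa [Function.update_eq_self] at this
  have h2 : (fun u => f (Function.update y k u)) =ᶠ[nhds (y k)] fun _ => 0 := h1.eventually h
  rw [dax, h2.iteratedDeriv_eq]
  simp

theorem zero_near {f : E3 → ℝ} {c : E3} {R : ℝ} (hs : ∀ x, f x ≠ 0 → ∀ l, |x l - c l| ≤ R)
    {y : E3} {l : Fin 3} (hy : R < |y l - c l|) : ∀ᶠ x in nhds y, f x = 0 := by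
  have h : ∀ᶠ x in nhds y, R < |x l - c l| :=
    (isOpen_lt continuous_const (by fun_prop)).mem_nhds hy
  filter_upwards [h] with x hx
  by_contra h0
  exact absurd (hs x h0 l) (not_le.2 hx)

theorem ax_grad_zero {V : E3 → ℝ} {y : E3} (h : ∀ᶠ x in nhds y, V x = 0) (k : Fin 3) :
    ∀ᶠ x in nhds y, grad V x k = 0 := by
  have h1 : V =ᶠ[nhds y] fun _ => 0 := h
  filter_upwards [h1.fderiv (𝕜 := ℝ)] with x hx
  simp [grad, hx]

theorem lap_zero {V : E3 → ℝ} {y : E3} (h : ∀ᶠ x in nhds y, V x = 0) :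
    ∀ᶠ x in nhds y, Lap V x = 0 := by
  filter_upwards [Filter.eventually_all.2 fun k => ax_grad_zero (ax_grad_zero h k) k] with x hx
  exact sum_eq_zero fun k _ => hx k

theorem lap_supp {V : E3 → ℝ} {R : ℝ} (hs : ∀ x, V x ≠ 0 → ∀ l, |x l| ≤ R) (x : E3)
    (hx : Lap V x ≠ 0) (l : Fin 3) : |x l| ≤ R := by
  by_contra h
  exact hx (lap_zero (zero_near (c := 0) (l := l) (by simpa using hs)
    (by simpa using h))).self_of_nhds

theorem compact_of_supp {f : E3 → ℝ} {R : ℝ} (hs : ∀ x, f x ≠ 0 → ∀ l, |x l| ≤ R) :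
    HasCompactSupport f := by
  refine HasCompactSupport.intro (isCompact_Icc (a := fun _ => -R) (b := fun _ => R))
    fun x hx => ?_
  by_contra h
  exact hx ⟨fun l => (abs_le.1 (hs x h l)).1, fun l => (abs_le.1 (hs x h l)).2⟩

theorem bd_shift {n : ℕ} {A : ℝ} {G : E3 → ℝ} (hG : Bd n A G) (u : E3) :
    Bd n A fun y => G (y + u) := by
  refine ⟨hG.1.comp (contDiff_id.add contDiff_const), fun m hm x => ?_⟩
  rw [iteratedFDeriv_comp_add_right]
  exact hG.2 m hm _

theorem bd_abs {n : ℕ} {A : ℝ} {G : E3 → ℝ} (hG : Bd n A G) (x : E3) : |G x| ≤ A := by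
  simpa using hG.2 0 (Nat.zero_le _) x

end Vale.Agent.P370.Nuc
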