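import Vale.Agent.P370.NucG

/-! Part E: an explicit bump function.

Plan.  `β u = max u 0 ^ 2` has the derivative `2 * max u 0` (cases `u < 0`, `u > 0` by eventual equality, `u = 0` by
`hasDerivAt_iff_isLittleO_nhds_zero`), so it is `C^1` (`contDiff_one_iff_deriv`).  `ψ x = β (3 R^2 + 1 - ∑ x k ^ 2)`;
`ψ ≤ 16 R^4`, `|grad ψ x k| ≤ 32 R^3`, both vanish outside `Icc (-2R) (2R)` of volume `64 R^3` (`Real.volume_Icc_pi_toReal`,
`setIntegral_eq_integral_of_forall_compl_eq_zero`, `norm_setIntegral_le_of_norm_le_const`). -/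

namespace Vale.Agent.P370.Nuc

open MeasureTheory Finset

theorem bp_deriv (u : ℝ) : HasDerivAt (fun u : ℝ => max u 0 ^ 2) (2 * max u 0) u := by
  rcases lt_trichotomy u 0 with h | rfl | h
  · rw [max_eq_right h.le, mul_zero]
    refine (hasDerivAt_const u (0 : ℝ)).congr_of_eventuallyEq ?_
    filter_upwards [Iio_mem_nhds h] with v hv
    rw [max_eq_right (le_of_lt hv)]
    norm_num
  · rw [hasDerivAt_iff_isLittleO_nhds_zero]
    refine Asymptotics.IsBigO.trans_isLittleO (g := fun h : ℝ => h ^ 2) ?_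
      (Asymptotics.isLittleO_pow_id one_lt_two)
    refine Asymptotics.IsBigO.of_norm_le fun v => ?_
    rcases le_total v 0 with hv | hv
    · simp [hv, sq_nonneg]
    · simp [hv]
  · rw [max_eq_left h.le]
    have e : HasDerivAt (fun v : ℝ => v ^ 2) (2 * u) u := by simpa using hasDerivAt_pow 2 u
    refine e.congr_of_eventuallyEq ?_
    filter_upwards [Ioi_mem_nhds h] with v hv
    rw [max_eq_left (le_of_lt hv)]

theorem bp_smooth : ContDiff ℝ 1 fun u : ℝ => max u 0 ^ 2 := by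
  rw [contDiff_one_iff_deriv]
  refine ⟨fun u => (bp_deriv u).differentiableAt, ?_⟩
  have e : deriv (fun u : ℝ => max u 0 ^ 2) = fun u => 2 * max u 0 :=
    funext fun u => (bp_deriv u).deriv
  rw [e]
  fun_prop

theorem bp_grad (c : ℝ) (x : E3) (k : Fin 3) :
    grad (fun x : E3 => max (c - ∑ k, x k ^ 2) 0 ^ 2) x k =
      2 * max (c - ∑ k, x k ^ 2) 0 * (-(2 * x k)) := by
  have h1 : HasFDerivAt (fun x : E3 => c - ∑ k, x k ^ 2)
      (-∑ k, (2 * x k) • ContinuousLinearMap.proj (R := ℝ) (φ := fun _ : Fin 3 => ℝ) k) x := by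
    refine HasFDerivAt.const_sub ?_ c
    refine HasFDerivAt.fun_sum fun k _ => ?_
    have e : HasDerivAt (fun v : ℝ => v ^ 2) (2 * x k) (x k) := by
      simpa using hasDerivAt_pow 2 (x k)
    exact HasDerivAt.comp_hasFDerivAt (h₂ := fun v : ℝ => v ^ 2) (f := fun x : E3 => x k) x e
      (hasFDerivAt_apply k x)
  have h2 := (bp_deriv (c - ∑ k, x k ^ 2)).comp_hasFDerivAt x h1
  have h3 : fderiv ℝ (fun x : E3 => max (c - ∑ k, x k ^ 2) 0 ^ 2) x = _ := h2.fderiv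
  unfold grad
  rw [h3]
  simp [Pi.single_apply]

theorem bp_int {f : E3 → ℝ} {R M : ℝ} (hR : 0 ≤ R)
    (h0 : ∀ x, x ∉ Set.Icc (fun _ : Fin 3 => -(2 * R)) (fun _ => 2 * R) → f x = 0)
    (hM : ∀ x ∈ Set.Icc (fun _ : Fin 3 => -(2 * R)) (fun _ => 2 * R), ‖f x‖ ≤ M) :
    ∫ x, f x ≤ M * (64 * R ^ 3) := by
  rw [← setIntegral_eq_integral_of_forall_compl_eq_zero h0]
  have h1 := norm_setIntegral_le_of_norm_le_const (μ := volume) (measure_Icc_lt_top) hM
  have h2 : (volume (Set.Icc (fun _ : Fin 3 => -(2 * R)) (fun _ => 2 * R))).toReal =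
      64 * R ^ 3 := by
    rw [Real.volume_Icc_pi_toReal (fun _ => by linarith)]
    simp only [Finset.prod_const, Finset.card_univ, Fintype.card_fin]
    ring
  rw [Measure.real, h2] at h1
  exact (Real.le_norm_self _).trans h1

theorem bp_out {R : ℝ} (hR : 1 ≤ R) {x : E3}
    (hx : x ∉ Set.Icc (fun _ : Fin 3 => -(2 * R)) (fun _ => 2 * R)) :
    max (3 * R ^ 2 + 1 - ∑ k, x k ^ 2) 0 = 0 := by
  apply max_eq_right
  by_contra hc
  apply hx
  have h : ∀ k, x k ^ 2 ≤ (2 * R) ^ 2 := fun k => by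
    have := Finset.single_le_sum (f := fun k => x k ^ 2) (fun k _ => sq_nonneg (x k))
      (Finset.mem_univ k)
    nlinarith
  exact ⟨fun k => (abs_le_of_sq_le_sq' (h k) (by linarith)).1,
    fun k => (abs_le_of_sq_le_sq' (h k) (by linarith)).2⟩

theorem bump {R : ℝ} (hR : 1 ≤ R) : ∃ ψ : E3 → ℝ, Test1 ψ ∧ (∀ x, (∀ k, |x k| ≤ R) → 1 ≤ ψ x) ∧
    kin ψ ≤ 10 ^ 6 * R ^ 11 ∧ n2 ψ ≤ 10 ^ 6 * R ^ 11 := by
  have hm : ∀ x : E3, 0 ≤ max (3 * R ^ 2 + 1 - ∑ k, x k ^ 2) 0 ∧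
      max (3 * R ^ 2 + 1 - ∑ k, x k ^ 2) 0 ≤ 4 * R ^ 2 := fun x => by
    have : 0 ≤ ∑ k, x k ^ 2 := Finset.sum_nonneg fun k _ => sq_nonneg _
    exact ⟨le_max_right _ _, max_le (by nlinarith) (by positivity)⟩
  have hR0 : 0 ≤ R := by linarith
  refine ⟨fun x => max (3 * R ^ 2 + 1 - ∑ k, x k ^ 2) 0 ^ 2, ⟨?_, ?_⟩, ?_, ?_, ?_⟩
  · exact bp_smooth.comp (f := fun x : E3 => 3 * R ^ 2 + 1 - ∑ k, x k ^ 2) (by fun_prop)
  · refine HasCompactSupport.intro (K := Set.Icc (fun _ : Fin 3 => -(2 * R)) (fun _ => 2 * R))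
      isCompact_Icc fun x hx => ?_
    rw [bp_out hR hx]
    norm_num
  · intro x hx
    have h : ∀ k, x k ^ 2 ≤ R ^ 2 := fun k => by
      rw [← sq_abs]
      exact pow_le_pow_left₀ (abs_nonneg _) (hx k) 2
    have h1 : ∑ k, x k ^ 2 ≤ 3 * R ^ 2 := by
      rw [Fin.sum_univ_three]
      linarith [h 0, h 1, h 2]
    exact one_le_pow₀ (le_max_of_le_left (by linarith))
  · refine (bp_int (M := 3 * (32 * R ^ 3) ^ 2) hR0 (fun x hx => ?_) fun x hx => ?_).trans ?_
    · simp only [bp_grad, bp_out hR hx]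
      simp
    · have h : ∀ k, grad (fun x : E3 => max (3 * R ^ 2 + 1 - ∑ k, x k ^ 2) 0 ^ 2) x k ^ 2 ≤
          (32 * R ^ 3) ^ 2 := fun k => by
        rw [bp_grad, ← sq_abs]
        refine pow_le_pow_left₀ (abs_nonneg _) ?_ 2
        have h1 : |x k| ≤ 2 * R := abs_le.2 ⟨hx.1 k, hx.2 k⟩
        rw [abs_mul, abs_mul, abs_neg, abs_mul, abs_two, abs_of_nonneg (hm x).1]
        calc _ ≤ 2 * (4 * R ^ 2) * (2 * (2 * R)) := by
              have := (hm x).2
              gcongr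
          _ = _ := by ring
      rw [Real.norm_of_nonneg (Finset.sum_nonneg fun k _ => sq_nonneg _), Fin.sum_univ_three]
      linarith [h 0, h 1, h 2]
    · have h1 : R ^ 9 ≤ R ^ 11 := pow_le_pow_right₀ hR (by norm_num)
      have h2 : 0 ≤ R ^ 9 := by positivity
      calc _ = 196608 * R ^ 9 := by ring
        _ ≤ _ := by linarith
  · refine (bp_int (M := ((4 * R ^ 2) ^ 2) ^ 2) hR0 (fun x hx => ?_) fun x _ => ?_).trans ?_
    · simp only [bp_out hR hx]
      norm_num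
    · rw [Real.norm_of_nonneg (sq_nonneg _)]
      have := hm x
      exact pow_le_pow_left₀ (sq_nonneg _) (pow_le_pow_left₀ this.1 this.2 2) 2
    · have h2 : 0 ≤ R ^ 11 := by positivity
      calc _ = 16384 * R ^ 11 := by ring
        _ ≤ _ := by linarith

theorem kin_nonneg (ψ : E3 → ℝ) : 0 ≤ kin ψ :=
  integral_nonneg fun _ => Finset.sum_nonneg fun _ _ => sq_nonneg _

theorem n2_nonneg (ψ : E3 → ℝ) : 0 ≤ n2 ψ := integral_nonneg fun _ => sq_nonneg _

theorem sq_integrable {ψ : E3 → ℝ} (hψ : Test1 ψ) : Integrable fun x => ψ x ^ 2 := by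
  have h1 : Continuous fun x => ψ x ^ 2 := hψ.1.continuous.pow 2
  have h2 : HasCompactSupport fun x => ψ x ^ 2 :=
    HasCompactSupport.intro hψ.2 fun x hx => by rw [image_eq_zero_of_notMem_tsupport hx]; norm_num
  exact h1.integrable_of_hasCompactSupport h2

end Vale.Agent.P370.Nuc
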