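import Vale.Agent.P370.NucG

/-! Part E: moving a convolution through the error functional.

Plan.  `G` is bounded (`Continuous.bounded_above_of_compact_support`), `ρ` is bounded on the compact box.
For a point `g`: `∫ x, K (x - g) * G x = ∫ u, K u * G (g + u)` (`integral_add_left_eq_self`).  For the integral over the box:
`(x, y) ↦ ρ y * K (x - y) * G x` is integrable on `E3 × box` (`integrable_prod_iff'`, the inner integral of the norm is at most
a constant), swap, translate `x = y + u` for each `y`, swap again (`(y, u) ↦ ρ y * K u * G (y + u)` is dominated by a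
constant times `|K u|`).  `Integrable.integral_prod_left`, `integral_integral_swap`, `integral_finsetSum`. -/

namespace Vale.Agent.P370.Nuc

open MeasureTheory Finset

theorem conv_pt {K G : E3 → ℝ} (hK : Integrable K) (hG : Continuous G) (hc : HasCompactSupport G)
    (g : E3) : Integrable (fun x => K (x - g) * G x) ∧ Integrable (fun u => K u * G (g + u)) ∧
      ∫ x, K (x - g) * G x = ∫ u, K u * G (g + u) := by
  obtain ⟨M, hM⟩ := hG.bounded_above_of_compact_support hc
  refine ⟨(hK.comp_sub_right g).mul_bdd hG.aestronglyMeasurable (.of_forall hM),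
    hK.mul_bdd (hG.comp (continuous_const.add continuous_id)).aestronglyMeasurable
      (.of_forall fun u => hM _), ?_⟩
  rw [← integral_add_left_eq_self (fun x => K (x - g) * G x) g]
  simp

theorem conv_box {ρ K G : E3 → ℝ} {μ : Measure E3} [SFinite μ] (hρ : Integrable ρ μ)
    (hK : Integrable K) (hG : Continuous G) (hc : HasCompactSupport G) :
    Integrable (fun x => (∫ y, ρ y * K (x - y) ∂μ) * G x) ∧
      Integrable (fun u => K u * ∫ y, ρ y * G (y + u) ∂μ) ∧
      ∫ x, (∫ y, ρ y * K (x - y) ∂μ) * G x = ∫ u, K u * ∫ y, ρ y * G (y + u) ∂μ := by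
  obtain ⟨M, hM⟩ := hG.bounded_above_of_compact_support hc
  have h1 : Integrable (fun z : E3 × E3 => ρ z.1 * K z.2 * G (z.1 + z.2)) (μ.prod volume) :=
    (hρ.mul_prod hK).mul_bdd (hG.comp (continuous_fst.add continuous_snd)).aestronglyMeasurable
      (.of_forall fun z => hM _)
  have h2 : Integrable (fun z : E3 × E3 => ρ z.1 * K (z.2 - z.1) * G z.2) (μ.prod volume) := by
    have := (measurePreserving_prod_sub μ volume).integrable_comp_of_integrable h1
    refine this.congr (.of_forall fun z => ?_)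
    simp
  have e1 : ∀ x, (∫ y, ρ y * K (x - y) ∂μ) * G x = ∫ y, ρ y * K (x - y) * G x ∂μ :=
    fun x => (integral_mul_const _ _).symm
  have e2 : ∀ u, K u * ∫ y, ρ y * G (y + u) ∂μ = ∫ y, ρ y * K u * G (y + u) ∂μ := fun u => by
    rw [← integral_const_mul]
    exact integral_congr_ae (.of_forall fun y => by ring)
  simp only [e1, e2]
  refine ⟨h2.integral_prod_right, h1.integral_prod_right, ?_⟩
  rw [← integral_integral_swap (f := fun y x => ρ y * K (x - y) * G x) h2,
    ← integral_integral_swap (f := fun y u => ρ y * K u * G (y + u)) h1]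
  refine integral_congr_ae (.of_forall fun y => ?_)
  simp only [mul_assoc, integral_const_mul]
  rw [(conv_pt hK hG hc y).2.2]

theorem conv_sum (Γ : Grid) (q : ℕ → ℕ → ℕ → ℝ) {K G : E3 → ℝ} (hK : Integrable K)
    (hG : Continuous G) (hc : HasCompactSupport G) :
    Integrable (fun x => Γ.sum q (fun y => K (x - y)) * G x) ∧
      Integrable (fun u => K u * Γ.sum q (fun y => G (y + u))) ∧
      ∫ x, Γ.sum q (fun y => K (x - y)) * G x = ∫ u, K u * Γ.sum q (fun y => G (y + u)) := by
  have e1 : ∀ x, Γ.sum q (fun y => K (x - y)) * G x =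
      ∑ p ∈ range (Γ.n 0) ×ˢ range (Γ.n 1) ×ˢ range (Γ.n 2),
        q p.1 p.2.1 p.2.2 * (K (x - Γ.gp p.1 p.2.1 p.2.2) * G x) := fun x => by
    simp only [Grid.sum, sum_product, sum_mul, mul_assoc]
  have e2 : ∀ u, K u * Γ.sum q (fun y => G (y + u)) =
      ∑ p ∈ range (Γ.n 0) ×ˢ range (Γ.n 1) ×ˢ range (Γ.n 2),
        q p.1 p.2.1 p.2.2 * (K u * G (Γ.gp p.1 p.2.1 p.2.2 + u)) := fun u => by
    simp only [Grid.sum, sum_product, mul_sum, mul_left_comm (K u)]
  simp only [e1, e2]
  refine ⟨integrable_finsetSum _ fun p _ => (conv_pt hK hG hc _).1.const_mul _,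
    integrable_finsetSum _ fun p _ => (conv_pt hK hG hc _).2.1.const_mul _, ?_⟩
  rw [integral_finsetSum _ fun p _ => (conv_pt hK hG hc _).1.const_mul _,
    integral_finsetSum _ fun p _ => (conv_pt hK hG hc _).2.1.const_mul _]
  refine sum_congr rfl fun p _ => ?_
  rw [integral_const_mul, integral_const_mul, (conv_pt hK hG hc _).2.2]

theorem err_conv (Γ : Grid) (s : ℝ) (q : ℕ → ℕ → ℕ → ℝ) {ρ K G : E3 → ℝ} (hρ : Continuous ρ)
    (hK : Integrable K) (hKm : Measurable K) (hG : Continuous G) (hc : HasCompactSupport G) :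
    Integrable (fun x => Γ.err s q ρ (fun y => K (x - y)) * G x) ∧
      ∫ x, Γ.err s q ρ (fun y => K (x - y)) * G x =
        ∫ u, K u * Γ.err s q ρ (fun y => G (y + u)) := by
  have hρ' : Integrable ρ (volume.restrict Γ.box) :=
    hρ.continuousOn.integrableOn_compact isCompact_Icc
  obtain ⟨a1, a2, a3⟩ := conv_sum Γ q hK hG hc
  obtain ⟨b1, b2, b3⟩ := conv_box hρ' hK hG hc
  have e1 : ∀ x, Γ.err s q ρ (fun y => K (x - y)) * G x =
      s * (Γ.sum q (fun y => K (x - y)) * G x) - (∫ y in Γ.box, ρ y * K (x - y)) * G x :=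
    fun x => by simp only [Grid.err]; ring
  have e2 : ∀ u, K u * Γ.err s q ρ (fun y => G (y + u)) =
      s * (K u * Γ.sum q (fun y => G (y + u))) - K u * ∫ y in Γ.box, ρ y * G (y + u) :=
    fun u => by simp only [Grid.err]; ring
  simp only [e1, e2]
  refine ⟨(a1.const_mul s).sub b1, ?_⟩
  rw [integral_sub (a1.const_mul s) b1, integral_sub (a2.const_mul s) b2, integral_const_mul,
    integral_const_mul, a3, b3]

end Vale.Agent.P370.Nuc
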