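import Vale.Agent.P370.NucG

/-! Part E: a periodic Hardy inequality.

Plan.  Let `θ k = π (x k - a k) / h`, `σ k = sg .. = (h/π) cos θ`, `S k = -(h/π) cos θ sin θ` (`= σ σ'`),
`D = ε + ∑ σ k ^ 2`, `X k = S k / D`.  Then `∂_k D = 2 S k`, `∂_k S k = 1 - 2 cos^2 θ = 1 - 2 (π/h)^2 σ k ^ 2`, `S k ^ 2 ≤ σ k ^ 2`,
so `∑ ∂_k X k ≥ 1 / D - 2 (π/h)^2` and `∑ X k ^ 2 ≤ 1 / D`.  Integrate by parts
(`integral_bilinear_hasLineDerivAt_right_eq_neg_left_of_integrable` or `integral_mul_fderiv_eq_neg_fderiv_mul_of_integrable`):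
`∫ ψ^2 ∂_k X k = -∫ 2 ψ ∂_k ψ X k`, and `2 |ψ ∂_k ψ X k| ≤ ψ^2 X k ^ 2 / 2 + 2 (∂_k ψ)^2`.  All integrands are continuous with
compact support.  `hardy`: `ε = 1 / (n + 1)`, Fatou (`lintegral_liminf_le`) or monotone convergence on the
a.e. set `Dn ≠ 0`.  `Dn_ae`: `Real.cos_eq_zero_iff`, `ae_all_iff`, `MeasureTheory.Measure.ae_eval_ne`. -/

namespace Vale.Agent.P370.Nuc

open MeasureTheory Finset

noncomputable def nhS (a h x : ℝ) : ℝ :=
  -(h / Real.pi * Real.cos (Real.pi * (x - a) / h) * Real.sin (Real.pi * (x - a) / h))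

theorem nh_th (a h x : ℝ) :
    HasDerivAt (fun t : ℝ => Real.pi * (x + t - a) / h) (Real.pi / h) 0 := by
  have := ((((hasDerivAt_id (0 : ℝ)).const_add x).sub_const a).const_mul Real.pi).div_const h
  simpa using this

theorem nh_sg2 (a : ℝ) {h : ℝ} (hh : 0 < h) (x : ℝ) :
    HasDerivAt (fun t : ℝ => sg a h (x + t) ^ 2) (2 * nhS a h x) 0 := by
  have h1 := (((nh_th a h x).cos).const_mul (h / Real.pi)).pow 2
  refine h1.congr_deriv ?_
  have := Real.pi_pos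
  simp only [nhS, add_zero]
  norm_num
  field_simp

theorem nh_S (a : ℝ) {h : ℝ} (hh : 0 < h) (x : ℝ) :
    HasDerivAt (fun t : ℝ => nhS a h (x + t)) (1 - 2 * (Real.pi / h) ^ 2 * sg a h x ^ 2) 0 := by
  have h1 := ((((nh_th a h x).cos).const_mul (h / Real.pi)).mul (nh_th a h x).sin).neg
  refine h1.congr_deriv ?_
  have := Real.pi_pos
  have h2 := Real.sin_sq_add_cos_sq (Real.pi * (x - a) / h)
  simp only [sg, add_zero]
  generalize Real.sin (Real.pi * (x - a) / h) = s at *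
  generalize Real.cos (Real.pi * (x - a) / h) = c at *
  have h3 : (1 : ℝ) = s ^ 2 + c ^ 2 := h2.symm
  have h4 : 2 * (Real.pi / h) ^ 2 * (h / Real.pi * c) ^ 2 = 2 * c ^ 2 := by field_simp
  rw [h4]
  have h5 : h / Real.pi * (-s * (Real.pi / h)) = -s := by field_simp
  have h6 : h / Real.pi * c * (c * (Real.pi / h)) = c ^ 2 := by field_simp
  rw [h5, h6]
  nlinarith

theorem nh_S_sq (a h x : ℝ) : nhS a h x ^ 2 ≤ sg a h x ^ 2 := by
  have h1 := Real.sin_sq_le_one (Real.pi * (x - a) / h)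
  have h2 : nhS a h x ^ 2 = sg a h x ^ 2 * Real.sin (Real.pi * (x - a) / h) ^ 2 := by
    simp only [nhS, sg]; ring
  rw [h2]
  exact mul_le_of_le_one_right (sq_nonneg _) h1

theorem nh_cont_sg (a h : ℝ) : Continuous (sg a h) := by
  unfold sg; fun_prop

theorem nh_cont_S (a h : ℝ) : Continuous (nhS a h) := by
  unfold nhS; fun_prop

theorem nh_D (Γ : Grid) (hh : 0 < Γ.h) (ε : ℝ) (k : Fin 3) (x : E3) :
    HasDerivAt (fun t : ℝ => ε + ∑ l, sg (Γ.a l) Γ.h ((x + t • (Pi.single k 1 : E3)) l) ^ 2)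
      (2 * nhS (Γ.a k) Γ.h (x k)) 0 := by
  have e1 : (fun t : ℝ => ε + ∑ l, sg (Γ.a l) Γ.h ((x + t • (Pi.single k 1 : E3)) l) ^ 2) =
      fun t : ℝ => (ε + ∑ l ∈ univ.erase k, sg (Γ.a l) Γ.h (x l) ^ 2) +
        sg (Γ.a k) Γ.h (x k + t) ^ 2 := by
    funext t
    rw [← Finset.add_sum_erase _ _ (mem_univ k), add_assoc, add_comm (∑ l ∈ univ.erase k, _)]
    congr 2
    · simp
    · refine Finset.sum_congr rfl fun l hl => ?_
      simp [Pi.single_eq_of_ne (Finset.ne_of_mem_erase hl)]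
  rw [e1]
  exact (nh_sg2 _ hh _).const_add _

theorem nh_line (Γ : Grid) (hh : 0 < Γ.h) {ε : ℝ} (hε : 0 < ε) (k : Fin 3) (x : E3) :
    HasLineDerivAt ℝ (fun y : E3 => nhS (Γ.a k) Γ.h (y k) / (ε + ∑ l, sg (Γ.a l) Γ.h (y l) ^ 2))
      ((1 - 2 * (Real.pi / Γ.h) ^ 2 * sg (Γ.a k) Γ.h (x k) ^ 2) /
          (ε + ∑ l, sg (Γ.a l) Γ.h (x l) ^ 2) -
        2 * nhS (Γ.a k) Γ.h (x k) ^ 2 / (ε + ∑ l, sg (Γ.a l) Γ.h (x l) ^ 2) ^ 2)
      x (Pi.single k 1) := by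
  unfold HasLineDerivAt
  have h0 : 0 < ε + ∑ l, sg (Γ.a l) Γ.h (x l) ^ 2 := by positivity
  have h1 : HasDerivAt (fun t : ℝ => nhS (Γ.a k) Γ.h ((x + t • (Pi.single k 1 : E3)) k))
      (1 - 2 * (Real.pi / Γ.h) ^ 2 * sg (Γ.a k) Γ.h (x k) ^ 2) 0 := by
    simpa using nh_S (Γ.a k) hh (x k)
  have h2 := h1.div (nh_D Γ hh ε k x) (by simpa using h0.ne')
  refine h2.congr_deriv ?_
  simp only [zero_smul, add_zero]
  field_simp

theorem nh_pt {D p c ψ : ℝ} (hD : 0 < D) (σ S g : Fin 3 → ℝ) (hS : ∀ k, S k ^ 2 ≤ σ k ^ 2)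
    (hσ : ∑ k, σ k ^ 2 ≤ D) (hc : 0 ≤ c) (hp : p = ψ ^ 2) :
    p / D ≤ 2 * ∑ k, (((1 - 2 * c * σ k ^ 2) / D - 2 * S k ^ 2 / D ^ 2) * p +
      S k / D * (2 * ψ * g k)) + (4 * ∑ k, g k ^ 2 + 4 * c * p) := by
  have hp0 : 0 ≤ p := hp ▸ sq_nonneg _
  have hSD : ∑ k, S k ^ 2 ≤ D := (Finset.sum_le_sum fun k _ => hS k).trans hσ
  obtain ⟨r, hr⟩ : ∃ r : ℝ, r = 1 / D := ⟨_, rfl⟩
  have hr0 : 0 < r := by rw [hr]; positivity
  have hrD : r * D = 1 := by rw [hr]; field_simp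
  have e1 : ∀ u : ℝ, u / D = u * r := fun u => by rw [hr]; ring
  have e2 : ∀ u : ℝ, u / D ^ 2 = u * r ^ 2 := fun u => by rw [hr]; field_simp
  simp only [e2, e1]
  simp only [Fin.sum_univ_three] at hSD hσ ⊢
  have a1 : (S 0 ^ 2 + S 1 ^ 2 + S 2 ^ 2) * r ≤ 1 := by nlinarith
  have a2 : (σ 0 ^ 2 + σ 1 ^ 2 + σ 2 ^ 2) * r ≤ 1 := by nlinarith
  have a3 : (S 0 ^ 2 + S 1 ^ 2 + S 2 ^ 2) * r * (r * p) ≤ 1 * (r * p) :=
    mul_le_mul_of_nonneg_right a1 (by positivity)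
  have a4 : (σ 0 ^ 2 + σ 1 ^ 2 + σ 2 ^ 2) * r * (c * p) ≤ 1 * (c * p) :=
    mul_le_mul_of_nonneg_right a2 (by positivity)
  have b : ∀ k, 0 ≤ S k ^ 2 * r ^ 2 * p + 4 * (S k * r * ψ * g k) + 4 * g k ^ 2 := fun k => by
    rw [hp]; nlinarith [sq_nonneg (S k * r * ψ + 2 * g k)]
  nlinarith [b 0, b 1, b 2]

theorem nh_abs0 {ψ : E3 → ℝ} (F F' G : Fin 3 → E3 → ℝ) (w : E3 → ℝ) (c : ℝ)
    (hs : Continuous ψ) (hc : HasCompactSupport ψ)
    (cG : ∀ k, Continuous (G k)) (sG : ∀ k, HasCompactSupport (G k))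
    (dg : ∀ k x, HasLineDerivAt ℝ (fun y => ψ y ^ 2) (2 * ψ x * G k x) x (Pi.single k 1))
    (cF : ∀ k, Continuous (F k)) (cF' : ∀ k, Continuous (F' k)) (cw : Continuous w)
    (hd : ∀ k x, HasLineDerivAt ℝ (F k) (F' k x) x (Pi.single k 1))
    (hp : ∀ x, w x * ψ x ^ 2 ≤ 2 * ∑ k, (F' k x * ψ x ^ 2 + F k x * (2 * ψ x * G k x)) +
      (4 * ∑ k, G k x ^ 2 + c * ψ x ^ 2)) :
    ∫ x, w x * ψ x ^ 2 ≤ 4 * (∫ x, ∑ k, G k x ^ 2) + c * ∫ x, ψ x ^ 2 := by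
  have cg : Continuous fun x => ψ x ^ 2 := hs.pow 2
  have sq : HasCompactSupport fun x => ψ x ^ 2 :=
    hc.comp_left (g := fun z : ℝ => z ^ 2) (by simp)
  have cg' : ∀ k, Continuous fun x => 2 * ψ x * G k x := fun k =>
    (continuous_const.mul hs).mul (cG k)
  have sg' : ∀ k, HasCompactSupport fun x => 2 * ψ x * G k x := fun k => (sG k).mul_left
  have j1 : ∀ k, Integrable fun x : E3 => F' k x * ψ x ^ 2 := fun k =>
    ((cF' k).mul cg).integrable_of_hasCompactSupport sq.mul_left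
  have j2 : ∀ k, Integrable fun x : E3 => F k x * (2 * ψ x * G k x) := fun k =>
    ((cF k).mul (cg' k)).integrable_of_hasCompactSupport (sg' k).mul_left
  have j3 : Integrable fun x => ψ x ^ 2 := cg.integrable_of_hasCompactSupport sq
  have j7 : ∀ u : E3 → ℝ, Continuous u → HasCompactSupport u → Integrable fun x => u x ^ 2 :=
    fun u h1 h2 => by
      have a : Continuous fun x => u x ^ 2 := h1.pow 2
      have b : HasCompactSupport fun x => u x ^ 2 :=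
        h2.comp_left (g := fun z : ℝ => z ^ 2) (by simp)
      exact a.integrable_of_hasCompactSupport b
  have j4 : Integrable fun x => ∑ k, G k x ^ 2 :=
    integrable_finsetSum (f := fun k x => G k x ^ 2) _ fun k _ => j7 _ (cG k) (sG k)
  have j5 : Integrable fun x => w x * ψ x ^ 2 :=
    (cw.mul cg).integrable_of_hasCompactSupport sq.mul_left
  have j6 : ∀ k, Integrable fun x : E3 => F' k x * ψ x ^ 2 + F k x * (2 * ψ x * G k x) :=
    fun k => (j1 k).add (j2 k)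
  have ibp : ∀ k, ∫ x : E3, (F' k x * ψ x ^ 2 + F k x * (2 * ψ x * G k x)) = 0 := fun k => by
    have a1 := integral_bilinear_hasLineDerivAt_right_eq_neg_left_of_integrable
      (μ := (volume : Measure E3)) (B := ContinuousLinearMap.mul ℝ ℝ) (v := Pi.single k 1)
      (f := F k) (f' := F' k) (g := fun x => ψ x ^ 2) (g' := fun x => 2 * ψ x * G k x)
      (j1 k) (j2 k) (((cF k).mul cg).integrable_of_hasCompactSupport sq.mul_left)
      (fun x _ => hd k x) (fun x _ => dg k x)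
    simp only [ContinuousLinearMap.mul_apply'] at a1
    rw [integral_add (j1 k) (j2 k), a1]
    ring
  have jF : Integrable fun x : E3 =>
      2 * ∑ k, (F' k x * ψ x ^ 2 + F k x * (2 * ψ x * G k x)) :=
    (integrable_finsetSum _ fun k _ => j6 k).const_mul 2
  have jG : Integrable fun x : E3 => 4 * ∑ k, G k x ^ 2 + c * ψ x ^ 2 :=
    (j4.const_mul 4).add (j3.const_mul c)
  have s1 : ∫ x, w x * ψ x ^ 2 ≤ ∫ x, (2 * ∑ k, (F' k x * ψ x ^ 2 +
      F k x * (2 * ψ x * G k x)) + (4 * ∑ k, G k x ^ 2 + c * ψ x ^ 2)) :=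
    integral_mono j5 (jF.add jG) hp
  rw [integral_add jF jG, integral_add (j4.const_mul 4) (j3.const_mul c), integral_const_mul,
    integral_const_mul, integral_const_mul, integral_finsetSum _ fun k _ => j6 k] at s1
  simp only [ibp, Finset.sum_const_zero, mul_zero, zero_add] at s1
  exact s1

theorem nh_abs {ψ : E3 → ℝ} (hψ : Test1 ψ) (F F' : Fin 3 → E3 → ℝ) (w : E3 → ℝ) (c : ℝ)
    (cF : ∀ k, Continuous (F k)) (cF' : ∀ k, Continuous (F' k)) (cw : Continuous w)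
    (hd : ∀ k x, HasLineDerivAt ℝ (F k) (F' k x) x (Pi.single k 1))
    (hp : ∀ x, w x * ψ x ^ 2 ≤ 2 * ∑ k, (F' k x * ψ x ^ 2 + F k x * (2 * ψ x * grad ψ x k)) +
      (4 * ∑ k, grad ψ x k ^ 2 + c * ψ x ^ 2)) :
    ∫ x, w x * ψ x ^ 2 ≤ 4 * kin ψ + c * n2 ψ := by
  obtain ⟨hs, hc⟩ := hψ
  have cG : ∀ k, Continuous fun x => grad ψ x k := fun k =>
    (hs.continuous_fderiv one_ne_zero).clm_apply continuous_const
  have sG : ∀ k, HasCompactSupport fun x => grad ψ x k := fun k =>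
    (hc.fderiv ℝ).comp_left (g := fun L : E3 →L[ℝ] ℝ => L (Pi.single k 1)) (by simp)
  have dg : ∀ k x, HasLineDerivAt ℝ (fun y => ψ y ^ 2) (2 * ψ x * grad ψ x k) x
      (Pi.single k 1) := fun k x => by
    have h1 : HasDerivAt (fun t : ℝ => ψ (x + t • (Pi.single k 1 : E3))) (grad ψ x k) 0 :=
      (hs.differentiable one_ne_zero x).hasFDerivAt.hasLineDerivAt (Pi.single k 1)
    have h2 := h1.pow 2
    refine HasDerivAt.congr_deriv h2 ?_
    simp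
  exact nh_abs0 F F' (fun k x => grad ψ x k) w c hs.continuous hc cG sG dg cF cF' cw hd hp

theorem hardy_eps (Γ : Grid) (hh : 0 < Γ.h) {ψ : E3 → ℝ} (hψ : Test1 ψ) {ε : ℝ} (hε : 0 < ε) :
    ∫ x, ψ x ^ 2 / (ε + ∑ k, sg (Γ.a k) Γ.h (x k) ^ 2) ≤ 4 * kin ψ + 40 / Γ.h ^ 2 * n2 ψ := by
  obtain ⟨D, hD⟩ : ∃ D : E3 → ℝ, D = fun x => ε + ∑ k, sg (Γ.a k) Γ.h (x k) ^ 2 := ⟨_, rfl⟩
  have hDx : ∀ x : E3, ε + ∑ k, sg (Γ.a k) Γ.h (x k) ^ 2 = D x := fun x => by rw [hD]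
  have hpos : ∀ x, 0 < D x := fun x => by rw [← hDx]; positivity
  have cσ : ∀ k, Continuous fun x : E3 => sg (Γ.a k) Γ.h (x k) := fun k =>
    (nh_cont_sg _ _).comp (continuous_apply k)
  have cS : ∀ k, Continuous fun x : E3 => nhS (Γ.a k) Γ.h (x k) := fun k =>
    (nh_cont_S _ _).comp (continuous_apply k)
  have cD : Continuous D := by
    rw [hD]; exact continuous_const.add (continuous_finsetSum _ fun k _ => (cσ k).pow 2)
  have cF : ∀ k, Continuous fun x : E3 => nhS (Γ.a k) Γ.h (x k) / D x := fun k =>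
    (cS k).div cD fun x => (hpos x).ne'
  have cF' : ∀ k, Continuous fun x : E3 =>
      (1 - 2 * (Real.pi / Γ.h) ^ 2 * sg (Γ.a k) Γ.h (x k) ^ 2) / D x -
        2 * nhS (Γ.a k) Γ.h (x k) ^ 2 / D x ^ 2 := fun k =>
    ((continuous_const.sub (continuous_const.mul ((cσ k).pow 2))).div cD fun x => (hpos x).ne').sub
      ((continuous_const.mul ((cS k).pow 2)).div (cD.pow 2) fun x => pow_ne_zero 2 (hpos x).ne')
  have cw : Continuous fun x => 1 / D x := continuous_const.div cD fun x => (hpos x).ne'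
  have s1 := nh_abs hψ _ _ _ (4 * (Real.pi / Γ.h) ^ 2) cF cF' cw
    (fun k x => by simpa only [hDx] using nh_line Γ hh hε k x) fun x => by
      rw [one_div, ← div_eq_inv_mul]
      exact nh_pt (hpos x) (fun k => sg (Γ.a k) Γ.h (x k)) (fun k => nhS (Γ.a k) Γ.h (x k))
        (fun k => grad ψ x k) (fun k => nh_S_sq _ _ _) (by rw [← hDx]; linarith)
        (sq_nonneg (Real.pi / Γ.h)) rfl
  simp only [hDx]
  simp only [one_div, ← div_eq_inv_mul] at s1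
  have p1 : 0 ≤ n2 ψ := integral_nonneg fun x => sq_nonneg _
  have p2 : 4 * (Real.pi / Γ.h) ^ 2 ≤ 40 / Γ.h ^ 2 := by
    rw [div_pow, ← mul_div_assoc]
    refine div_le_div_of_nonneg_right ?_ (by positivity)
    nlinarith [Real.pi_lt_d2, Real.pi_pos]
  have p3 := mul_le_mul_of_nonneg_right p2 p1
  linarith

theorem continuous_Dn (Γ : Grid) : Continuous Γ.Dn := by
  unfold Grid.Dn
  exact (continuous_finsetSum _ fun k _ => ((nh_cont_sg _ _).comp (continuous_apply k)).pow 2).sqrt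

theorem Dn_ae (Γ : Grid) (hh : 0 < Γ.h) : ∀ᵐ x, Γ.Dn x ≠ 0 := by
  have h1 : ∀ᵐ x : E3, ∀ m : ℤ, x 0 ≠ Γ.a 0 + (2 * m + 1) / 2 * Γ.h :=
    ae_all_iff.2 fun m => Measure.ae_eval_ne (fun _ : Fin 3 => (volume : Measure ℝ)) 0 _
  filter_upwards [h1] with x hx
  have h2 : sg (Γ.a 0) Γ.h (x 0) ≠ 0 := by
    intro h0
    have hp := Real.pi_pos
    have h3 : Real.cos (Real.pi * (x 0 - Γ.a 0) / Γ.h) = 0 := by
      rcases mul_eq_zero.1 h0 with h | h
      · exact absurd h (by positivity)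
      · exact h
    obtain ⟨m, hm⟩ := Real.cos_eq_zero_iff.1 h3
    apply hx m
    field_simp at hm
    linarith
  refine (Real.sqrt_pos.2 ?_).ne'
  have h3 := Finset.single_le_sum (f := fun k => sg (Γ.a k) Γ.h (x k) ^ 2)
    (fun k _ => sq_nonneg _) (Finset.mem_univ (0 : Fin 3))
  exact lt_of_lt_of_le (by positivity) h3

theorem hardy (Γ : Grid) (hh : 0 < Γ.h) {ψ : E3 → ℝ} (hψ : Test1 ψ) :
    Integrable (fun x => ψ x ^ 2 / Γ.Dn x ^ 2) ∧
      ∫ x, ψ x ^ 2 / Γ.Dn x ^ 2 ≤ 4 * kin ψ + 40 / Γ.h ^ 2 * n2 ψ := by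
  obtain ⟨r, hr⟩ : ∃ r : E3 → ℝ, r = fun x => ∑ k, sg (Γ.a k) Γ.h (x k) ^ 2 := ⟨_, rfl⟩
  have hrx : ∀ x : E3, ∑ k, sg (Γ.a k) Γ.h (x k) ^ 2 = r x := fun x => by rw [hr]
  have r0 : ∀ x, 0 ≤ r x := fun x => by rw [← hrx]; positivity
  have hDn : ∀ x, Γ.Dn x ^ 2 = r x := fun x => by
    unfold Grid.Dn
    rw [hrx, Real.sq_sqrt (r0 x)]
  have cr : Continuous r := by
    rw [hr]
    exact continuous_finsetSum _ fun k _ => ((nh_cont_sg _ _).comp (continuous_apply k)).pow 2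
  have cg : Continuous fun x => ψ x ^ 2 := hψ.1.continuous.pow 2
  have sq : HasCompactSupport fun x => ψ x ^ 2 :=
    hψ.2.comp_left (g := fun z : ℝ => z ^ 2) (by simp)
  have pe : ∀ M : ℕ, (0 : ℝ) < 1 / ((M : ℝ) + 1) := fun M => by positivity
  have iE : ∀ M : ℕ, Integrable fun x => ψ x ^ 2 / (1 / ((M : ℝ) + 1) + r x) := fun M => by
    have := ((continuous_const (y := (1 : ℝ))).div (continuous_const.add cr)
      fun x => (add_pos_of_pos_of_nonneg (pe M) (r0 x)).ne').mul cg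
    refine (this.integrable_of_hasCompactSupport sq.mul_left).congr (ae_of_all _ fun x => ?_)
    simp only [Pi.mul_apply, Pi.div_apply, Pi.add_apply]
    ring
  have key : ∀ M : ℕ, ∫ x, ψ x ^ 2 / (1 / ((M : ℝ) + 1) + r x) ≤
      4 * kin ψ + 40 / Γ.h ^ 2 * n2 ψ := fun M => by
    simpa only [hrx] using hardy_eps Γ hh hψ (pe M)
  have lim : ∀ᵐ x, Filter.Tendsto (fun M : ℕ => ENNReal.ofReal (ψ x ^ 2 / (1 / ((M : ℝ) + 1) + r x)))
      Filter.atTop (nhds (ENNReal.ofReal (ψ x ^ 2 / r x))) := by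
    filter_upwards [Dn_ae Γ hh] with x hx
    have h0 : r x ≠ 0 := by rw [← hDn]; exact pow_ne_zero 2 hx
    have a1 := (tendsto_one_div_add_atTop_nhds_zero_nat (𝕜 := ℝ)).add_const (r x)
    rw [zero_add] at a1
    exact ENNReal.tendsto_ofReal (tendsto_const_nhds.div a1 h0)
  have nn : ∀ (M : ℕ) x, 0 ≤ ψ x ^ 2 / (1 / ((M : ℝ) + 1) + r x) := fun M x =>
    div_nonneg (sq_nonneg _) (add_nonneg (pe M).le (r0 x))
  have n0 : ∀ x, 0 ≤ ψ x ^ 2 / r x := fun x => div_nonneg (sq_nonneg _) (r0 x)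
  have mm : Measurable fun x => ψ x ^ 2 / r x := cg.measurable.div cr.measurable
  have fat : ∫⁻ x, ENNReal.ofReal (ψ x ^ 2 / r x) ≤
      ENNReal.ofReal (4 * kin ψ + 40 / Γ.h ^ 2 * n2 ψ) := by
    have a1 : ∫⁻ x, ENNReal.ofReal (ψ x ^ 2 / r x) =
        ∫⁻ x, Filter.liminf (fun M : ℕ => ENNReal.ofReal (ψ x ^ 2 / (1 / ((M : ℝ) + 1) + r x)))
          Filter.atTop :=
      lintegral_congr_ae (lim.mono fun x hx => hx.liminf_eq.symm)
    rw [a1]
    have m1 : ∀ M : ℕ, Measurable fun x => ENNReal.ofReal (ψ x ^ 2 / (1 / ((M : ℝ) + 1) + r x)) :=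
      fun M => (cg.measurable.div (measurable_const.add cr.measurable)).ennreal_ofReal
    refine (lintegral_liminf_le m1).trans ?_
    refine Filter.liminf_le_of_frequently_le' (Filter.Frequently.of_forall fun M => ?_)
    rw [← ofReal_integral_eq_lintegral_ofReal (iE M) (ae_of_all _ (nn M))]
    exact ENNReal.ofReal_le_ofReal (key M)
  have hI : Integrable fun x => ψ x ^ 2 / r x := by
    refine ⟨mm.aestronglyMeasurable, ?_⟩
    rw [hasFiniteIntegral_iff_ofReal (ae_of_all _ n0)]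
    exact fat.trans_lt ENNReal.ofReal_lt_top
  simp only [hDn]
  refine ⟨hI, ?_⟩
  rw [← ofReal_integral_eq_lintegral_ofReal hI (ae_of_all _ n0)] at fat
  exact (ENNReal.ofReal_le_ofReal_iff ((integral_nonneg (nn 0)).trans (key 0))).1 fat

end Vale.Agent.P370.Nuc
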