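import Vale.Agent.P370.NucPt
import Vale.Agent.P370.NucHardy
import Vale.Agent.P370.NucBump
import Vale.Agent.P370.NucConv

/-! Part E: the three estimates.

Plan.  `D1`: if the integrand is not integrable the integral is `0`; otherwise `integral_mono_ae` with `pt_low`, `Dn_ae`,
`1 / D ≤ 1 / D^2 + 1`, `hardy`.  `D2`: `bump` with `R = P^64`; on `B0`, a.e., `dV^2 ≤ 2 α^2 ψ^2 / D^2 + 2 β^2 ψ^2`
(`pt_abs`), `Integrable.mono'`, `dV_meas`, `setIntegral_le_integral`.
`D3`: `dV G = R G - W G`, `W x = ErrP (kS 1 (x - ·))`, `|R G| ≤ P^(-63054) |G|` (`pt_reg`), `err_conv`, `err_G`, `kS_int`. -/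

namespace Vale.Agent.P370.Nuc

open MeasureTheory Finset

variable {b : ℕ} {Vq : ℚ × ℚ × ℚ → ℚ} {V : E3 → ℝ}


theorem d_h2 (b : ℕ) : 40 / (gr b).h ^ 2 = 40 * PR b ^ 44000 := by
  rw [gr_h, div_pow, one_pow, ← pow_mul, div_div_eq_mul_div, div_one]

theorem d_inv (D : ℝ) : 1 / D ≤ 1 / D ^ 2 + 1 := by
  have h : 1 / D ^ 2 = (1 / D) ^ 2 := by rw [div_pow, one_pow]
  rw [h]
  nlinarith [sq_nonneg (1 / D - 1), sq_nonneg (1 / D)]

theorem D1 (hb : 30 ≤ b) (hV : VOK b Vq V) (ψ : E3 → ℝ) (hψ : Test1 ψ) :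
    -(1 / PR b ^ 5000 * (kin ψ + n2 ψ)) ≤ ∫ x, dV b Vq V x * ψ x ^ 2 := by
  have hP := PR_pos b
  have hk := kin_nonneg ψ
  have hn := n2_nonneg ψ
  by_cases hi : Integrable fun x => dV b Vq V x * ψ x ^ 2
  swap
  · rw [integral_undef hi, neg_nonpos]
    positivity
  obtain ⟨h1, h2⟩ := hardy (gr b) (gr_h_pos b) hψ
  have h3 := sq_integrable hψ
  rw [d_h2] at h2
  have c1 := pt_five hb (i := 5000) (j := 62900) (by norm_num)
  have c2 := pt_five hb (i := 5000) (j := 17000) (by norm_num)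
  have c3 := pt_num hb (c := 200) (by norm_num) (i := 44000) (j := 62900) (l := 5000) (by norm_num)
  have hα : 0 < 1 / PR b ^ 62900 := by positivity
  have hβ : 0 < 1 / PR b ^ 17000 := by positivity
  have hlow := fun x hx => pt_low hb hV (x := x) hx
  rw [div_eq_mul_one_div] at c3
  generalize 1 / PR b ^ 62900 = α at *
  generalize 1 / PR b ^ 17000 = β at *
  generalize 1 / PR b ^ 5000 = θ at *
  generalize PR b ^ 44000 = Q at *
  have h4 : ∫ x, -(α * (ψ x ^ 2 / (gr b).Dn x ^ 2) + (α + β) * ψ x ^ 2) ≤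
      ∫ x, dV b Vq V x * ψ x ^ 2 := by
    refine integral_mono_ae ((h1.const_mul α).add (h3.const_mul _)).neg hi ?_
    filter_upwards [Dn_ae (gr b) (gr_h_pos b)] with x hx
    have e1 : α / (gr b).Dn x ≤ α * (1 / (gr b).Dn x ^ 2 + 1) := by
      rw [div_eq_mul_one_div]
      exact mul_le_mul_of_nonneg_left (d_inv _) hα.le
    have e2 : -(α * (1 / (gr b).Dn x ^ 2 + 1) + β) ≤ dV b Vq V x := by linarith [hlow x hx]
    refine le_trans (le_of_eq ?_) (mul_le_mul_of_nonneg_right e2 (sq_nonneg _))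
    ring
  refine le_trans ?_ h4
  rw [integral_neg, integral_add (h1.const_mul α) (h3.const_mul _), integral_const_mul,
    integral_const_mul, neg_le_neg_iff]
  have h5 := mul_le_mul_of_nonneg_left h2 hα.le
  change _ + (α + β) * n2 ψ ≤ _
  have h6 : α * kin ψ ≤ θ / 5 * kin ψ := mul_le_mul_of_nonneg_right c1 hk
  have h7 : α * n2 ψ ≤ θ / 5 * n2 ψ := mul_le_mul_of_nonneg_right c1 hn
  have h8 : β * n2 ψ ≤ θ / 5 * n2 ψ := mul_le_mul_of_nonneg_right c2 hn
  have h9 : 200 * Q * α * n2 ψ ≤ θ * n2 ψ := mul_le_mul_of_nonneg_right c3 hn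
  have hθ : 0 ≤ θ := by linarith
  have h10 := mul_nonneg hθ hk
  have h11 := mul_nonneg hθ hn
  linarith

theorem d_B0 (b : ℕ) : MeasurableSet (B0 b) := by
  refine IsClosed.measurableSet ?_
  unfold B0
  simp only [Set.ofPred_and]
  exact (isClosed_le (by fun_prop) continuous_const).inter
    ((isClosed_le (by fun_prop) continuous_const).inter
      (isClosed_le (by fun_prop) continuous_const))

theorem d_mem (hb : 30 ≤ b) {x : E3} (hx : x ∈ B0 b) (k : Fin 3) : |x k| ≤ PR b ^ 64 := by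
  have h : (32 : ℝ) ≤ PR b ^ 64 := by
    simpa using PR_mul_le hb (c := 32) (by norm_num) (i := 0) (j := 64) (by norm_num)
  fin_cases k
  exacts [hx.1, hx.2.1, hx.2.2.trans h]

theorem D2 (hb : 30 ≤ b) (hV : VOK b Vq V) :
    IntegrableOn (fun x => dV b Vq V x ^ 2) (B0 b) ∧
      ∫ x in B0 b, dV b Vq V x ^ 2 ≤ 1 / PR b ^ 70000 := by
  have hP := PR_pos b
  obtain ⟨ψ, hψ, hψ1, hk, hn⟩ := bump (R := PR b ^ 64) (one_le_pow₀ (PR_one b))
  obtain ⟨h1, h2⟩ := hardy (gr b) (gr_h_pos b) hψ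
  have h3 := sq_integrable hψ
  rw [d_h2] at h2
  rw [← pow_mul] at hk hn
  have hQ : 1 ≤ PR b ^ 44000 := one_le_pow₀ (PR_one b)
  have c1 := pt_num hb (c := 176 * 10 ^ 6) (by norm_num) (i := 44000 + 64 * 11) (j := 62900 * 2)
    (l := 70000) (by norm_num)
  have c2 := pt_num hb (c := 4 * 10 ^ 6) (by norm_num) (i := 64 * 11) (j := 40000 * 2)
    (l := 70000) (by norm_num)
  have habs := fun x hx h0 => pt_abs hb hV (x := x) hx h0
  rw [pow_add, pow_mul _ 62900, div_eq_mul_one_div, ← one_div_pow] at c1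
  rw [pow_mul _ 40000, div_eq_mul_one_div, ← one_div_pow] at c2
  have hW : 0 ≤ PR b ^ (64 * 11) := by positivity
  generalize 1 / PR b ^ 62900 = α at *
  generalize 1 / PR b ^ 40000 = β at *
  generalize 1 / PR b ^ 70000 = θ at *
  generalize PR b ^ 44000 = Q at *
  generalize PR b ^ (64 * 11) = W at *
  have hg : Integrable fun x => 2 * α ^ 2 * (ψ x ^ 2 / (gr b).Dn x ^ 2) + 2 * β ^ 2 * ψ x ^ 2 :=
    (h1.const_mul _).add (h3.const_mul _)
  have hle : ∀ᵐ x ∂volume.restrict (B0 b), dV b Vq V x ^ 2 ≤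
      2 * α ^ 2 * (ψ x ^ 2 / (gr b).Dn x ^ 2) + 2 * β ^ 2 * ψ x ^ 2 := by
    rw [ae_restrict_iff' (d_B0 b)]
    filter_upwards [Dn_ae (gr b) (gr_h_pos b)] with x hx h0
    have e1 : dV b Vq V x ^ 2 ≤ (α / (gr b).Dn x + β) ^ 2 :=
      sq_le_sq' (abs_le.1 (habs x hx h0)).1 (abs_le.1 (habs x hx h0)).2
    have e2 : 1 ≤ ψ x ^ 2 := one_le_pow₀ (hψ1 x (d_mem hb h0))
    have e3 : (α / (gr b).Dn x + β) ^ 2 ≤ 2 * (α / (gr b).Dn x) ^ 2 + 2 * β ^ 2 := by
      nlinarith [sq_nonneg (α / (gr b).Dn x - β)]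
    refine e1.trans (e3.trans ((le_mul_of_one_le_right (by positivity) e2).trans (le_of_eq ?_)))
    ring
  have hi : IntegrableOn (fun x => dV b Vq V x ^ 2) (B0 b) := by
    refine Integrable.mono' hg.integrableOn
      ((dV_meas hb hV).pow_const 2).aestronglyMeasurable ?_
    filter_upwards [hle] with x hx
    rwa [Real.norm_of_nonneg (sq_nonneg _)]
  refine ⟨hi, (integral_mono_ae hi hg.integrableOn hle).trans
    ((setIntegral_le_integral hg (.of_forall fun x => by positivity)).trans ?_)⟩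
  rw [integral_add (h1.const_mul _) (h3.const_mul _), integral_const_mul, integral_const_mul]
  change _ + 2 * β ^ 2 * n2 ψ ≤ _
  have h4 : 4 * kin ψ + 40 * Q * n2 ψ ≤ 44 * 10 ^ 6 * (Q * W) := by
    have e1 : Q * n2 ψ ≤ Q * (10 ^ 6 * W) := mul_le_mul_of_nonneg_left hn (by linarith)
    have e2 : W ≤ Q * W := le_mul_of_one_le_left hW hQ
    linarith
  have h5 := mul_le_mul_of_nonneg_left (h2.trans h4) (by positivity : 0 ≤ 2 * α ^ 2)
  have h6 := mul_le_mul_of_nonneg_left hn (by positivity : 0 ≤ 2 * β ^ 2)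
  linarith

theorem D3 (hb : 30 ≤ b) (hV : VOK b Vq V) (G : E3 → ℝ) (hG : Bd 4 (PR b ^ 18000) G)
    (hs : ∀ x, G x ≠ 0 → x ∈ B0 b) (h1 : ∫ x, |G x| ≤ 4) :
    |∫ x, dV b Vq V x * G x| ≤ 1 / PR b ^ 63050 := by
  have hP := PR_pos b
  have hc : HasCompactSupport G := compact_of_supp fun x hx => d_mem hb (hs x hx)
  have hGc : Continuous G := hG.1.continuous
  have hGi : Integrable fun x => |G x| := (hGc.integrable_of_hasCompactSupport hc).abs
  obtain ⟨k1, k2⟩ := kS_int (T := 1) one_pos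
  obtain ⟨w1, w2⟩ := err_conv (gr b) (sq b) (Zp b Vq) (rhoV_cont hV) k1 (measurable_kS 1) hGc hc
  have w3 : |∫ x, ErrP b Vq V (fun y => kS 1 (x - y)) * G x| ≤ 4 * (1 / PR b ^ 66000) := by
    unfold ErrP
    rw [w2, ← Real.norm_eq_abs]
    refine (norm_integral_le_of_norm_le (k1.abs.mul_const (1 / PR b ^ 66000))
      (.of_forall fun u => ?_)).trans ?_
    · rw [Real.norm_eq_abs, abs_mul]
      exact mul_le_mul_of_nonneg_left (err_G hb hV hG hs u) (abs_nonneg _)
    · rw [integral_mul_const]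
      exact mul_le_mul_of_nonneg_right (by simpa using k2) (by positivity)
  have hb1 : ∀ x, ‖dV b Vq V x * G x + ErrP b Vq V (fun y => kS 1 (x - y)) * G x‖ ≤
      1 / PR b ^ 63054 * |G x| := fun x => by
    rw [← add_mul, Real.norm_eq_abs, abs_mul]
    by_cases hx : G x = 0
    · simp [hx]
    · exact mul_le_mul_of_nonneg_right (pt_reg hb hV (hs x hx)) (abs_nonneg _)
  have hR : Integrable fun x =>
      dV b Vq V x * G x + ErrP b Vq V (fun y => kS 1 (x - y)) * G x :=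
    Integrable.mono' (hGi.const_mul _)
      (((dV_meas hb hV).mul hGc.measurable).aestronglyMeasurable.add w1.aestronglyMeasurable)
      (.of_forall hb1)
  have r3 : |∫ x, (dV b Vq V x * G x + ErrP b Vq V (fun y => kS 1 (x - y)) * G x)| ≤
      1 / PR b ^ 63054 * 4 := by
    rw [← Real.norm_eq_abs]
    refine (norm_integral_le_of_norm_le (hGi.const_mul _) (.of_forall hb1)).trans ?_
    rw [integral_const_mul]
    exact mul_le_mul_of_nonneg_left h1 (by positivity)
  have e : ∫ x, dV b Vq V x * G x =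
      (∫ x, (dV b Vq V x * G x + ErrP b Vq V (fun y => kS 1 (x - y)) * G x)) -
        ∫ x, ErrP b Vq V (fun y => kS 1 (x - y)) * G x := by
    have w4 : Integrable fun x => ErrP b Vq V (fun y => kS 1 (x - y)) * G x := w1
    rw [← integral_sub hR w4]
    simp only [add_sub_cancel_right]
  rw [e]
  refine (abs_sub _ _).trans ?_
  have c1 := pt_five hb (i := 63053) (j := 63054) (by norm_num)
  have c2 := pt_five hb (i := 63053) (j := 66000) (by norm_num)
  have c3 := pt_five hb (i := 63050) (j := 63053) (by norm_num)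
  have c4 : 0 ≤ 1 / PR b ^ 63050 := by positivity
  generalize 1 / PR b ^ 63054 = α at *
  generalize 1 / PR b ^ 66000 = β at *
  generalize 1 / PR b ^ 63053 = γ at *
  generalize 1 / PR b ^ 63050 = θ at *
  linarith

end Vale.Agent.P370.Nuc
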