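import Vale.Agent.P370.ChDefs

/-! The nuclei: a grid in a slab, with integer charges obtained by noise shaping. -/

namespace Vale.Agent.P370

/-- numbers of grid points in the three directions -/
def nx (b : ℕ) : ℕ := 8 * 2 ^ (92000 * b)
def ny (b : ℕ) : ℕ := 6 * 2 ^ (92000 * b)
def nz (b : ℕ) : ℕ := 256 * 2 ^ (22000 * b)

def gpx (b i : ℕ) : ℚ := -4 * Lb b + (i + 1 / 2) * hh b
def gpy (b j : ℕ) : ℚ := -3 * Lb b + (j + 1 / 2) * hh b
def gpz (b k : ℕ) : ℚ := -128 + (k + 1 / 2) * hh b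

/-- weights `13, 11, 11, 13` of a quadrature rule exact for cubics on panels of four points -/
def wt (i : ℕ) : ℕ := if i % 4 = 0 ∨ i % 4 = 3 then 13 else 11

/-- finite-difference Laplacian with step `η` -/
def lapFD (η : ℚ) (V : ℚ × ℚ × ℚ → ℚ) (q : ℚ × ℚ × ℚ) : ℚ :=
  (V (q.1 + η, q.2.1, q.2.2) + V (q.1 - η, q.2.1, q.2.2) + V (q.1, q.2.1 + η, q.2.2) +
    V (q.1, q.2.1 - η, q.2.2) + V (q.1, q.2.1, q.2.2 + η) + V (q.1, q.2.1, q.2.2 - η) -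
    6 * V q) / η ^ 2

/-- the wanted modulation of the charge -/
def tq (b : ℕ) (V : ℚ × ℚ × ℚ → ℚ) (i j k : ℕ) : ℚ :=
  (wt i * wt j * wt k : ℕ) * lapFD (hh b ^ 4) V (gpx b i, gpy b j, gpz b k) / omz b ^ 2

/-- integer part of the fourfold sum over the points `m < i` of the row; its backward fourth
difference without rounding is `tq (i - 1)` -/
def Fq (b : ℕ) (V : ℚ × ℚ × ℚ → ℚ) (i j k : ℕ) : ℤ :=
  ⌊((List.range i).map fun m : ℕ =>
    ((i - m : ℕ) * (i - m + 1 : ℕ) * (i - m + 2 : ℕ) : ℚ) / 6 * tq b V m j k).sum⌋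

/-- the charge -/
def Zq (b : ℕ) (V : ℚ × ℚ × ℚ → ℚ) (i j k : ℕ) : ℤ :=
  (wt i * wt j * wt k : ℕ) + (Fq b V (i + 1) j k - 4 * Fq b V i j k + 6 * Fq b V (i - 1) j k -
    4 * Fq b V (i - 2) j k + Fq b V (i - 3) j k)

/-- the nuclei in scaled units -/
def nucQ (b : ℕ) (V : ℚ × ℚ × ℚ → ℚ) : List ((ℚ × ℚ × ℚ) × ℕ) :=
  (List.range (nx b)).flatMap fun i => (List.range (ny b)).flatMap fun j =>
    (List.range (nz b)).map fun k => ((gpx b i, gpy b j, gpz b k), (Zq b V i j k).toNat)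

/-- difference between the potential of the nuclei and the wanted potential -/
noncomputable def dV (b : ℕ) (Vq : ℚ × ℚ × ℚ → ℚ) (V : E3 → ℝ) (x : E3) : ℝ :=
  Vs (sq b) (nucQ b Vq) x -
    (-(C0q b : ℝ) + (omz b : ℝ) ^ 2 * min (x 2 ^ 2) (128 ^ 2) / 2 + V x)

/-- hypotheses on the local potential -/
structure VOK (b : ℕ) (Vq : ℚ × ℚ × ℚ → ℚ) (V : E3 → ℝ) : Prop where
  cast : ∀ q, (Vq q : ℝ) = V (pt q)
  bd : Bd 6 (PR b ^ 1500) V
  supp : ∀ x, V x ≠ 0 → |x 0| ≤ PR b ^ 64 ∧ |x 1| ≤ PR b ^ 64 ∧ |x 2| ≤ 73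

end Vale.Agent.P370
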