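import Vale.Agent.P370.NucG

/-! Part E: one-dimensional majorants.

Plan.  `gs_sum`: at most `2 h + 2 ∫_0^∞`: split the nodes into those left and right of `x`; the `r`-th node on one
side has distance `≥ r h`, and `∑_{r < n} exp (-(t r h)^2 / 2) ≤ 1 + √(π/2) / (t h)` (`AntitoneOn.sum_le_integral`,
`integral_gaussian_Ioi`).  Another way: for `|v - u| ≤ h / 2`, `gs t x u ≤ e^{1/8} exp (-t^2 (v - x)^2 / 4)` because
`(v - x)^2 ≤ 2 (u - x)^2 + h^2 / 2`; integrate over the cell of the node: the sum is at most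
`e^{1/8} √(4 π) / t ≤ 6 / t` (`intervalIntegral.sum_integral_adjacent_intervals`, `integral_gaussian`).
The same cell trick gives `ind_sum`: `h * count ≤ 2 R + h`.
`sg_le`: `cos (π (x - a)/h) = ± sin (π (x - nd i)/h)` (`Real.sin_add_nat_mul_pi` / `abs_sin_le_abs`).
`sing_sum1`: `exp (-t^2 r^2) ≤ exp (-t^2 sg^2 / 2) * gs (1/h) x (nd i)`, then `gs_sum` with `t = 1 / h`.
`maj_cut`: for `t ≤ 1` compare with `maj_ind` (`gs ≤ 1`), for `t ≥ 1` with `maj_gauss` (`Maj.mono`). -/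

namespace Vale.Agent.P370.Nuc

open MeasureTheory Finset

/-- `g` dominates `f` on cells of length `h` -/
structure Dom (h B : ℝ) (f g : ℝ → ℝ) : Prop where
  int : Integrable g
  nonneg : ∀ v, 0 ≤ g v
  int_le : ∫ v, g v ≤ B
  le : ∀ u v, |v - u| ≤ h / 2 → f u ≤ g v

theorem Dom.ivl {h B : ℝ} {f g : ℝ → ℝ} (H : Dom h B f g) {p q : ℝ} (hpq : p ≤ q) :
    ∫ v in p..q, g v ≤ B := by
  rw [intervalIntegral.integral_of_le hpq]
  exact (setIntegral_le_integral H.int (ae_of_all _ H.nonneg)).trans H.int_le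

theorem Dom.sum {h B : ℝ} {f g : ℝ → ℝ} (H : Dom h B f g) (hh : 0 < h) (a : ℝ) (n : ℕ) :
    h * ∑ i ∈ range n, f (nd a h i) ≤ B := by
  have h1 := intervalIntegral.sum_integral_adjacent_intervals (μ := volume) (f := g)
    (a := fun i : ℕ => a + i * h) (n := n) fun _ _ => H.int.intervalIntegrable
  refine le_trans ?_ (h1.trans_le (H.ivl (by
    simp only [Nat.cast_zero]
    nlinarith [n.cast_nonneg (α := ℝ)])))
  rw [mul_sum]
  refine sum_le_sum fun i _ => ?_
  have h2 := intervalIntegral.integral_mono_on (μ := volume) (f := fun _ => f (nd a h i)) (g := g)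
    (a := a + i * h) (b := a + (i + 1 : ℕ) * h) (by push_cast; linarith) intervalIntegrable_const
    H.int.intervalIntegrable fun v hv => H.le _ _ (by
      have h3 := hv.1
      have h4 := hv.2
      push_cast at h4
      rw [nd, abs_le]
      constructor <;> linarith)
  rw [intervalIntegral.integral_const, smul_eq_mul] at h2
  refine le_of_eq_of_le ?_ h2
  push_cast
  ring

theorem maj_hi (Γ : Grid) (hh : 0 < Γ.h) (k : Fin 3) : Γ.a k ≤ Γ.hi k :=
  le_add_of_nonneg_right (by positivity)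

theorem maj_of_dom (Γ : Grid) (hh : 0 < Γ.h) {φ g : Fin 3 → ℝ → ℝ} {B : ℝ}
    (hm : ∀ k, Measurable (φ k)) (h0 : ∀ k u, 0 ≤ φ k u) (H : ∀ k, Dom Γ.h B (φ k) (g k)) :
    Γ.Maj φ B := by
  have h1 : ∀ k u, φ k u ≤ g k u := fun k u => (H k).le u u (by rw [sub_self, abs_zero]; positivity)
  have h2 : ∀ k, Integrable (φ k) := fun k => (H k).int.mono' (hm k).aestronglyMeasurable
    (ae_of_all _ fun u => (Real.norm_of_nonneg (h0 k u)).trans_le (h1 k u))
  exact ⟨h0, fun k => (h2 k).intervalIntegrable, fun k => (intervalIntegral.integral_mono_on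
    (maj_hi Γ hh k) (h2 k).intervalIntegrable (H k).int.intervalIntegrable fun u _ => h1 k u).trans
    ((H k).ivl (maj_hi Γ hh k)), fun k => (H k).sum hh _ _⟩

theorem dom_gs {h t : ℝ} (hh : 0 < h) (ht : 0 < t) (hth : t * h ≤ 1) (x : ℝ) :
    Dom h (6 / t) (gs t x) fun v => 3 / 2 * Real.exp (-(t ^ 2 / 4) * (v - x) ^ 2) := by
  refine ⟨((integrable_exp_neg_mul_sq (by positivity)).comp_sub_right x).const_mul _,
    fun v => by positivity, ?_, fun u v huv => ?_⟩
  · rw [integral_const_mul, integral_sub_right_eq_self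
      (fun v => Real.exp (-(t ^ 2 / 4) * v ^ 2)) x, integral_gaussian]
    have h1 : √(Real.pi / (t ^ 2 / 4)) ≤ 4 / t := Real.sqrt_le_iff.2 ⟨by positivity, by
      rw [div_pow, div_div_eq_mul_div]
      exact div_le_div_of_nonneg_right (by linarith [Real.pi_le_four]) (by positivity)⟩
    refine (mul_le_mul_of_nonneg_left h1 (by norm_num)).trans_eq ?_
    ring
  · have h1 : Real.exp (1 / 8) ≤ 3 / 2 :=
      (Real.exp_bound_div_one_sub_of_interval (by norm_num) (by norm_num)).trans (by norm_num)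
    refine le_trans ?_ (mul_le_mul_of_nonneg_right h1 (Real.exp_pos _).le)
    rw [gs, ← Real.exp_add, Real.exp_le_exp]
    have h2 : (v - u) ^ 2 ≤ (h / 2) ^ 2 := sq_le_sq' (abs_le.1 huv).1 (abs_le.1 huv).2
    have h3 : (v - x) ^ 2 ≤ 2 * (u - x) ^ 2 + h ^ 2 / 2 := by
      nlinarith [sq_nonneg (v - u - (u - x))]
    have h4 : (t * h) ^ 2 ≤ 1 := pow_le_one₀ (by positivity) hth
    nlinarith [mul_le_mul_of_nonneg_left h3 (sq_nonneg t)]

theorem dom_ind {h R : ℝ} (hh : 0 < h) (hR : h ≤ R) (c : ℝ) :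
    Dom h (4 * R) (fun u => if |u - c| ≤ R then 1 else 0)
      ((Set.Icc (c - 2 * R) (c + 2 * R)).indicator 1) := by
  refine ⟨(integrable_indicator_iff measurableSet_Icc).2 continuous_const.integrableOn_Icc,
    fun v => Set.indicator_nonneg (fun _ _ => zero_le_one) v, ?_, fun u v huv => ?_⟩
  · rw [integral_indicator_one measurableSet_Icc, Real.volume_real_Icc_of_le (by linarith)]
    linarith
  · split_ifs with h1
    · obtain ⟨h2, h3⟩ := abs_le.1 huv
      obtain ⟨h4, h5⟩ := abs_le.1 h1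
      rw [Set.indicator_of_mem (show v ∈ Set.Icc _ _ from ⟨by linarith, by linarith⟩)]
      exact le_rfl
    · exact Set.indicator_nonneg (fun _ _ => zero_le_one) v

theorem gs_meas (t x : ℝ) : Measurable (gs t x) := by
  unfold gs
  fun_prop

theorem gs_sum {a h t : ℝ} (hh : 0 < h) (ht : 0 < t) (hth : t * h ≤ 1) (x : ℝ) (n : ℕ) :
    h * ∑ i ∈ range n, gs t x (nd a h i) ≤ 6 / t := by
  exact (dom_gs hh ht hth x).sum hh a n


theorem ind_sum {a h R : ℝ} (hh : 0 < h) (hR : h ≤ R) (c : ℝ) (n : ℕ) :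
    h * ∑ i ∈ range n, (if |nd a h i - c| ≤ R then (1 : ℝ) else 0) ≤ 4 * R := by
  exact (dom_ind hh hR c).sum hh a n


theorem sg_le {a h : ℝ} (hh : 0 < h) (x : ℝ) (i : ℕ) : |sg a h x| ≤ |x - nd a h i| := by
  have h0 := Real.pi_pos
  have e : Real.pi * (x - a) / h = Real.pi * (x - nd a h i) / h + Real.pi / 2 + i * Real.pi := by
    rw [nd]
    field_simp
    ring
  rw [sg, e, Real.cos_add_nat_mul_pi, Real.cos_add_pi_div_two, abs_mul, abs_mul, abs_neg_one_pow,
    one_mul, abs_neg, abs_of_pos (div_pos hh h0)]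
  refine (mul_le_mul_of_nonneg_left Real.abs_sin_le_abs (div_pos hh h0).le).trans_eq ?_
  rw [abs_div, abs_mul, abs_of_pos hh, abs_of_pos h0]
  field_simp


theorem sing_sum1 {a h t : ℝ} (hh : 0 < h) (hth : 1 ≤ t * h) (x : ℝ) (n : ℕ) :
    ∑ i ∈ range n, Real.exp (-(t ^ 2 * (x - nd a h i) ^ 2)) ≤
      6 * Real.exp (-(t ^ 2 * sg a h x ^ 2 / 2)) := by
  have h1 := gs_sum (a := a) hh (one_div_pos.2 hh) (one_div_mul_cancel hh.ne').le x n
  rw [div_div_eq_mul_div, div_one, mul_comm 6, mul_le_mul_iff_right₀ hh] at h1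
  refine le_trans ?_ (mul_le_mul_of_nonneg_right h1 (Real.exp_pos _).le)
  rw [sum_mul]
  refine sum_le_sum fun i _ => ?_
  rw [gs, ← Real.exp_add, Real.exp_le_exp]
  have h2 : sg a h x ^ 2 ≤ (x - nd a h i) ^ 2 := sq_le_sq.2 (sg_le hh x i)
  have h3 : (1 / h) ^ 2 ≤ t ^ 2 :=
    pow_le_pow_left₀ (one_div_pos.2 hh).le ((div_le_iff₀ hh).2 hth) 2
  nlinarith [mul_le_mul_of_nonneg_left h2 (sq_nonneg t),
    mul_le_mul_of_nonneg_right h3 (sq_nonneg (x - nd a h i))]


theorem Grid.Maj.mono {Γ : Grid} (hh : 0 < Γ.h) {φ ψ : Fin 3 → ℝ → ℝ} {B B' : ℝ} (hφ : Γ.Maj φ B)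
    (hm : ∀ k, Measurable (ψ k)) (h0 : ∀ k u, 0 ≤ ψ k u) (h1 : ∀ k u, ψ k u ≤ φ k u)
    (hB : B ≤ B') : Γ.Maj ψ B' := by
  have h2 : ∀ k, IntervalIntegrable (ψ k) volume (Γ.a k) (Γ.hi k) := fun k =>
    (hφ.int k).mono_fun' (hm k).aestronglyMeasurable
      (ae_of_all _ fun u => (Real.norm_of_nonneg (h0 k u)).trans_le (h1 k u))
  exact ⟨h0, h2, fun k => ((intervalIntegral.integral_mono_on (maj_hi Γ hh k) (h2 k) (hφ.int k)
    fun u _ => h1 k u).trans (hφ.int_le k)).trans hB, fun k => ((mul_le_mul_of_nonneg_left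
      (sum_le_sum fun i _ => h1 k _) hh.le).trans (hφ.sum_le k)).trans hB⟩


theorem maj_gauss (Γ : Grid) (hh : 0 < Γ.h) {t : ℝ} (ht : 0 < t) (hth : t * Γ.h ≤ 1) (x : E3) :
    Γ.Maj (fun k u => gs t (x k) u) (6 / t) := by
  exact maj_of_dom Γ hh (fun k => gs_meas t (x k)) (fun _ _ => (Real.exp_pos _).le)
    fun k => dom_gs hh ht hth (x k)


theorem maj_ind (Γ : Grid) (hh : 0 < Γ.h) {R : ℝ} (hR : Γ.h ≤ R) (c : E3) :
    Γ.Maj (fun k u => if |u - c k| ≤ R then 1 else 0) (4 * R) := by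
  exact maj_of_dom Γ hh (fun k => Measurable.ite (measurableSet_le (by fun_prop) measurable_const)
    measurable_const measurable_const) (fun _ _ => by positivity) fun k => dom_ind hh hR (c k)


theorem maj_cut (Γ : Grid) (hh : 0 < Γ.h) {R t : ℝ} (hR : Γ.h ≤ R) (hR2 : 2 ≤ R) (ht : 0 ≤ t)
    (hth : t * Γ.h ≤ 1) (x : E3) :
    Γ.Maj (fun k u => if |u| ≤ R then gs t (x k) u else 0) (8 * R / (1 + t)) := by
  have hm : ∀ k, Measurable fun u : ℝ => if |u| ≤ R then gs t (x k) u else 0 := fun k =>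
    Measurable.ite (measurableSet_le (by fun_prop) measurable_const) (gs_meas _ _) measurable_const
  have g0 : ∀ k u, 0 ≤ gs t (x k) u := fun _ _ => (Real.exp_pos _).le
  have h0 : ∀ k u, 0 ≤ if |u| ≤ R then gs t (x k) u else 0 := fun k u => by
    split_ifs
    exacts [g0 k u, le_rfl]
  rcases le_total t 1 with h1 | h1
  · refine (maj_ind Γ hh hR 0).mono hh hm h0 (fun k u => ?_) ?_
    · rw [Pi.zero_apply, sub_zero]
      split_ifs
      exacts [Real.exp_le_one_iff.2 (neg_nonpos.2 (by positivity)), le_rfl]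
    · rw [le_div_iff₀ (by positivity)]
      nlinarith
  · refine (maj_gauss Γ hh (by linarith) hth x).mono hh hm h0 (fun k u => ?_) ?_
    · split_ifs
      exacts [le_rfl, g0 k u]
    · rw [div_le_div_iff₀ (by linarith) (by positivity)]
      nlinarith


end Vale.Agent.P370.Nuc
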