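import Vale.Agent.P370.NucQ1

/-! Part E: summation by parts for the rounding errors; simple bounds for grid sums.

Plan.  `by_parts4`: for `n < 4` all `e m` vanish; otherwise `n = p + 4`; shift each of the five sums
(`Finset.sum_range_succ`, `Finset.sum_range_succ'`; note `i - 1` is truncated subtraction and `e 0 = 0`), or induction on
the statement for `e` supported on one point.  `noise3`: `Finset.sum_comm` to bring the sum over `i` inside, `by_parts4`,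
`diff4` for `u ↦ f ![u, y_j, z_k]` (see the header of `NucQ3`), then `Maj.int_le 0`, `Maj.sum_le 1`, `Maj.sum_le 2`. -/

namespace Vale.Agent.P370.Nuc

open MeasureTheory Finset

theorem noi_shift (n : ℕ) (e f : ℕ → ℝ) (h0 : e 0 = 0) (h1 : ∀ m, n < m + 4 → e m = 0) {r : ℕ}
    (hr : r ≤ 4) :
    ∑ i ∈ range n, e (i + 1 - r) * f i = ∑ m ∈ range (n - 4), e (m + 1) * f (m + r) := by
  have h2 : ∑ m ∈ range (n - 4), e (m + 1) * f (m + r) =
      ∑ m ∈ Ico 0 (n - 4), (fun i => e (i + 1 - r) * f i) (m + r) := by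
    rw [range_eq_Ico]
    refine sum_congr rfl fun m _ => ?_
    have : m + r + 1 - r = m + 1 := by omega
    simp only [this]
  rw [h2, sum_Ico_add' (fun i => e (i + 1 - r) * f i) 0 (n - 4) r]
  symm
  refine sum_subset (fun i hi => ?_) fun i hi hi' => ?_
  · rw [mem_Ico] at hi
    rw [mem_range]
    omega
  · rw [mem_Ico] at hi'
    rw [mem_range] at hi
    by_cases hir : i < r
    · have : i + 1 - r = 0 := by omega
      rw [this, h0, zero_mul]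
    · rw [h1 _ (by omega), zero_mul]

theorem by_parts4 (n : ℕ) (e f : ℕ → ℝ) (h0 : e 0 = 0) (h1 : ∀ m, n < m + 4 → e m = 0) :
    ∑ i ∈ range n, (e (i + 1) - 4 * e i + 6 * e (i - 1) - 4 * e (i - 2) + e (i - 3)) * f i =
      ∑ m ∈ range (n - 4),
        e (m + 1) * (f m - 4 * f (m + 1) + 6 * f (m + 2) - 4 * f (m + 3) + f (m + 4)) := by
  have k0 := noi_shift n e f h0 h1 (r := 0) (by norm_num)
  have k1 := noi_shift n e f h0 h1 (r := 1) (by norm_num)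
  have k2 := noi_shift n e f h0 h1 (r := 2) (by norm_num)
  have k3 := noi_shift n e f h0 h1 (r := 3) (by norm_num)
  have k4 := noi_shift n e f h0 h1 (r := 4) (by norm_num)
  have e2 : ∀ i : ℕ, i + 1 - 2 = i - 1 := fun i => by omega
  have e3 : ∀ i : ℕ, i + 1 - 3 = i - 2 := fun i => by omega
  have e4 : ∀ i : ℕ, i + 1 - 4 = i - 3 := fun i => by omega
  simp only [Nat.sub_zero, Nat.add_zero, Nat.add_sub_cancel, e2, e3, e4] at k0 k1 k2 k3 k4
  have l : ∑ i ∈ range n, (e (i + 1) - 4 * e i + 6 * e (i - 1) - 4 * e (i - 2) + e (i - 3)) * f i =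
      ∑ i ∈ range n, e (i + 1) * f i - 4 * ∑ i ∈ range n, e i * f i +
        6 * ∑ i ∈ range n, e (i - 1) * f i - 4 * ∑ i ∈ range n, e (i - 2) * f i +
        ∑ i ∈ range n, e (i - 3) * f i := by
    simp only [mul_sum, ← sum_sub_distrib, ← sum_add_distrib]
    exact sum_congr rfl fun i _ => by ring
  rw [l, k0, k1, k2, k3, k4]
  simp only [mul_sum, ← sum_sub_distrib, ← sum_add_distrib]
  exact sum_congr rfl fun i _ => by ring

theorem noi_B (Γ : Grid) (hh : 0 < Γ.h) {φ : Fin 3 → ℝ → ℝ} {B : ℝ} (hφ : Γ.Maj φ B) : 0 ≤ B :=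
  (mul_nonneg hh.le (sum_nonneg fun _ _ => hφ.nonneg _ _)).trans (hφ.sum_le 0)

theorem noise3 (Γ : Grid) (hh : 0 < Γ.h) {f : E3 → ℝ} (hf : ContDiff ℝ 4 f)
    {φ : Fin 3 → ℝ → ℝ} {A B : ℝ} (hA : 0 ≤ A) (hφ : Γ.Maj φ B)
    (hM : ∀ k y, |dax 4 f k y| ≤ A * ∏ l, φ l (y l)) {e : ℕ → ℕ → ℕ → ℝ}
    (he : ∀ m j k, |e m j k| ≤ 1) (h0 : ∀ j k, e 0 j k = 0)
    (h1 : ∀ m j k, Γ.n 0 < m + 4 → e m j k = 0) :
    Γ.h ^ 3 * |Γ.sum (d4 e) f| ≤ 700 * Γ.h ^ 4 * (A * B ^ 3) := by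
  have hB : 0 ≤ B := noi_B Γ hh hφ
  have line : ∀ j k, |∑ i ∈ range (Γ.n 0), d4 e i j k * f (Γ.gp i j k)| ≤
      700 * Γ.h ^ 3 * (A * B) * (φ 1 (nd (Γ.a 1) Γ.h j) * φ 2 (nd (Γ.a 2) Γ.h k)) := by
    intro j k
    set v := nd (Γ.a 1) Γ.h j
    set w := nd (Γ.a 2) Γ.h k
    have hg : ContDiff ℝ 4 fun u : ℝ => f ![u, v, w] := by
      refine hf.comp (contDiff_pi.2 fun l => ?_)
      fin_cases l
      · exact contDiff_id
      · exact contDiff_const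
      · exact contDiff_const
    have hd : ∀ u, |iteratedDeriv 4 (fun u : ℝ => f ![u, v, w]) u| ≤
        A * (φ 1 v * φ 2 w) * φ 0 u := by
      intro u
      have h3 := hM 0 ![u, v, w]
      have h4 : (fun u' : ℝ => f (Function.update ![u, v, w] 0 u')) = fun u' => f ![u', v, w] := by
        funext u'
        congr 1
        ext l
        fin_cases l <;> simp
      rw [dax, h4, Fin.prod_univ_three] at h3
      simp only [Matrix.cons_val_zero, Matrix.cons_val_one, Matrix.cons_val] at h3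
      exact h3.trans (le_of_eq (by ring))
    have hi : IntervalIntegrable (fun u => A * (φ 1 v * φ 2 w) * φ 0 u) volume (Γ.a 0)
        (Γ.a 0 + Γ.n 0 * Γ.h) := (hφ.int 0).const_mul _
    have h5 := diff4 hg hd hh (Γ.n 0) hi
    have h6 := by_parts4 (Γ.n 0) (fun m => e m j k) (fun i => f ![nd (Γ.a 0) Γ.h i, v, w]) (h0 j k)
      fun m hm => h1 m j k hm
    have h7 : ∑ i ∈ range (Γ.n 0), d4 e i j k * f (Γ.gp i j k) = _ := h6
    rw [h7]
    refine (abs_sum_le_sum_abs _ _).trans ((sum_le_sum fun m _ => ?_).trans (h5.trans ?_))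
    · rw [abs_mul]
      exact mul_le_of_le_one_left (abs_nonneg _) (he _ _ _)
    · rw [intervalIntegral.integral_const_mul]
      have h8 : ∫ u in (Γ.a 0)..(Γ.a 0 + Γ.n 0 * Γ.h), φ 0 u ≤ B := hφ.int_le 0
      have h9 : 0 ≤ A * (φ 1 v * φ 2 w) := mul_nonneg hA (mul_nonneg (hφ.nonneg _ _) (hφ.nonneg _ _))
      have h10 := mul_le_mul_of_nonneg_left (mul_le_mul_of_nonneg_left h8 h9)
        (by positivity : 0 ≤ 700 * Γ.h ^ 3)
      exact h10.trans (le_of_eq (by ring))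
  have hs : |Γ.sum (d4 e) f| ≤ 700 * Γ.h ^ 3 * (A * B) *
      ((∑ j ∈ range (Γ.n 1), φ 1 (nd (Γ.a 1) Γ.h j)) *
        ∑ k ∈ range (Γ.n 2), φ 2 (nd (Γ.a 2) Γ.h k)) := by
    rw [Grid.sum, sum_comm, sum_mul_sum, mul_sum]
    refine (abs_sum_le_sum_abs _ _).trans (sum_le_sum fun j _ => ?_)
    rw [sum_comm, mul_sum]
    exact (abs_sum_le_sum_abs _ _).trans (sum_le_sum fun k _ => line j k)
  have p1 := hφ.sum_le 1
  have p2 := hφ.sum_le 2
  have n2 : 0 ≤ Γ.h * ∑ k ∈ range (Γ.n 2), φ 2 (nd (Γ.a 2) Γ.h k) :=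
    mul_nonneg hh.le (sum_nonneg fun _ _ => hφ.nonneg _ _)
  have p3 := mul_le_mul_of_nonneg_left (mul_le_mul p1 p2 n2 hB)
    (by positivity : 0 ≤ 700 * Γ.h ^ 4 * (A * B))
  have p4 := mul_le_mul_of_nonneg_left hs (by positivity : 0 ≤ Γ.h ^ 3)
  refine p4.trans ((le_of_eq (by ring)).trans (p3.trans (le_of_eq (by ring))))

theorem sum_prod (Γ : Grid) {q : ℕ → ℕ → ℕ → ℝ} {f : E3 → ℝ} {A : ℝ} {α β γ : ℕ → ℝ}
    (h : ∀ i < Γ.n 0, ∀ j < Γ.n 1, ∀ k < Γ.n 2,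
      |q i j k * f (Γ.gp i j k)| ≤ A * (α i * β j * γ k)) :
    |Γ.sum q f| ≤ A * ((∑ i ∈ range (Γ.n 0), α i) * (∑ j ∈ range (Γ.n 1), β j) *
      ∑ k ∈ range (Γ.n 2), γ k) := by
  rw [Grid.sum, mul_assoc, sum_mul, mul_sum]
  refine (abs_sum_le_sum_abs _ _).trans (sum_le_sum fun i hi => ?_)
  rw [sum_mul_sum, mul_sum, mul_sum]
  refine (abs_sum_le_sum_abs _ _).trans (sum_le_sum fun j hj => ?_)
  rw [mul_sum, mul_sum]
  refine (abs_sum_le_sum_abs _ _).trans (sum_le_sum fun k hk => ?_)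
  rw [← mul_assoc (α i)]
  exact h i (mem_range.1 hi) j (mem_range.1 hj) k (mem_range.1 hk)

theorem sum_maj (Γ : Grid) (hh : 0 < Γ.h) {q : ℕ → ℕ → ℕ → ℝ} {f : E3 → ℝ}
    {φ : Fin 3 → ℝ → ℝ} {A B : ℝ} (hA : 0 ≤ A) (hφ : Γ.Maj φ B)
    (h : ∀ i < Γ.n 0, ∀ j < Γ.n 1, ∀ k < Γ.n 2,
      |q i j k * f (Γ.gp i j k)| ≤ A * ∏ l, φ l (Γ.gp i j k l)) :
    Γ.h ^ 3 * |Γ.sum q f| ≤ A * B ^ 3 := by
  have hB : 0 ≤ B := noi_B Γ hh hφ
  have hs := sum_prod Γ (q := q) (f := f) (A := A) (α := fun i => φ 0 (nd (Γ.a 0) Γ.h i))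
    (β := fun j => φ 1 (nd (Γ.a 1) Γ.h j)) (γ := fun k => φ 2 (nd (Γ.a 2) Γ.h k))
    fun i hi j hj k hk => by
      have h3 := h i hi j hj k hk
      rw [Fin.prod_univ_three] at h3
      exact h3
  have nn : ∀ l, 0 ≤ Γ.h * ∑ k ∈ range (Γ.n l), φ l (nd (Γ.a l) Γ.h k) := fun l =>
    mul_nonneg hh.le (sum_nonneg fun _ _ => hφ.nonneg _ _)
  have p3 := mul_le_mul_of_nonneg_left (mul_le_mul
    (mul_le_mul (hφ.sum_le 0) (hφ.sum_le 1) (nn 1) hB) (hφ.sum_le 2) (nn 2) (mul_nonneg hB hB)) hA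
  have p4 := mul_le_mul_of_nonneg_left hs (by positivity : 0 ≤ Γ.h ^ 3)
  exact p4.trans ((le_of_eq (by ring)).trans (p3.trans (le_of_eq (by ring))))

theorem sum_last (n : ℕ) : ∑ i ∈ range n, (if n ≤ i + 4 then (1 : ℝ) else 0) ≤ 4 := by
  rw [sum_boole]
  have h : ((range n).filter fun i => n ≤ i + 4).card ≤ 4 := by
    have : ((range n).filter fun i => n ≤ i + 4) ⊆ Ico (n - 4) n := by
      intro i hi
      rw [mem_filter, mem_range] at hi
      rw [mem_Ico]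
      omega
    have h2 := card_le_card this
    rw [Nat.card_Ico] at h2
    omega
  exact_mod_cast h

theorem sum_add_q (Γ : Grid) (q q' : ℕ → ℕ → ℕ → ℝ) (f : E3 → ℝ) :
    Γ.sum (fun i j k => q i j k + q' i j k) f = Γ.sum q f + Γ.sum q' f := by
  simp only [Grid.sum, add_mul, sum_add_distrib]

theorem sum_add_f (Γ : Grid) (q : ℕ → ℕ → ℕ → ℝ) (f f' : E3 → ℝ) :
    Γ.sum q (fun y => f y + f' y) = Γ.sum q f + Γ.sum q f' := by
  simp only [Grid.sum, mul_add, sum_add_distrib]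

end Vale.Agent.P370.Nuc
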