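import Vale.Agent.P370.NucKer
import Vale.Agent.P370.NucMaj
import Vale.Agent.P370.NucNoise

/-! Part E: the error functional applied to the two parts of the kernel.

Plan.  The box is compact (`isCompact_Icc`), `ρ` is bounded on it.  `err_split`: `kk_eq_add`, `sum_add_f`, `integral_add`
(`kS_int 1`-type integrability with `Integrable.comp_sub_left`, `IntegrableOn.continuousOn_mul`; for `T > 0`).
`err_kL`, `sum_kL`: `intervalIntegral.integral_finsetSum`, Fubini on `box × [0, T]` for a continuous integrand,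
`intervalIntegral.norm_integral_le_of_norm_le` (a.e. on `Ioc 0 T`), `2 / √π ≤ 2`.
`sing_sum`: `Dn x ≤ |x - g|` for each grid point (`sg_le`), so `x - g ≠ 0` and `kS_rep` applies; exchange the finite sum with the
integral over `Ioi (1/h)`; `Eg_prod`, `sum_prod`, `sing_sum1` give `∑ Eg t (x - g) ≤ 216 exp (-t^2 Dn^2 / 2)`;
`integral_gaussian_Ioi`; `216 √2 ≤ 400`.  `sing_int`: `kS_int`, `integral_sub_left_eq_self`. -/

namespace Vale.Agent.P370.Nuc

open MeasureTheory Finset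

theorem lin_sum_int (Γ : Grid) (q : ℕ → ℕ → ℕ → ℝ) {μ : Measure ℝ} {F : ℝ → E3 → ℝ} (c : ℝ)
    (hF : ∀ i j k, Integrable (fun t => F t (Γ.gp i j k)) μ) :
    Integrable (fun t => Γ.sum q (F t)) μ ∧
      Γ.sum q (fun y => c * ∫ t, F t y ∂μ) = c * ∫ t, Γ.sum q (F t) ∂μ := by
  have h1 : ∀ i j k, Integrable (fun t => q i j k * F t (Γ.gp i j k)) μ := fun i j k =>
    (hF i j k).const_mul _
  have h2 : ∀ i j, Integrable (fun t => ∑ k ∈ range (Γ.n 2), q i j k * F t (Γ.gp i j k)) μ :=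
    fun i j => integrable_finsetSum _ fun k _ => h1 i j k
  have h3 : ∀ i, Integrable (fun t => ∑ j ∈ range (Γ.n 1), ∑ k ∈ range (Γ.n 2),
      q i j k * F t (Γ.gp i j k)) μ := fun i => integrable_finsetSum _ fun j _ => h2 i j
  refine ⟨integrable_finsetSum _ fun i _ => h3 i, ?_⟩
  unfold Grid.sum
  rw [integral_finsetSum _ fun i _ => h3 i, mul_sum]
  refine sum_congr rfl fun i _ => ?_
  rw [integral_finsetSum _ fun j _ => h2 i j, mul_sum]
  refine sum_congr rfl fun j _ => ?_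
  rw [integral_finsetSum _ fun k _ => h1 i j k, mul_sum]
  refine sum_congr rfl fun k _ => ?_
  rw [integral_const_mul, mul_left_comm]

theorem lin_c : 0 < 2 / √Real.pi ∧ 2 / √Real.pi ≤ 2 :=
  ⟨div_pos two_pos (Real.sqrt_pos.2 Real.pi_pos), div_le_self zero_le_two
    (Real.one_le_sqrt.2 (by linarith [Real.two_le_pi]))⟩

theorem lin_ne (Γ : Grid) (hh : 0 < Γ.h) {x : E3} (hx : Γ.Dn x ≠ 0) (i j k : ℕ) :
    x - Γ.gp i j k ≠ 0 := by
  intro h
  have h1 : ∀ (l : Fin 3) (m : ℕ), x l = nd (Γ.a l) Γ.h m → sg (Γ.a l) Γ.h (x l) = 0 :=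
    fun l m e => by
      have h2 := sg_le (a := Γ.a l) hh (x l) m
      rw [← e, sub_self, abs_zero] at h2
      exact abs_nonpos_iff.1 h2
  have h3 := congrFun (sub_eq_zero.1 h)
  refine hx ?_
  rw [Grid.Dn, Fin.sum_univ_three, h1 0 i (h3 0), h1 1 j (h3 1), h1 2 k (h3 2)]
  simp

theorem lin_Eg (Γ : Grid) (hh : 0 < Γ.h) {q : ℕ → ℕ → ℕ → ℝ} {Z : ℝ} (hZ : 0 ≤ Z)
    (hq : ∀ i j k, |q i j k| ≤ Z) (x : E3) {t : ℝ} (ht : 1 ≤ t * Γ.h) :
    |Γ.sum q (fun y => Eg t (x - y))| ≤ 216 * Z * Real.exp (-(Γ.Dn x ^ 2 / 2) * t ^ 2) := by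
  refine (sum_prod Γ (A := Z) (α := fun i => Real.exp (-(t ^ 2 * (x 0 - nd (Γ.a 0) Γ.h i) ^ 2)))
    (β := fun i => Real.exp (-(t ^ 2 * (x 1 - nd (Γ.a 1) Γ.h i) ^ 2)))
    (γ := fun i => Real.exp (-(t ^ 2 * (x 2 - nd (Γ.a 2) Γ.h i) ^ 2)))
    fun i _ j _ k _ => ?_).trans ?_
  · rw [abs_mul, abs_of_pos (Eg_pos _ _), Eg_prod, Fin.prod_univ_three]
    exact mul_le_mul_of_nonneg_right (hq i j k) (by positivity)
  · have h0 := sing_sum1 (a := Γ.a 0) hh ht (x 0) (Γ.n 0)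
    have h1 := sing_sum1 (a := Γ.a 1) hh ht (x 1) (Γ.n 1)
    have h2 := sing_sum1 (a := Γ.a 2) hh ht (x 2) (Γ.n 2)
    refine (mul_le_mul_of_nonneg_left (mul_le_mul (mul_le_mul h0 h1 (by positivity)
      (by positivity)) h2 (by positivity) (by positivity)) hZ).trans_eq ?_
    rw [Grid.Dn, Real.sq_sqrt (by positivity), Fin.sum_univ_three,
      show -((sg (Γ.a 0) Γ.h (x 0) ^ 2 + sg (Γ.a 1) Γ.h (x 1) ^ 2 + sg (Γ.a 2) Γ.h (x 2) ^ 2) / 2) *
        t ^ 2 = -(t ^ 2 * sg (Γ.a 0) Γ.h (x 0) ^ 2 / 2) + -(t ^ 2 * sg (Γ.a 1) Γ.h (x 1) ^ 2 / 2) +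
        -(t ^ 2 * sg (Γ.a 2) Γ.h (x 2) ^ 2 / 2) by ring, Real.exp_add, Real.exp_add]
    ring

theorem err_split (Γ : Grid) (s : ℝ) (q : ℕ → ℕ → ℕ → ℝ) {ρ : E3 → ℝ} (hρ : Continuous ρ) {T : ℝ}
    (hT : 0 < T) (x : E3) :
    Γ.err s q ρ (fun y => kk (x - y)) =
      Γ.err s q ρ (fun y => kL T (x - y)) + Γ.err s q ρ (fun y => kS T (x - y)) := by
  have h1 : IntegrableOn (fun y => ρ y * kL T (x - y)) Γ.box :=
    ContinuousOn.integrableOn_compact isCompact_Icc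
      (hρ.mul ((continuous_kL T).comp (continuous_const.sub continuous_id))).continuousOn
  have h2 : IntegrableOn (fun y => ρ y * kS T (x - y)) Γ.box :=
    ((kS_int hT).1.comp_sub_left x).integrableOn.continuousOn_mul hρ.continuousOn isCompact_Icc
  simp only [Grid.err, kk_eq_add T, sum_add_f, mul_add]
  rw [integral_add h1 h2]
  ring


theorem err_kL (Γ : Grid) (s : ℝ) (q : ℕ → ℕ → ℕ → ℝ) {ρ : E3 → ℝ} (hρ : Continuous ρ) {T : ℝ}
    (hT : 0 ≤ T) (x : E3) {M : ℝ → ℝ} (hM : IntervalIntegrable M volume 0 T)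
    (h : ∀ t, 0 < t → t ≤ T → |Γ.err s q ρ (fun y => Eg t (x - y))| ≤ M t) :
    |Γ.err s q ρ (fun y => kL T (x - y))| ≤ 2 * ∫ t in (0 : ℝ)..T, M t := by
  have hE := continuous_Eg
  have h1 := lin_sum_int Γ q (μ := volume.restrict (Set.Ioc 0 T)) (F := fun t y => Eg t (x - y))
    (2 / √Real.pi) fun i j k => (Continuous.integrableOn_Icc (a := 0) (b := T)
      (hE.comp (continuous_id.prodMk continuous_const))).mono_set Set.Ioc_subset_Icc_self
  have h2 : Integrable (Function.uncurry fun (y : E3) (t : ℝ) => ρ y * Eg t (x - y))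
      ((volume.restrict Γ.box).prod (volume.restrict (Set.Ioc 0 T))) := by
    rw [Measure.prod_restrict]
    refine IntegrableOn.mono_set (t := Γ.box ×ˢ Set.Icc 0 T) (ContinuousOn.integrableOn_compact
      (isCompact_Icc.prod isCompact_Icc) (Continuous.continuousOn ?_))
      (Set.prod_mono le_rfl Set.Ioc_subset_Icc_self)
    exact (hρ.comp continuous_fst).mul
      (hE.comp (continuous_snd.prodMk (continuous_const.sub continuous_fst)))
  have h3 : Γ.err s q ρ (fun y => kL T (x - y)) =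
      2 / √Real.pi * ∫ t in Set.Ioc 0 T, Γ.err s q ρ fun y => Eg t (x - y) := by
    simp only [Grid.err, kL, intervalIntegral.integral_of_le hT]
    rw [h1.2, integral_sub (g := fun t => ∫ y in Γ.box, ρ y * Eg t (x - y)) (h1.1.const_mul s)
      h2.integral_prod_right, ← integral_integral_swap h2,
      integral_const_mul, mul_sub, mul_left_comm, ← integral_const_mul (2 / √Real.pi)
        fun y => ∫ t in Set.Ioc 0 T, ρ y * Eg t (x - y)]
    simp only [integral_const_mul, mul_left_comm (ρ _)]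
  have h4 := norm_integral_le_of_norm_le (f := fun t => Γ.err s q ρ fun y => Eg t (x - y)) hM.1
    (ae_restrict_of_forall_mem measurableSet_Ioc fun t ht => h t ht.1 ht.2)
  rw [h3, abs_mul, abs_of_pos lin_c.1, intervalIntegral.integral_of_le hT]
  exact mul_le_mul lin_c.2 h4 (abs_nonneg _) zero_le_two


theorem sum_kL (Γ : Grid) (q : ℕ → ℕ → ℕ → ℝ) {T : ℝ} (hT : 0 ≤ T) (x : E3) {M : ℝ → ℝ}
    (hM : IntervalIntegrable M volume 0 T)
    (h : ∀ t, 0 < t → t ≤ T → |Γ.sum q (fun y => Eg t (x - y))| ≤ M t) :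
    |Γ.sum q (fun y => kL T (x - y))| ≤ 2 * ∫ t in (0 : ℝ)..T, M t := by
  simpa [Grid.err] using err_kL Γ 1 q (ρ := fun _ => 0) continuous_const hT x hM
    (by simpa [Grid.err] using h)

theorem sing_sum (Γ : Grid) (hh : 0 < Γ.h) {q : ℕ → ℕ → ℕ → ℝ} {Z : ℝ} (hZ : 0 ≤ Z)
    (hq : ∀ i j k, |q i j k| ≤ Z) {x : E3} (hx : Γ.Dn x ≠ 0) :
    |Γ.sum q (fun y => kS (1 / Γ.h) (x - y))| ≤ 400 * Z / Γ.Dn x := by
  have hT := one_div_pos.2 hh
  have hD : 0 < Γ.Dn x := (Real.sqrt_nonneg _).lt_of_ne' hx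
  have hs : Set.Ioi (1 / Γ.h) ⊆ Set.Ioi 0 := Set.Ioi_subset_Ioi hT.le
  have h1 := lin_sum_int Γ q (μ := volume.restrict (Set.Ioi (1 / Γ.h)))
    (F := fun t y => Eg t (x - y)) (2 / √Real.pi)
    fun i j k => (kk_rep (lin_ne Γ hh hx i j k)).1.mono_set hs
  have h2 : Γ.sum q (fun y => kS (1 / Γ.h) (x - y)) =
      Γ.sum q fun y => 2 / √Real.pi * ∫ t in Set.Ioi (1 / Γ.h), Eg t (x - y) := by
    simp only [Grid.sum, kS_rep (lin_ne Γ hh hx _ _ _) hT.le]
  have h3 : Integrable fun t : ℝ => Real.exp (-(Γ.Dn x ^ 2 / 2) * t ^ 2) :=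
    integrable_exp_neg_mul_sq (by positivity)
  have h4 := norm_integral_le_of_norm_le (μ := volume.restrict (Set.Ioi (1 / Γ.h)))
    (f := fun t => Γ.sum q fun y => Eg t (x - y)) (h3.integrableOn.const_mul (216 * Z))
    (ae_restrict_of_forall_mem measurableSet_Ioi fun t ht =>
      lin_Eg Γ hh hZ hq x ((div_le_iff₀ hh).1 (le_of_lt ht)))
  have h5 := setIntegral_mono_set (s := Set.Ioi (1 / Γ.h)) (t := Set.Ioi 0) h3.integrableOn
    (ae_of_all _ fun t => (Real.exp_pos _).le) hs.eventuallyLE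
  have hπ := Real.sqrt_pos.2 Real.pi_pos
  have h6 : √(Real.pi / (Γ.Dn x ^ 2 / 2)) ≤ √Real.pi * (3 / 2) / Γ.Dn x :=
    Real.sqrt_le_iff.2 ⟨by positivity, by
      rw [div_pow, mul_pow, Real.sq_sqrt Real.pi_pos.le, div_div_eq_mul_div]
      exact div_le_div_of_nonneg_right
        (mul_le_mul_of_nonneg_left (by norm_num) Real.pi_pos.le) (by positivity)⟩
  rw [integral_gaussian_Ioi] at h5
  rw [integral_const_mul] at h4
  rw [h2, h1.2, abs_mul, abs_of_pos lin_c.1]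
  refine (mul_le_mul_of_nonneg_left (h4.trans (mul_le_mul_of_nonneg_left
    (h5.trans (div_le_div_of_nonneg_right h6 zero_le_two)) (by positivity))) lin_c.1.le).trans ?_
  rw [show 2 / √Real.pi * (216 * Z * (√Real.pi * (3 / 2) / Γ.Dn x / 2)) = 324 * Z / Γ.Dn x by
    field_simp; ring]
  exact div_le_div_of_nonneg_right (by linarith) hD.le


theorem sing_int (Γ : Grid) {ρ : E3 → ℝ} {M : ℝ} (hM : ∀ y, |ρ y| ≤ M) {T : ℝ} (hT : 0 < T)
    (x : E3) : |∫ y in Γ.box, ρ y * kS T (x - y)| ≤ 4 * M / T ^ 2 := by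
  have h0 : 0 ≤ M := (abs_nonneg _).trans (hM 0)
  have h1 := ((kS_int hT).1.comp_sub_left x).abs
  refine (norm_integral_le_of_norm_le (f := fun y => ρ y * kS T (x - y))
    (h1.integrableOn.const_mul M) (ae_of_all _ fun y => ?_)).trans ?_
  · rw [Real.norm_eq_abs, abs_mul]
    exact mul_le_mul_of_nonneg_right (hM y) (abs_nonneg _)
  · rw [integral_const_mul, mul_comm 4, mul_div_assoc]
    refine mul_le_mul_of_nonneg_left ((setIntegral_le_integral h1
      (ae_of_all _ fun y => abs_nonneg _)).trans ?_) h0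
    rw [integral_sub_left_eq_self (fun u => |kS T u|) volume x]
    exact (kS_int hT).2


end Vale.Agent.P370.Nuc
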