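import Vale.Agent.P370.NucZ
import Vale.Agent.P370.NucLin

/-! Part E: the charges at the ends of the rows.

Plan.  `end_far`: `sum_maj` with `maj_ind` (`R = P^64 + 4`, `c = ![4 P^70000, 0, 0]`), `ce_le`, `ce_supp`, `gr_last`, and
`kk_le` with `r = P^70000`; `s = r0 (h/12)^3` (`sq_eq`, `r0_le`): the bound is `r0 * 8 / P^70000 * (4 R)^3`.
`end_kL`: `sum_kL` with `M t = 8 * 4 * (8 R / (h (1 + t)))^2`, `R = P^64 + 1`: `sum_prod` with `α i = if nx ≤ i + 4 then 1 else 0`
(`sum_last`), `β j = if |y_j| ≤ R then gs t (x 1) y_j else 0`, the same for `γ` (`(maj_cut ..).sum_le`, `Eg_prod`);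
`∫_0^T (1 + t)^(-2) ≤ 1`; `sq_le`. -/

namespace Vale.Agent.P370.Nuc

open MeasureTheory Finset

variable {b : ℕ} {Vq : ℚ × ℚ × ℚ → ℚ} {V : E3 → ℝ}


theorem end_int {T : ℝ} (hT : 0 ≤ T) :
    IntervalIntegrable (fun t : ℝ => 1 / (1 + t) ^ 2) volume 0 T ∧
      ∫ t in (0 : ℝ)..T, 1 / (1 + t) ^ 2 ≤ 1 := by
  have h0 : ∀ t ∈ Set.uIcc 0 T, (1 + t : ℝ) ≠ 0 := fun t ht => by
    rw [Set.uIcc_of_le hT] at ht
    linarith [ht.1]
  have h1 : IntervalIntegrable (fun t : ℝ => 1 / (1 + t) ^ 2) volume 0 T :=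
    (continuousOn_const.div (by fun_prop) fun t ht => pow_ne_zero 2 (h0 t ht)).intervalIntegrable
  refine ⟨h1, ?_⟩
  rw [intervalIntegral.integral_eq_sub_of_hasDerivAt (f := fun t : ℝ => -(1 + t)⁻¹) (fun t ht => ?_)
    h1]
  · have : 0 ≤ (1 + T)⁻¹ := by positivity
    simp only [add_zero, inv_one]
    linarith
  · exact (((hasDerivAt_id t).const_add 1).inv (h0 t ht)).neg.congr_deriv (by simp [neg_div])

theorem end_gs (t x u : ℝ) : Real.exp (-(t ^ 2 * (x - u) ^ 2)) ≤ gs t x u := by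
  rw [gs, Real.exp_le_exp, ← neg_sub x u, neg_sq]
  nlinarith [mul_nonneg (sq_nonneg t) (sq_nonneg (x - u))]

theorem end_far (hb : 30 ≤ b) (hV : VOK b Vq V) {x : E3} (hx : |x 0| ≤ PR b ^ 64) :
    |EndP b Vq fun y => kk (x - y)| ≤ 1 / PR b ^ 66000 := by
  have hP := PR_pos b
  have hh := gr_h_pos b
  have h1 : 4 * PR b ^ 0 ≤ PR b ^ 64 := PR_mul_le hb (by norm_num) (by norm_num)
  have h2 : 2 * PR b ^ 64 ≤ PR b ^ 70000 := PR_mul_le hb (by norm_num) (by norm_num)
  have h3 : (gr b).h ≤ 1 := by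
    rw [gr_h]
    exact (div_le_one (by positivity)).2 (one_le_pow₀ (PR_one b))
  rw [pow_zero] at h1
  have key := sum_maj (gr b) hh (q := ce b Vq) (f := fun y => kk (x - y))
    (A := 8 * (1 / PR b ^ 70000)) (by positivity)
    (maj_ind (gr b) hh (R := PR b ^ 64 + 4) (by linarith) ![4 * PR b ^ 70000, 0, 0])
    fun i hi j _ k _ => by
      by_cases h0 : ce b Vq i j k = 0
      · rw [h0, zero_mul, abs_zero]
        exact mul_nonneg (by positivity) (prod_nonneg fun l _ => by split_ifs <;> norm_num)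
      obtain ⟨c1, c2, c3⟩ := ce_supp hb hV h0
      have c0 := gr_last b (i := i) hi c1
      have e : ∏ l, (if |(gr b).gp i j k l - (![4 * PR b ^ 70000, 0, 0] : E3) l| ≤ PR b ^ 64 + 4
          then (1 : ℝ) else 0) = 1 := by
        refine prod_eq_one fun l _ => if_pos ?_
        fin_cases l
        · exact c0.trans (by linarith)
        · exact (congrArg abs (sub_zero _)).trans_le (c2.trans (by linarith))
        · exact (congrArg abs (sub_zero _)).trans_le (c3.trans (by linarith))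
      rw [e, mul_one, abs_mul, abs_of_nonneg (kk_nonneg _)]
      refine mul_le_mul (ce_le ..) (kk_le (by positivity) (k := 0) ?_) (kk_nonneg _) (by norm_num)
      change _ ≤ |x 0 - nd ((gr b).a 0) (gr b).h i|
      exact le_abs.2 (Or.inr (by linarith [(abs_le.1 c0).1, (abs_le.1 hx).2]))
  have h4 := r0_le hb
  have h5 : (4 * (PR b ^ 64 + 4)) ^ 3 ≤ (8 * PR b ^ 64) ^ 3 :=
    pow_le_pow_left₀ (by positivity) (by linarith) 3
  have h6 : 1 * PR b ^ 3212 / PR b ^ 70000 ≤ PR b ^ 0 / PR b ^ 66000 :=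
    PR_div_le hb (by norm_num) (by norm_num)
  have h7 : PR b ^ 3212 = PR b ^ 3020 * (PR b ^ 64) ^ 3 := by rw [← pow_mul, ← pow_add]
  rw [pow_zero, h7] at h6
  rw [EndP, abs_mul, sq_eq, abs_of_nonneg (mul_nonneg h4.1 (by positivity))]
  refine le_trans ?_ h6
  have h8 : 0 < PR b ^ 70000 := by positivity
  have h9 : 0 < PR b ^ 64 := by positivity
  have h10 : 0 < PR b ^ 3020 := by positivity
  generalize PR b ^ 70000 = X at *
  generalize PR b ^ 64 = Y at *
  generalize PR b ^ 3020 = Z at *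
  calc r0 b * ((gr b).h / 12) ^ 3 * |(gr b).sum (ce b Vq) fun y => kk (x - y)|
      = r0 b / 1728 * ((gr b).h ^ 3 * |(gr b).sum (ce b Vq) fun y => kk (x - y)|) := by ring
    _ ≤ Z / 12 / 1728 * (8 * (1 / X) * (8 * Y) ^ 3) := by
      refine mul_le_mul (by linarith [h4.2]) (key.trans ?_) (by positivity) (by positivity)
      exact mul_le_mul_of_nonneg_left h5 (by positivity)
    _ = 4096 / 20736 * (1 * (Z * Y ^ 3) / X) := by ring
    _ ≤ _ := mul_le_of_le_one_left (by positivity) (by norm_num)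

theorem end_kL (hb : 30 ≤ b) (hV : VOK b Vq V) (x : E3) :
    |EndP b Vq fun y => kL (1 / (gr b).h) (x - y)| ≤ 1 / PR b ^ 18000 := by
  have hP := PR_pos b
  have hh := gr_h_pos b
  have h1 : 1 ≤ PR b ^ 64 := one_le_pow₀ (PR_one b)
  have h3 : (gr b).h ≤ 1 := by
    rw [gr_h]
    exact (div_le_one (by positivity)).2 (one_le_pow₀ (PR_one b))
  have hT : 0 ≤ 1 / (gr b).h := by positivity
  have hI := end_int hT
  have key := sum_kL (gr b) (ce b Vq) hT x
    (M := fun t => 32 * (8 * (PR b ^ 64 + 1) / (gr b).h) ^ 2 * (1 / (1 + t) ^ 2))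
    (hI.1.const_mul _) fun t ht hth => by
      have hth' : t * (gr b).h ≤ 1 := by rwa [le_div_iff₀ hh] at hth
      have m := maj_cut (gr b) hh (R := PR b ^ 64 + 1) (by linarith) (by linarith) ht.le hth' x
      have m' : ∀ l, ∑ j ∈ range ((gr b).n l), (if |nd ((gr b).a l) (gr b).h j| ≤ PR b ^ 64 + 1
          then gs t (x l) (nd ((gr b).a l) (gr b).h j) else 0) ≤
          8 * (PR b ^ 64 + 1) / (1 + t) / (gr b).h := fun l => by
        rw [le_div_iff₀ hh, mul_comm]
        exact m.sum_le l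
      refine (sum_prod (gr b) (A := 8) (α := fun i => if (gr b).n 0 ≤ i + 4 then 1 else 0)
        (β := fun j => if |nd ((gr b).a 1) (gr b).h j| ≤ PR b ^ 64 + 1
          then gs t (x 1) (nd ((gr b).a 1) (gr b).h j) else 0)
        (γ := fun j => if |nd ((gr b).a 2) (gr b).h j| ≤ PR b ^ 64 + 1
          then gs t (x 2) (nd ((gr b).a 2) (gr b).h j) else 0) fun i _ j _ k _ => ?_).trans ?_
      · by_cases h0 : ce b Vq i j k = 0
        · rw [h0, zero_mul, abs_zero]
          refine mul_nonneg (by norm_num) (mul_nonneg (mul_nonneg ?_ (m.nonneg 1 _)) (m.nonneg 2 _))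
          split_ifs <;> norm_num
        obtain ⟨c1, c2, c3⟩ := ce_supp hb hV h0
        have c0 : (gr b).n 0 ≤ i + 4 := c1
        rw [if_pos c0, if_pos c2, if_pos c3, abs_mul, abs_of_pos (Eg_pos _ _)]
        refine mul_le_mul (ce_le ..) ?_ (Eg_pos _ _).le (by norm_num)
        rw [Eg_prod, Fin.prod_univ_three]
        refine mul_le_mul (mul_le_mul ?_ (end_gs t _ _) (Real.exp_pos _).le zero_le_one)
          (end_gs t _ _) (Real.exp_pos _).le (mul_nonneg zero_le_one (Real.exp_pos _).le)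
        exact Real.exp_le_one_iff.2 (neg_nonpos.2 (by positivity))
      · refine (mul_le_mul_of_nonneg_left (mul_le_mul (mul_le_mul (sum_last _) (m' 1)
          (sum_nonneg fun j _ => m.nonneg 1 _) (by norm_num)) (m' 2)
          (sum_nonneg fun j _ => m.nonneg 2 _) (by positivity)) (by norm_num)).trans_eq ?_
        generalize PR b ^ 64 = Y
        field_simp
        ring
  rw [intervalIntegral.integral_const_mul] at key
  have h4 := sq_le hb
  have h5 : 8 * (PR b ^ 64 + 1) / (gr b).h ≤ 16 * PR b ^ 64 * PR b ^ 22000 := by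
    rw [gr_h, div_div_eq_mul_div, div_one]
    exact mul_le_mul_of_nonneg_right (by linarith) (by positivity)
  have h6 : 16384 * PR b ^ 44128 / PR b ^ 62980 ≤ PR b ^ 0 / PR b ^ 18000 :=
    PR_div_le hb (by norm_num) (by norm_num)
  have h7 : PR b ^ 44128 = (PR b ^ 64 * PR b ^ 22000) ^ 2 := by rw [← pow_add, ← pow_mul]
  rw [pow_zero, h7] at h6
  rw [EndP, abs_mul, abs_of_nonneg h4.1]
  refine le_trans ?_ h6
  have h8 : (8 * (PR b ^ 64 + 1) / (gr b).h) ^ 2 ≤ (16 * PR b ^ 64 * PR b ^ 22000) ^ 2 :=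
    pow_le_pow_left₀ (by positivity) h5 2
  have h9 := mul_le_mul h8 hI.2
    (intervalIntegral.integral_nonneg hT fun t _ => by positivity) (by positivity)
  refine (mul_le_mul h4.2 (key.trans (b := _) (c := 64 * (16 * PR b ^ 64 * PR b ^ 22000) ^ 2)
    (by linarith)) (abs_nonneg _) (by positivity)).trans_eq ?_
  generalize PR b ^ 62980 = X
  generalize PR b ^ 64 = Y
  generalize PR b ^ 22000 = Z
  ring

end Vale.Agent.P370.Nuc
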