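import Vale.Agent.P370.NucG

/-! Part E: derivatives of the Gaussian.

Plan.  With `s = t (u - x)`, the derivatives of `g u = exp (-(t^2 (x - u)^2))` are `t^m p_m(s) g`, `p_0 = 1`, `p_1 = -2 s`,
`p_2 = 4 s^2 - 2`, `p_3 = -8 s^3 + 12 s`, `p_4 = 16 s^4 - 48 s^2 + 12` (prove `deriv (fun u => p_m .. * g u) = ..` by
`HasDerivAt`, then `iteratedDeriv_succ`).  With `E = exp (s^2 / 2)`: `1 ≤ E`, `s^2 ≤ 2 E`, `s^4 ≤ 8 E`
(`Real.quadratic_le_exp_of_nonneg`), `2 |s| ≤ 1 + s^2`, `2 |s|^3 ≤ s^2 + s^4`.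
`dax_gauss`: along the axis `k`, `Eg t (x - update y k u) = c * g u` with `c = ∏_{l ≠ k} exp (-(t^2 (x l - y l)^2))`
(`Real.exp_sum`, `Finset.prod_erase_mul` / `Finset.add_sum_erase`, `iteratedDeriv_const_mul`), `c ≤ ∏_{l ≠ k} gs ..`. -/

namespace Vale.Agent.P370.Nuc

open MeasureTheory Finset

/-- Hermite type polynomials -/
noncomputable def gaP : ℕ → Polynomial ℝ
  | 0 => 1
  | m + 1 => Polynomial.derivative (gaP m) - Polynomial.C 2 * Polynomial.X * gaP m

theorem ga_iter (t x : ℝ) (m : ℕ) :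
    iteratedDeriv m (fun v => Real.exp (-(t ^ 2 * (x - v) ^ 2))) =
      fun v => t ^ m * ((gaP m).eval (t * (v - x)) * Real.exp (-(t ^ 2 * (x - v) ^ 2))) := by
  induction m with
  | zero => simp [gaP]
  | succ m ih =>
    rw [iteratedDeriv_succ, ih]
    funext v
    have h1 : HasDerivAt (fun v => t * (v - x)) t v := by
      simpa using ((hasDerivAt_id v).sub_const x).const_mul t
    have h2 : HasDerivAt (fun v => (gaP m).eval (t * (v - x)))
        ((Polynomial.derivative (gaP m)).eval (t * (v - x)) * t) v :=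
      HasDerivAt.comp (h₂ := fun s => (gaP m).eval s) v ((gaP m).hasDerivAt (t * (v - x))) h1
    have h3 : HasDerivAt (fun v => -(t ^ 2 * (x - v) ^ 2)) (2 * t ^ 2 * (x - v)) v := by
      have h4 := ((((hasDerivAt_id v).const_sub x).pow 2).const_mul (t ^ 2)).neg
      refine h4.congr_deriv ?_
      simp
      ring
    refine ((h2.mul h3.exp).const_mul (t ^ m)).deriv.trans ?_
    simp only [gaP, Polynomial.eval_sub, Polynomial.eval_mul, Polynomial.eval_C, Polynomial.eval_X]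
    ring

theorem ga_bd {m : ℕ} (hm : m ≤ 4) (s : ℝ) : |(gaP m).eval s| ≤ 240 * Real.exp (s ^ 2 / 2) := by
  have h1 := Real.quadratic_le_exp_of_nonneg (show 0 ≤ s ^ 2 / 2 by positivity)
  have h2 : 0 ≤ s ^ 2 := sq_nonneg s
  have h3 : 0 ≤ s ^ 4 := by positivity
  have h4 : (s ^ 2 / 2) ^ 2 / 2 = s ^ 4 / 8 := by ring
  have e0 : (gaP 0).eval s = 1 := by simp [gaP]
  have e1 : (gaP 1).eval s = -2 * s := by simp [gaP]
  have e2 : (gaP 2).eval s = 4 * s ^ 2 - 2 := by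
    simp [gaP]
    ring
  have e3 : (gaP 3).eval s = -8 * s ^ 3 + 12 * s := by
    simp [gaP]
    ring
  have e4 : (gaP 4).eval s = 16 * s ^ 4 - 48 * s ^ 2 + 12 := by
    simp [gaP]
    ring
  rw [h4] at h1
  rw [abs_le]
  interval_cases m
  · rw [e0]
    constructor <;> linarith
  · rw [e1]
    constructor <;> nlinarith [sq_nonneg (s - 1), sq_nonneg (s + 1)]
  · rw [e2]
    constructor <;> linarith
  · rw [e3]
    constructor <;> nlinarith [sq_nonneg (s - 1), sq_nonneg (s + 1), sq_nonneg (s ^ 2 - s),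
      sq_nonneg (s ^ 2 + s)]
  · rw [e4]
    constructor <;> linarith

theorem gauss_deriv {t : ℝ} (ht : 0 ≤ t) (x : ℝ) {m : ℕ} (hm : m ≤ 4) (u : ℝ) :
    |iteratedDeriv m (fun v => Real.exp (-(t ^ 2 * (x - v) ^ 2))) u| ≤ 240 * t ^ m * gs t x u := by
  rw [ga_iter, abs_mul, abs_mul, abs_of_nonneg (pow_nonneg ht m), abs_of_pos (Real.exp_pos _),
    mul_comm 240, mul_assoc]
  refine mul_le_mul_of_nonneg_left ?_ (pow_nonneg ht m)
  refine (mul_le_mul_of_nonneg_right (ga_bd hm _) (Real.exp_pos _).le).trans (le_of_eq ?_)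
  rw [mul_assoc, ← Real.exp_add, gs]
  congr 2
  ring

theorem contDiff_Eg (t : ℝ) (x : E3) : ContDiff ℝ 4 fun y => Eg t (x - y) := by
  unfold Eg
  fun_prop

theorem dax_gauss {t : ℝ} (ht : 0 ≤ t) (x : E3) {m : ℕ} (hm : m ≤ 4) (k : Fin 3) (y : E3) :
    |dax m (fun y => Eg t (x - y)) k y| ≤ 240 * t ^ m * ∏ l, gs t (x l) (y l) := by
  have e : (fun u => Eg t (x - Function.update y k u)) = fun u =>
      (∏ l ∈ univ.erase k, Real.exp (-(t ^ 2 * (x l - y l) ^ 2))) *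
        Real.exp (-(t ^ 2 * (x k - u) ^ 2)) := by
    funext u
    rw [Eg, ← Real.exp_sum, ← Real.exp_add, ← sum_erase_add _ _ (mem_univ k), mul_add, neg_add,
      mul_sum, ← sum_neg_distrib]
    congr 2
    · exact sum_congr rfl fun l hl => by
        rw [Pi.sub_apply, Function.update_of_ne (ne_of_mem_erase hl)]
    · rw [Pi.sub_apply, Function.update_self]
  have h0 : 0 ≤ ∏ l ∈ univ.erase k, Real.exp (-(t ^ 2 * (x l - y l) ^ 2)) :=
    prod_nonneg fun l _ => (Real.exp_pos _).le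
  have h1 : ∏ l ∈ univ.erase k, Real.exp (-(t ^ 2 * (x l - y l) ^ 2)) ≤
      ∏ l ∈ univ.erase k, gs t (x l) (y l) :=
    prod_le_prod (fun l _ => (Real.exp_pos _).le) fun l _ => Real.exp_le_exp.2 (by
      nlinarith [mul_nonneg (sq_nonneg t) (sq_nonneg (x l - y l))])
  rw [dax, e, iteratedDeriv_const_mul_field, abs_mul, abs_of_nonneg h0,
    ← prod_erase_mul _ _ (mem_univ k)]
  refine (mul_le_mul h1 (gauss_deriv ht (x k) hm (y k)) (abs_nonneg _) (h0.trans h1)).trans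
    (le_of_eq ?_)
  ring

end Vale.Agent.P370.Nuc
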