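import Vale.Agent.P370.NucQ1

/-! Part E: the product quadrature rule.

Plan.  `box_iter`: `MeasurableEquiv.piFinSuccAbove`, `volume_preserving_piFinSuccAbove`,
`volume_preserving_finTwoArrow` (or `integral_fin_nat_prod`-type lemmas), `setIntegral_prod`; continuous functions are
integrable on compact sets.  `quad3`: write `Qx Qy Qz - Ix Iy Iz = (Qx - Ix) Qy Qz + Ix (Qy - Iy) Qz + Ix Iy (Qz - Iz)`,
apply `quad1` on each line: for `g u = f ![u, v, w]` one has `iteratedDeriv 4 g u = dax 4 f 0 ![u, v, w]`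
(`Function.update ![u, v, w] 0 u' = ![u', v, w]` by `ext l; fin_cases l <;> simp`), `Fin.prod_univ_three`, `wt ≤ 13`.
The three terms are at most `86 (13/12)^2`, `86 (13/12)`, `86` times `h ^ 4 A B ^ 3`.  Continuity of the inner
integrals: `intervalIntegral.continuous_parametric_intervalIntegral_of_continuous'`; bound the outer integrals with
`intervalIntegral.norm_integral_le_of_norm_le`. -/

namespace Vale.Agent.P370.Nuc

open MeasureTheory Finset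

theorem q3_pi (μ : Fin 3 → Measure ℝ) [∀ i, SigmaFinite (μ i)] {f : E3 → ℝ}
    (hf : Integrable f (Measure.pi μ)) :
    ∫ y, f y ∂Measure.pi μ = ∫ u, ∫ v, ∫ w, f ![u, v, w] ∂μ 2 ∂μ 1 ∂μ 0 := by
  have h1 := measurePreserving_piFinSuccAbove (α := fun _ : Fin 3 => ℝ) μ 0
  have h2 := measurePreserving_piFinTwo (α := fun _ : Fin 2 => ℝ)
    fun j => μ ((0 : Fin 3).succAbove j)
  have h3 := (MeasurePreserving.id (μ 0)).prod h2
  let e : E3 ≃ᵐ ℝ × ℝ × ℝ := (MeasurableEquiv.piFinSuccAbove (fun _ : Fin 3 => ℝ) 0).trans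
    ((MeasurableEquiv.refl ℝ).prodCongr (MeasurableEquiv.piFinTwo fun _ : Fin 2 => ℝ))
  have h4 : MeasurePreserving e (Measure.pi μ) ((μ 0).prod ((μ 1).prod (μ 2))) := h3.comp h1
  have he : ∀ y : E3, ![(e y).1, (e y).2.1, (e y).2.2] = y := by
    intro y
    ext l
    fin_cases l <;> rfl
  have hi : Integrable (fun p : ℝ × ℝ × ℝ => f ![p.1, p.2.1, p.2.2])
      ((μ 0).prod ((μ 1).prod (μ 2))) := by
    rw [← h4.integrable_comp_emb e.measurableEmbedding]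
    simpa only [Function.comp_def, he] using hf
  have h5 := h4.integral_comp' fun p : ℝ × ℝ × ℝ => f ![p.1, p.2.1, p.2.2]
  simp only [he] at h5
  rw [h5, integral_prod _ hi]
  refine integral_congr_ae ?_
  filter_upwards [hi.prod_right_ae] with u hu
  exact integral_prod _ hu

theorem q3_le (Γ : Grid) (hh : 0 < Γ.h) (k : Fin 3) : Γ.a k ≤ Γ.hi k :=
  le_add_of_nonneg_right (by positivity)

theorem q3_Qle {a h : ℝ} (hh : 0 < h) {n : ℕ} {G ψ : ℝ → ℝ} {C B : ℝ} (hC : 0 ≤ C)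
    (hG : ∀ v, |G v| ≤ C * ψ v) (hs : h * ∑ i ∈ range n, ψ (nd a h i) ≤ B) :
    |Q1 a h n G| ≤ 13 / 12 * C * B := by
  have h1 : |∑ i ∈ range n, (wt i : ℝ) * G (nd a h i)| ≤ 13 * C * ∑ i ∈ range n, ψ (nd a h i) := by
    rw [Finset.mul_sum]
    refine (Finset.abs_sum_le_sum_abs _ _).trans (Finset.sum_le_sum fun i _ => ?_)
    have hw : (wt i : ℝ) ≤ 13 := by
      unfold wt
      split_ifs <;> norm_num
    rw [abs_mul, abs_of_nonneg (Nat.cast_nonneg (wt i)), mul_assoc]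
    exact mul_le_mul hw (hG _) (abs_nonneg _) (by norm_num)
  rw [Q1, abs_mul, abs_of_pos (by positivity : 0 < h / 12)]
  calc h / 12 * |∑ i ∈ range n, (wt i : ℝ) * G (nd a h i)|
      ≤ h / 12 * (13 * C * ∑ i ∈ range n, ψ (nd a h i)) := by gcongr
    _ = 13 / 12 * C * (h * ∑ i ∈ range n, ψ (nd a h i)) := by ring
    _ ≤ 13 / 12 * C * B := by gcongr

theorem q3_Ile {a c : ℝ} (hac : a ≤ c) {G ψ : ℝ → ℝ} {C B : ℝ} (hC : 0 ≤ C)
    (hG : ∀ v, |G v| ≤ C * ψ v) (hi : IntervalIntegrable ψ volume a c)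
    (hs : ∫ v in a..c, ψ v ≤ B) : |∫ v in a..c, G v| ≤ C * B := by
  have h1 := intervalIntegral.norm_integral_le_of_norm_le (f := G) (μ := volume) hac
    (Filter.Eventually.of_forall fun v _ => hG v) (hi.const_mul C)
  rw [intervalIntegral.integral_const_mul] at h1
  exact h1.trans (mul_le_mul_of_nonneg_left hs hC)

theorem q3_cont {X : Type} [TopologicalSpace X] {F : X → ℝ → ℝ} (hF : ∀ v, Continuous fun u => F u v)
    (a h : ℝ) (n : ℕ) : Continuous fun u => Q1 a h n (F u) := by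
  unfold Q1
  exact continuous_const.mul (continuous_finsetSum _ fun i _ => continuous_const.mul (hF _))

theorem q3_swap {F : ℝ → ℝ → ℝ} (hF : ∀ v, Continuous fun u => F u v) (a c a' h : ℝ) (n n' : ℕ) :
    Q1 a h n (fun u => Q1 a' h n' (F u)) - ∫ u in a..c, Q1 a' h n' (F u) =
      Q1 a' h n' fun v => Q1 a h n (fun u => F u v) - ∫ u in a..c, F u v := by
  unfold Q1
  rw [intervalIntegral.integral_const_mul, intervalIntegral.integral_finsetSum fun i _ =>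
    ((hF _).intervalIntegrable _ _).const_mul _]
  simp only [intervalIntegral.integral_const_mul, mul_sub, Finset.sum_sub_distrib, Finset.mul_sum]
  rw [Finset.sum_comm]
  congr 1
  exact Finset.sum_congr rfl fun i _ => Finset.sum_congr rfl fun j _ => by ring

theorem q3_line (Γ : Grid) (hh : 0 < Γ.h) (hn : ∀ k, 4 ∣ Γ.n k) {f : E3 → ℝ} (hf : ContDiff ℝ 4 f)
    {φ : Fin 3 → ℝ → ℝ} {A B : ℝ} (hA : 0 ≤ A) (hφ : Γ.Maj φ B)
    (hM : ∀ k y, |dax 4 f k y| ≤ A * ∏ l, φ l (y l)) (k : Fin 3) (L : ℝ → E3) {P : ℝ} (hP : 0 ≤ P)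
    (h1 : ∀ u u', Function.update (L u) k u' = L u') (h2 : ∀ u, ∏ l, φ l (L u l) = P * φ k u) :
    |Q1 (Γ.a k) Γ.h (Γ.n k) (fun u => f (L u)) - ∫ u in (Γ.a k)..(Γ.hi k), f (L u)| ≤
      86 * Γ.h ^ 4 * A * B * P := by
  have hL : L = Function.update (L 0) k := funext fun u => (h1 0 u).symm
  have hc : ContDiff ℝ 4 fun u => f (L u) := by
    rw [hL]
    exact hf.comp (contDiff_update 4 _ k)
  have hb : ∀ u, |iteratedDeriv 4 (fun u => f (L u)) u| ≤ A * P * φ k u := by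
    intro u
    have h := hM k (L u)
    have hk : L u k = u := by rw [← h1 u u, Function.update_self]
    simp only [dax, h1, h2, hk] at h
    rwa [mul_assoc]
  have h := quad1 hc hb hh (hn k) ((hφ.int k).const_mul (A * P))
  rw [intervalIntegral.integral_const_mul] at h
  refine h.trans ?_
  have h3 : ∫ u in (Γ.a k)..(Γ.a k + Γ.n k * Γ.h), φ k u ≤ B := hφ.int_le k
  calc 86 * Γ.h ^ 4 * (A * P * ∫ u in (Γ.a k)..(Γ.a k + Γ.n k * Γ.h), φ k u)
      ≤ 86 * Γ.h ^ 4 * (A * P * B) := by gcongr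
    _ = _ := by ring

theorem box_iter (Γ : Grid) (hh : 0 < Γ.h) {f : E3 → ℝ} (hf : Continuous f) :
    ∫ y in Γ.box, f y = ∫ u in (Γ.a 0)..(Γ.hi 0), ∫ v in (Γ.a 1)..(Γ.hi 1),
      ∫ w in (Γ.a 2)..(Γ.hi 2), f ![u, v, w] := by
  have hi : IntegrableOn f Γ.box := hf.continuousOn.integrableOn_compact isCompact_Icc
  have e : (volume : Measure E3).restrict Γ.box =
      Measure.pi fun k => (volume : Measure ℝ).restrict (Set.Icc (Γ.a k) (Γ.hi k)) := by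
    rw [Grid.box, ← Set.pi_univ_Icc, volume_pi, Measure.restrict_pi_pi]
  rw [IntegrableOn, e] at hi
  rw [e, q3_pi _ hi]
  simp only [intervalIntegral.integral_of_le (q3_le Γ hh _), integral_Icc_eq_integral_Ioc]

theorem quad3 (Γ : Grid) (hh : 0 < Γ.h) (hn : ∀ k, 4 ∣ Γ.n k) {f : E3 → ℝ} (hf : ContDiff ℝ 4 f)
    {φ : Fin 3 → ℝ → ℝ} {A B : ℝ} (hA : 0 ≤ A) (hφ : Γ.Maj φ B)
    (hM : ∀ k y, |dax 4 f k y| ≤ A * ∏ l, φ l (y l)) :
    |(Γ.h / 12) ^ 3 * Γ.sum www f - ∫ y in Γ.box, f y| ≤ 400 * Γ.h ^ 4 * (A * B ^ 3) := by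
  have hc := hf.continuous
  have hp := hφ.nonneg
  have hB : 0 ≤ B := (intervalIntegral.integral_nonneg (q3_le Γ hh 0) fun u _ => hp 0 u).trans
    (hφ.int_le 0)
  have c3 : Continuous fun p : (ℝ × ℝ) × ℝ => f ![p.1.1, p.1.2, p.2] := by fun_prop
  have e0 : (Γ.h / 12) ^ 3 * Γ.sum www f = Q1 (Γ.a 0) Γ.h (Γ.n 0) fun u =>
      Q1 (Γ.a 1) Γ.h (Γ.n 1) fun v => Q1 (Γ.a 2) Γ.h (Γ.n 2) fun w => f ![u, v, w] := by
    simp only [Grid.sum, Q1, www, Grid.gp, Finset.mul_sum]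
    exact Finset.sum_congr rfl fun i _ => Finset.sum_congr rfl fun j _ =>
      Finset.sum_congr rfl fun k _ => by ring
  have l0 : ∀ v w, |Q1 (Γ.a 0) Γ.h (Γ.n 0) (fun u => f ![u, v, w]) -
      ∫ u in (Γ.a 0)..(Γ.hi 0), f ![u, v, w]| ≤ 86 * Γ.h ^ 4 * A * B * φ 1 v * φ 2 w := by
    intro v w
    rw [mul_assoc _ (φ 1 v)]
    exact q3_line Γ hh hn hf hA hφ hM 0 (fun u => ![u, v, w]) (mul_nonneg (hp _ _) (hp _ _))
      (fun u u' => by ext l; fin_cases l <;> simp) fun u => by simp [Fin.prod_univ_three]; ring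
  have l1 : ∀ u w, |Q1 (Γ.a 1) Γ.h (Γ.n 1) (fun v => f ![u, v, w]) -
      ∫ v in (Γ.a 1)..(Γ.hi 1), f ![u, v, w]| ≤ 86 * Γ.h ^ 4 * A * B * φ 0 u * φ 2 w := by
    intro u w
    rw [mul_assoc _ (φ 0 u)]
    exact q3_line Γ hh hn hf hA hφ hM 1 (fun v => ![u, v, w]) (mul_nonneg (hp _ _) (hp _ _))
      (fun u u' => by ext l; fin_cases l <;> simp) fun u => by simp [Fin.prod_univ_three]; ring
  have l2 : ∀ u v, |Q1 (Γ.a 2) Γ.h (Γ.n 2) (fun w => f ![u, v, w]) -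
      ∫ w in (Γ.a 2)..(Γ.hi 2), f ![u, v, w]| ≤ 86 * Γ.h ^ 4 * A * B * φ 0 u * φ 1 v := by
    intro u v
    rw [mul_assoc _ (φ 0 u)]
    exact q3_line Γ hh hn hf hA hφ hM 2 (fun w => ![u, v, w]) (mul_nonneg (hp _ _) (hp _ _))
      (fun u u' => by ext l; fin_cases l <;> simp) fun u => by simp [Fin.prod_univ_three]
  have hK : 0 ≤ 86 * Γ.h ^ 4 * A * B := by positivity
  generalize hKe : 86 * Γ.h ^ 4 * A * B = K at l0 l1 l2 hK
  have cQ : Continuous fun p : ℝ × ℝ => Q1 (Γ.a 2) Γ.h (Γ.n 2) fun w => f ![p.1, p.2, w] :=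
    q3_cont (F := fun (p : ℝ × ℝ) w => f ![p.1, p.2, w]) (fun w => by fun_prop) _ _ _
  have cI : Continuous fun p : ℝ × ℝ => ∫ w in (Γ.a 2)..(Γ.hi 2), f ![p.1, p.2, w] :=
    intervalIntegral.continuous_parametric_intervalIntegral_of_continuous'
      (f := fun (p : ℝ × ℝ) w => f ![p.1, p.2, w]) c3 _ _
  have cQQ : Continuous fun u => Q1 (Γ.a 1) Γ.h (Γ.n 1) fun v =>
      Q1 (Γ.a 2) Γ.h (Γ.n 2) fun w => f ![u, v, w] :=
    q3_cont (F := fun u v => Q1 (Γ.a 2) Γ.h (Γ.n 2) fun w => f ![u, v, w])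
      (fun v => cQ.comp (Continuous.prodMk_left v)) _ _ _
  have cIQ : Continuous fun u => ∫ v in (Γ.a 1)..(Γ.hi 1),
      Q1 (Γ.a 2) Γ.h (Γ.n 2) fun w => f ![u, v, w] :=
    intervalIntegral.continuous_parametric_intervalIntegral_of_continuous'
      (f := fun u v => Q1 (Γ.a 2) Γ.h (Γ.n 2) fun w => f ![u, v, w]) cQ _ _
  have cII : Continuous fun u => ∫ v in (Γ.a 1)..(Γ.hi 1),
      ∫ w in (Γ.a 2)..(Γ.hi 2), f ![u, v, w] :=
    intervalIntegral.continuous_parametric_intervalIntegral_of_continuous'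
      (f := fun u v => ∫ w in (Γ.a 2)..(Γ.hi 2), f ![u, v, w]) cI _ _
  have t1 : |Q1 (Γ.a 0) Γ.h (Γ.n 0) (fun u => Q1 (Γ.a 1) Γ.h (Γ.n 1) fun v =>
      Q1 (Γ.a 2) Γ.h (Γ.n 2) fun w => f ![u, v, w]) - ∫ u in (Γ.a 0)..(Γ.hi 0),
      Q1 (Γ.a 1) Γ.h (Γ.n 1) fun v => Q1 (Γ.a 2) Γ.h (Γ.n 2) fun w => f ![u, v, w]| ≤
      13 / 12 * (13 / 12 * K * B) * B := by
    rw [q3_swap (F := fun u v => Q1 (Γ.a 2) Γ.h (Γ.n 2) fun w => f ![u, v, w])
      fun v => cQ.comp (Continuous.prodMk_left v)]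
    refine q3_Qle hh (by positivity) (fun v => ?_) (hφ.sum_le 1)
    rw [q3_swap (F := fun u w => f ![u, v, w]) fun w => by fun_prop]
    refine (q3_Qle hh (mul_nonneg hK (hp 1 v)) (l0 v) (hφ.sum_le 2)).trans_eq ?_
    ring
  have t2 : |(∫ u in (Γ.a 0)..(Γ.hi 0), Q1 (Γ.a 1) Γ.h (Γ.n 1) fun v =>
      Q1 (Γ.a 2) Γ.h (Γ.n 2) fun w => f ![u, v, w]) - ∫ u in (Γ.a 0)..(Γ.hi 0),
      ∫ v in (Γ.a 1)..(Γ.hi 1), Q1 (Γ.a 2) Γ.h (Γ.n 2) fun w => f ![u, v, w]| ≤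
      13 / 12 * K * B * B := by
    rw [← intervalIntegral.integral_sub (cQQ.intervalIntegrable _ _) (cIQ.intervalIntegrable _ _)]
    refine q3_Ile (q3_le Γ hh 0) (by positivity) (fun u => ?_) (hφ.int 0) (hφ.int_le 0)
    rw [q3_swap (F := fun v w => f ![u, v, w]) fun w => by fun_prop]
    refine (q3_Qle hh (mul_nonneg hK (hp 0 u)) (l1 u) (hφ.sum_le 2)).trans_eq ?_
    ring
  have t3 : |(∫ u in (Γ.a 0)..(Γ.hi 0), ∫ v in (Γ.a 1)..(Γ.hi 1),
      Q1 (Γ.a 2) Γ.h (Γ.n 2) fun w => f ![u, v, w]) - ∫ u in (Γ.a 0)..(Γ.hi 0),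
      ∫ v in (Γ.a 1)..(Γ.hi 1), ∫ w in (Γ.a 2)..(Γ.hi 2), f ![u, v, w]| ≤ K * B * B := by
    rw [← intervalIntegral.integral_sub (cIQ.intervalIntegrable _ _) (cII.intervalIntegrable _ _)]
    refine q3_Ile (q3_le Γ hh 0) (by positivity) (fun u => ?_) (hφ.int 0) (hφ.int_le 0)
    have i1 := (cQ.comp (Continuous.prodMk_right u)).intervalIntegrable (μ := volume) (Γ.a 1) (Γ.hi 1)
    have i2 := (cI.comp (Continuous.prodMk_right u)).intervalIntegrable (μ := volume) (Γ.a 1) (Γ.hi 1)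
    have i3 := intervalIntegral.integral_sub i1 i2
    simp only [Function.comp_def] at i3
    rw [← i3]
    refine (q3_Ile (q3_le Γ hh 1) (mul_nonneg hK (hp 0 u)) (l2 u) (hφ.int 1)
      (hφ.int_le 1)).trans_eq ?_
    ring
  rw [e0, box_iter Γ hh hc]
  have e1 : 400 * Γ.h ^ 4 * (A * B ^ 3) = 400 / 86 * (K * B * B) := by
    rw [← hKe]
    ring
  have h0 : 0 ≤ K * B * B := by positivity
  rw [e1]
  rw [abs_le] at t1 t2 t3 ⊢
  constructor <;> linarith [t1.1, t1.2, t2.1, t2.2, t3.1, t3.2]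

end Vale.Agent.P370.Nuc
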