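import Vale.Agent.P370.NucZ
import Vale.Agent.P370.NucQ3
import Vale.Agent.P370.NucMaj
import Vale.Agent.P370.NucGa

/-! Part E: the discretisation error for smooth test functions.

Plan.  `err_gen`: with `c = (h/12)^3`, `p = 4 piQ`, `s = r0 c` (`sq_eq`), `s tq = c www fdR / p` (`tq_eq`):
`ErrP f = r0 (c sum www f - ∫ f) + (c sum www (Lap V * f) - ∫ Lap V * f) / p + c sum (www (fdR - Lap V g)) f / p - s sum (d4 eIn) f`.
Terms: `quad3`; `quad3` for `Lap V * f` (`lap_bd`, `dax_mul`, `dax_bd`; where some `|y l| > P^64 + 1` all `dax m (Lap V)` vanish by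
`zero_near`, `lap_zero`, `dax_zero`); `sum_maj` with `fd_err`, `fd_zero`, `lap_supp`, `dax_zero_eq`; `noise3` with `ee_mem`, `ee_zero`.
`err_gauss`: `A = 240 t^4`, `B = 6 / t` (`maj_gauss`), `A' = 240 (1 + t)^4`, `B' = 8 (P^64 + 1) / (1 + t)` (`maj_cut`), `dax_gauss`.
`err_G`: `A = A' = P^18000`, `φ = φ' =` indicator of `|v - (-u) k| ≤ P^64` (`maj_ind`, `Maj.mono`), `bd_shift`, `dax_bd`, `zero_near`. -/

namespace Vale.Agent.P370.Nuc

open MeasureTheory Finset

variable {b : ℕ} {Vq : ℚ × ℚ × ℚ → ℚ} {V : E3 → ℝ}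


private theorem er_cut {φ : Fin 3 → ℝ → ℝ} {R : ℝ} {y : E3} (h : ∀ l, |y l| ≤ R) :
    ∏ l, (if |y l| ≤ R then φ l (y l) else 0) = ∏ l, φ l (y l) :=
  prod_congr rfl fun l _ => if_pos (h l)

private theorem er_cut0 {φ : Fin 3 → ℝ → ℝ} {R : ℝ} {y : E3} {l : Fin 3} (h : R < |y l|) :
    ∏ l, (if |y l| ≤ R then φ l (y l) else 0) = 0 :=
  prod_eq_zero (mem_univ l) (if_neg (not_le.2 h))

private theorem er_split (hb : 30 ≤ b) (hV : VOK b Vq V) {f : E3 → ℝ} (hf : Continuous f) :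
    ErrP b Vq V f = r0 b * (((gr b).h / 12) ^ 3 * (gr b).sum www f - ∫ y in (gr b).box, f y) +
      (((gr b).h / 12) ^ 3 * (gr b).sum www (fun y => Lap V y * f y) -
        ∫ y in (gr b).box, Lap V y * f y) / (4 * piQ b) +
      ((gr b).h / 12) ^ 3 * (gr b).sum
        (fun i j k => www i j k * (fdR b Vq i j k - Lap V ((gr b).gp i j k))) f / (4 * piQ b) -
      r0 b * ((gr b).h / 12) ^ 3 * (gr b).sum (d4 (eIn b Vq)) f := by
  have hp : (piQ b : ℝ) ≠ 0 := by linarith [(piQ_ge hb).1]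
  have ho : (omz b : ℝ) ≠ 0 := by rw [omz_cast]; exact (pow_pos (PR_pos b) _).ne'
  have hL : Continuous (Lap V) := (lap_bd (n := 4) hV.bd).1.continuous
  have i1 : IntegrableOn f (gr b).box := hf.integrableOn_Icc
  have i2 : IntegrableOn (fun y => Lap V y * f y) (gr b).box := (hL.mul hf).integrableOn_Icc
  have e1 : ∫ y in (gr b).box, rhoV b V y * f y =
      r0 b * (∫ y in (gr b).box, f y) + (∫ y in (gr b).box, Lap V y * f y) / (4 * piQ b) := by
    rw [← integral_const_mul, ← integral_div, ← integral_add (i1.const_mul _) (i2.div_const _)]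
    refine integral_congr_ae (Filter.Eventually.of_forall fun y => ?_)
    simp only [rhoV]
    ring
  have e2 : (sq b : ℝ) * (gr b).sum (Zp b Vq) f =
      r0 b * ((gr b).h / 12) ^ 3 * (gr b).sum www f +
      ((gr b).h / 12) ^ 3 / (4 * piQ b) * (gr b).sum www (fun y => Lap V y * f y) +
      ((gr b).h / 12) ^ 3 / (4 * piQ b) * (gr b).sum
        (fun i j k => www i j k * (fdR b Vq i j k - Lap V ((gr b).gp i j k))) f -
      r0 b * ((gr b).h / 12) ^ 3 * (gr b).sum (d4 (eIn b Vq)) f := by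
    rw [sq_eq]
    simp only [Grid.sum, mul_sum, ← sum_add_distrib, ← sum_sub_distrib]
    refine sum_congr rfl fun i _ => sum_congr rfl fun j _ => sum_congr rfl fun k _ => ?_
    rw [Zp, tq_eq, r0]
    generalize ((gr b).h / 12) ^ 3 = c
    field_simp
    ring
  rw [ErrP, Grid.err, e1, e2]
  ring

theorem err_gen (hb : 30 ≤ b) (hV : VOK b Vq V) {f : E3 → ℝ} (hf : ContDiff ℝ 4 f)
    {φ φ' : Fin 3 → ℝ → ℝ} {A B A' B' : ℝ} (hA : 0 ≤ A) (hA' : 0 ≤ A') (hφ : (gr b).Maj φ B)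
    (hφ' : (gr b).Maj (fun k u => if |u| ≤ PR b ^ 64 + 1 then φ' k u else 0) B')
    (h4 : ∀ k y, |dax 4 f k y| ≤ A * ∏ l, φ l (y l))
    (hm : ∀ m ≤ 4, ∀ k y, |dax m f k y| ≤ A' * ∏ l, φ' l (y l)) :
    |ErrP b Vq V f| ≤
      (gr b).h ^ 4 * (PR b ^ 3021 * (A * B ^ 3) + PR b ^ 1501 * (A' * B' ^ 3)) := by
  have hh := gr_h_pos b
  have hQ : 0 < PR b ^ 1500 := pow_pos (PR_pos b) _
  have hL := lap_bd (n := 4) hV.bd
  have hfar : ∀ {y : E3} {l : Fin 3}, PR b ^ 64 + 1 < |y l| → ∀ᶠ x in nhds y, Lap V x = 0 :=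
    fun {y l} h => lap_zero (zero_near (c := 0) (R := PR b ^ 64) (l := l)
      (fun x hx l => by simpa using supp_V hb hV x hx l) (by simp only [Pi.zero_apply, sub_zero]; linarith))
  have t1 := quad3 (gr b) hh (gr_dvd hb) hf hA hφ h4
  have t2 := quad3 (gr b) hh (gr_dvd hb) (f := fun y => Lap V y * f y) (hL.1.mul hf)
    (A := 16 * (3 * PR b ^ 1500 * A')) (by positivity) hφ' fun k y => by
      by_cases h : ∀ l, |y l| ≤ PR b ^ 64 + 1
      · rw [er_cut h]
        refine (dax_mul hL.1 hf (fun m hm' => dax_bd hL hm' k y) fun m hm' => hm m hm' k y).trans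
          (le_of_eq ?_)
        ring
      · obtain ⟨l, hl⟩ := not_forall.1 h
        rw [er_cut0 (not_le.1 hl), mul_zero]
        refine (dax_mul (A := 0) hL.1 hf (fun m _ => ?_) fun m hm' => hm m hm' k y).trans
          (le_of_eq (by ring))
        rw [dax_zero (hfar (not_le.1 hl)), abs_zero]
  have t3 := sum_maj (gr b) hh (f := f)
    (q := fun i j k => www i j k * (fdR b Vq i j k - Lap V ((gr b).gp i j k)))
    (A := 2197 * (3 * PR b ^ 1500 * (gr b).h ^ 4) * A') (by positivity) hφ' fun i _ j _ k _ => by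
      by_cases h : ∀ l, |(gr b).gp i j k l| ≤ PR b ^ 64 + 1
      · rw [er_cut h, abs_mul, abs_mul, mul_assoc _ A']
        have k1 := hm 0 (by norm_num) 0 ((gr b).gp i j k)
        rw [dax_zero_eq] at k1
        have k2 : |www i j k| ≤ 2197 := by
          rw [abs_of_nonneg (by linarith [(www_bd i j k).1])]; exact (www_bd i j k).2
        exact mul_le_mul (mul_le_mul k2 (fd_err hb hV i j k) (abs_nonneg _) (by norm_num)) k1
          (abs_nonneg _) (by positivity)
      · obtain ⟨l, hl⟩ := not_forall.1 h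
        rw [er_cut0 (not_le.1 hl), fd_zero hb hV (not_le.1 hl),
          (hfar (not_le.1 hl)).self_of_nhds]
        simp
  have t4 := noise3 (gr b) hh hf hA hφ h4 (e := eIn b Vq) (fun m j k => by
      unfold eIn
      split_ifs
      · rw [abs_of_nonneg (ee_mem b Vq m j k).1]; exact (ee_mem b Vq m j k).2
      · norm_num)
    (fun j k => by rw [eIn, ee_zero, ite_self])
    (fun m j k h => if_neg (not_le.2 h))
  have n1 : 0 ≤ (gr b).h ^ 4 * (A * B ^ 3) := by
    have := (abs_nonneg _).trans t1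
    linarith
  have n2 : 0 ≤ (gr b).h ^ 4 * (A' * B' ^ 3) := by
    have h1 := (mul_nonneg (pow_pos hh 3).le (abs_nonneg _)).trans t3
    have h2 : 2197 * (3 * PR b ^ 1500 * (gr b).h ^ 4) * A' * B' ^ 3 =
        6591 * PR b ^ 1500 * ((gr b).h ^ 4 * (A' * B' ^ 3)) := by ring
    rw [h2] at h1
    exact nonneg_of_mul_nonneg_right h1 (by positivity)
  obtain ⟨r1, r2⟩ := r0_le hb
  have p1 := (piQ_ge hb).1
  have q1 : 34 * PR b ^ 3020 ≤ PR b ^ 3021 := PR_mul_le hb (by norm_num) (by norm_num)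
  have q2 : 1601 * PR b ^ 1500 ≤ PR b ^ 1501 := PR_mul_le hb (by norm_num) (by norm_num)
  rw [er_split hb hV hf.continuous]
  generalize ((gr b).h / 12) ^ 3 * (gr b).sum www f - ∫ y in (gr b).box, f y = T1 at *
  generalize ((gr b).h / 12) ^ 3 * (gr b).sum www (fun y => Lap V y * f y) -
    ∫ y in (gr b).box, Lap V y * f y = T2 at *
  generalize (gr b).sum
    (fun i j k => www i j k * (fdR b Vq i j k - Lap V ((gr b).gp i j k))) f = T3 at *
  generalize (gr b).sum (d4 (eIn b Vq)) f = T4 at *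
  generalize (gr b).h = h at *
  generalize PR b ^ 3020 = Q1 at *
  generalize PR b ^ 3021 = Q2 at *
  generalize PR b ^ 1500 = Q3 at *
  generalize PR b ^ 1501 = Q4 at *
  set X := h ^ 4 * (A * B ^ 3) with hX
  set Y := h ^ 4 * (A' * B' ^ 3) with hY
  have u1 : |r0 b * T1| ≤ r0 b * (400 * X) := by
    rw [abs_mul, abs_of_nonneg r1]
    exact mul_le_mul_of_nonneg_left (t1.trans (le_of_eq (by rw [hX]; ring))) r1
  have u2 : |T2 / (4 * piQ b)| ≤ 1600 * (Q3 * Y) := by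
    rw [abs_div, abs_of_pos (by linarith : (0 : ℝ) < 4 * piQ b), div_le_iff₀ (by linarith)]
    have : |T2| ≤ 1600 * (Q3 * Y) * 12 := t2.trans (le_of_eq (by rw [hY]; ring))
    exact this.trans (mul_le_mul_of_nonneg_left (by linarith) (by positivity))
  have u3 : |(h / 12) ^ 3 * T3 / (4 * piQ b)| ≤ Q3 * Y := by
    rw [abs_div, abs_of_pos (by linarith : (0 : ℝ) < 4 * piQ b), div_le_iff₀ (by linarith),
      abs_mul, abs_of_pos (by positivity : 0 < (h / 12) ^ 3)]
    have k1 : h ^ 3 * |T3| ≤ 6591 * (Q3 * Y) := t3.trans (le_of_eq (by rw [hY]; ring))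
    have k2 : 0 ≤ Q3 * Y := by positivity
    have k3 : Q3 * Y * 12 ≤ Q3 * Y * (4 * piQ b) := mul_le_mul_of_nonneg_left (by linarith) k2
    have k4 : (h / 12) ^ 3 * |T3| = h ^ 3 * |T3| / 1728 := by ring
    linarith
  have u4 : |r0 b * (h / 12) ^ 3 * T4| ≤ r0 b * X := by
    rw [mul_assoc, abs_mul, abs_of_nonneg r1, abs_mul, abs_of_pos (by positivity : 0 < (h / 12) ^ 3)]
    refine mul_le_mul_of_nonneg_left ?_ r1
    have k1 : h ^ 3 * |T4| ≤ 700 * X := t4.trans (le_of_eq (by rw [hX]; ring))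
    have k4 : (h / 12) ^ 3 * |T4| = h ^ 3 * |T4| / 1728 := by ring
    linarith
  have v1 : r0 b * X ≤ Q1 / 12 * X := mul_le_mul_of_nonneg_right r2 n1
  have v2 : 34 * Q1 * X ≤ Q2 * X := mul_le_mul_of_nonneg_right q1 n1
  have v3 : 1601 * Q3 * Y ≤ Q4 * Y := mul_le_mul_of_nonneg_right q2 n2
  have v4 : 0 ≤ r0 b * X := mul_nonneg r1 n1
  have v5 : h ^ 4 * (Q2 * (A * B ^ 3) + Q4 * (A' * B' ^ 3)) = Q2 * X + Q4 * Y := by
    rw [hX, hY]; ring
  rw [v5]
  rw [abs_le] at u1 u2 u3 u4 ⊢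
  constructor <;> nlinarith [u1.1, u1.2, u2.1, u2.2, u3.1, u3.2, u4.1, u4.2]

private theorem er_h (b : ℕ) : (gr b).h ≤ 1 := by
  rw [gr_h, div_le_one (pow_pos (PR_pos b) _)]
  exact one_le_pow₀ (PR_one b)

theorem err_gauss (hb : 30 ≤ b) (hV : VOK b Vq V) {t : ℝ} (ht : 0 < t) (hth : t * (gr b).h ≤ 1)
    (x : E3) :
    |ErrP b Vq V fun y => Eg t (x - y)| ≤ (gr b).h ^ 4 * PR b ^ 3023 * (1 + t) := by
  have hh := gr_h_pos b
  have hP := PR_pos b
  have h64 : (1 : ℝ) ≤ PR b ^ 64 := one_le_pow₀ (PR_one b)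
  have key := err_gen hb hV (contDiff_Eg t x) (A := 240 * t ^ 4) (A' := 240 * (1 + t) ^ 4)
    (φ' := fun k u => gs t (x k) u) (by positivity) (by positivity) (maj_gauss _ hh ht hth x)
    (maj_cut _ hh (by linarith [er_h b]) (by linarith) ht.le hth x)
    (fun k y => dax_gauss ht.le x le_rfl k y) fun m hm k y => (dax_gauss ht.le x hm k y).trans
      (mul_le_mul_of_nonneg_right (mul_le_mul_of_nonneg_left
        ((pow_le_pow_left₀ ht.le (by linarith) m).trans (pow_le_pow_right₀ (by linarith) hm))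
        (by norm_num)) (prod_nonneg fun l _ => (Real.exp_pos _).le))
  refine key.trans ?_
  rw [mul_assoc _ (PR b ^ 3023)]
  refine mul_le_mul_of_nonneg_left ?_ (pow_pos hh 4).le
  have e1 : 240 * t ^ 4 * (6 / t) ^ 3 = 51840 * t := by field_simp; norm_num
  have e2 : 240 * (1 + t) ^ 4 * (8 * (PR b ^ 64 + 1) / (1 + t)) ^ 3 =
      122880 * (PR b ^ 64 + 1) ^ 3 * (1 + t) := by field_simp; norm_num
  have q1 : 51840 * PR b ^ 3021 ≤ PR b ^ 3022 := PR_mul_le hb (by norm_num) (by norm_num)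
  have q2 : 983040 * PR b ^ (1501 + 64 * 3) ≤ PR b ^ 3022 :=
    PR_mul_le hb (by norm_num) (by norm_num)
  have q3 : 2 * PR b ^ 3022 ≤ PR b ^ 3023 := PR_mul_le hb (by norm_num) (by norm_num)
  have q4 : (PR b ^ 64 + 1) ^ 3 ≤ (2 * PR b ^ 64) ^ 3 := pow_le_pow_left₀ (by positivity)
    (by linarith) 3
  rw [pow_add, pow_mul] at q2
  rw [e1, e2]
  have q5 : PR b ^ 1501 * (122880 * (PR b ^ 64 + 1) ^ 3) ≤ PR b ^ 3022 :=
    calc _ ≤ PR b ^ 1501 * (122880 * (2 * PR b ^ 64) ^ 3) := by gcongr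
      _ = 983040 * (PR b ^ 1501 * (PR b ^ 64) ^ 3) := by ring
      _ ≤ _ := q2
  have q6 := mul_le_mul_of_nonneg_right q5 (by linarith : 0 ≤ 1 + t)
  have q7 := mul_le_mul q1 (by linarith : t ≤ 1 + t) ht.le (by positivity)
  have q8 := mul_le_mul_of_nonneg_right q3 (by linarith : 0 ≤ 1 + t)
  generalize PR b ^ 3021 = Q1 at *
  generalize PR b ^ 3022 = Q2 at *
  generalize PR b ^ 3023 = Q3 at *
  generalize PR b ^ 1501 = Q4 at *
  generalize (PR b ^ 64 + 1) ^ 3 = Q5 at *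
  linarith

theorem err_G (hb : 30 ≤ b) (hV : VOK b Vq V) {G : E3 → ℝ} (hG : Bd 4 (PR b ^ 18000) G)
    (hs : ∀ x, G x ≠ 0 → x ∈ B0 b) (u : E3) :
    |ErrP b Vq V fun y => G (y + u)| ≤ 1 / PR b ^ 66000 := by
  have hh := gr_h_pos b
  have hP := PR_pos b
  have h64 : (32 : ℝ) ≤ PR b ^ 64 := by
    have := PR_mul_le hb (c := 32) (i := 0) (j := 64) (by norm_num) (by norm_num)
    rwa [pow_zero, mul_one] at this
  have hG' := bd_shift hG u
  have hM := maj_ind (gr b) hh (R := PR b ^ 64) (by linarith [er_h b]) (-u)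
  have hd : ∀ m ≤ 4, ∀ k y, |dax m (fun y => G (y + u)) k y| ≤
      PR b ^ 18000 * ∏ l, (if |y l - (-u) l| ≤ PR b ^ 64 then (1 : ℝ) else 0) := by
    intro m hm k y
    by_cases h : ∀ l, |y l - (-u) l| ≤ PR b ^ 64
    · rw [prod_eq_one fun l _ => if_pos (h l), mul_one]
      exact dax_bd hG' hm k y
    · obtain ⟨l, hl⟩ := not_forall.1 h
      rw [prod_eq_zero (mem_univ l) (if_neg hl), mul_zero, dax_zero (zero_near (c := -u)
        (fun x hx l => ?_) (not_le.1 hl)), abs_zero]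
      obtain ⟨k0, k1, k2⟩ := hs _ hx
      rw [Pi.neg_apply, sub_neg_eq_add]
      fin_cases l
      exacts [k0, k1, k2.trans h64]
  have key := err_gen hb hV hG'.1 (by positivity) (by positivity) hM
    (φ' := fun k v => if |v - (-u) k| ≤ PR b ^ 64 then 1 else 0)
    (hM.mono hh (fun k => Measurable.ite (measurableSet_le (by fun_prop) measurable_const)
      (Measurable.ite (measurableSet_le (by fun_prop) measurable_const) measurable_const
        measurable_const) measurable_const)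
      (fun k v => by split_ifs <;> norm_num) (fun k v => by split_ifs <;> norm_num) le_rfl)
    (hd 4 le_rfl) hd
  refine key.trans ?_
  have q1 : PR b ^ 1501 ≤ PR b ^ 3021 := pow_le_pow_right₀ (PR_one b) (by norm_num)
  have q2 := PR_div_le hb (c := 128) (i := 3021 + 18000 + 64 * 3) (j := 22000 * 4) (k := 0)
    (l := 66000) (by norm_num) (by norm_num)
  rw [pow_zero, pow_add, pow_add, pow_mul, pow_mul] at q2
  refine le_trans ?_ q2
  rw [gr_h]
  calc _ ≤ (1 / PR b ^ 22000) ^ 4 * (PR b ^ 3021 * (PR b ^ 18000 * (4 * PR b ^ 64) ^ 3) +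
        PR b ^ 3021 * (PR b ^ 18000 * (4 * PR b ^ 64) ^ 3)) := by gcongr
    _ = _ := by
      generalize PR b ^ 22000 = Q1
      generalize PR b ^ 3021 = Q2
      generalize PR b ^ 18000 = Q3
      generalize PR b ^ 64 = Q4
      ring

end Vale.Agent.P370.Nuc
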