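import Vale.Agent.P370.NucDefs
import Vale.Agent.P370.ParB

/-! Part E: internal definitions (see `notes/P370_E.md`). -/

namespace Vale.Agent.P370.Nuc

open MeasureTheory Finset

noncomputable section

/-- the Coulomb kernel -/
def kk (u : E3) : ℝ := 1 / √(∑ k, u k ^ 2)

/-- Gaussian -/
def Eg (t : ℝ) (u : E3) : ℝ := Real.exp (-(t ^ 2 * ∑ k, u k ^ 2))

/-- long-range part of the kernel -/
def kL (T : ℝ) (u : E3) : ℝ := 2 / √Real.pi * ∫ t in (0 : ℝ)..T, Eg t u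

/-- short-range part of the kernel -/
def kS (T : ℝ) (u : E3) : ℝ := kk u - kL T u

/-- one-dimensional Gaussian majorant -/
def gs (t x u : ℝ) : ℝ := Real.exp (-(t ^ 2 * (u - x) ^ 2 / 2))

/-- nodes -/
def nd (a h : ℝ) (i : ℕ) : ℝ := a + (i + 1 / 2) * h

/-- smooth periodic lower bound for the distance to the nodes -/
def sg (a h x : ℝ) : ℝ := h / Real.pi * Real.cos (Real.pi * (x - a) / h)

/-- one-dimensional quadrature rule -/
def Q1 (a h : ℝ) (n : ℕ) (f : ℝ → ℝ) : ℝ := h / 12 * ∑ i ∈ range n, (wt i : ℝ) * f (nd a h i)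

/-- derivatives along the axis `k` -/
def dax (m : ℕ) (f : E3 → ℝ) (k : Fin 3) (y : E3) : ℝ :=
  iteratedDeriv m (fun u => f (Function.update y k u)) (y k)

/-- Laplacian -/
def Lap (V : E3 → ℝ) (y : E3) : ℝ := ∑ k, grad (fun x => grad V x k) y k

def www (i j k : ℕ) : ℝ := (wt i : ℝ) * wt j * wt k

/-- fourth difference in the first index -/
def d4 (e : ℕ → ℕ → ℕ → ℝ) (i j k : ℕ) : ℝ :=
  e (i + 1) j k - 4 * e i j k + 6 * e (i - 1) j k - 4 * e (i - 2) j k + e (i - 3) j k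

/-- a grid: corner, spacing, numbers of points -/
structure Grid : Type where
  a : Fin 3 → ℝ
  h : ℝ
  n : Fin 3 → ℕ

namespace Grid

variable (Γ : Grid)

def hi (k : Fin 3) : ℝ := Γ.a k + Γ.n k * Γ.h

def box : Set E3 := Set.Icc Γ.a Γ.hi

def gp (i j k : ℕ) : E3 := ![nd (Γ.a 0) Γ.h i, nd (Γ.a 1) Γ.h j, nd (Γ.a 2) Γ.h k]

def sum (q : ℕ → ℕ → ℕ → ℝ) (f : E3 → ℝ) : ℝ :=
  ∑ i ∈ range (Γ.n 0), ∑ j ∈ range (Γ.n 1), ∑ k ∈ range (Γ.n 2), q i j k * f (Γ.gp i j k)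

/-- point charges `s q` minus the density `ρ`, tested with `f` -/
def err (s : ℝ) (q : ℕ → ℕ → ℕ → ℝ) (ρ f : E3 → ℝ) : ℝ :=
  s * Γ.sum q f - ∫ y in Γ.box, ρ y * f y

/-- lower bound for the distance to the grid -/
def Dn (x : E3) : ℝ := √(∑ k, sg (Γ.a k) Γ.h (x k) ^ 2)

/-- integrals and Riemann sums of the functions `φ k` are at most `B` -/
structure Maj (φ : Fin 3 → ℝ → ℝ) (B : ℝ) : Prop where
  nonneg : ∀ k u, 0 ≤ φ k u
  int : ∀ k, IntervalIntegrable (φ k) volume (Γ.a k) (Γ.hi k)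
  int_le : ∀ k, ∫ u in (Γ.a k)..(Γ.hi k), φ k u ≤ B
  sum_le : ∀ k, Γ.h * ∑ i ∈ range (Γ.n k), φ k (nd (Γ.a k) Γ.h i) ≤ B

end Grid

/-- slab factors -/
def As (a t x : ℝ) : ℝ := ∫ u in (-a)..a, Real.exp (-(t ^ 2 * (x - u) ^ 2))

/-- potential of the slab -/
def Fs (L : ℝ) (x : E3) : ℝ :=
  ∫ y in Set.Icc (![-(4 * L), -(3 * L), -128] : E3) ![4 * L, 3 * L, 128], kk (x - y)

/-- the grid of the nuclei -/
def gr (b : ℕ) : Grid :=
  ⟨![-(4 * PR b ^ 70000), -(3 * PR b ^ 70000), -128], 1 / PR b ^ 22000, ![nx b, ny b, nz b]⟩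

/-- uniform density -/
def r0 (b : ℕ) : ℝ := (omz b : ℝ) ^ 2 / (4 * piQ b)

/-- the wanted density -/
def rhoV (b : ℕ) (V : E3 → ℝ) (y : E3) : ℝ := r0 b + Lap V y / (4 * piQ b)

variable (b : ℕ) (Vq : ℚ × ℚ × ℚ → ℚ) (V : E3 → ℝ)

/-- finite-difference Laplacian at a grid point -/
def fdR (i j k : ℕ) : ℝ := (lapFD (hh b ^ 4) Vq (gpx b i, gpy b j, gpz b k) : ℚ)

/-- rounding errors -/
def ee (i j k : ℕ) : ℝ :=
  ((((List.range i).map fun m : ℕ =>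
    ((i - m : ℕ) * (i - m + 1 : ℕ) * (i - m + 2 : ℕ) : ℚ) / 6 * tq b Vq m j k).sum : ℚ) : ℝ) -
    Fq b Vq i j k

def eIn (m j k : ℕ) : ℝ := if m + 4 ≤ nx b then ee b Vq m j k else 0

def eOut (m j k : ℕ) : ℝ := if m + 4 ≤ nx b then 0 else ee b Vq m j k

/-- charges without the end correction -/
def Zp (i j k : ℕ) : ℝ := www i j k + (tq b Vq i j k : ℚ) - d4 (eIn b Vq) i j k

/-- charges at the ends of the rows -/
def ce (i j k : ℕ) : ℝ := -d4 (eOut b Vq) i j k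

def ErrP (f : E3 → ℝ) : ℝ := (gr b).err (sq b) (Zp b Vq) (rhoV b V) f

def EndP (f : E3 → ℝ) : ℝ := sq b * (gr b).sum (ce b Vq) f

/-- error of the continuous charge distribution -/
def SG (x : E3) : ℝ :=
  -(∫ y in (gr b).box, rhoV b V y * kk (x - y)) + C0q b -
    (omz b : ℝ) ^ 2 * min (x 2 ^ 2) (128 ^ 2) / 2 - V x

end

end Vale.Agent.P370.Nuc
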