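import Vale.Agent.P370.NucKer
import Vale.Agent.P370.NucAx
import Vale.Agent.P370.NucNoise

/-! Part E: the grid of the nuclei, the potential as a grid sum.

Plan.  `PR b ^ c = 2 ^ (c * b)` (`pow_mul'`); never unfold `nx` inside `norm_num` with a concrete `b`.
`gr_hi`: `nx * h = 8 P^70000`.  `Vs_eq`: `List.map_flatMap`, `List.sum_flatMap`-type lemmas (or induction:
`(l.flatMap f).sum = (l.map fun a => (f a).sum).sum`), `Finset.sum_range` is `(List.range n).map .. |>.sum` by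
`Finset.sum_list_map_range`-like `rfl` (`Finset.sum_range f = ((List.range n).map f).sum` holds by `rfl` or `List.sum_range_succ` induction),
`d3_eq`, `Int.toNat_of_nonneg`.  `sq_eq`: `6912 = 4 * 12 ^ 3`. -/

namespace Vale.Agent.P370.Nuc

open MeasureTheory Finset

variable {b : ℕ} {Vq : ℚ × ℚ × ℚ → ℚ} {V : E3 → ℝ}


theorem gr_h_pos (b : ℕ) : 0 < (gr b).h := by
  have := PR_pos b
  unfold gr
  positivity

theorem gr_h (b : ℕ) : (gr b).h = 1 / PR b ^ 22000 := rfl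

theorem hh_cast (b : ℕ) : ((hh b : ℚ) : ℝ) = (gr b).h := by
  rw [hh, Rat.cast_div, Rat.cast_one, Rat.cast_pow, Pq_cast, gr_h]

theorem gr_dvd (hb : 30 ≤ b) (k : Fin 3) : 4 ∣ (gr b).n k := by
  have h1 : 2 ∣ 2 ^ (92000 * b) := dvd_pow_self 2 (by omega)
  fin_cases k
  · exact Dvd.dvd.mul_right (show 4 ∣ 8 by norm_num) _
  · exact mul_dvd_mul (show 2 ∣ 6 by norm_num) h1
  · exact Dvd.dvd.mul_right (show 4 ∣ 256 by norm_num) _

theorem gr_Lb (b : ℕ) : ((Lb b : ℚ) : ℝ) = PR b ^ 70000 := by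
  rw [Lb, Rat.cast_pow, Pq_cast]

theorem gr_gp (b i j k : ℕ) : (gr b).gp i j k = pt (gpx b i, gpy b j, gpz b k) := by
  have e1 : nd ((gr b).a 0) (gr b).h i = (gpx b i : ℚ) := by
    rw [gpx, Rat.cast_add, Rat.cast_mul, Rat.cast_mul, gr_Lb, hh_cast]
    change -(4 * PR b ^ 70000) + _ = _
    push_cast
    rw [neg_mul]
  have e2 : nd ((gr b).a 1) (gr b).h j = (gpy b j : ℚ) := by
    rw [gpy, Rat.cast_add, Rat.cast_mul, Rat.cast_mul, gr_Lb, hh_cast]
    change -(3 * PR b ^ 70000) + _ = _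
    push_cast
    rw [neg_mul]
  have e3 : nd ((gr b).a 2) (gr b).h k = (gpz b k : ℚ) := by
    rw [gpz, Rat.cast_add, Rat.cast_mul, hh_cast]
    change (-128 : ℝ) + _ = _
    push_cast
    rfl
  rw [Grid.gp, e1, e2, e3]
  rfl

theorem gr_pow (b c d : ℕ) :
    ((2 ^ ((d + c) * b) : ℕ) : ℝ) * (1 / PR b ^ c) = PR b ^ d := by
  rw [Nat.cast_pow, Nat.cast_ofNat, parb_pow, pow_add, mul_one_div,
    mul_div_cancel_right₀ _ (pow_pos (PR_pos b) c).ne']

theorem gr_nx (b : ℕ) : (nx b : ℝ) * (gr b).h = 8 * PR b ^ 70000 := by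
  rw [nx, Nat.cast_mul, Nat.cast_ofNat, mul_assoc, gr_h]
  exact congrArg _ (gr_pow b 22000 70000)

theorem gr_hi (b : ℕ) : (gr b).hi = ![4 * PR b ^ 70000, 3 * PR b ^ 70000, 128] := by
  have e1 := gr_nx b
  have e2 : (ny b : ℝ) * (gr b).h = 6 * PR b ^ 70000 := by
    rw [ny, Nat.cast_mul, Nat.cast_ofNat, mul_assoc, gr_h]
    exact congrArg _ (gr_pow b 22000 70000)
  have e3 : (nz b : ℝ) * (gr b).h = 256 := by
    rw [nz, Nat.cast_mul, Nat.cast_ofNat, mul_assoc, gr_h]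
    exact (congrArg _ (gr_pow b 22000 0)).trans (by rw [pow_zero, mul_one])
  funext k
  fin_cases k
  · change -(4 * PR b ^ 70000) + (nx b : ℝ) * (gr b).h = 4 * PR b ^ 70000
    linarith
  · change -(3 * PR b ^ 70000) + (ny b : ℝ) * (gr b).h = 3 * PR b ^ 70000
    linarith
  · change -128 + (nz b : ℝ) * (gr b).h = 128
    linarith

theorem gr_last (b : ℕ) {i : ℕ} (h1 : i < nx b) (h2 : nx b ≤ i + 4) :
    |nd ((gr b).a 0) (gr b).h i - 4 * PR b ^ 70000| ≤ 4 := by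
  have e1 := gr_nx b
  have h3 : (gr b).h ≤ 1 := by
    rw [gr_h]
    exact div_le_one_of_le₀ (one_le_pow₀ (PR_one b)) (pow_pos (PR_pos b) _).le
  have h4 := gr_h_pos b
  have h5 : (i : ℝ) + 1 ≤ nx b := by exact_mod_cast h1
  have h6 : (nx b : ℝ) ≤ i + 4 := by exact_mod_cast h2
  change |-(4 * PR b ^ 70000) + ((i : ℝ) + 1 / 2) * (gr b).h - 4 * PR b ^ 70000| ≤ 4
  generalize PR b ^ 70000 = L at *
  generalize (gr b).h = h at *
  rw [abs_le]
  constructor <;> nlinarith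

theorem sq_eq (b : ℕ) : ((sq b : ℚ) : ℝ) = r0 b * ((gr b).h / 12) ^ 3 := by
  rw [sq, r0, ← hh_cast]
  push_cast
  ring

theorem sq_le (hb : 30 ≤ b) : 0 ≤ ((sq b : ℚ) : ℝ) ∧ ((sq b : ℚ) : ℝ) ≤ 1 / PR b ^ 62980 := by
  obtain ⟨h1, h2⟩ := sq_bd hb
  have h3 : (0 : ℚ) < Pq b := pow_pos two_pos b
  refine ⟨Rat.cast_nonneg.2 ((one_div_pos.2 (pow_pos h3 _)).le.trans h1), ?_⟩
  have h4 := (Rat.cast_le (K := ℝ)).2 h2
  rwa [Rat.cast_div, Rat.cast_one, Rat.cast_pow, Pq_cast] at h4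

theorem piQ_ge (hb : 30 ≤ b) : 3 ≤ ((piQ b : ℚ) : ℝ) ∧ ((piQ b : ℚ) : ℝ) ≤ 4 := by
  obtain ⟨h1, h2⟩ := piQ_mem hb
  have h3 : (3 : ℚ) ≤ piQ b := by linarith
  have h4 : piQ b ≤ 4 := by linarith
  exact ⟨by exact_mod_cast h3, by exact_mod_cast h4⟩

theorem omz_cast (b : ℕ) : ((omz b : ℚ) : ℝ) = PR b ^ 1510 := by
  rw [omz, Rat.cast_pow, Pq_cast]

theorem r0_le (hb : 30 ≤ b) : 0 ≤ r0 b ∧ r0 b ≤ PR b ^ 3020 / 12 := by
  have h1 := (piQ_ge hb).1
  have h2 := pow_pos (PR_pos b) 3020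
  rw [r0, omz_cast, ← pow_mul]
  exact ⟨div_nonneg h2.le (by linarith),
    div_le_div_of_nonneg_left h2.le (by norm_num) (by linarith)⟩

theorem supp_V (hb : 30 ≤ b) (hV : VOK b Vq V) (x : E3) (hx : V x ≠ 0) (l : Fin 3) :
    |x l| ≤ PR b ^ 64 := by
  obtain ⟨h1, h2, h3⟩ := hV.supp x hx
  have h4 := PR_mul_le hb (c := 73) (by norm_num) (i := 0) (j := 64) (by norm_num)
  rw [pow_zero, mul_one] at h4
  fin_cases l
  exacts [h1, h2, h3.trans h4]

theorem rhoV_cont (hV : VOK b Vq V) : Continuous (rhoV b V) :=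
  continuous_const.add ((lap_bd (n := 4) hV.bd).1.continuous.div_const _)

theorem rhoV_le (hb : 30 ≤ b) (hV : VOK b Vq V) (y : E3) : |rhoV b V y| ≤ PR b ^ 3020 := by
  obtain ⟨h1, h2⟩ := r0_le hb
  have h3 := bd_abs (lap_bd (n := 4) hV.bd) y
  have h4 := (piQ_ge hb).1
  have h5 : PR b ^ 1500 ≤ PR b ^ 3020 := pow_le_pow_right₀ (PR_one b) (by norm_num)
  have h6 : |Lap V y / (4 * (piQ b : ℝ))| ≤ |Lap V y| / 12 := by
    rw [abs_div, abs_of_pos (show (0 : ℝ) < 4 * piQ b by linarith)]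
    exact div_le_div_of_nonneg_left (abs_nonneg _) (by norm_num) (by linarith)
  have h7 := pow_pos (PR_pos b) 3020
  refine (abs_add_le _ _).trans ?_
  rw [abs_of_nonneg h1]
  generalize PR b ^ 3020 = A at *
  generalize PR b ^ 1500 = B at *
  linarith

theorem gr_flat {α : Type} (F : α → ℝ) (f : ℕ → List α) (n : ℕ) :
    (((List.range n).flatMap f).map F).sum = ∑ j ∈ range n, ((f j).map F).sum := by
  induction n with
  | zero => simp
  | succ n ih =>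
    rw [List.range_succ, List.flatMap_append, List.map_append, List.sum_append, ih, sum_range_succ,
      List.flatMap_singleton]

theorem gr_map (f : ℕ → ℝ) (n : ℕ) : ((List.range n).map f).sum = ∑ j ∈ range n, f j := by
  induction n with
  | zero => simp
  | succ n ih => rw [List.sum_range_succ, ih, sum_range_succ]

theorem Vs_eq (s : ℝ) (h : ∀ i j k, 0 ≤ Zq b Vq i j k) (x : E3) :
    Vs s (nucQ b Vq) x =
      -(s * (gr b).sum (fun i j k => (Zq b Vq i j k : ℝ)) fun y => kk (x - y)) := by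
  rw [Vs, nucQ, gr_flat, Grid.sum, mul_sum]
  refine congrArg Neg.neg (sum_congr rfl fun i _ => ?_)
  rw [gr_flat, mul_sum]
  refine sum_congr rfl fun j _ => ?_
  rw [List.map_map, gr_map, mul_sum]
  refine sum_congr rfl fun k _ => ?_
  have e : (((Zq b Vq i j k).toNat : ℕ) : ℝ) = (Zq b Vq i j k : ℝ) := by
    rw [← Int.cast_natCast, Int.toNat_of_nonneg (h i j k)]
  rw [gr_gp, ← d3_eq, Function.comp_apply, e, mul_one_div, mul_div_assoc]

end Vale.Agent.P370.Nuc
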