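import Vale.Agent.P370.NucGreen1

/-! Part E: the fundamental solution of the Laplacian.

Plan.  `green_kL`: Fubini twice (`intervalIntegral_integral_swap` / `integral_integral_swap`; the integrands are
continuous on `[0, T] × E3` and vanish outside a compact set), `green_parts`, and
`d/dt (t^3 exp (-t^2 r^2)) = (3 t^2 - 2 t^4 r^2) exp (-t^2 r^2)`.
`approx_id`: `|V y - V x| ≤ A ‖y - x‖ ≤ A r` (`Convex.norm_image_sub_le_of_norm_fderiv_le`, `norm_iteratedFDeriv_one`),
`r exp (-T^2 r^2) ≤ exp (-T^2 r^2 / 2) / T = Eg (T / √2) / T`, `Eg_int`, `integral_sub_left_eq_self`; `(2 π)^(3/2) ≤ 16`.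
`green`: `kk = kL T + kS T`, `|∫ Lap V * kS T| ≤ 3 A * 4 / T^2` (`lap_bd`, `kS_int`); so the difference of the two sides is at most
`C / T` for all `T ≥ 1`, hence zero. -/

namespace Vale.Agent.P370.Nuc

open MeasureTheory Finset

theorem gr_swap {W : E3 → ℝ} (hW : Continuous W) (hc : HasCompactSupport W) {Φ : ℝ → E3 → ℝ}
    (hΦ : Continuous fun p : ℝ × E3 => Φ p.1 p.2) (T : ℝ) :
    ∫ t in (0 : ℝ)..T, ∫ y, W y * Φ t y = ∫ y, W y * ∫ t in (0 : ℝ)..T, Φ t y := by
  simp only [← intervalIntegral.integral_const_mul]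
  refine intervalIntegral_integral_swap ?_
  rw [Measure.restrict_prod_eq_prod_univ]
  have hF : Continuous fun p : ℝ × E3 => W p.2 * Φ p.1 p.2 := (hW.comp continuous_snd).mul hΦ
  have h1 : IntegrableOn (fun p : ℝ × E3 => W p.2 * Φ p.1 p.2) (Set.uIcc 0 T ×ˢ tsupport W)
      (volume.prod volume) :=
    hF.continuousOn.integrableOn_compact (isCompact_uIcc.prod hc.isCompact)
  refine h1.of_forall_sdiff_eq_zero (measurableSet_uIoc.prod MeasurableSet.univ) fun p hp => ?_
  have h2 : p.2 ∉ tsupport W := fun h => hp.2 ⟨Set.uIoc_subset_uIcc hp.1.1, h⟩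
  rw [image_eq_zero_of_notMem_tsupport h2, zero_mul]

theorem gr_prim (r T : ℝ) :
    ∫ t in (0 : ℝ)..T, (4 * t ^ 4 * r - 6 * t ^ 2) * Real.exp (-(t ^ 2 * r)) =
      -(2 * T ^ 3 * Real.exp (-(T ^ 2 * r))) := by
  have h : ∀ t : ℝ, HasDerivAt (fun t : ℝ => -(2 * t ^ 3 * Real.exp (-(t ^ 2 * r))))
      ((4 * t ^ 4 * r - 6 * t ^ 2) * Real.exp (-(t ^ 2 * r))) t := fun t => by
    have h1 := (((hasDerivAt_pow 3 t).const_mul 2).mul
      ((hasDerivAt_pow 2 t).mul_const r).neg.exp).neg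
    refine h1.congr_deriv ?_
    simp only [Pi.neg_apply]
    norm_num
    ring
  rw [intervalIntegral.integral_eq_sub_of_hasDerivAt (fun t _ => h t)
    (Continuous.intervalIntegrable (by fun_prop) _ _)]
  simp

theorem gr_lap_cont {V : E3 → ℝ} (hV : ContDiff ℝ 2 V) : Continuous (Lap V) := by
  refine continuous_finsetSum _ fun k _ => ?_
  have h1 : ContDiff ℝ 1 fun x => grad V x k :=
    (hV.fderiv_right (m := 1) (by norm_num)).clm_apply contDiff_const
  exact (h1.continuous_fderiv one_ne_zero).clm_apply continuous_const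

theorem gr_lap_supp {V : E3 → ℝ} (hc : HasCompactSupport V) : HasCompactSupport (Lap V) := by
  refine hc.mono' fun y hy => ?_
  by_contra h
  exact hy (lap_zero (notMem_tsupport_iff_eventuallyEq.1 h)).self_of_nhds

theorem green_kL {V : E3 → ℝ} (hV : ContDiff ℝ 2 V) (hc : HasCompactSupport V) {T : ℝ} (hT : 0 ≤ T)
    (x : E3) :
    ∫ y, Lap V y * kL T (x - y) = -(4 / √Real.pi * T ^ 3 * ∫ y, V y * Eg T (x - y)) := by
  have hE : Continuous fun p : ℝ × E3 => Eg p.1 (x - p.2) :=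
    continuous_Eg.comp (f := fun p : ℝ × E3 => (p.1, x - p.2)) (by fun_prop)
  have h1 := gr_swap (gr_lap_cont hV) (gr_lap_supp hc) (Φ := fun t y => Eg t (x - y)) hE T
  have h2 := gr_swap hV.continuous hc
    (Φ := fun t y => (4 * t ^ 4 * ∑ k, (x k - y k) ^ 2 - 6 * t ^ 2) * Eg t (x - y))
    (Continuous.mul (by fun_prop) hE) T
  simp only [green_parts hV hc] at h1
  rw [h2] at h1
  have h3 : ∀ y : E3, ∫ t in (0 : ℝ)..T,
      (4 * t ^ 4 * ∑ k, (x k - y k) ^ 2 - 6 * t ^ 2) * Eg t (x - y) =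
      -(2 * T ^ 3 * Eg T (x - y)) := fun y => gr_prim _ T
  simp only [h3] at h1
  have h4 : ∀ y, Lap V y * kL T (x - y) =
      2 / √Real.pi * (Lap V y * ∫ t in (0 : ℝ)..T, Eg t (x - y)) := fun y => by
    rw [kL]
    ring
  have h5 : ∀ y, V y * -(2 * T ^ 3 * Eg T (x - y)) = -(2 * T ^ 3) * (V y * Eg T (x - y)) :=
    fun y => by ring
  simp only [h5] at h1
  simp only [h4]
  rw [integral_const_mul, ← h1, integral_const_mul]
  ring

theorem gr_decay {T : ℝ} (hT : 0 < T) (u : E3) : ‖u‖ * Eg T u ≤ 1 / T * Eg (T / √2) u := by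
  set r := ∑ k, u k ^ 2 with hr
  have h1 : ‖u‖ ^ 2 ≤ r := by
    rw [← Real.le_sqrt (norm_nonneg _) (sum_nonneg fun _ _ => sq_nonneg _)]
    refine (pi_norm_le_iff_of_nonneg (Real.sqrt_nonneg _)).2 fun k => ?_
    exact Real.abs_le_sqrt (single_le_sum (f := fun k => u k ^ 2) (fun _ _ => sq_nonneg _)
      (mem_univ k))
  have h2 : (T / √2) ^ 2 = T ^ 2 / 2 := by rw [div_pow, Real.sq_sqrt (by norm_num)]
  have h3 : T * ‖u‖ ≤ Real.exp (T ^ 2 / 2 * r) := by
    refine le_trans ?_ (Real.add_one_le_exp _)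
    have := mul_le_mul_of_nonneg_left h1 (sq_nonneg T)
    nlinarith [sq_nonneg (T * ‖u‖ - 1)]
  have h4 : Eg (T / √2) u = Real.exp (T ^ 2 / 2 * r) * Eg T u := by
    rw [Eg, Eg, ← Real.exp_add, h2, ← hr]
    congr 1
    ring
  rw [h4, ← mul_assoc]
  refine mul_le_mul_of_nonneg_right ?_ (Eg_pos _ _).le
  rw [one_div, inv_mul_eq_div, le_div_iff₀ hT, mul_comm]
  exact h3

theorem gr_num : (√Real.pi * √2) ^ 3 ≤ 16 := by
  have h1 : (√Real.pi * √2) ^ 2 = Real.pi * 2 := by
    rw [mul_pow, Real.sq_sqrt Real.pi_pos.le, Real.sq_sqrt (by norm_num)]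
  have h2 := Real.pi_lt_d2
  have h3 : √Real.pi * √2 ≤ 2.51 := by
    refine abs_le_of_sq_le_sq' ?_ (by norm_num) |>.2
    rw [h1]
    norm_num at h2 ⊢
    linarith
  refine (pow_le_pow_left₀ (by positivity) h3 3).trans ?_
  norm_num

theorem approx_id {V : E3 → ℝ} {A : ℝ} (hV : Bd 1 A V) {T : ℝ} (hT : 0 < T) (x : E3) :
    |T ^ 3 * (∫ y, V y * Eg T (x - y)) - √Real.pi ^ 3 * V x| ≤ 16 * A / T := by
  have hA : 0 ≤ A := (abs_nonneg _).trans (bd_abs hV x)
  have hT2 : 0 < T / √2 := by positivity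
  obtain ⟨i1, e1⟩ := Eg_int hT
  obtain ⟨i2, e2⟩ := Eg_int hT2
  have hL : ∀ y, |V y - V x| ≤ A * ‖x - y‖ := fun y => by
    rw [norm_sub_rev]
    exact Convex.norm_image_sub_le_of_norm_fderiv_le (𝕜 := ℝ)
      (fun z _ => hV.1.differentiable (by simp) z)
      (fun z _ => by rw [← norm_iteratedFDeriv_one]; exact hV.2 1 le_rfl z) convex_univ
      (Set.mem_univ x) (Set.mem_univ y)
  have j1 : Integrable fun y => V y * Eg T (x - y) :=
    (i1.comp_sub_left x).bdd_mul hV.1.continuous.aestronglyMeasurable (.of_forall (bd_abs hV))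
  have j2 : Integrable fun y => V x * Eg T (x - y) := (i1.comp_sub_left x).const_mul _
  have e3 : T ^ 3 * (∫ y, V y * Eg T (x - y)) - √Real.pi ^ 3 * V x =
      T ^ 3 * ∫ y, (V y * Eg T (x - y) - V x * Eg T (x - y)) := by
    rw [integral_sub j1 j2, integral_const_mul, integral_sub_left_eq_self (Eg T) volume x, e1]
    field_simp
  have e4 : ‖∫ y, (V y * Eg T (x - y) - V x * Eg T (x - y))‖ ≤
      ∫ y, A * (1 / T) * Eg (T / √2) (x - y) := by
    refine norm_integral_le_of_norm_le ((i2.comp_sub_left x).const_mul _) (.of_forall fun y => ?_)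
    rw [← sub_mul, Real.norm_eq_abs, abs_mul, abs_of_pos (Eg_pos _ _), mul_assoc]
    refine (mul_le_mul_of_nonneg_right (hL y) (Eg_pos _ _).le).trans ?_
    rw [mul_assoc]
    exact mul_le_mul_of_nonneg_left (gr_decay hT _) hA
  rw [integral_const_mul, integral_sub_left_eq_self (Eg (T / √2)) volume x, e2] at e4
  rw [e3, abs_mul, abs_of_pos (pow_pos hT 3)]
  refine (mul_le_mul_of_nonneg_left e4 (pow_pos hT 3).le).trans ?_
  have e5 : T ^ 3 * (A * (1 / T) * (√Real.pi / (T / √2)) ^ 3) =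
      (√Real.pi * √2) ^ 3 * (A / T) := by
    field_simp
  rw [e5, mul_div_assoc]
  exact mul_le_mul_of_nonneg_right gr_num (by positivity)

theorem green {V : E3 → ℝ} {A R : ℝ} (hV : Bd 2 A V) (hs : ∀ x, V x ≠ 0 → ∀ l, |x l| ≤ R) (x : E3) :
    Integrable (fun y => Lap V y * kk (x - y)) ∧
      ∫ y, Lap V y * kk (x - y) = -(4 * Real.pi * V x) := by
  have hc := compact_of_supp hs
  have hA : 0 ≤ A := (abs_nonneg _).trans (bd_abs hV x)
  have hV2 : ContDiff ℝ 2 V := hV.1
  have hL := gr_lap_cont hV2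
  have hLc := gr_lap_supp hc
  have hLb : ∀ y, |Lap V y| ≤ 3 * A := bd_abs (lap_bd (n := 0) hV)
  have hV1 : Bd 1 A V := ⟨hV2.of_le (by norm_num), fun m hm => hV.2 m (by omega)⟩
  have iL : ∀ T, Integrable fun y => Lap V y * kL T (x - y) := fun T =>
    (hL.mul ((continuous_kL T).comp (by fun_prop))).integrable_of_hasCompactSupport hLc.mul_right
  have iS : ∀ T, 0 < T → Integrable fun y => Lap V y * kS T (x - y) := fun T hT =>
    ((kS_int hT).1.comp_sub_left x).bdd_mul hL.aestronglyMeasurable (.of_forall hLb)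
  have hsp : ∀ T y, Lap V y * kk (x - y) = Lap V y * kL T (x - y) + Lap V y * kS T (x - y) :=
    fun T y => by rw [kk_eq_add T, mul_add]
  refine ⟨((iL 1).add (iS 1 one_pos)).congr (.of_forall fun y => (hsp 1 y).symm), ?_⟩
  have hpi : 1 ≤ √Real.pi := Real.one_le_sqrt.2 (by linarith [Real.pi_gt_three])
  have key : ∀ T : ℝ, 1 ≤ T → |(∫ y, Lap V y * kk (x - y)) + 4 * Real.pi * V x| ≤ 76 * A / T := by
    intro T hT
    have hT0 : 0 < T := by linarith
    simp only [hsp T]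
    rw [integral_add (iL T) (iS T hT0), green_kL hV2 hc hT0.le]
    have a1 := approx_id hV1 hT0 x
    have a2 : |∫ y, Lap V y * kS T (x - y)| ≤ 12 * A / T := by
      rw [← Real.norm_eq_abs]
      refine (norm_integral_le_of_norm_le (((kS_int hT0).1.comp_sub_left x).abs.const_mul (3 * A))
        (.of_forall fun y => ?_)).trans ?_
      · rw [Real.norm_eq_abs, abs_mul]
        exact mul_le_mul_of_nonneg_right (hLb y) (abs_nonneg _)
      · rw [integral_const_mul, integral_sub_left_eq_self (fun u => |kS T u|) volume x]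
        refine (mul_le_mul_of_nonneg_left (kS_int hT0).2 (by positivity)).trans ?_
        rw [← mul_div_assoc, div_le_div_iff₀ (by positivity) hT0]
        nlinarith [mul_nonneg (mul_nonneg hA hT0.le) (sub_nonneg.2 hT)]
    have e : ∀ I J : ℝ, -(4 / √Real.pi * T ^ 3 * I) + J + 4 * Real.pi * V x =
        J - 4 / √Real.pi * (T ^ 3 * I - √Real.pi ^ 3 * V x) := fun I J => by
      have h1 : √Real.pi ^ 2 = Real.pi := Real.sq_sqrt Real.pi_pos.le
      have h2 : 4 / √Real.pi * √Real.pi ^ 3 = 4 * √Real.pi ^ 2 := by field_simp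
      rw [h1] at h2
      linear_combination (-V x) * h2
    rw [e]
    refine (abs_sub _ _).trans ?_
    rw [abs_mul, abs_of_nonneg (by positivity : 0 ≤ 4 / √Real.pi)]
    have a3 := mul_le_mul (div_le_self (by norm_num : (0 : ℝ) ≤ 4) hpi) a1 (abs_nonneg _)
      (by norm_num)
    refine (add_le_add a2 a3).trans (le_of_eq ?_)
    ring
  rw [← add_eq_zero_iff_eq_neg, ← abs_nonpos_iff]
  have hlim : Filter.Tendsto (fun T : ℝ => 76 * A / T) Filter.atTop (nhds 0) :=
    Filter.tendsto_id.const_div_atTop _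
  exact ge_of_tendsto hlim ((Filter.eventually_ge_atTop 1).mono key)

end Vale.Agent.P370.Nuc
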