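import Vale.Agent.P370.NucG

/-! Part E: the kernel as a superposition of Gaussians.

Plan.  `integral_gaussian_Ioi`, `integrableOn_Ioi_exp_neg_mul_sq_iff` / `integrable_exp_neg_mul_sq` with
`b = ∑ k, u k ^ 2 > 0`; `intervalIntegral.integral_interval_add_Ioi` or `setIntegral_union` to split `Ioi 0` at `T`.
`continuous_kL`: `intervalIntegral.continuous_parametric_intervalIntegral_of_continuous'`.
`Eg_int`: `Eg_prod`, `Integrable.fintype_prod`, `integral_fintype_prod_volume_eq_prod`, `integral_gaussian`.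
`kS_int`: a.e. `u ≠ 0`; the function `(u, t) ↦ Eg t u` is integrable on `E3 × Ioi T` (`integrable_prod_iff'`, the inner
integral is `(√π / t) ^ 3`, `integrableOn_Ioi_rpow_of_lt`, `integral_Ioi_rpow_of_lt`); the integral is `π / T ^ 2`.
`kk_intOn`: `kk = kL 1 + kS 1`, `kL 1` is bounded and continuous, `Integrable.comp_sub_left`. -/

namespace Vale.Agent.P370.Nuc

open MeasureTheory Finset

theorem d3_eq (x y : E3) : 1 / d3 x y = kk (x - y) := by
  simp [d3, kk]

theorem kk_nonneg (u : E3) : 0 ≤ kk u := by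
  unfold kk
  positivity

theorem kk_eq_add (T : ℝ) (u : E3) : kk u = kL T u + kS T u := by
  simp [kS]

theorem Eg_pos (t : ℝ) (u : E3) : 0 < Eg t u := Real.exp_pos _

theorem Eg_le_one (t : ℝ) (u : E3) : Eg t u ≤ 1 := by
  exact Real.exp_le_one_iff.2 (neg_nonpos.2 (by positivity))

theorem Eg_prod (t : ℝ) (u : E3) : Eg t u = ∏ k, Real.exp (-(t ^ 2 * u k ^ 2)) := by
  rw [Eg, ← Real.exp_sum, mul_sum, ← sum_neg_distrib]

theorem continuous_Eg : Continuous fun p : ℝ × E3 => Eg p.1 p.2 := by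
  unfold Eg
  fun_prop

theorem measurable_kk : Measurable kk := by
  unfold kk
  fun_prop

theorem continuous_kL (T : ℝ) : Continuous (kL T) := by
  refine continuous_const.mul ?_
  exact intervalIntegral.continuous_parametric_intervalIntegral_of_continuous'
    (f := fun (u : E3) (t : ℝ) => Eg t u) (continuous_Eg.comp continuous_swap) 0 T

theorem measurable_kS (T : ℝ) : Measurable (kS T) :=
  measurable_kk.sub (continuous_kL T).measurable

theorem kk_le {u : E3} {r : ℝ} (hr : 0 < r) {k : Fin 3} (h : r ≤ |u k|) : kk u ≤ 1 / r := by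
  refine one_div_le_one_div_of_le hr (h.trans (Real.abs_le_sqrt ?_))
  exact single_le_sum (f := fun k => u k ^ 2) (fun _ _ => sq_nonneg _) (mem_univ k)

theorem kk_rep {u : E3} (hu : u ≠ 0) : IntegrableOn (fun t => Eg t u) (Set.Ioi 0) ∧
    kk u = 2 / √Real.pi * ∫ t in Set.Ioi (0 : ℝ), Eg t u := by
  have hb : 0 < ∑ k, u k ^ 2 := by
    obtain ⟨k, hk⟩ := Function.ne_iff.1 hu
    exact sum_pos' (fun _ _ => sq_nonneg _) ⟨k, mem_univ k, sq_pos_iff.2 hk⟩
  have e : (fun t => Eg t u) = fun t => Real.exp (-(∑ k, u k ^ 2) * t ^ 2) := by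
    funext t
    rw [Eg]
    congr 1
    ring
  rw [e, integral_gaussian_Ioi, kk, Real.sqrt_div Real.pi_pos.le]
  refine ⟨(integrable_exp_neg_mul_sq hb).integrableOn, ?_⟩
  have h1 := Real.sqrt_pos.2 hb
  have h2 := Real.sqrt_pos.2 Real.pi_pos
  field_simp

theorem kS_rep {u : E3} (hu : u ≠ 0) {T : ℝ} (hT : 0 ≤ T) :
    kS T u = 2 / √Real.pi * ∫ t in Set.Ioi T, Eg t u := by
  obtain ⟨h1, h2⟩ := kk_rep hu
  rw [kS, h2, kL, ← intervalIntegral.integral_interval_add_Ioi h1
    (h1.mono_set (Set.Ioi_subset_Ioi hT))]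
  ring

theorem kL_bd {T : ℝ} (hT : 0 ≤ T) (u : E3) : 0 ≤ kL T u ∧ kL T u ≤ 2 * T := by
  have h1 : (1 : ℝ) ≤ √Real.pi := Real.one_le_sqrt.2 (by linarith [Real.pi_gt_three])
  have h0 : 0 ≤ ∫ t in (0 : ℝ)..T, Eg t u :=
    intervalIntegral.integral_nonneg hT fun t _ => (Eg_pos t u).le
  have h2 : ∫ t in (0 : ℝ)..T, Eg t u ≤ ∫ _t in (0 : ℝ)..T, (1 : ℝ) :=
    intervalIntegral.integral_mono_on hT
      ((continuous_Eg.comp (Continuous.prodMk_left u)).intervalIntegrable _ _)
      intervalIntegrable_const fun t _ => Eg_le_one t u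
  rw [intervalIntegral.integral_const, sub_zero, smul_eq_mul, mul_one] at h2
  refine ⟨by unfold kL; positivity, ?_⟩
  exact mul_le_mul (div_le_self zero_le_two h1) h2 h0 zero_le_two

theorem Eg_int {t : ℝ} (ht : 0 < t) : Integrable (Eg t) ∧ ∫ u, Eg t u = (√Real.pi / t) ^ 3 := by
  have e : Eg t = fun u => ∏ k, Real.exp (-(t ^ 2) * u k ^ 2) := by
    funext u
    simp only [Eg_prod, neg_mul]
  rw [e]
  refine ⟨Integrable.fintype_prod (f := fun _ x => Real.exp (-(t ^ 2) * x ^ 2))
    fun _ => integrable_exp_neg_mul_sq (by positivity), ?_⟩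
  rw [integral_fintype_prod_volume_eq_prod (fun _ x => Real.exp (-(t ^ 2) * x ^ 2))]
  simp only [integral_gaussian, prod_const, card_univ, Fintype.card_fin]
  rw [Real.sqrt_div Real.pi_pos.le, Real.sqrt_sq ht.le]

theorem kS_int {T : ℝ} (hT : 0 < T) : Integrable (kS T) ∧ ∫ u, |kS T u| ≤ 4 / T ^ 2 := by
  have hπ := Real.sqrt_pos.2 Real.pi_pos
  have hae : ∀ᵐ u : E3, kS T u = 2 / √Real.pi * ∫ t in Set.Ioi T, Eg t u := by
    filter_upwards [compl_mem_ae_iff.2 (measure_singleton (0 : E3))] with u hu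
    exact kS_rep hu hT.le
  have hin : ∀ᵐ t ∂(volume.restrict (Set.Ioi T)),
      ∫ u, Eg t u = √Real.pi ^ 3 * t ^ (-3 : ℝ) := by
    filter_upwards [ae_restrict_mem measurableSet_Ioi] with t ht
    have ht0 : 0 < t := hT.trans ht
    rw [(Eg_int ht0).2, Real.rpow_neg ht0.le, div_pow, div_eq_mul_inv]
    norm_num
  have hF : Integrable (fun p : E3 × ℝ => Eg p.2 p.1)
      (volume.prod (volume.restrict (Set.Ioi T))) := by
    refine (integrable_prod_iff' (continuous_Eg.comp continuous_swap).aestronglyMeasurable).2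
      ⟨?_, ?_⟩
    · filter_upwards [ae_restrict_mem measurableSet_Ioi] with t ht
      exact (Eg_int (hT.trans ht)).1
    · refine ((integrableOn_Ioi_rpow_of_lt (a := -3) (by norm_num) hT).const_mul
        (√Real.pi ^ 3)).congr ?_
      filter_upwards [hin] with t ht
      rw [← ht]
      exact integral_congr_ae (Filter.Eventually.of_forall fun u =>
        (Real.norm_of_nonneg (Eg_pos t u).le).symm)
  refine ⟨(hF.integral_prod_left.const_mul (2 / √Real.pi)).congr (hae.mono fun u hu => hu.symm), ?_⟩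
  have e : ∫ u, |kS T u| = ∫ u : E3, 2 / √Real.pi * ∫ t in Set.Ioi T, Eg t u := by
    refine integral_congr_ae (hae.mono fun u hu => ?_)
    have h0 : 0 ≤ ∫ t in Set.Ioi T, Eg t u := integral_nonneg fun t => (Eg_pos t u).le
    simp only [hu]
    exact abs_of_nonneg (by positivity)
  rw [e, integral_const_mul, integral_integral_swap (f := fun u t => Eg t u) hF,
    integral_congr_ae hin, integral_const_mul, integral_Ioi_rpow_of_lt (by norm_num) hT]
  have e2 : T ^ (-3 + 1 : ℝ) = (T ^ 2)⁻¹ := by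
    rw [show (-3 + 1 : ℝ) = -((2 : ℕ) : ℝ) by norm_num, Real.rpow_neg hT.le, Real.rpow_natCast]
  have e3 : 2 / √Real.pi * (√Real.pi ^ 3 * (-(T ^ 2)⁻¹ / (-3 + 1))) = √Real.pi ^ 2 / T ^ 2 := by
    field_simp
    ring
  rw [e2, e3, Real.sq_sqrt Real.pi_pos.le]
  gcongr
  exact Real.pi_le_four

theorem kk_intOn (x : E3) {s : Set E3} (hs : volume s ≠ ⊤) :
    IntegrableOn (fun y => kk (x - y)) s := by
  simp only [kk_eq_add 1]
  refine Integrable.add ?_ ((kS_int one_pos).1.comp_sub_left x).integrableOn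
  refine Measure.integrableOn_of_bounded (M := 2 * 1) hs
    ((continuous_kL 1).comp (by fun_prop)).aestronglyMeasurable
    (Filter.Eventually.of_forall fun y => ?_)
  rw [Real.norm_of_nonneg (kL_bd zero_le_one _).1]
  exact (kL_bd zero_le_one _).2

end Vale.Agent.P370.Nuc
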