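import Vale.Agent.P370.NucAx
import Vale.Agent.P370.NucKer

/-! Part E: Green's second identity against a Gaussian.

Plan.  For each `k` integrate by parts twice in the direction `Pi.single k 1`
(`integral_mul_fderiv_eq_neg_fderiv_mul_of_integrable`, or
`integral_bilinear_hasLineDerivAt_right_eq_neg_left_of_integrable`).  With `E y = Eg t (x - y)`:
`∂_k E = 2 t^2 (x k - y k) E`, `∂_k ∂_k E = (4 t^4 (x k - y k)^2 - 2 t^2) E`.  All integrands are continuous with
compact support (`HasCompactSupport.fderiv_apply`, `HasCompactSupport.mul_right`,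
`Continuous.integrable_of_hasCompactSupport`). -/

namespace Vale.Agent.P370.Nuc

open MeasureTheory Finset

private theorem ng1_grad {n : ℕ} {g : E3 → ℝ} (hg : ContDiff ℝ (n + 1 : ℕ) g) (k : Fin 3) :
    ContDiff ℝ n fun y => grad g y k :=
  (hg.fderiv_right (m := n) (by norm_cast)).clm_apply contDiff_const

private theorem ng1_ibp {f g : E3 → ℝ} (hf : ContDiff ℝ 1 f) (hg : ContDiff ℝ 1 g)
    (hc : HasCompactSupport g) (k : Fin 3) :
    ∫ y, f y * grad g y k = -∫ y, grad f y k * g y := by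
  have hf' : Continuous fun y => grad f y k := (ng1_grad (n := 0) hf k).continuous
  have hg' : Continuous fun y => grad g y k := (ng1_grad (n := 0) hg k).continuous
  refine integral_mul_fderiv_eq_neg_fderiv_mul_of_integrable ?_ ?_ ?_
    (fun y _ => hf.differentiable one_ne_zero y) (fun y _ => hg.differentiable one_ne_zero y)
  · exact (hf'.mul hg.continuous).integrable_of_hasCompactSupport hc.mul_left
  · exact (hf.continuous.mul hg').integrable_of_hasCompactSupport
      (hc.fderiv_apply ℝ (Pi.single k 1)).mul_left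
  · exact (hf.continuous.mul hg.continuous).integrable_of_hasCompactSupport hc.mul_left

private theorem ng1_smooth (t : ℝ) (x : E3) : ContDiff ℝ 1 fun y => Eg t (x - y) := by
  unfold Eg
  fun_prop

private theorem ng1_fd (t : ℝ) (x y : E3) : ∃ L : E3 →L[ℝ] ℝ,
    HasFDerivAt (fun y => Eg t (x - y)) L y ∧
      ∀ k, L (Pi.single k 1) = 2 * t ^ 2 * (x k - y k) * Eg t (x - y) := by
  refine ⟨_, (((HasFDerivAt.fun_sum (u := univ) fun j _ =>
    ((hasFDerivAt_apply (𝕜 := ℝ) j y).const_sub (x j)).pow 2).const_mul (t ^ 2)).fun_neg).exp,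
    fun k => ?_⟩
  simp [Eg, Pi.single_apply]
  ring

private theorem ng1_d1 (t : ℝ) (x y : E3) (k : Fin 3) :
    grad (fun y => Eg t (x - y)) y k = 2 * t ^ 2 * (x k - y k) * Eg t (x - y) := by
  obtain ⟨L, h1, h2⟩ := ng1_fd t x y
  rw [grad, h1.fderiv, h2]

private theorem ng1_d2 (t : ℝ) (x y : E3) (k : Fin 3) :
    grad (fun y => 2 * t ^ 2 * (x k - y k) * Eg t (x - y)) y k =
      (4 * t ^ 4 * (x k - y k) ^ 2 - 2 * t ^ 2) * Eg t (x - y) := by
  obtain ⟨L, h1, h2⟩ := ng1_fd t x y
  have h3 := (((hasFDerivAt_apply (𝕜 := ℝ) k y).const_sub (x k)).const_mul (2 * t ^ 2)).fun_mul h1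
  rw [grad, h3.fderiv]
  simp [h2]
  ring

theorem green_parts {V : E3 → ℝ} (hV : ContDiff ℝ 2 V) (hc : HasCompactSupport V) (t : ℝ) (x : E3) :
    ∫ y, Lap V y * Eg t (x - y) =
      ∫ y, V y * ((4 * t ^ 4 * ∑ k, (x k - y k) ^ 2 - 6 * t ^ 2) * Eg t (x - y)) := by
  have hE := ng1_smooth t x
  have h1 : ∀ k, ContDiff ℝ 1 fun y => grad V y k := fun k => ng1_grad (n := 1) hV k
  have hc1 : ∀ k, HasCompactSupport fun y => grad V y k := fun k =>
    hc.fderiv_apply ℝ (Pi.single k 1)
  have key : ∀ k, ∫ y, Eg t (x - y) * grad (fun y => grad V y k) y k =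
      ∫ y, (4 * t ^ 4 * (x k - y k) ^ 2 - 2 * t ^ 2) * Eg t (x - y) * V y := fun k => by
    rw [ng1_ibp hE (h1 k) (hc1 k) k]
    simp only [ng1_d1]
    rw [ng1_ibp (f := fun y => 2 * t ^ 2 * (x k - y k) * Eg t (x - y)) (by fun_prop)
      (hV.of_le one_le_two) hc k, neg_neg]
    simp only [ng1_d2]
  have i1 : ∀ k, Integrable fun y => Eg t (x - y) * grad (fun y => grad V y k) y k := fun k =>
    (hE.continuous.mul (ng1_grad (n := 0) (h1 k) k).continuous).integrable_of_hasCompactSupport
      ((hc1 k).fderiv_apply ℝ (Pi.single k 1)).mul_left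
  have i2 : ∀ k, Integrable fun y =>
      (4 * t ^ 4 * (x k - y k) ^ 2 - 2 * t ^ 2) * Eg t (x - y) * V y := fun k => by
    refine Continuous.integrable_of_hasCompactSupport ?_ hc.mul_left
    have := hE.continuous
    have := hV.continuous
    fun_prop
  calc _ = ∫ y, ∑ k, Eg t (x - y) * grad (fun y => grad V y k) y k := by
        simp only [Lap, ← mul_sum, mul_comm]
    _ = ∑ k, ∫ y, (4 * t ^ 4 * (x k - y k) ^ 2 - 2 * t ^ 2) * Eg t (x - y) * V y := by
        rw [integral_finsetSum _ fun k _ => i1 k]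
        simp only [key]
    _ = _ := by
        rw [← integral_finsetSum _ fun k _ => i2 k]
        congr 1
        funext y
        simp only [Fin.sum_univ_three]
        ring

end Vale.Agent.P370.Nuc
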