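import Vale.Agent.P370.NucD

/-! Part E: the point nuclei produce the wanted potential (see `notes/P370.md`). -/

namespace Vale.Agent.P370

open MeasureTheory

variable {b : ℕ} {Vq : ℚ × ℚ × ℚ → ℚ} {V : E3 → ℝ}

theorem Zq_bd (hb : 30 ≤ b) (hV : VOK b Vq V) (i j k : ℕ) :
    1 ≤ Zq b Vq i j k ∧ Zq b Vq i j k ≤ 3000 :=
  Nuc.Zq_mem hb hV i j k

theorem nuc_D1 (hb : 30 ≤ b) (hV : VOK b Vq V) (ψ : E3 → ℝ) (hψ : Test1 ψ) :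
    -(1 / PR b ^ 5000 * (kin ψ + n2 ψ)) ≤ ∫ x, dV b Vq V x * ψ x ^ 2 :=
  Nuc.D1 hb hV ψ hψ

theorem nuc_D2 (hb : 30 ≤ b) (hV : VOK b Vq V) :
    IntegrableOn (fun x => dV b Vq V x ^ 2) (B0 b) ∧
      ∫ x in B0 b, dV b Vq V x ^ 2 ≤ 1 / PR b ^ 70000 :=
  Nuc.D2 hb hV

theorem nuc_D3 (hb : 30 ≤ b) (hV : VOK b Vq V) (G : E3 → ℝ) (hG : Bd 4 (PR b ^ 18000) G)
    (hs : ∀ x, G x ≠ 0 → x ∈ B0 b) (h1 : ∫ x, |G x| ≤ 4) :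
    |∫ x, dV b Vq V x * G x| ≤ 1 / PR b ^ 63050 :=
  Nuc.D3 hb hV G hG hs h1

end Vale.Agent.P370
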