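import Vale.Agent.P370.NucSlab1
import Vale.Agent.P370.NucKer

/-! Part E: the potential of an infinite slab; the potential of a box as an integral over Gaussians.

Plan.  `plane_pot`: for `w ≠ 0` the antiderivative is `-(1 - exp (-t^2 w^2)) / t + 2 w^2 ∫_0^t exp (-s^2 w^2) ds`
(`integral_Ioi_of_hasDerivAt_of_nonneg`, `integrableOn_Ioi_deriv_of_nonneg`; limit `2 w^2 √(π / w^2) / 2 = √π |w|`;
continuity at `0` from `0 ≤ 1 - exp (-y) ≤ y`).  `slab_T2`: `2 c - As c t z = ∫ u in -c..c, (1 - exp (-t^2 (z - u)^2))`,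
Fubini (`integrable_prod_iff`), `∫ u in -c..c, |z - u| = c^2 + z^2`.
`box_rep`: a.e. `y ≠ x`, `kk_rep`, Fubini on `Icc (-a) a × Ioi 0` (`integrable_prod_iff`, `kk_intOn`), and
`∫ y in Icc (-a) a, Eg t (x - y) = ∏ k, As (a k) t (x k)` (`Eg_prod`, `Set.pi_univ_Icc`, `Measure.restrict_pi_pi`,
`integral_fintype_prod_eq_prod`). -/

namespace Vale.Agent.P370.Nuc

open MeasureTheory Finset

theorem slab3_bd {y : ℝ} (hy : 0 ≤ y) : 0 ≤ 1 - Real.exp (-y) ∧ 1 - Real.exp (-y) ≤ y :=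
  ⟨sub_nonneg.2 (Real.exp_le_one_iff.2 (neg_nonpos.2 hy)), by linarith [Real.add_one_le_exp (-y)]⟩

open Filter Topology in
theorem plane_pot (w : ℝ) :
    IntegrableOn (fun t => (1 - Real.exp (-(t ^ 2 * w ^ 2))) / t ^ 2) (Set.Ioi 0) ∧
      ∫ t in Set.Ioi (0 : ℝ), (1 - Real.exp (-(t ^ 2 * w ^ 2))) / t ^ 2 = √Real.pi * |w| := by
  by_cases hw : w = 0
  · subst hw
    simp
  have hw2 : 0 < w ^ 2 := by positivity
  have hc : Continuous fun s : ℝ => Real.exp (-w ^ 2 * s ^ 2) := by fun_prop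
  have hbd : ∀ t : ℝ, 0 ≤ 1 - Real.exp (-(t ^ 2 * w ^ 2)) ∧
      1 - Real.exp (-(t ^ 2 * w ^ 2)) ≤ t ^ 2 * w ^ 2 := fun t => slab3_bd (by positivity)
  have hI : ∀ t, HasDerivAt (fun t => ∫ s in (0 : ℝ)..t, Real.exp (-w ^ 2 * s ^ 2))
      (Real.exp (-w ^ 2 * t ^ 2)) t := fun t => (hc.integral_hasStrictDerivAt 0 t).hasDerivAt
  have hd : ∀ t ∈ Set.Ioi (0 : ℝ), HasDerivAt
      (fun t => 2 * w ^ 2 * (∫ s in (0 : ℝ)..t, Real.exp (-w ^ 2 * s ^ 2)) -
        (1 - Real.exp (-(t ^ 2 * w ^ 2))) / t)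
      ((1 - Real.exp (-(t ^ 2 * w ^ 2))) / t ^ 2) t := fun t ht => by
    have ht0 : t ≠ 0 := ne_of_gt ht
    have h1 : HasDerivAt (fun t : ℝ => -(t ^ 2 * w ^ 2)) (-(2 * t * w ^ 2)) t := by
      simpa using ((hasDerivAt_pow 2 t).mul_const (w ^ 2)).fun_neg
    have h2 := ((hI t).const_mul (2 * w ^ 2)).fun_sub
      ((h1.exp.const_sub 1).fun_div (hasDerivAt_id' t) ht0)
    refine h2.congr_deriv ?_
    rw [show -w ^ 2 * t ^ 2 = -(t ^ 2 * w ^ 2) by ring]
    field_simp
    ring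
  have h0 : ContinuousWithinAt
      (fun t => 2 * w ^ 2 * (∫ s in (0 : ℝ)..t, Real.exp (-w ^ 2 * s ^ 2)) -
        (1 - Real.exp (-(t ^ 2 * w ^ 2))) / t) (Set.Ici 0) 0 := by
    refine ((hI 0).continuousAt.continuousWithinAt.const_mul _).sub ?_
    have h1 : Tendsto (fun t : ℝ => t * w ^ 2) (𝓝[Set.Ici 0] 0) (𝓝 0) := by
      have : Continuous fun t : ℝ => t * w ^ 2 := by fun_prop
      simpa using (this.tendsto 0).mono_left nhdsWithin_le_nhds
    rw [ContinuousWithinAt, div_zero]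
    refine squeeze_zero' ?_ ?_ h1
    · filter_upwards [self_mem_nhdsWithin] with t ht using div_nonneg (hbd t).1 ht
    · filter_upwards [self_mem_nhdsWithin] with t ht
      refine div_le_of_le_mul₀ ht (mul_nonneg ht hw2.le) ?_
      linarith [(hbd t).2]
  have hp : ∀ t ∈ Set.Ioi (0 : ℝ), 0 ≤ (1 - Real.exp (-(t ^ 2 * w ^ 2))) / t ^ 2 :=
    fun t _ => div_nonneg (hbd t).1 (sq_nonneg t)
  have hl : Tendsto (fun t => 2 * w ^ 2 * (∫ s in (0 : ℝ)..t, Real.exp (-w ^ 2 * s ^ 2)) -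
      (1 - Real.exp (-(t ^ 2 * w ^ 2))) / t) atTop (𝓝 (2 * w ^ 2 * (√(Real.pi / w ^ 2) / 2) - 0)) := by
    refine Tendsto.sub (Tendsto.const_mul _ ?_) ?_
    · rw [← integral_gaussian_Ioi]
      exact intervalIntegral_tendsto_integral_Ioi 0
        (integrable_exp_neg_mul_sq hw2).integrableOn tendsto_id
    · refine squeeze_zero' ?_ ?_ tendsto_inv_atTop_zero
      · filter_upwards [eventually_ge_atTop 0] with t ht using div_nonneg (hbd t).1 ht
      · filter_upwards [eventually_ge_atTop 0] with t ht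
        rw [← one_div]
        exact div_le_div_of_nonneg_right (by linarith [Real.exp_pos (-(t ^ 2 * w ^ 2))]) ht
  refine ⟨integrableOn_Ioi_deriv_of_nonneg h0 hd hp hl, ?_⟩
  rw [integral_Ioi_of_hasDerivAt_of_nonneg h0 hd hp hl, Real.sqrt_div Real.pi_pos.le,
    Real.sqrt_sq_eq_abs, intervalIntegral.integral_same, ← sq_abs w]
  have : |w| ≠ 0 := abs_ne_zero.2 hw
  field_simp
  simp

theorem slab3_abs {c z : ℝ} (h : |z| ≤ c) : ∫ u in (-c)..c, |z - u| = c ^ 2 + z ^ 2 := by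
  obtain ⟨h1, h2⟩ := abs_le.1 h
  have hc : Continuous fun u => |z - u| := by fun_prop
  have e1 : ∫ u in (-c)..z, |z - u| = ∫ u in (-c)..z, (z - u) :=
    intervalIntegral.integral_congr fun u hu => by
      rw [Set.uIcc_of_le h1] at hu
      exact abs_of_nonneg (sub_nonneg.2 hu.2)
  have e2 : ∫ u in z..c, |z - u| = ∫ u in z..c, (u - z) :=
    intervalIntegral.integral_congr fun u hu => by
      rw [Set.uIcc_of_le h2] at hu
      exact (abs_sub_comm z u).trans (abs_of_nonneg (sub_nonneg.2 hu.1))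
  rw [← intervalIntegral.integral_add_adjacent_intervals (hc.intervalIntegrable (-c) z)
    (hc.intervalIntegrable z c), e1, e2,
    intervalIntegral.integral_sub (by simp) (by simp),
    intervalIntegral.integral_sub (by simp) (by simp)]
  simp only [intervalIntegral.integral_const, integral_id, smul_eq_mul]
  ring

theorem slab_T2 {c z : ℝ} (h : |z| ≤ c) :
    IntegrableOn (fun t => Real.pi / t ^ 2 * (2 * c - As c t z)) (Set.Ioi 0) ∧
      2 / √Real.pi * ∫ t in Set.Ioi (0 : ℝ), Real.pi / t ^ 2 * (2 * c - As c t z) =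
        2 * Real.pi * (c ^ 2 + z ^ 2) := by
  have hc : -c ≤ c := by linarith [abs_nonneg z]
  have e : ∀ t : ℝ, Real.pi / t ^ 2 * (2 * c - As c t z) =
      Real.pi * ∫ u in Set.Ioc (-c) c, (1 - Real.exp (-(t ^ 2 * (z - u) ^ 2))) / t ^ 2 := fun t => by
    rw [← intervalIntegral.integral_of_le hc, intervalIntegral.integral_div,
      intervalIntegral.integral_sub (by simp) (Continuous.intervalIntegrable (by fun_prop) _ _), As]
    simp only [intervalIntegral.integral_const, smul_eq_mul]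
    ring
  have hi : Integrable
      (Function.uncurry fun u t : ℝ => (1 - Real.exp (-(t ^ 2 * (z - u) ^ 2))) / t ^ 2)
      ((volume.restrict (Set.Ioc (-c) c)).prod (volume.restrict (Set.Ioi 0))) := by
    refine (integrable_prod_iff (Measurable.aestronglyMeasurable (by fun_prop))).2
      ⟨ae_of_all _ fun u => (plane_pot (z - u)).1, ?_⟩
    have e2 : ∀ u : ℝ, ∫ t in Set.Ioi (0 : ℝ),
        ‖(1 - Real.exp (-(t ^ 2 * (z - u) ^ 2))) / t ^ 2‖ = √Real.pi * |z - u| := fun u => by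
      rw [← (plane_pot (z - u)).2]
      refine integral_congr_ae (ae_of_all _ fun t => Real.norm_of_nonneg ?_)
      exact div_nonneg (slab3_bd (by positivity)).1 (sq_nonneg t)
    simp only [Function.uncurry_apply_pair, e2]
    exact (Continuous.integrableOn_Icc (by fun_prop)).mono_set Set.Ioc_subset_Icc_self
  simp only [e]
  refine ⟨hi.integral_prod_right.const_mul _, ?_⟩
  rw [integral_const_mul, ← integral_integral_swap hi]
  simp only [(plane_pot _).2]
  rw [integral_const_mul, ← intervalIntegral.integral_of_le hc, slab3_abs h]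
  have : √Real.pi ≠ 0 := (Real.sqrt_pos.2 Real.pi_pos).ne'
  field_simp

theorem slab3_box {a : E3} (ha : ∀ k, 0 ≤ a k) (x : E3) (t : ℝ) :
    ∫ y in Set.Icc (-a) a, Eg t (x - y) = ∏ k, As (a k) t (x k) := by
  simp only [Eg_prod, Pi.sub_apply]
  rw [← Set.pi_univ_Icc, volume_pi, Measure.restrict_pi_pi,
    integral_fintype_prod_eq_prod fun k (u : ℝ) => Real.exp (-(t ^ 2 * (x k - u) ^ 2))]
  refine Finset.prod_congr rfl fun k _ => ?_
  rw [As, intervalIntegral.integral_of_le (by linarith [ha k]), integral_Icc_eq_integral_Ioc]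
  rfl

theorem box_rep {a : E3} (ha : ∀ k, 0 ≤ a k) (x : E3) :
    IntegrableOn (fun t => ∏ k, As (a k) t (x k)) (Set.Ioi 0) ∧
      ∫ y in Set.Icc (-a) a, kk (x - y) =
        2 / √Real.pi * ∫ t in Set.Ioi (0 : ℝ), ∏ k, As (a k) t (x k) := by
  have hπ : √Real.pi ≠ 0 := (Real.sqrt_pos.2 Real.pi_pos).ne'
  have hae : ∀ᵐ y ∂(volume.restrict (Set.Icc (-a) a)), x - y ≠ 0 := by
    refine ae_restrict_of_ae ?_
    filter_upwards [Measure.ae_ne volume x] with y hy using sub_ne_zero.2 hy.symm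
  have hi : Integrable (Function.uncurry fun (y : E3) (t : ℝ) => Eg t (x - y))
      ((volume.restrict (Set.Icc (-a) a)).prod (volume.restrict (Set.Ioi 0))) := by
    have hc : Continuous fun p : E3 × ℝ => Eg p.2 (x - p.1) :=
      continuous_Eg.comp (f := fun p : E3 × ℝ => (p.2, x - p.1)) (by fun_prop)
    refine (integrable_prod_iff hc.aestronglyMeasurable).2
      ⟨hae.mono fun y hy => (kk_rep hy).1, ?_⟩
    refine ((kk_intOn x measure_Icc_lt_top.ne).const_mul (√Real.pi / 2)).congr ?_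
    filter_upwards [hae] with y hy
    simp only [Real.norm_of_nonneg (Eg_pos _ _).le, (kk_rep hy).2]
    field_simp
  simp only [← slab3_box ha x]
  refine ⟨hi.integral_prod_right, ?_⟩
  rw [← integral_integral_swap hi, ← integral_const_mul]
  exact integral_congr_ae (hae.mono fun y hy => (kk_rep hy).2)

end Vale.Agent.P370.Nuc
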