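import Vale.Agent.P370.NucSlab2
import Vale.Agent.P370.NucSlab3

/-! Part E: the potential of the slab.

Plan.  `box_rep` with `a = ![4 L, 3 L, 128]`.  Write `A, B` for `As (4L) t 0`, `As (3L) t 0`, `C = As 128 t z'`,
`R = π / t^2 - A B`, `0 ≤ R ≤ 2 π / t^2 exp (-9 L^2 t^2)` (`As_le'`, `As_tail`), `0 ≤ 256 - C ≤ 8 * 128^3 t^2`.  Then
`A B C = 256 A B - π / t^2 (256 - C) + R (256 - C)`.
`slab_up`: `z' = min |z| 128`, `As_anti` in each factor, `slab_J`, `slab_T2`,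
`R (256 - C) ≤ 16 π 128^3 exp (-9 L^2 t^2)`, `integral_gaussian_Ioi` (the error is about `3.6 * 10^7 / L`).
`slab_low`: `z' = z`, drop the last term; `A B - As (4L) t x0 * As (3L) t x1 ≤ 67 X^2 exp (-L^2 t^2)` by `As_sec`, `As_le`. -/

namespace Vale.Agent.P370.Nuc

open MeasureTheory Finset

theorem slab_gauss {c : ℝ} (hc : 0 < c) :
    IntegrableOn (fun t : ℝ => Real.exp (-(t ^ 2 * c ^ 2))) (Set.Ioi 0) ∧
      2 / √Real.pi * ∫ t in Set.Ioi (0 : ℝ), Real.exp (-(t ^ 2 * c ^ 2)) = 1 / c := by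
  have e : (fun t : ℝ => Real.exp (-(t ^ 2 * c ^ 2))) = fun t : ℝ => Real.exp (-c ^ 2 * t ^ 2) := by
    funext t
    congr 1
    ring
  have hp : 0 < √Real.pi := Real.sqrt_pos.2 Real.pi_pos
  rw [e, integral_gaussian_Ioi, Real.sqrt_div Real.pi_pos.le, Real.sqrt_sq hc.le]
  exact ⟨(integrable_exp_neg_mul_sq (by positivity)).integrableOn, by field_simp⟩

theorem slab_rep {L : ℝ} (hL : 0 < L) (x : E3) :
    IntegrableOn (fun t => As (4 * L) t (x 0) * As (3 * L) t (x 1) * As 128 t (x 2)) (Set.Ioi 0) ∧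
      Fs L x = 2 / √Real.pi *
        ∫ t in Set.Ioi (0 : ℝ), As (4 * L) t (x 0) * As (3 * L) t (x 1) * As 128 t (x 2) := by
  have h := box_rep (a := ![4 * L, 3 * L, 128]) (fun k => by
    fin_cases k <;> simp [hL.le]) x
  have e : -(![4 * L, 3 * L, 128] : E3) = ![-(4 * L), -(3 * L), -128] := by
    funext k
    fin_cases k <;> rfl
  rw [e] at h
  simpa only [Fin.prod_univ_three, Matrix.cons_val_zero, Matrix.cons_val_one, Matrix.cons_val,
    Fs] using h

/-- the main term with an error term -/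
theorem slab_main {L z c K : ℝ} (hL : 0 < L) (hz : |z| ≤ 128) (hc : 0 < c) :
    IntegrableOn (fun t => 256 * (As (4 * L) t 0 * As (3 * L) t 0) -
      Real.pi / t ^ 2 * (2 * 128 - As 128 t z) + K * Real.exp (-(t ^ 2 * c ^ 2))) (Set.Ioi 0) ∧
    2 / √Real.pi * ∫ t in Set.Ioi (0 : ℝ), (256 * (As (4 * L) t 0 * As (3 * L) t 0) -
      Real.pi / t ^ 2 * (2 * 128 - As 128 t z) + K * Real.exp (-(t ^ 2 * c ^ 2))) =
      1024 * L * (4 * Real.log 2 + 3 * Real.log 3) - 2 * Real.pi * (128 ^ 2 + z ^ 2) + K / c := by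
  obtain ⟨a1, a2⟩ := slab_J hL
  obtain ⟨b1, b2⟩ := slab_T2 hz
  obtain ⟨c1, c2⟩ := slab_gauss hc
  have d1 : IntegrableOn (fun t => 256 * (As (4 * L) t 0 * As (3 * L) t 0) -
      Real.pi / t ^ 2 * (2 * 128 - As 128 t z)) (Set.Ioi 0) := (a1.const_mul 256).sub b1
  refine ⟨d1.add (c1.const_mul K), ?_⟩
  rw [integral_add d1 (c1.const_mul K), integral_sub (a1.const_mul 256) b1, integral_const_mul,
    integral_const_mul, mul_add, mul_sub, b2, mul_left_comm _ 256, a2, mul_left_comm _ K, c2]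
  ring

theorem slab_sq {t : ℝ} : √Real.pi / t * (√Real.pi / t) = Real.pi / t ^ 2 := by
  rw [div_mul_div_comm, Real.mul_self_sqrt Real.pi_pos.le, pow_two]

theorem slab_up {L : ℝ} (hL : 1 ≤ L) (x : E3) :
    Fs L x ≤ 1024 * L * (4 * Real.log 2 + 3 * Real.log 3) -
      2 * Real.pi * (128 ^ 2 + min (x 2 ^ 2) (128 ^ 2)) + 10 ^ 9 / L := by
  have hL0 : 0 < L := by linarith
  have hz0 : 0 ≤ min |x 2| 128 := le_min (abs_nonneg _) (by norm_num)
  have hz : |min |x 2| 128| ≤ 128 := by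
    rw [abs_of_nonneg hz0]
    exact min_le_right _ _
  have hz' : |min |x 2| 128| ≤ |x 2| := by
    rw [abs_of_nonneg hz0]
    exact min_le_left _ _
  have hsq : min |x 2| 128 ^ 2 = min (x 2 ^ 2) (128 ^ 2) := by
    rcases le_total |x 2| 128 with h | h
    · rw [min_eq_left h, sq_abs, min_eq_left]
      rw [← sq_abs]
      exact pow_le_pow_left₀ (abs_nonneg _) h 2
    · rw [min_eq_right h, min_eq_right]
      rw [← sq_abs (x 2)]
      exact pow_le_pow_left₀ (by norm_num) h 2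
  obtain ⟨a1, a2⟩ := slab_rep hL0 x
  obtain ⟨b1, b2⟩ := slab_main (K := 16 * Real.pi * 128 ^ 3) (c := 3 * L) hL0 hz (by positivity)
  have key := setIntegral_mono_on a1 b1 measurableSet_Ioi fun t (ht : 0 < t) => by
    have h4 : (0 : ℝ) ≤ 4 * L := by positivity
    have h3 : (0 : ℝ) ≤ 3 * L := by positivity
    have h5 : (0 : ℝ) ≤ 128 := by norm_num
    have e1 : As (4 * L) t (x 0) * As (3 * L) t (x 1) * As 128 t (x 2) ≤
        As (4 * L) t 0 * As (3 * L) t 0 * As 128 t (min |x 2| 128) :=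
      mul_le_mul (mul_le_mul (As_anti h4 t (by simp)) (As_anti h3 t (by simp))
        (As_nonneg h3 _ _) (As_nonneg h4 _ _)) (As_anti h5 t hz') (As_nonneg h5 _ _)
        (mul_nonneg (As_nonneg h4 _ _) (As_nonneg h3 _ _))
    refine e1.trans ?_
    have p1 := As_tail h4 ht
    have p2 := As_tail h3 ht
    have p3 := As_le' h4 ht 0
    have p4 := As_le' h3 ht 0
    have p5 := As_def hz t
    have p6 := As_le h5 t (min |x 2| 128)
    have p7 : Real.exp (-(t ^ 2 * (4 * L) ^ 2)) ≤ Real.exp (-(t ^ 2 * (3 * L) ^ 2)) :=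
      Real.exp_le_exp.2 (by nlinarith [sq_nonneg (t * L)])
    have hq : 0 ≤ √Real.pi / t := by positivity
    have hE := (Real.exp_pos (-(t ^ 2 * (3 * L) ^ 2))).le
    have q1 : Real.pi / t ^ 2 - As (4 * L) t 0 * As (3 * L) t 0 ≤
        2 * (Real.pi / t ^ 2) * Real.exp (-(t ^ 2 * (3 * L) ^ 2)) := by
      rw [← slab_sq]
      have r1 := mul_le_mul_of_nonneg_left p2 hq
      have r2 := mul_le_mul (p1.trans (mul_le_mul_of_nonneg_left p7 hq)) p4 (As_nonneg h3 _ _)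
        (mul_nonneg hq hE)
      linarith
    have q2 := mul_le_mul q1 p5 (by linarith) (by positivity)
    have q3 : 2 * (Real.pi / t ^ 2) * Real.exp (-(t ^ 2 * (3 * L) ^ 2)) * (8 * 128 ^ 3 * t ^ 2) =
        16 * Real.pi * 128 ^ 3 * Real.exp (-(t ^ 2 * (3 * L) ^ 2)) := by
      field_simp
      ring
    rw [q3] at q2
    linarith
  have h1 := mul_le_mul_of_nonneg_left key (show 0 ≤ 2 / √Real.pi by positivity)
  rw [← a2, b2, hsq] at h1
  have h2 : 16 * Real.pi * 128 ^ 3 / (3 * L) ≤ 10 ^ 9 / L := by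
    rw [← div_div]
    refine div_le_div_of_nonneg_right ?_ hL0.le
    linarith [Real.pi_le_four]
  linarith

theorem slab_low {L X : ℝ} (hL : 1 ≤ L) (hX : X ≤ L) {x : E3} (h0 : |x 0| ≤ X) (h1 : |x 1| ≤ X)
    (h2 : |x 2| ≤ 128) :
    1024 * L * (4 * Real.log 2 + 3 * Real.log 3) - 2 * Real.pi * (128 ^ 2 + x 2 ^ 2) -
      10 ^ 6 * X ^ 2 / L ≤ Fs L x := by
  have hL0 : 0 < L := by linarith
  obtain ⟨a1, a2⟩ := slab_rep hL0 x
  obtain ⟨b1, b2⟩ := slab_main (K := -(256 * (67 * X ^ 2))) (c := L) hL0 h2 hL0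
  have key := setIntegral_mono_on b1 a1 measurableSet_Ioi fun t (ht : 0 < t) => by
    have h4 : (0 : ℝ) < 4 * L := by positivity
    have h3 : (0 : ℝ) < 3 * L := by positivity
    have h5 : (0 : ℝ) ≤ 128 := by norm_num
    have hE := (Real.exp_pos (-(t ^ 2 * L ^ 2))).le
    have s0 : x 0 ^ 2 ≤ X ^ 2 := by
      rw [← sq_abs]
      exact pow_le_pow_left₀ (abs_nonneg _) h0 2
    have s1 : x 1 ^ 2 ≤ X ^ 2 := by
      rw [← sq_abs]
      exact pow_le_pow_left₀ (abs_nonneg _) h1 2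
    have p1 : As (4 * L) t 0 - As (4 * L) t (x 0) ≤
        16 * X ^ 2 / (4 * L) * Real.exp (-(t ^ 2 * L ^ 2)) :=
      (As_sec h4 t (by linarith)).trans (mul_le_mul (by gcongr)
        (Real.exp_le_exp.2 (by nlinarith [sq_nonneg (t * L)])) (Real.exp_pos _).le (by positivity))
    have p2 : As (3 * L) t 0 - As (3 * L) t (x 1) ≤
        16 * X ^ 2 / (3 * L) * Real.exp (-(t ^ 2 * L ^ 2)) :=
      (As_sec h3 t (by linarith)).trans (mul_le_mul (by gcongr)
        (Real.exp_le_exp.2 (by nlinarith [sq_nonneg (t * L)])) (Real.exp_pos _).le (by positivity))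
    have r1 := mul_le_mul p1 (As_le h3.le t 0) (As_nonneg h3.le _ _) (by positivity)
    have r2 := mul_le_mul p2 (As_le h4.le t (x 0)) (As_nonneg h4.le _ _) (by positivity)
    have r3 : 16 * X ^ 2 / (4 * L) * Real.exp (-(t ^ 2 * L ^ 2)) * (2 * (3 * L)) =
        24 * (X ^ 2 * Real.exp (-(t ^ 2 * L ^ 2))) := by
      field_simp
      ring
    have r4 : 16 * X ^ 2 / (3 * L) * Real.exp (-(t ^ 2 * L ^ 2)) * (2 * (4 * L)) =
        128 / 3 * (X ^ 2 * Real.exp (-(t ^ 2 * L ^ 2))) := by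
      field_simp
      ring
    have r5 : 0 ≤ X ^ 2 * Real.exp (-(t ^ 2 * L ^ 2)) := by positivity
    have q1 : As (4 * L) t 0 * As (3 * L) t 0 - As (4 * L) t (x 0) * As (3 * L) t (x 1) ≤
        67 * (X ^ 2 * Real.exp (-(t ^ 2 * L ^ 2))) := by
      rw [r3] at r1
      rw [r4] at r2
      linarith
    have p6 := As_le h5 t (x 2)
    have q2 := mul_le_mul q1 p6 (As_nonneg h5 _ _) (by positivity)
    have q3 : As (4 * L) t 0 * As (3 * L) t 0 ≤ Real.pi / t ^ 2 := by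
      rw [← slab_sq]
      exact mul_le_mul (As_le' h4.le ht 0) (As_le' h3.le ht 0) (As_nonneg h3.le _ _)
        (by positivity)
    have q4 := mul_le_mul_of_nonneg_right q3 (sub_nonneg.2 p6)
    linarith
  have h3 := mul_le_mul_of_nonneg_left key (show 0 ≤ 2 / √Real.pi by positivity)
  rw [← a2, b2] at h3
  have h4 : 256 * (67 * X ^ 2) / L ≤ 10 ^ 6 * X ^ 2 / L :=
    div_le_div_of_nonneg_right (by nlinarith [sq_nonneg X]) hL0.le
  rw [neg_div] at h3
  linarith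

end Vale.Agent.P370.Nuc
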