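import Vale.Agent.P370.NucGr
import Vale.Agent.P370.NucGreen
import Vale.Agent.P370.NucSlab

/-! Part E: the continuous charge distribution produces the wanted potential.

Plan.  `SG_eq`: `gr_hi`, `integral_add` (`kk_intOn`, `green`), `Lap V` vanishes outside the box (`lap_zero`, `hV.supp`;
`setIntegral_eq_integral_of_forall_compl_eq_zero`).  With `L = P^70000`, `ω^2 = P^3020`, `r0 = ω^2 / (4 piQ)`:
`C0q = r0 * 1024 L (4 l2 + 3 l3) - 8192 ω^2`, `r0 * 2 π w = ω^2 (π / piQ) w / 2`, `|π / piQ - 1| ≤ P^(-66100)` (`piQ_bd`, `piQ_ge`),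
`l2_bd`, `l3_bd`, `slab_up`, `slab_low` with `X = P^64`, `|V x| ≤ P^1500`.  Each error term is at most `P^(-63070)`. -/

namespace Vale.Agent.P370.Nuc

open MeasureTheory Finset

variable {b : ℕ} {Vq : ℚ × ℚ × ℚ → ℚ} {V : E3 → ℝ}

theorem nsg_L (b : ℕ) : PR b ^ 64 ≤ PR b ^ 70000 := pow_le_pow_right₀ (PR_one b) (by norm_num)

theorem nsg_lap (hV : VOK b Vq V) {y : E3} (hy : y ∉ (gr b).box) : Lap V y = 0 := by
  have hc : IsClosed {x : E3 | |x 0| ≤ PR b ^ 64 ∧ |x 1| ≤ PR b ^ 64 ∧ |x 2| ≤ 73} :=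
    (isClosed_le (continuous_apply 0).abs continuous_const).inter
      ((isClosed_le (continuous_apply 1).abs continuous_const).inter
        (isClosed_le (continuous_apply 2).abs continuous_const))
  refine (lap_zero (Filter.Eventually.mono (hc.isOpen_compl.mem_nhds fun h => hy ?_)
    fun x hx => by_contra fun h => hx (hV.supp x h))).self_of_nhds
  obtain ⟨h0, h1, h2⟩ := h
  have hL := nsg_L b
  have hp := pow_pos (PR_pos b) 70000
  rw [abs_le] at h0 h1 h2
  rw [Grid.box, gr_hi]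
  change y ∈ Set.Icc ![-(4 * PR b ^ 70000), -(3 * PR b ^ 70000), -128] _
  generalize PR b ^ 70000 = L at hL hp
  generalize PR b ^ 64 = X at hL h0 h1
  refine ⟨fun k => ?_, fun k => ?_⟩ <;> fin_cases k <;> simp <;> linarith

theorem SG_eq (hb : 30 ≤ b) (hV : VOK b Vq V) (x : E3) :
    SG b V x = -(r0 b * Fs (PR b ^ 70000) x) + C0q b -
      (omz b : ℝ) ^ 2 * min (x 2 ^ 2) (128 ^ 2) / 2 + (Real.pi / piQ b - 1) * V x := by
  obtain ⟨g1, g2⟩ := green (V := V) (A := PR b ^ 1500) ⟨hV.bd.1.of_le (by norm_num),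
    fun m hm => hV.bd.2 m (hm.trans (by norm_num))⟩ (supp_V hb hV) x
  have h1 : IntegrableOn (fun y => kk (x - y)) (gr b).box := kk_intOn x measure_Icc_lt_top.ne
  have h2 : ∫ y in (gr b).box, kk (x - y) = Fs (PR b ^ 70000) x := by
    rw [Grid.box, gr_hi]
    rfl
  have h3 : ∫ y in (gr b).box, Lap V y * kk (x - y) = -(4 * Real.pi * V x) := by
    rw [setIntegral_eq_integral_of_forall_compl_eq_zero fun y hy => by
      rw [nsg_lap hV hy, zero_mul], g2]
  have h4 : (piQ b : ℝ) ≠ 0 := by linarith [(piQ_ge hb).1]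
  simp only [SG, rhoV, add_mul, div_mul_eq_mul_div]
  rw [integral_add (h1.const_mul _) (g1.integrableOn.div_const _), integral_const_mul,
    integral_div, h2, h3]
  field_simp
  ring

theorem nsg_err (hb : 30 ≤ b) (hV : VOK b Vq V) (x : E3) :
    |SG b V x + r0 b * (Fs (PR b ^ 70000) x -
      (1024 * PR b ^ 70000 * (4 * Real.log 2 + 3 * Real.log 3) -
        2 * Real.pi * (128 ^ 2 + min (x 2 ^ 2) (128 ^ 2))))| ≤ 3 * (1 / PR b ^ 63070) := by
  obtain ⟨p1, p2⟩ := piQ_ge hb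
  have hP := PR_pos b
  have e0 : |Real.pi / piQ b - 1| ≤ 1 / PR b ^ 66100 := by
    rw [div_sub_one (by linarith), abs_div, abs_sub_comm, abs_of_pos (by linarith : (0 : ℝ) < piQ b)]
    exact (div_le_self (abs_nonneg _) (by linarith)).trans (piQ_bd hb)
  have e1 : |4 * ((l2 b : ℝ) - Real.log 2) + 3 * ((l3 b : ℝ) - Real.log 3)| ≤
      7 * (1 / PR b ^ 262000) := by
    have h2 := abs_le.1 (l2_bd hb)
    have h3 := abs_le.1 (l3_bd hb)
    exact abs_le.2 ⟨by linarith, by linarith⟩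
  have w0 : (0 : ℝ) ≤ min (x 2 ^ 2) (128 ^ 2) := le_min (sq_nonneg _) (sq_nonneg _)
  have w1 : (128 ^ 2 + min (x 2 ^ 2) (128 ^ 2)) / 2 ≤ (16384 : ℝ) :=
    (div_le_div_of_nonneg_right (add_le_add_right (min_le_right _ _) _) zero_le_two).trans_eq
      (by norm_num)
  have hC : (C0q b : ℝ) = r0 b * (1024 * PR b ^ 70000 * (4 * l2 b + 3 * l3 b)) -
      (omz b : ℝ) ^ 2 * 8192 := by
    rw [C0q, r0, Lb, ← Pq_cast]
    push_cast
    rfl
  have e : SG b V x + r0 b * (Fs (PR b ^ 70000) x -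
      (1024 * PR b ^ 70000 * (4 * Real.log 2 + 3 * Real.log 3) -
        2 * Real.pi * (128 ^ 2 + min (x 2 ^ 2) (128 ^ 2)))) =
      r0 b * (1024 * PR b ^ 70000) *
          (4 * ((l2 b : ℝ) - Real.log 2) + 3 * ((l3 b : ℝ) - Real.log 3)) +
        (omz b : ℝ) ^ 2 * ((128 ^ 2 + min (x 2 ^ 2) (128 ^ 2)) / 2) * (Real.pi / piQ b - 1) +
        V x * (Real.pi / piQ b - 1) := by
    rw [SG_eq hb hV, hC, r0]
    ring
  obtain ⟨r1, r2⟩ := r0_le hb
  have a1 : |r0 b * (1024 * PR b ^ 70000) *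
      (4 * ((l2 b : ℝ) - Real.log 2) + 3 * ((l3 b : ℝ) - Real.log 3))| ≤ 1 / PR b ^ 63070 := by
    rw [abs_mul, abs_of_nonneg (by positivity)]
    refine (mul_le_mul (mul_le_mul_of_nonneg_right (r2.trans (div_le_self (by positivity)
      (by norm_num))) (by positivity)) e1 (abs_nonneg _) (by positivity)).trans ?_
    refine (le_of_eq ?_).trans ((PR_div_le hb (c := 7168) (i := 3020 + 70000) (j := 262000)
      (k := 0) (l := 63070) (by norm_num) (by norm_num)).trans_eq (by rw [pow_zero]))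
    rw [pow_add]
    ring
  have a2 : |(omz b : ℝ) ^ 2 * ((128 ^ 2 + min (x 2 ^ 2) (128 ^ 2)) / 2) *
      (Real.pi / piQ b - 1)| ≤ 1 / PR b ^ 63070 := by
    rw [abs_mul, abs_of_nonneg (by positivity), omz_cast, ← pow_mul]
    refine (mul_le_mul (mul_le_mul_of_nonneg_left w1 (by positivity))
      e0 (abs_nonneg _) (by positivity)).trans ?_
    refine (le_of_eq ?_).trans ((PR_div_le hb (c := 16384) (i := 1510 * 2) (j := 66100)
      (k := 0) (l := 63070) (by norm_num) (by norm_num)).trans_eq (by rw [pow_zero]))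
    ring
  have a3 : |V x * (Real.pi / piQ b - 1)| ≤ 1 / PR b ^ 63070 := by
    rw [abs_mul]
    refine (mul_le_mul (bd_abs hV.bd x) e0 (abs_nonneg _) (by positivity)).trans ?_
    refine (le_of_eq ?_).trans ((PR_div_le hb (c := 1) (i := 1500) (j := 66100)
      (k := 0) (l := 63070) (by norm_num) (by norm_num)).trans_eq (by rw [pow_zero]))
    ring
  rw [e]
  linarith [abs_add_three (r0 b * (1024 * PR b ^ 70000) *
    (4 * ((l2 b : ℝ) - Real.log 2) + 3 * ((l3 b : ℝ) - Real.log 3)))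
    ((omz b : ℝ) ^ 2 * ((128 ^ 2 + min (x 2 ^ 2) (128 ^ 2)) / 2) * (Real.pi / piQ b - 1))
    (V x * (Real.pi / piQ b - 1))]

theorem nsg_r (hb : 30 ≤ b) {c : ℝ} (h0 : 0 ≤ c) (hc : c ≤ 2 ^ 30) {i : ℕ} (hi : i ≤ 128) :
    r0 b * (c * PR b ^ i / PR b ^ 70000) ≤ 1 / PR b ^ 63070 := by
  have hP := PR_pos b
  refine (mul_le_mul_of_nonneg_right ((r0_le hb).2.trans (div_le_self (by positivity)
    (by norm_num))) (by positivity)).trans ?_
  refine (le_of_eq ?_).trans ((PR_div_le hb hc (i := 3020 + i) (j := 70000)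
    (k := 0) (l := 63070) (by omega)).trans_eq (by rw [pow_zero]))
  rw [pow_add]
  ring

theorem nsg_four (hb : 30 ≤ b) : 4 * (1 / PR b ^ 63070) ≤ 1 / PR b ^ 63055 :=
  (mul_one_div _ _).trans_le (PR_inv_le hb (by norm_num) (by norm_num))

theorem SG_low (hb : 30 ≤ b) (hV : VOK b Vq V) (x : E3) : -(1 / PR b ^ 63055) ≤ SG b V x := by
  have h1 := (abs_le.1 (nsg_err hb hV x)).1
  have h2 := mul_le_mul_of_nonneg_left
    (sub_le_iff_le_add'.2 (slab_up (one_le_pow₀ (PR_one b) (n := 70000)) x)) (r0_le hb).1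
  have h3 := nsg_r hb (c := 10 ^ 9) (i := 0) (by norm_num) (by norm_num) (by norm_num)
  rw [pow_zero, mul_one] at h3
  exact le_trans (by linarith [nsg_four hb]) (sub_le_iff_le_add.2 (h1.trans
    (add_le_add_right (h2.trans h3) _)))

theorem SG_up (hb : 30 ≤ b) (hV : VOK b Vq V) {x : E3} (hx : x ∈ B0 b) :
    SG b V x ≤ 1 / PR b ^ 63055 := by
  have h0 : |x 2| ≤ 128 := hx.2.2.trans (by norm_num)
  have h1 := (abs_le.1 (nsg_err hb hV x)).2
  rw [min_eq_left (sq_le_sq' (abs_le.1 h0).1 (abs_le.1 h0).2)] at h1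
  have h2 := slab_low (one_le_pow₀ (PR_one b) (n := 70000)) (nsg_L b) hx.1 hx.2.1 h0
  rw [sub_le_iff_le_add, ← sub_le_iff_le_add', ← pow_mul] at h2
  have h3 := (mul_le_mul_of_nonneg_left h2 (r0_le hb).1).trans
    (nsg_r hb (by norm_num) (by norm_num) (by norm_num))
  rw [← neg_sub, mul_neg] at h3
  generalize r0 b * _ = E at h1 h3
  linarith [nsg_four hb]

end Vale.Agent.P370.Nuc
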