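import Vale.Agent.P370.NucErr
import Vale.Agent.P370.NucEnd
import Vale.Agent.P370.NucSG

/-! Part E: pointwise bounds.

Plan.  `err_kL'`: `err_kL` with `M t = h^4 P^3023 (1 + t)`, `err_gauss`.  `dV_eq`, `err_split` (`rhoV_cont`);
with `T = 1 / h`: `ErrP (kS) = s * sum Zp kS - ∫ ρ kS`, `sing_sum` (`Zp_le`, `ce_le`), `sing_int` (`rhoV_le`), `sq_le`;
`EndP kk = EndP kL + EndP kS` (`kk_eq_add`, `sum_add_f`) for `pt_low`, `end_far` for the other two. -/

namespace Vale.Agent.P370.Nuc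

open MeasureTheory Finset

variable {b : ℕ} {Vq : ℚ × ℚ × ℚ → ℚ} {V : E3 → ℝ}


theorem pt_num (hb : 30 ≤ b) {c : ℝ} (hc : c ≤ 2 ^ 30) {i j l : ℕ} (h : i + l < j) :
    c * PR b ^ i / PR b ^ j ≤ 1 / PR b ^ l := by
  simpa using PR_div_le hb hc (i := i) (j := j) (k := 0) (l := l) (by omega)

theorem pt_h_le (b : ℕ) : (gr b).h ≤ 1 := by
  rw [gr_h, div_le_one (pow_pos (PR_pos b) _)]
  exact one_le_pow₀ (PR_one b)

theorem err_kL' (hb : 30 ≤ b) (hV : VOK b Vq V) {T : ℝ} (hT : 0 ≤ T) (hTh : T * (gr b).h ≤ 1)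
    (x : E3) :
    |ErrP b Vq V fun y => kL T (x - y)| ≤ (gr b).h ^ 4 * PR b ^ 3024 * (1 + T) ^ 2 := by
  have hh := gr_h_pos b
  have hP := PR_pos b
  have h := err_kL (gr b) (sq b) (Zp b Vq) (rhoV_cont hV) hT x
    (M := fun t => (gr b).h ^ 4 * PR b ^ 3023 * (1 + t))
    (Continuous.intervalIntegrable (by fun_prop) _ _)
    fun t ht htT => err_gauss hb hV ht ((mul_le_mul_of_nonneg_right htT hh.le).trans hTh) x
  refine h.trans ?_
  rw [intervalIntegral.integral_const_mul,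
    intervalIntegral.integral_add (by simp) (Continuous.intervalIntegrable (by fun_prop) _ _),
    integral_id, intervalIntegral.integral_const]
  have h1 := PR_mul_le hb (c := 2) (by norm_num) (i := 3023) (j := 3024) (by norm_num)
  have h2 : (T - 0) • (1 : ℝ) + (T ^ 2 - 0 ^ 2) / 2 ≤ (1 + T) ^ 2 := by
    rw [smul_eq_mul]
    nlinarith
  have h3 : 0 ≤ (T - 0) • (1 : ℝ) + (T ^ 2 - 0 ^ 2) / 2 := by
    rw [smul_eq_mul]
    nlinarith
  calc _ = (gr b).h ^ 4 * (2 * PR b ^ 3023) * ((T - 0) • (1 : ℝ) + (T ^ 2 - 0 ^ 2) / 2) := by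
        generalize PR b ^ 3023 = Q
        ring
    _ ≤ _ := mul_le_mul (mul_le_mul_of_nonneg_left h1 (by positivity)) h2 h3 (by positivity)

theorem pt_kL (hb : 30 ≤ b) (hV : VOK b Vq V) (x : E3) :
    |ErrP b Vq V fun y => kL (1 / (gr b).h) (x - y)| ≤ 1 / PR b ^ 40970 := by
  have hh := gr_h_pos b
  have hP := PR_pos b
  have h1 := pt_h_le b
  refine (err_kL' hb hV (by positivity) (le_of_eq (one_div_mul_cancel hh.ne')) x).trans ?_
  refine le_trans ?_ (pt_num hb (c := 4) (by norm_num) (i := 3024) (j := 44000) (by norm_num))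
  have h2 : (gr b).h ^ 2 = 1 / PR b ^ 44000 := by
    rw [gr_h, div_pow, one_pow, ← pow_mul]
  have h3 : (gr b).h ^ 4 * (1 + 1 / (gr b).h) ^ 2 ≤ 4 * (gr b).h ^ 2 := by
    have e : (gr b).h ^ 4 * (1 + 1 / (gr b).h) ^ 2 = ((gr b).h + 1) ^ 2 * (gr b).h ^ 2 := by
      field_simp
    rw [e]
    exact mul_le_mul_of_nonneg_right (by nlinarith) (by positivity)
  have h4 : 0 ≤ PR b ^ 3024 := by positivity
  rw [h2] at h3
  generalize PR b ^ 3024 = Q at *
  generalize PR b ^ 44000 = R at *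
  calc _ = Q * ((gr b).h ^ 4 * (1 + 1 / (gr b).h) ^ 2) := by ring
    _ ≤ Q * (4 * (1 / R)) := mul_le_mul_of_nonneg_left h3 h4
    _ = _ := by ring

theorem pt_sum (hb : 30 ≤ b) {q : ℕ → ℕ → ℕ → ℝ} (hq : ∀ i j k, |q i j k| ≤ 3000) {x : E3}
    (hx : (gr b).Dn x ≠ 0) :
    |(sq b : ℝ) * (gr b).sum q fun y => kS (1 / (gr b).h) (x - y)| ≤
      1 / PR b ^ 62901 / (gr b).Dn x := by
  have hD : 0 ≤ (gr b).Dn x := Real.sqrt_nonneg _
  have hP := PR_pos b
  obtain ⟨s0, s1⟩ := sq_le hb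
  rw [abs_mul, abs_of_nonneg s0]
  refine (mul_le_mul s1 (sing_sum _ (gr_h_pos b) (by norm_num) hq hx) (abs_nonneg _)
    (by positivity)).trans ?_
  rw [← mul_div_assoc]
  refine div_le_div_of_nonneg_right ?_ hD
  have h := PR_inv_le hb (c := 400 * 3000) (by norm_num) (j := 62980) (l := 62901) (by norm_num)
  refine le_trans (le_of_eq ?_) h
  generalize PR b ^ 62980 = Q
  ring

theorem pt_int (hb : 30 ≤ b) (hV : VOK b Vq V) (x : E3) :
    |∫ y in (gr b).box, rhoV b V y * kS (1 / (gr b).h) (x - y)| ≤ 1 / PR b ^ 40970 := by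
  have hh := gr_h_pos b
  refine (sing_int _ (rhoV_le hb hV) (by positivity) x).trans ?_
  refine le_trans (le_of_eq ?_)
    (pt_num hb (c := 4) (by norm_num) (i := 3020) (j := 44000) (by norm_num))
  rw [gr_h, one_div_one_div, ← pow_mul]

theorem pt_split (hb : 30 ≤ b) (hV : VOK b Vq V) {T : ℝ} (hT : 0 < T) (x : E3) :
    dV b Vq V x = SG b V x - ErrP b Vq V (fun y => kL T (x - y)) -
      ErrP b Vq V (fun y => kS T (x - y)) - EndP b Vq fun y => kk (x - y) := by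
  rw [dV_eq hb hV, ErrP, err_split _ _ _ (rhoV_cont hV) hT, ErrP, ErrP, sub_add_eq_sub_sub]

theorem pt_two (hb : 30 ≤ b) (D : ℝ) (hD : 0 ≤ D) :
    1 / PR b ^ 62901 / D + 1 / PR b ^ 62901 / D ≤ 1 / PR b ^ 62900 / D := by
  rw [← add_div, ← add_div]
  exact div_le_div_of_nonneg_right (PR_inv_le hb (by norm_num) (by norm_num)) hD

theorem pt_five (hb : 30 ≤ b) {i j : ℕ} (h : i < j) : 1 / PR b ^ j ≤ 1 / PR b ^ i / 5 := by
  have h1 := PR_inv_le hb (c := 5) (by norm_num) h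
  rw [le_div_iff₀ (by norm_num)]
  refine le_trans (le_of_eq ?_) h1
  generalize PR b ^ j = Q
  ring

theorem pt_low (hb : 30 ≤ b) (hV : VOK b Vq V) {x : E3} (hx : (gr b).Dn x ≠ 0) :
    -(1 / PR b ^ 62900 / (gr b).Dn x + 1 / PR b ^ 17000) ≤ dV b Vq V x := by
  have hh := gr_h_pos b
  have hD : 0 ≤ (gr b).Dn x := Real.sqrt_nonneg _
  have e : EndP b Vq (fun y => kk (x - y)) = EndP b Vq (fun y => kL (1 / (gr b).h) (x - y)) +
      (sq b : ℝ) * (gr b).sum (ce b Vq) fun y => kS (1 / (gr b).h) (x - y) := by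
    rw [EndP, EndP, ← mul_add, ← sum_add_f]
    simp only [← kk_eq_add]
  rw [pt_split hb hV (T := 1 / (gr b).h) (by positivity), e]
  have a1 := SG_low hb hV x
  have a2 := abs_le.1 (pt_kL hb hV x)
  have a3 := abs_le.1 (pt_sum hb (Zp_le hb hV) hx)
  have a4 := abs_le.1 (pt_int hb hV x)
  have a5 := abs_le.1 (end_kL hb hV x)
  have a6 := abs_le.1 (pt_sum hb (q := ce b Vq) (fun i j k => (ce_le b Vq i j k).trans
    (by norm_num)) hx)
  have b1 := pt_two hb _ hD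
  have b2 := pt_five hb (i := 17000) (j := 63055) (by norm_num)
  have b3 := pt_five hb (i := 17000) (j := 40970) (by norm_num)
  have b4 := pt_five hb (i := 17000) (j := 18000) (by norm_num)
  have b5 : 0 ≤ 1 / PR b ^ 17000 := by
    have := PR_pos b
    positivity
  unfold ErrP Grid.err at *
  generalize 1 / PR b ^ 62901 / (gr b).Dn x = c1 at *
  generalize 1 / PR b ^ 62900 / (gr b).Dn x = c2 at *
  generalize 1 / PR b ^ 17000 = c3 at *
  generalize 1 / PR b ^ 63055 = c4 at *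
  generalize 1 / PR b ^ 40970 = c5 at *
  generalize 1 / PR b ^ 18000 = c6 at *
  linarith [a2.1, a2.2, a3.1, a3.2, a4.1, a4.2, a5.1, a5.2, a6.1, a6.2]

theorem pt_abs (hb : 30 ≤ b) (hV : VOK b Vq V) {x : E3} (hx : (gr b).Dn x ≠ 0) (h0 : x ∈ B0 b) :
    |dV b Vq V x| ≤ 1 / PR b ^ 62900 / (gr b).Dn x + 1 / PR b ^ 40000 := by
  have hh := gr_h_pos b
  have hP := PR_pos b
  have hD : 0 ≤ (gr b).Dn x := Real.sqrt_nonneg _
  rw [pt_split hb hV (T := 1 / (gr b).h) (by positivity)]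
  have a0 := SG_up hb hV h0
  have a1 := SG_low hb hV x
  have a2 := abs_le.1 (pt_kL hb hV x)
  have a3 := abs_le.1 (pt_sum hb (Zp_le hb hV) hx)
  have a4 := abs_le.1 (pt_int hb hV x)
  have a5 := abs_le.1 (end_far hb hV h0.1)
  have b1 := pt_two hb _ hD
  have b2 := pt_five hb (i := 40000) (j := 63055) (by norm_num)
  have b3 := pt_five hb (i := 40000) (j := 40970) (by norm_num)
  have b4 := pt_five hb (i := 40000) (j := 66000) (by norm_num)
  have b5 : 0 ≤ 1 / PR b ^ 40000 := by positivity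
  have b6 : 0 ≤ 1 / PR b ^ 62901 / (gr b).Dn x := by positivity
  unfold ErrP Grid.err at *
  generalize 1 / PR b ^ 62901 / (gr b).Dn x = c1 at *
  generalize 1 / PR b ^ 62900 / (gr b).Dn x = c2 at *
  generalize 1 / PR b ^ 40000 = c3 at *
  generalize 1 / PR b ^ 63055 = c4 at *
  generalize 1 / PR b ^ 40970 = c5 at *
  generalize 1 / PR b ^ 66000 = c6 at *
  rw [abs_le]
  constructor <;> linarith [a2.1, a2.2, a3.1, a3.2, a4.1, a4.2, a5.1, a5.2]

theorem pt_reg (hb : 30 ≤ b) (hV : VOK b Vq V) {x : E3} (h0 : x ∈ B0 b) :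
    |dV b Vq V x + ErrP b Vq V fun y => kS 1 (x - y)| ≤ 1 / PR b ^ 63054 := by
  have hh := gr_h_pos b
  have hP := PR_pos b
  rw [pt_split hb hV (T := 1) one_pos]
  have a0 := SG_up hb hV h0
  have a1 := SG_low hb hV x
  have a2 : |ErrP b Vq V fun y => kL 1 (x - y)| ≤ 1 / PR b ^ 66000 := by
    refine (err_kL' hb hV zero_le_one (by rw [one_mul]; exact pt_h_le b) x).trans ?_
    refine le_trans (le_of_eq ?_)
      (pt_num hb (c := 4) (by norm_num) (i := 3024) (j := 88000) (by norm_num))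
    rw [gr_h, div_pow, one_pow, ← pow_mul]
    generalize PR b ^ 3024 = Q
    generalize PR b ^ 88000 = R
    ring
  have a3 := abs_le.1 a2
  have a5 := abs_le.1 (end_far hb hV h0.1)
  have b2 := pt_five hb (i := 63054) (j := 63055) (by norm_num)
  have b4 := pt_five hb (i := 63054) (j := 66000) (by norm_num)
  have b5 : 0 ≤ 1 / PR b ^ 63054 := by positivity
  generalize 1 / PR b ^ 63054 = c3 at *
  generalize 1 / PR b ^ 63055 = c4 at *
  generalize 1 / PR b ^ 66000 = c6 at *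
  rw [abs_le]
  constructor <;> linarith [a3.1, a3.2, a5.1, a5.2]

end Vale.Agent.P370.Nuc
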