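import Vale.Agent.P370.NucTay

/-! Part E: the quadrature rule and fourth differences in one variable.

Plan.  `quad1`: `n = 4 p`, induction on `p` (`Finset.sum_range_succ` four times, `wt (4 p + r)`,
`intervalIntegral.integral_add_adjacent_intervals`).  On the panel `[c, c + 4 h]`, `c = a + 4 p h`, take the cubic `q`
of `taylor3`; the rule `(h / 12) (13, 11, 11, 13)` at `c + h/2, …, c + 7h/2` is exact for `q`
(`integral_pow`, or FTC, then `ring`); both the rule and the integral of the remainder are at most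
`4 h * 32/3 h ^ 3 ∫ M`.  `M ≥ 0` follows from `hM`.
`diff4`: the fourth difference kills cubics (`taylor3` with `c = nd a h m`), each term is at most
`16 * 32/3 h ^ 3 ∫ M` over `[nd m, nd (m + 4)]`; split this in four unit intervals; for each shift `r < 4`
`intervalIntegral.sum_integral_adjacent_intervals` and `integral_mono_interval`. -/

namespace Vale.Agent.P370.Nuc

open MeasureTheory Finset

theorem cubic_int_Q1 (p0 p1 p2 p3 c h : ℝ) :
    ∫ u in c..(c + 4 * h), (p0 + p1 * (u - c) + p2 * (u - c) ^ 2 + p3 * (u - c) ^ 3) =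
      4 * h * p0 + 8 * h ^ 2 * p1 + 64 / 3 * h ^ 3 * p2 + 64 * h ^ 4 * p3 := by
  have hd : ∀ u ∈ Set.uIcc c (c + 4 * h), HasDerivAt
      (fun u : ℝ => p0 * (u - c) + p1 * (u - c) ^ 2 / 2 + p2 * (u - c) ^ 3 / 3 + p3 * (u - c) ^ 4 / 4)
      (p0 + p1 * (u - c) + p2 * (u - c) ^ 2 + p3 * (u - c) ^ 3) u := by
    intro u _
    have h0 : HasDerivAt (fun u : ℝ => u - c) 1 u := (hasDerivAt_id u).sub_const c
    have h1 := (((h0.const_mul p0).add (((h0.fun_pow 2).const_mul p1).div_const 2)).add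
      (((h0.fun_pow 3).const_mul p2).div_const 3)).add (((h0.fun_pow 4).const_mul p3).div_const 4)
    refine HasDerivAt.congr_deriv h1 ?_
    norm_num
    ring
  rw [intervalIntegral.integral_eq_sub_of_hasDerivAt hd (Continuous.intervalIntegrable (by fun_prop) _ _)]
  ring

theorem panel_Q1 {f M : ℝ → ℝ} (hf : ContDiff ℝ 4 f) (hM : ∀ u, |iteratedDeriv 4 f u| ≤ M u)
    {c h : ℝ} (hh : 0 < h) (hi : IntervalIntegrable M volume c (c + 4 * h)) :
    |h / 12 * (13 * f (c + 1 / 2 * h) + 11 * f (c + 3 / 2 * h) + 11 * f (c + 5 / 2 * h) +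
      13 * f (c + 7 / 2 * h)) - ∫ u in c..(c + 4 * h), f u| ≤
      86 * h ^ 4 * ∫ u in c..(c + 4 * h), M u := by
  obtain ⟨p0, p1, p2, p3, hp⟩ := taylor3 hf hM hh hi
  have hI : 0 ≤ ∫ u in c..(c + 4 * h), M u :=
    intervalIntegral.integral_nonneg (by linarith) fun u _ => (abs_nonneg _).trans (hM u)
  generalize hJ : ∫ u in c..(c + 4 * h), M u = J at hp hI ⊢
  set q : ℝ → ℝ := fun u => p0 + p1 * (u - c) + p2 * (u - c) ^ 2 + p3 * (u - c) ^ 3 with hq
  have hqc : Continuous q := by rw [hq]; fun_prop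
  have hfi : IntervalIntegrable f volume c (c + 4 * h) := hf.continuous.intervalIntegrable _ _
  have hqi : IntervalIntegrable q volume c (c + 4 * h) := hqc.intervalIntegrable _ _
  have h1 : ‖∫ u in c..(c + 4 * h), (f u - q u)‖ ≤ 32 / 3 * h ^ 3 * J * |c + 4 * h - c| := by
    refine intervalIntegral.norm_integral_le_of_norm_le_const fun u hu => ?_
    rw [Set.uIoc_of_le (by linarith)] at hu
    exact hp u hu.1.le hu.2
  rw [intervalIntegral.integral_sub hfi hqi, Real.norm_eq_abs, hq, cubic_int_Q1,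
    show c + 4 * h - c = 4 * h by ring, abs_of_pos (by linarith : 0 < 4 * h), abs_le] at h1
  have e1 := abs_le.1 (hp (c + 1 / 2 * h) (by linarith) (by linarith))
  have e2 := abs_le.1 (hp (c + 3 / 2 * h) (by linarith) (by linarith))
  have e3 := abs_le.1 (hp (c + 5 / 2 * h) (by linarith) (by linarith))
  have e4 := abs_le.1 (hp (c + 7 / 2 * h) (by linarith) (by linarith))
  simp only [add_sub_cancel_left] at e1 e2 e3 e4
  generalize f (c + 1 / 2 * h) = y1 at *
  generalize f (c + 3 / 2 * h) = y2 at *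
  generalize f (c + 5 / 2 * h) = y3 at *
  generalize f (c + 7 / 2 * h) = y4 at *
  generalize ∫ u in c..(c + 4 * h), f u = F at *
  set B := 32 / 3 * h ^ 3 * J with hB
  have hJ4 : 0 ≤ h ^ 4 * J := by positivity
  have hS1 : 13 * y1 + 11 * y2 + 11 * y3 + 13 * y4 ≤
      48 * p0 + 96 * h * p1 + 256 * h ^ 2 * p2 + 768 * h ^ 3 * p3 + 48 * B := by
    linarith [e1.2, e2.2, e3.2, e4.2]
  have hS2 : 48 * p0 + 96 * h * p1 + 256 * h ^ 2 * p2 + 768 * h ^ 3 * p3 - 48 * B ≤
      13 * y1 + 11 * y2 + 11 * y3 + 13 * y4 := by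
    linarith [e1.1, e2.1, e3.1, e4.1]
  have hT1 := mul_le_mul_of_nonneg_left hS1 (by positivity : 0 ≤ h / 12)
  have hT2 := mul_le_mul_of_nonneg_left hS2 (by positivity : 0 ≤ h / 12)
  have hBh : B * h = 32 / 3 * (h ^ 4 * J) := by rw [hB]; ring
  rw [abs_le]
  constructor
  · linarith [h1.1, h1.2]
  · linarith [h1.1, h1.2]

theorem quad_aux_Q1 {f M : ℝ → ℝ} (hf : ContDiff ℝ 4 f) (hM : ∀ u, |iteratedDeriv 4 f u| ≤ M u)
    {a h : ℝ} (hh : 0 < h) (p : ℕ)
    (hi : IntervalIntegrable M volume a (a + (4 * p : ℕ) * h)) :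
    |Q1 a h (4 * p) f - ∫ u in a..(a + (4 * p : ℕ) * h), f u| ≤
      86 * h ^ 4 * ∫ u in a..(a + (4 * p : ℕ) * h), M u := by
  induction p with
  | zero => simp [Q1]
  | succ p ih =>
    set c : ℝ := a + (4 * p : ℕ) * h with hc
    have hc4 : a + (4 * (p + 1) : ℕ) * h = c + 4 * h := by rw [hc]; push_cast; ring
    have hac : a ≤ c := by rw [hc]; have : (0 : ℝ) ≤ (4 * p : ℕ) * h := by positivity
                           linarith
    rw [hc4] at hi ⊢
    have hi1 : IntervalIntegrable M volume a c := hi.mono_set (by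
      rw [Set.uIcc_of_le hac, Set.uIcc_of_le (by linarith)]
      exact Set.Icc_subset_Icc le_rfl (by linarith))
    have hi2 : IntervalIntegrable M volume c (c + 4 * h) := hi.mono_set (by
      rw [Set.uIcc_of_le (by linarith), Set.uIcc_of_le (by linarith)]
      exact Set.Icc_subset_Icc hac le_rfl)
    have h1 := ih hi1
    have h2 := panel_Q1 hf hM hh hi2
    have hQ : Q1 a h (4 * (p + 1)) f = Q1 a h (4 * p) f +
        h / 12 * (13 * f (c + 1 / 2 * h) + 11 * f (c + 3 / 2 * h) + 11 * f (c + 5 / 2 * h) +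
          13 * f (c + 7 / 2 * h)) := by
      have w0 : wt (4 * p) = 13 := by unfold wt; rw [if_pos (by omega)]
      have w1 : wt (4 * p + 1) = 11 := by unfold wt; rw [if_neg (by omega)]
      have w2 : wt (4 * p + 1 + 1) = 11 := by unfold wt; rw [if_neg (by omega)]
      have w3 : wt (4 * p + 1 + 1 + 1) = 13 := by unfold wt; rw [if_pos (by omega)]
      have n0 : nd a h (4 * p) = c + 1 / 2 * h := by rw [hc, nd]; ring
      have n1 : nd a h (4 * p + 1) = c + 3 / 2 * h := by rw [hc, nd]; push_cast; ring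
      have n2 : nd a h (4 * p + 1 + 1) = c + 5 / 2 * h := by rw [hc, nd]; push_cast; ring
      have n3 : nd a h (4 * p + 1 + 1 + 1) = c + 7 / 2 * h := by rw [hc, nd]; push_cast; ring
      unfold Q1
      rw [show 4 * (p + 1) = 4 * p + 1 + 1 + 1 + 1 by ring, sum_range_succ, sum_range_succ,
        sum_range_succ, sum_range_succ, w0, w1, w2, w3, n0, n1, n2, n3]
      push_cast
      ring
    rw [hQ, ← intervalIntegral.integral_add_adjacent_intervals hi1 hi2,
      ← intervalIntegral.integral_add_adjacent_intervals (b := c)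
        (hf.continuous.intervalIntegrable _ _) (hf.continuous.intervalIntegrable _ _)]
    rw [abs_le] at h1 h2 ⊢
    constructor
    · linarith [h1.1, h2.1]
    · linarith [h1.2, h2.2]

theorem tele4_Q1 (g : ℕ → ℝ) (N : ℕ) :
    ∑ m ∈ range N, (g (m + 4) - g m) =
      g N + g (N + 1) + g (N + 2) + g (N + 3) - (g 0 + g 1 + g 2 + g 3) := by
  induction N with
  | zero => simp
  | succ N ih =>
    rw [sum_range_succ, ih]
    ring

theorem quad1 {f M : ℝ → ℝ} (hf : ContDiff ℝ 4 f) (hM : ∀ u, |iteratedDeriv 4 f u| ≤ M u)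
    {a h : ℝ} (hh : 0 < h) {n : ℕ} (hn : 4 ∣ n) (hi : IntervalIntegrable M volume a (a + n * h)) :
    |Q1 a h n f - ∫ u in a..(a + n * h), f u| ≤ 86 * h ^ 4 * ∫ u in a..(a + n * h), M u := by
  obtain ⟨p, rfl⟩ := hn
  exact quad_aux_Q1 hf hM hh p hi

theorem diff4 {f M : ℝ → ℝ} (hf : ContDiff ℝ 4 f) (hM : ∀ u, |iteratedDeriv 4 f u| ≤ M u)
    {a h : ℝ} (hh : 0 < h) (n : ℕ) (hi : IntervalIntegrable M volume a (a + n * h)) :
    ∑ m ∈ range (n - 4), |f (nd a h m) - 4 * f (nd a h (m + 1)) + 6 * f (nd a h (m + 2)) -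
        4 * f (nd a h (m + 3)) + f (nd a h (m + 4))| ≤
      700 * h ^ 3 * ∫ u in a..(a + n * h), M u := by
  have hM0 : ∀ u, 0 ≤ M u := fun u => (abs_nonneg _).trans (hM u)
  have hnh : (0 : ℝ) ≤ n * h := by positivity
  have hI : 0 ≤ ∫ u in a..(a + n * h), M u :=
    intervalIntegral.integral_nonneg (by linarith) fun u _ => hM0 u
  rcases lt_or_ge n 4 with hn | hn
  · rw [show n - 4 = 0 by omega, range_zero, sum_empty]
    positivity
  obtain ⟨N, rfl⟩ : ∃ N, n = N + 4 := ⟨n - 4, by omega⟩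
  rw [Nat.add_sub_cancel]
  set b : ℝ := a + (N + 4 : ℕ) * h with hb
  have hlo : ∀ m : ℕ, a ≤ nd a h m := fun m => by
    have : (0 : ℝ) ≤ (m + 1 / 2) * h := by positivity
    unfold nd
    linarith
  have hup : ∀ m : ℕ, m < N + 4 → nd a h m ≤ b := fun m hm => by
    have h1 : (m : ℝ) + 1 ≤ (N + 4 : ℕ) := by exact_mod_cast hm
    have h2 := mul_le_mul_of_nonneg_right h1 hh.le
    rw [hb, nd]
    linarith
  have hsub : ∀ x y, a ≤ x → x ≤ y → y ≤ b → IntervalIntegrable M volume x y :=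
    fun x y h1 h2 h3 => hi.mono_set (by
      rw [Set.uIcc_of_le h2, Set.uIcc_of_le (by linarith)]
      exact Set.Icc_subset_Icc h1 h3)
  set g : ℕ → ℝ := fun m => ∫ u in a..(nd a h m), M u with hg
  have hg0 : ∀ m, 0 ≤ g m := fun m => intervalIntegral.integral_nonneg (hlo m) fun u _ => hM0 u
  have hg1 : ∀ m, m < N + 4 → g m ≤ ∫ u in a..b, M u := fun m hm => by
    rw [← intervalIntegral.integral_add_adjacent_intervals (hsub _ _ le_rfl (hlo m) (hup m hm))
      (hsub _ _ (hlo m) (hup m hm) le_rfl)]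
    have : 0 ≤ ∫ u in (nd a h m)..b, M u :=
      intervalIntegral.integral_nonneg (hup m hm) fun u _ => hM0 u
    linarith
  have hterm : ∀ m ∈ range N, |f (nd a h m) - 4 * f (nd a h (m + 1)) + 6 * f (nd a h (m + 2)) -
      4 * f (nd a h (m + 3)) + f (nd a h (m + 4))| ≤ 512 / 3 * h ^ 3 * (g (m + 4) - g m) := by
    intro m hm
    have hm' : m < N := mem_range.1 hm
    set c := nd a h m with hc
    have n1 : nd a h (m + 1) = c + h := by rw [hc, nd, nd]; push_cast; ring
    have n2 : nd a h (m + 2) = c + 2 * h := by rw [hc, nd, nd]; push_cast; ring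
    have n3 : nd a h (m + 3) = c + 3 * h := by rw [hc, nd, nd]; push_cast; ring
    have n4 : nd a h (m + 4) = c + 4 * h := by rw [hc, nd, nd]; push_cast; ring
    have hcb : c + 4 * h ≤ b := by rw [← n4]; exact hup _ (by omega)
    have hi1 : IntervalIntegrable M volume a c := hsub _ _ le_rfl (hlo m) (by linarith)
    have hi2 : IntervalIntegrable M volume c (c + 4 * h) := hsub _ _ (hlo m) (by linarith) hcb
    have hgg : g (m + 4) - g m = ∫ u in c..(c + 4 * h), M u := by
      simp only [hg]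
      rw [n4, ← hc, ← intervalIntegral.integral_add_adjacent_intervals hi1 hi2]
      ring
    obtain ⟨p0, p1, p2, p3, hp⟩ := taylor3 hf hM hh hi2
    have e0 := abs_le.1 (hp c le_rfl (by linarith))
    have e1 := abs_le.1 (hp (c + h) (by linarith) (by linarith))
    have e2 := abs_le.1 (hp (c + 2 * h) (by linarith) (by linarith))
    have e3 := abs_le.1 (hp (c + 3 * h) (by linarith) (by linarith))
    have e4 := abs_le.1 (hp (c + 4 * h) (by linarith) (by linarith))
    simp only [add_sub_cancel_left, sub_self] at e0 e1 e2 e3 e4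
    rw [n1, n2, n3, n4, hgg, abs_le]
    constructor
    · linarith [e0.1, e1.2, e2.1, e3.2, e4.1]
    · linarith [e0.2, e1.1, e2.2, e3.1, e4.2]
  refine (sum_le_sum hterm).trans ?_
  rw [← mul_sum, tele4_Q1]
  have h0 := hg1 N (by omega)
  have h1 := hg1 (N + 1) (by omega)
  have h2 := hg1 (N + 2) (by omega)
  have h3 := hg1 (N + 3) (by omega)
  have h4 : g N + g (N + 1) + g (N + 2) + g (N + 3) - (g 0 + g 1 + g 2 + g 3) ≤
      4 * ∫ u in a..b, M u := by linarith [hg0 0, hg0 1, hg0 2, hg0 3]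
  have h5 : 0 ≤ h ^ 3 := by positivity
  have h6 := mul_le_mul_of_nonneg_left h4 h5
  have h7 := mul_nonneg h5 hI
  linarith

end Vale.Agent.P370.Nuc
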