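import Vale.Agent.P370.NucG

/-! Part E: the one-dimensional slab factors.

Plan.  With `g v = ∫ s in 0..v, exp (-(t^2 s^2))` (odd, derivative `exp (-(t^2 v^2))`): `As a t x = g (x + a) - g (x - a)`,
even in `x`, derivative `exp (-(t^2 (x + a)^2)) - exp (-(t^2 (x - a)^2)) ≤ 0` for `x ≥ 0` (`antitoneOn_of_deriv_nonpos`).
`As_sec`: for `0 ≤ s ≤ x ≤ a / 2` the derivative is at least `-4 t^2 a s exp (-t^2 a^2 / 4)` (`1 - exp (-y) ≤ y`), so
the difference is at most `2 t^2 a x^2 exp (-t^2 a^2 / 4)`, and `y exp (-y) ≤ 1` for `y = t^2 a^2 / 8`.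
`As_tail`: the difference is `2 ∫_{Ioi a}`, `(a + v)^2 ≥ a^2 + v^2`, `integral_gaussian_Ioi`.
`As_def`: `1 - exp (-y) ≤ y`, `|z - u| ≤ 2 c`. -/

namespace Vale.Agent.P370.Nuc

open MeasureTheory Finset

lemma slab1_cont (t : ℝ) : Continuous fun v : ℝ => Real.exp (-(t ^ 2 * v ^ 2)) := by fun_prop

lemma slab1_eq (a t x : ℝ) : As a t x = ∫ v in (x - a)..(x + a), Real.exp (-(t ^ 2 * v ^ 2)) := by
  rw [As, intervalIntegral.integral_comp_sub_left (fun v => Real.exp (-(t ^ 2 * v ^ 2))) x,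
    sub_neg_eq_add]

lemma slab1_neg (a t x : ℝ) : As a t (-x) = As a t x := by
  rw [slab1_eq, slab1_eq]
  have h := intervalIntegral.integral_comp_neg (a := x - a) (b := x + a)
    (fun v => Real.exp (-(t ^ 2 * v ^ 2)))
  simp only [neg_sq] at h
  rw [h]
  congr 1 <;> ring

lemma slab1_abs (a t x : ℝ) : As a t |x| = As a t x := by
  rcases abs_choice x with h | h <;> rw [h]
  exact slab1_neg a t x

lemma slab1_deriv (a t x : ℝ) : HasDerivAt (As a t)
    (Real.exp (-(t ^ 2 * (x + a) ^ 2)) - Real.exp (-(t ^ 2 * (x - a) ^ 2))) x := by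
  have hc := slab1_cont t
  have e : As a t = fun x => (∫ v in (0 : ℝ)..(x + a), Real.exp (-(t ^ 2 * v ^ 2))) -
      ∫ v in (0 : ℝ)..(x - a), Real.exp (-(t ^ 2 * v ^ 2)) := by
    funext x
    rw [slab1_eq, intervalIntegral.integral_interval_sub_left (hc.intervalIntegrable _ _)
      (hc.intervalIntegrable _ _)]
  rw [e]
  exact ((hc.integral_hasStrictDerivAt 0 (x + a)).hasDerivAt.comp_add_const x a).sub
    ((hc.integral_hasStrictDerivAt 0 (x - a)).hasDerivAt.comp_sub_const x a)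

lemma slab1_int {t : ℝ} (ht : 0 < t) : Integrable fun v : ℝ => Real.exp (-(t ^ 2 * v ^ 2)) := by
  simpa only [neg_mul] using integrable_exp_neg_mul_sq (pow_pos ht 2)

lemma slab1_sqrt {t : ℝ} (ht : 0 < t) : √(Real.pi / t ^ 2) = √Real.pi / t := by
  rw [Real.sqrt_div Real.pi_pos.le, Real.sqrt_sq ht.le]

theorem As_nonneg {a : ℝ} (ha : 0 ≤ a) (t x : ℝ) : 0 ≤ As a t x := by
  exact intervalIntegral.integral_nonneg (by linarith) fun u _ => (Real.exp_pos _).le

theorem As_le {a : ℝ} (ha : 0 ≤ a) (t x : ℝ) : As a t x ≤ 2 * a := by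
  have h := intervalIntegral.integral_mono_on (μ := volume) (a := -a) (b := a) (by linarith)
    (f := fun u => Real.exp (-(t ^ 2 * (x - u) ^ 2))) (g := fun _ => (1 : ℝ))
    (Continuous.intervalIntegrable (by fun_prop) _ _) (by simp)
    fun u _ => Real.exp_le_one_iff.2 (neg_nonpos.2 (by positivity))
  rw [intervalIntegral.integral_const, smul_eq_mul] at h
  exact h.trans_eq (by ring)

theorem As_le' {a t : ℝ} (ha : 0 ≤ a) (ht : 0 < t) (x : ℝ) : As a t x ≤ √Real.pi / t := by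
  have h := integral_gaussian (t ^ 2)
  simp only [neg_mul] at h
  rw [slab1_eq, intervalIntegral.integral_of_le (by linarith), ← slab1_sqrt ht, ← h]
  exact setIntegral_le_integral (slab1_int ht) (ae_of_all _ fun v => (Real.exp_pos _).le)

theorem continuous_As (a x : ℝ) : Continuous fun t => As a t x := by
  unfold As
  exact intervalIntegral.continuous_parametric_intervalIntegral_of_continuous' (by fun_prop) _ _

theorem As_anti {a : ℝ} (ha : 0 ≤ a) (t : ℝ) {x x' : ℝ} (h : |x'| ≤ |x|) : As a t x ≤ As a t x' := by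
  rw [← slab1_abs a t x, ← slab1_abs a t x']
  have hd : Differentiable ℝ (As a t) := fun x => (slab1_deriv a t x).differentiableAt
  refine antitoneOn_of_deriv_nonpos (convex_Ici 0) hd.continuous.continuousOn
    hd.differentiableOn (fun s hs => ?_) (abs_nonneg x') (abs_nonneg x) h
  rw [interior_Ici] at hs
  rw [(slab1_deriv a t s).deriv, sub_nonpos, Real.exp_le_exp]
  have h1 : 0 ≤ t ^ 2 * (a * s) := mul_nonneg (sq_nonneg _) (mul_nonneg ha (le_of_lt hs))
  nlinarith

theorem As_sec {a : ℝ} (ha : 0 < a) (t : ℝ) {x : ℝ} (h : |x| ≤ a / 2) :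
    As a t 0 - As a t x ≤ 16 * x ^ 2 / a * Real.exp (-(t ^ 2 * a ^ 2 / 8)) := by
  rw [← slab1_abs a t x, ← sq_abs x]
  set E := Real.exp (-(t ^ 2 * a ^ 2 / 8)) with hE
  have hE0 : 0 < E := Real.exp_pos _
  have hder : ∀ s, HasDerivAt (fun s => As a t s + 2 * t ^ 2 * a * E ^ 2 * s ^ 2)
      (Real.exp (-(t ^ 2 * (s + a) ^ 2)) - Real.exp (-(t ^ 2 * (s - a) ^ 2)) +
        2 * t ^ 2 * a * E ^ 2 * (2 * s)) s := fun s =>
    (slab1_deriv a t s).add (by simpa using (hasDerivAt_pow 2 s).const_mul (2 * t ^ 2 * a * E ^ 2))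
  have hd : Differentiable ℝ fun s => As a t s + 2 * t ^ 2 * a * E ^ 2 * s ^ 2 :=
    fun s => (hder s).differentiableAt
  have hm := monotoneOn_of_deriv_nonneg (convex_Icc 0 (a / 2)) hd.continuous.continuousOn
    hd.differentiableOn (fun s hs => by
      rw [interior_Icc] at hs
      rw [(hder s).deriv]
      have h0 : 0 ≤ t ^ 2 * (a * s) := mul_nonneg (sq_nonneg _) (mul_nonneg ha.le hs.1.le)
      have h1 : Real.exp (-(t ^ 2 * (s + a) ^ 2)) =
          Real.exp (-(t ^ 2 * (s - a) ^ 2)) * Real.exp (-(4 * (t ^ 2 * (a * s)))) := by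
        rw [← Real.exp_add]
        congr 1
        ring
      have h2 := Real.add_one_le_exp (-(4 * (t ^ 2 * (a * s))))
      have h3 : Real.exp (-(t ^ 2 * (s - a) ^ 2)) ≤ E ^ 2 := by
        rw [hE, ← Real.exp_nat_mul, Real.exp_le_exp]
        have h4 : (a / 2) ^ 2 ≤ (a - s) ^ 2 := pow_le_pow_left₀ (by linarith) (by linarith [hs.2]) 2
        have h5 := mul_le_mul_of_nonneg_left h4 (sq_nonneg t)
        push_cast
        nlinarith
      have h6 := mul_le_mul_of_nonneg_left h2 (Real.exp_pos (-(t ^ 2 * (s - a) ^ 2))).le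
      have h7 := mul_le_mul_of_nonneg_right h3 h0
      rw [h1]
      nlinarith) ⟨le_rfl, by linarith⟩ ⟨abs_nonneg x, h⟩ (abs_nonneg x)
  have h8 : t ^ 2 * a ^ 2 / 8 * E ≤ 1 := by
    have h9 := Real.add_one_le_exp (t ^ 2 * a ^ 2 / 8)
    have h10 : Real.exp (t ^ 2 * a ^ 2 / 8) * E = 1 := by rw [hE, ← Real.exp_add]; simp
    nlinarith
  have h11 : 2 * t ^ 2 * a * E ^ 2 * |x| ^ 2 = 16 * |x| ^ 2 / a * E * (t ^ 2 * a ^ 2 / 8 * E) := by
    field_simp
    ring
  have h12 : 0 ≤ 16 * |x| ^ 2 / a * E := by positivity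
  have h13 := mul_le_mul_of_nonneg_left h8 h12
  simp only at hm
  linarith

theorem As_tail {a t : ℝ} (ha : 0 ≤ a) (ht : 0 < t) :
    √Real.pi / t - As a t 0 ≤ √Real.pi / t * Real.exp (-(t ^ 2 * a ^ 2)) := by
  have hi := slab1_int ht
  have hc := slab1_cont t
  have h0 := integral_gaussian_Ioi (t ^ 2)
  simp only [neg_mul, slab1_sqrt ht] at h0
  have h1 := intervalIntegral.integral_interval_add_Ioi (a := 0) (b := a) hi.integrableOn
    hi.integrableOn
  have h2 := intervalIntegral.integral_comp_neg (a := 0) (b := a)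
    (fun v => Real.exp (-(t ^ 2 * v ^ 2)))
  simp only [neg_sq, neg_zero] at h2
  have h3 := intervalIntegral.integral_add_adjacent_intervals (hc.intervalIntegrable (μ := volume) (-a) 0)
    (hc.intervalIntegrable 0 a)
  have h4 : As a t 0 = ∫ v in (-a)..a, Real.exp (-(t ^ 2 * v ^ 2)) := by
    rw [slab1_eq, zero_sub, zero_add]
  have h5 := (measurePreserving_add_right volume a).setIntegral_preimage_emb
    (measurableEmbedding_addRight a) (fun v => Real.exp (-(t ^ 2 * v ^ 2))) (Set.Ioi a)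
  rw [Set.preimage_add_const_Ioi, sub_self] at h5
  have h6 : ∫ v in Set.Ioi (0 : ℝ), Real.exp (-(t ^ 2 * (v + a) ^ 2)) ≤
      ∫ v in Set.Ioi (0 : ℝ), Real.exp (-(t ^ 2 * v ^ 2)) * Real.exp (-(t ^ 2 * a ^ 2)) := by
    refine setIntegral_mono_on (hi.comp_add_right a).integrableOn (hi.mul_const _).integrableOn
      measurableSet_Ioi fun v hv => ?_
    rw [← Real.exp_add, Real.exp_le_exp]
    have h7 : 0 ≤ t ^ 2 * (a * v) := mul_nonneg (sq_nonneg _) (mul_nonneg ha (le_of_lt hv))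
    nlinarith
  rw [integral_mul_const, h0] at h6
  linarith

theorem As_def {c z : ℝ} (h : |z| ≤ c) (t : ℝ) : 2 * c - As c t z ≤ 8 * c ^ 3 * t ^ 2 := by
  have hc : 0 ≤ c := (abs_nonneg z).trans h
  have h1 := intervalIntegral.integral_mono_on (μ := volume) (a := -c) (b := c) (by linarith)
    (g := fun u => Real.exp (-(t ^ 2 * (z - u) ^ 2))) (f := fun _ => 1 - t ^ 2 * (2 * c) ^ 2)
    (by simp) (Continuous.intervalIntegrable (by fun_prop) _ _) fun u hu => by
      have h2 := Real.add_one_le_exp (-(t ^ 2 * (z - u) ^ 2))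
      have h3 : (z - u) ^ 2 ≤ (2 * c) ^ 2 :=
        sq_le_sq' (by linarith [(abs_le.1 h).1, hu.2]) (by linarith [(abs_le.1 h).2, hu.1])
      have h4 := mul_le_mul_of_nonneg_left h3 (sq_nonneg t)
      linarith
  rw [intervalIntegral.integral_const, smul_eq_mul] at h1
  unfold As
  linarith

end Vale.Agent.P370.Nuc
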