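import Vale.Agent.P370.NucSlab1

/-! Part E: the integral of `1 / r` over a rectangle with sides in the ratio `4 : 3`.

Plan.  Integrability: `As ≤ 2 a` for `t ≤ 1`, `As ≤ √π / t` for `t ≥ 1`.  Let `α t = t * As a t 0 = 2 ∫_0^{a t} exp (-s^2)`,
`α' = 2 a exp (-(t^2 a^2))`, the same for `β`.  Then `d/dt (-(t A B)) = A B - 2 a exp (-t^2 a^2) B - 2 b exp (-t^2 b^2) A`
for `t > 0` (`t A B = α β / t`), and `t A B → 0` at `0` and at `∞` (`integral_Ioi_of_hasDerivAt_of_tendsto`).
`slab_aux`: Fubini, `∫_0^∞ exp (-t^2 (a^2 + v^2)) dt = √π / (2 √(a^2 + v^2))` (`integral_gaussian_Ioi`), and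
`d/dv arsinh (v / a) = 1 / √(a^2 + v^2)` (`Real.hasDerivAt_arsinh`).
Finally `arsinh (3/4) = log 2`, `arsinh (4/3) = log 3` (`Real.arsinh`, `√(1 + x^2) = 5/4, 5/3`). -/

namespace Vale.Agent.P370.Nuc

open MeasureTheory Finset

theorem slab2_gauss {a : ℝ} (ha : 0 < a) :
    IntegrableOn (fun t : ℝ => Real.exp (-(t ^ 2 * a ^ 2))) (Set.Ioi 0) := by
  have h := (integrable_exp_neg_mul_sq (pow_pos ha 2)).integrableOn (s := Set.Ioi 0)
  refine h.congr_fun (fun t _ => ?_) measurableSet_Ioi
  simp only [neg_mul, mul_comm (a ^ 2)]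

theorem slab2_inner {a : ℝ} (ha : 0 < a) (u : ℝ) :
    ∫ t in Set.Ioi (0 : ℝ), Real.exp (-(t ^ 2 * a ^ 2)) * Real.exp (-(t ^ 2 * (0 - u) ^ 2)) =
      √Real.pi / 2 * ((√(1 + (u / a) ^ 2))⁻¹ * (1 / a)) := by
  have h1 : ∀ t : ℝ, Real.exp (-(t ^ 2 * a ^ 2)) * Real.exp (-(t ^ 2 * (0 - u) ^ 2)) =
      Real.exp (-(a ^ 2 + u ^ 2) * t ^ 2) := fun t => by
    rw [← Real.exp_add]
    congr 1
    ring
  have h2 : a ^ 2 + u ^ 2 = a ^ 2 * (1 + (u / a) ^ 2) := by field_simp
  have h3 : 0 < √(1 + (u / a) ^ 2) := Real.sqrt_pos.2 (by positivity)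
  simp only [h1]
  rw [integral_gaussian_Ioi, Real.sqrt_div Real.pi_pos.le, h2, Real.sqrt_mul (sq_nonneg a),
    Real.sqrt_sq ha.le]
  field_simp

theorem slab_aux {a b : ℝ} (ha : 0 < a) (hb : 0 ≤ b) :
    IntegrableOn (fun t => Real.exp (-(t ^ 2 * a ^ 2)) * As b t 0) (Set.Ioi 0) ∧
      ∫ t in Set.Ioi (0 : ℝ), Real.exp (-(t ^ 2 * a ^ 2)) * As b t 0 =
        √Real.pi * Real.arsinh (b / a) := by
  constructor
  · refine ((slab2_gauss ha).mul_const (2 * b)).mono' ?_ (Filter.Eventually.of_forall fun t => ?_)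
    · exact (Continuous.mul (by fun_prop) (continuous_As b 0)).aestronglyMeasurable
    · rw [Real.norm_of_nonneg (mul_nonneg (Real.exp_pos _).le (As_nonneg hb t 0))]
      exact mul_le_mul_of_nonneg_left (As_le hb t 0) (Real.exp_pos _).le
  · have hi : Integrable (Function.uncurry fun t u : ℝ =>
        Real.exp (-(t ^ 2 * a ^ 2)) * Real.exp (-(t ^ 2 * (0 - u) ^ 2)))
        ((volume.restrict (Set.Ioi 0)).prod (volume.restrict (Set.Ioc (-b) b))) := by
      refine (Integrable.mul_prod (slab2_gauss ha) (integrable_const (1 : ℝ))).mono' ?_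
        (Filter.Eventually.of_forall fun p => ?_)
      · refine Continuous.aestronglyMeasurable ?_
        unfold Function.uncurry
        fun_prop
      · change ‖Real.exp (-(p.1 ^ 2 * a ^ 2)) * Real.exp (-(p.1 ^ 2 * (0 - p.2) ^ 2))‖ ≤ _
        rw [Real.norm_of_nonneg (by positivity)]
        exact mul_le_mul_of_nonneg_left
          (Real.exp_le_one_iff.2 (neg_nonpos.2 (by positivity))) (Real.exp_pos _).le
    have h1 := integral_integral_swap hi
    have hb' : -b ≤ b := by linarith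
    simp only [slab2_inner ha] at h1
    simp only [As, intervalIntegral.integral_of_le hb', ← integral_const_mul]
    rw [h1, ← intervalIntegral.integral_of_le hb', intervalIntegral.integral_const_mul,
      intervalIntegral.integral_eq_sub_of_hasDerivAt (f := fun u => Real.arsinh (u / a))]
    · rw [neg_div, Real.arsinh_neg]
      ring
    · intro u _
      have h2 := HasDerivAt.comp (h₂ := Real.arsinh) (h := fun u => u / a) u
        (Real.hasDerivAt_arsinh (u / a)) ((hasDerivAt_id u).div_const a)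
      exact h2
    · refine Continuous.intervalIntegrable (Continuous.mul (Continuous.inv₀ (by fun_prop)
        fun u => (Real.sqrt_pos.2 (by positivity)).ne') continuous_const) _ _

theorem slab2_deriv (a t : ℝ) :
    HasDerivAt (fun t => t * As a t 0) (2 * a * Real.exp (-(t ^ 2 * a ^ 2))) t := by
  have hc : Continuous fun s : ℝ => Real.exp (-s ^ 2) := by fun_prop
  have hG : ∀ v, HasDerivAt (fun v => ∫ s in (0 : ℝ)..v, Real.exp (-s ^ 2)) (Real.exp (-v ^ 2)) v :=
    fun v => (hc.integral_hasStrictDerivAt 0 v).hasDerivAt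
  have h1 : (fun t => t * As a t 0) = fun t => (∫ s in (0 : ℝ)..(t * a), Real.exp (-s ^ 2)) -
      ∫ s in (0 : ℝ)..(t * -a), Real.exp (-s ^ 2) := by
    funext t
    rw [intervalIntegral.integral_interval_sub_left (hc.intervalIntegrable _ _)
      (hc.intervalIntegrable _ _),
      ← intervalIntegral.mul_integral_comp_mul_left (f := fun s => Real.exp (-s ^ 2)), As]
    congr 2
    funext u
    congr 1
    ring
  have h2 := ((hG (t * a)).comp t ((hasDerivAt_id t).mul_const a)).sub
    ((hG (t * -a)).comp t ((hasDerivAt_id t).mul_const (-a)))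
  rw [h1]
  refine h2.congr_deriv ?_
  rw [mul_neg t, neg_sq, mul_pow]
  ring

theorem slab2_int {a b : ℝ} (ha : 0 ≤ a) (hb : 0 ≤ b) :
    IntegrableOn (fun t => As a t 0 * As b t 0) (Set.Ioi 0) := by
  refine (integrable_inv_one_add_sq.const_mul (2 * a * (2 * b) + Real.pi)).integrableOn.mono'
    ((continuous_As a 0).mul (continuous_As b 0)).aestronglyMeasurable ?_
  refine (ae_restrict_iff' measurableSet_Ioi).2 (Filter.Eventually.of_forall fun t ht => ?_)
  have ht' : 0 < t := ht
  have h1 := mul_le_mul (As_le ha t 0) (As_le hb t 0) (As_nonneg hb t 0) (by linarith)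
  have h2 := mul_le_mul (As_le' ha ht' 0) (As_le' hb ht' 0) (As_nonneg hb t 0) (by positivity)
  rw [div_mul_div_comm, Real.mul_self_sqrt Real.pi_pos.le, le_div_iff₀ (by positivity)] at h2
  rw [Real.norm_of_nonneg (mul_nonneg (As_nonneg ha t 0) (As_nonneg hb t 0)), ← div_eq_mul_inv,
    le_div_iff₀ (by positivity)]
  linarith

theorem slab2_val {a b : ℝ} (ha : 0 < a) (hb : 0 < b) :
    ∫ t in Set.Ioi (0 : ℝ), As a t 0 * As b t 0 =
      2 * a * (√Real.pi * Real.arsinh (b / a)) + 2 * b * (√Real.pi * Real.arsinh (a / b)) := by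
  obtain ⟨i1, e1⟩ := slab_aux ha hb.le
  obtain ⟨i2, e2⟩ := slab_aux hb ha.le
  have i3 := slab2_int ha.le hb.le
  have i4 : IntegrableOn (fun t => 2 * a * (Real.exp (-(t ^ 2 * a ^ 2)) * As b t 0) +
      2 * b * (Real.exp (-(t ^ 2 * b ^ 2)) * As a t 0)) (Set.Ioi 0) :=
    (i1.const_mul (2 * a)).add (i2.const_mul (2 * b))
  have h := integral_Ioi_of_hasDerivAt_of_tendsto (a := 0) (m := 0)
    (f := fun t => -(t * As a t 0 * As b t 0))
    (f' := fun t => As a t 0 * As b t 0 - (2 * a * (Real.exp (-(t ^ 2 * a ^ 2)) * As b t 0) +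
      2 * b * (Real.exp (-(t ^ 2 * b ^ 2)) * As a t 0)))
    ((continuous_id.mul (continuous_As a 0)).mul (continuous_As b 0)).neg.continuousWithinAt
    (fun t ht => ?_) (i3.sub i4) ?_
  · rw [integral_sub i3 i4, integral_add (i1.const_mul _) (i2.const_mul _), integral_const_mul,
      integral_const_mul, e1, e2] at h
    simp only [zero_mul, neg_zero, sub_zero] at h
    linarith
  · have ht' : t ≠ 0 := ne_of_gt ht
    have h1 := (((slab2_deriv a t).mul (slab2_deriv b t)).div (hasDerivAt_id t) ht').neg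
    refine (h1.congr_of_eventuallyEq ?_).congr_deriv ?_
    · filter_upwards [eventually_ne_nhds ht'] with s hs
      simp only [Pi.neg_apply, Pi.div_apply, Pi.mul_apply, id]
      field_simp
    · simp only [Pi.mul_apply, id]
      field_simp
      ring
  · suffices h1 : Filter.Tendsto (fun t => t * As a t 0 * As b t 0) Filter.atTop (nhds 0) by
      simpa using h1.neg
    refine squeeze_zero' ?_ ?_
      (Filter.Tendsto.div_atTop (tendsto_const_nhds (x := Real.pi)) Filter.tendsto_id)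
    · filter_upwards [Filter.eventually_gt_atTop 0] with t ht
      exact mul_nonneg (mul_nonneg ht.le (As_nonneg ha.le t 0)) (As_nonneg hb.le t 0)
    · filter_upwards [Filter.eventually_gt_atTop 0] with t ht
      have h2 := mul_le_mul (As_le' ha.le ht 0) (As_le' hb.le ht 0) (As_nonneg hb.le t 0)
        (by positivity)
      rw [div_mul_div_comm, Real.mul_self_sqrt Real.pi_pos.le, le_div_iff₀ (by positivity)] at h2
      rw [id, le_div_iff₀ ht]
      linarith

theorem slab2_log2 : Real.arsinh (3 / 4) = Real.log 2 := by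
  have h : √(1 + (3 / 4 : ℝ) ^ 2) = 5 / 4 := by
    rw [Real.sqrt_eq_iff_mul_self_eq (by norm_num) (by norm_num)]
    norm_num
  rw [Real.arsinh, h]
  norm_num

theorem slab2_log3 : Real.arsinh (4 / 3) = Real.log 3 := by
  have h : √(1 + (4 / 3 : ℝ) ^ 2) = 5 / 3 := by
    rw [Real.sqrt_eq_iff_mul_self_eq (by norm_num) (by norm_num)]
    norm_num
  rw [Real.arsinh, h]
  norm_num

theorem slab_J {L : ℝ} (hL : 0 < L) :
    IntegrableOn (fun t => As (4 * L) t 0 * As (3 * L) t 0) (Set.Ioi 0) ∧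
      2 / √Real.pi * ∫ t in Set.Ioi (0 : ℝ), As (4 * L) t 0 * As (3 * L) t 0 =
        4 * L * (4 * Real.log 2 + 3 * Real.log 3) := by
  refine ⟨slab2_int (by linarith) (by linarith), ?_⟩
  have h0 : √Real.pi ≠ 0 := (Real.sqrt_pos.2 Real.pi_pos).ne'
  rw [slab2_val (by linarith) (by linarith), mul_div_mul_right _ _ hL.ne',
    mul_div_mul_right _ _ hL.ne', slab2_log2, slab2_log3]
  field_simp
  ring

end Vale.Agent.P370.Nuc
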