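import Vale.Agent.P370.NucG

/-! Part E: Taylor estimates in one variable.

Plan.  `taylor_bd`: induction on `n` with integration by parts, or `taylor_integral_remainder`
(`iteratedDerivWithin_eq_iteratedDeriv` on `uIcc`), then bound `(u - t) ^ n ≤ (u - c) ^ n`.
`taylor3`: `n = 3`, `Finset.sum_range_succ`; enlarge the interval with
`intervalIntegral.integral_mono_interval`.
`fd2`: `n = 2` for `f` and for `v ↦ f (-v)` (`iteratedDeriv_comp_neg`), or apply the mean value
inequality to `g η = f (u + η) + f (u - η) - 2 f u - η ^ 2 f'' u` (`g` and two derivatives vanish at `0`, the third is at most `2 A`). -/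

namespace Vale.Agent.P370.Nuc

open MeasureTheory Finset

lemma tay_deriv {f : ℝ → ℝ} (u t : ℝ) (n : ℕ)
    (hf : ∀ i ≤ n, HasDerivAt (iteratedDeriv i f) (iteratedDeriv (i + 1) f t) t) :
    HasDerivAt (fun t => ∑ i ∈ range (n + 1), iteratedDeriv i f t * (u - t) ^ i / i.factorial)
      (iteratedDeriv (n + 1) f t * (u - t) ^ n / n.factorial) t := by
  induction n with
  | zero => simpa using hf 0 le_rfl
  | succ n ih =>
    simp only [sum_range_succ _ (n + 1)]
    have h1 := ih fun i hi => hf i (hi.trans n.le_succ)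
    have h2 := ((hf (n + 1) le_rfl).mul
      (((hasDerivAt_id t).const_sub u).pow (n + 1))).div_const ((n + 1).factorial : ℝ)
    refine HasDerivAt.congr_deriv (h1.add h2) ?_
    have h3 : (n.factorial : ℝ) ≠ 0 := by positivity
    have h4 : ((n : ℝ) + 1) ≠ 0 := by positivity
    simp only [Nat.factorial_succ, Nat.cast_mul, Nat.cast_add, Nat.cast_one, Pi.pow_apply, id,
      Nat.add_sub_cancel]
    field_simp
    ring

lemma tay_abs {n : ℕ} {f : ℝ → ℝ} (hf : ContDiff ℝ (n + 1 : ℕ) f) (c u : ℝ) :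
    f u - ∑ i ∈ range (n + 1), iteratedDeriv i f c * (u - c) ^ i / i.factorial =
      ∫ t in c..u, iteratedDeriv (n + 1) f t * (u - t) ^ n / n.factorial := by
  have hc : Continuous (iteratedDeriv (n + 1) f) := hf.continuous_iteratedDeriv _ le_rfl
  rw [intervalIntegral.integral_eq_sub_of_hasDerivAt (fun t _ => tay_deriv u t n fun i hi => ?_)
    (Continuous.intervalIntegrable (by fun_prop) _ _)]
  · simp [sum_range_succ']
  · rw [iteratedDeriv_succ]
    exact (hf.differentiable_iteratedDeriv i (by exact_mod_cast Nat.lt_succ_of_le hi) t).hasDerivAt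

theorem taylor_bd {n : ℕ} {f : ℝ → ℝ} (hf : ContDiff ℝ (n + 1 : ℕ) f) {c u : ℝ} (h : c ≤ u) :
    |f u - ∑ i ∈ range (n + 1), iteratedDeriv i f c * (u - c) ^ i / i.factorial| ≤
      (u - c) ^ n / n.factorial * ∫ t in c..u, |iteratedDeriv (n + 1) f t| := by
  have hc : Continuous (iteratedDeriv (n + 1) f) := hf.continuous_iteratedDeriv _ le_rfl
  rw [tay_abs hf, ← intervalIntegral.integral_const_mul]
  refine (intervalIntegral.abs_integral_le_integral_abs h).trans
    (intervalIntegral.integral_mono_on h (Continuous.intervalIntegrable (by fun_prop) _ _)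
      (Continuous.intervalIntegrable (by fun_prop) _ _) fun t ht => ?_)
  rw [abs_div, abs_mul, abs_of_nonneg (pow_nonneg (sub_nonneg.2 ht.2) n), Nat.abs_cast, mul_comm,
    mul_div_right_comm]
  have h1 := ht.1
  have h2 := sub_nonneg.2 ht.2
  gcongr

/-- on `[c, c + 4 h]` the function is close to a cubic polynomial -/
theorem taylor3 {f M : ℝ → ℝ} (hf : ContDiff ℝ 4 f) (hM : ∀ u, |iteratedDeriv 4 f u| ≤ M u)
    {c h : ℝ} (hh : 0 < h) (hi : IntervalIntegrable M volume c (c + 4 * h)) :
    ∃ p0 p1 p2 p3 : ℝ, ∀ u, c ≤ u → u ≤ c + 4 * h →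
      |f u - (p0 + p1 * (u - c) + p2 * (u - c) ^ 2 + p3 * (u - c) ^ 3)| ≤
        32 / 3 * h ^ 3 * ∫ t in c..(c + 4 * h), M t := by
  refine ⟨iteratedDeriv 0 f c, iteratedDeriv 1 f c, iteratedDeriv 2 f c / 2,
    iteratedDeriv 3 f c / 6, fun u h1 h2 => ?_⟩
  have h3 := taylor_bd (n := 3) hf h1
  have hc : Continuous (iteratedDeriv 4 f) := hf.continuous_iteratedDeriv _ le_rfl
  have h4 : ∫ t in c..u, |iteratedDeriv 4 f t| ≤ ∫ t in c..(c + 4 * h), M t :=
    (intervalIntegral.integral_mono_interval le_rfl h1 h2 (ae_of_all _ fun t => abs_nonneg _)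
      (hc.abs.intervalIntegrable _ _)).trans
      (intervalIntegral.integral_mono_on (h1.trans h2) (hc.abs.intervalIntegrable _ _) hi
        fun t _ => hM t)
  have h5 : 0 ≤ ∫ t in c..u, |iteratedDeriv 4 f t| :=
    intervalIntegral.integral_nonneg h1 fun t _ => abs_nonneg _
  have h6 : (u - c) ^ 3 ≤ (4 * h) ^ 3 := pow_le_pow_left₀ (by linarith) (by linarith) 3
  simp only [sum_range_succ, range_zero, sum_empty, Nat.factorial] at h3
  refine le_trans (le_of_eq ?_) (h3.trans (mul_le_mul (by norm_num; linarith) h4 h5 (by positivity)))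
  congr 1
  norm_num
  ring

theorem fd2 {f : ℝ → ℝ} (hf : ContDiff ℝ 3 f) {A : ℝ} (hA : ∀ u, |iteratedDeriv 3 f u| ≤ A)
    {η : ℝ} (hη : 0 < η) (u : ℝ) :
    |(f (u + η) + f (u - η) - 2 * f u) / η ^ 2 - iteratedDeriv 2 f u| ≤ A * η := by
  have hc : Continuous (iteratedDeriv 3 f) := hf.continuous_iteratedDeriv _ le_rfl
  have key : ∀ v, |v - u| = η → |∫ t in u..v, iteratedDeriv (2 + 1) f t * (v - t) ^ 2 /
      ((2 : ℕ).factorial : ℝ)| ≤ A * η ^ 2 / 2 * η := by
    intro v hv
    have := intervalIntegral.norm_integral_le_of_norm_le_const (a := u) (b := v)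
      (f := fun t => iteratedDeriv (2 + 1) f t * (v - t) ^ 2 / ((2 : ℕ).factorial : ℝ))
      (C := A * η ^ 2 / 2) fun t ht => by
        have h1 : |v - t| ≤ η := by
          rw [← hv]
          exact Set.abs_sub_right_of_mem_uIcc (Set.uIoc_subset_uIcc ht)
        rw [Real.norm_eq_abs, abs_div, abs_mul, abs_pow]
        have h2 := hA t
        have h3 := (abs_nonneg _).trans h2
        norm_num [Nat.factorial]
        rw [← sq_abs (v - t)]
        gcongr
    rwa [hv] at this
  have h1 := key (u + η) (by simp [abs_of_pos hη])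
  have h2 := key (u - η) (by simp [abs_of_pos hη])
  rw [← tay_abs (n := 2) hf] at h1 h2
  simp only [sum_range_succ, range_zero, sum_empty, Nat.factorial, iteratedDeriv_zero] at h1 h2
  norm_num at h1 h2
  have h3 : (f (u + η) + f (u - η) - 2 * f u) / η ^ 2 - iteratedDeriv 2 f u =
      (f (u + η) + f (u - η) - 2 * f u - iteratedDeriv 2 f u * η ^ 2) / η ^ 2 := by
    field_simp
  rw [h3, abs_div, abs_of_pos (pow_pos hη 2), div_le_iff₀ (pow_pos hη 2), abs_le]
  rw [abs_le] at h1 h2
  constructor <;> linarith [h1.1, h1.2, h2.1, h2.2]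

end Vale.Agent.P370.Nuc
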