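import Vale.Agent.P370.NucGr
import Vale.Agent.P370.NucTay

/-! Part E: the charges.

Plan.  `fd_err`: `hV.cast` at the seven points, `pt (q.1 + η, ..) = update (pt q) 0 (pt q 0 + η)` etc., `fd2` on each axis
(`contDiff_ax`, `dax_update`, `dax_bd`), `lap_eq`.  `fd_zero`: the seven values of `V` vanish (`η ≤ 1`, `supp_V`).
`S4`: let `S i` be the list sum in `ee`; `S (i+1) - 4 S i + 6 S (i-1) - 4 S (i-2) + S (i-3) = tq i` (truncated subtraction,
`S 0 = 0`).  Proof: define `S1 i = ∑_{m<i} t m`, `S2 i = ∑_{m<i} (i - m) t m`, `S3 i = ∑_{m<i} (i-m)(i-m+1)/2 t m`; then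
`S (i+1) - S i = S3 (i+1)`, `S3 (i+1) - S3 i = S2 (i+1)`, `S2 (i+1) - S2 i = S1 (i+1)`, `S1 (i+1) - S1 i = t i`, all vanish at `0`;
cases `i = 0, 1, 2, i + 3`.  `ee` is a fractional part (`Int.fract_nonneg`, `Int.fract_lt_one`; `Int.floor_le`, `Int.lt_floor_add_one`).
`ee_zero`: all `tq m j k` vanish.  `11 ≤ wt ≤ 13`. -/

namespace Vale.Agent.P370.Nuc

open MeasureTheory Finset

variable {b : ℕ} {Vq : ℚ × ℚ × ℚ → ℚ} {V : E3 → ℝ}


private theorem z_fd (hV : VOK b Vq V) (i j k : ℕ) : fdR b Vq i j k =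
    ∑ l, (V (Function.update ((gr b).gp i j k) l ((gr b).gp i j k l + (gr b).h ^ 4)) +
      V (Function.update ((gr b).gp i j k) l ((gr b).gp i j k l - (gr b).h ^ 4)) -
      2 * V ((gr b).gp i j k)) / ((gr b).h ^ 4) ^ 2 := by
  rw [gr_gp, ← hh_cast, fdR]
  generalize gpx b i = x
  generalize gpy b j = y
  generalize gpz b k = z
  rw [← Rat.cast_pow]
  generalize hh b ^ 4 = η
  have e0 : ∀ t : ℚ, Function.update (pt (x, y, z)) 0 (t : ℝ) = pt (t, y, z) := fun t => by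
    funext l
    fin_cases l <;> rfl
  have e1 : ∀ t : ℚ, Function.update (pt (x, y, z)) 1 (t : ℝ) = pt (x, t, z) := fun t => by
    funext l
    fin_cases l <;> rfl
  have e2 : ∀ t : ℚ, Function.update (pt (x, y, z)) 2 (t : ℝ) = pt (x, y, t) := fun t => by
    funext l
    fin_cases l <;> rfl
  have p0 : pt (x, y, z) 0 = x := rfl
  have p1 : pt (x, y, z) 1 = y := rfl
  have p2 : pt (x, y, z) 2 = z := rfl
  rw [Fin.sum_univ_three, p0, p1, p2]
  simp only [← Rat.cast_add, ← Rat.cast_sub, e0, e1, e2, ← hV.cast, lapFD]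
  push_cast
  ring

private theorem z_h (b : ℕ) : 0 < (gr b).h ^ 4 ∧ (gr b).h ^ 4 ≤ 1 := by
  refine ⟨pow_pos (gr_h_pos b) 4, pow_le_one₀ (gr_h_pos b).le ?_⟩
  rw [gr_h, div_le_one (pow_pos (PR_pos b) _)]
  exact one_le_pow₀ (PR_one b)

private theorem z_S4 (t : ℕ → ℚ) (S : ℕ → ℚ) (hS : ∀ i, S i = ((List.range i).map fun m : ℕ =>
    ((i - m : ℕ) * (i - m + 1 : ℕ) * (i - m + 2 : ℕ) : ℚ) / 6 * t m).sum) (i : ℕ) :
    S (i + 1) - 4 * S i + 6 * S (i - 1) - 4 * S (i - 2) + S (i - 3) = t i := by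
  have h1 : ∀ i : ℕ, S i =
      ∑ m ∈ range i, ((i : ℚ) - m) * (i - m + 1) * (i - m + 2) / 6 * t m := by
    intro i
    have : S i = ∑ m ∈ range i,
        ((i - m : ℕ) * (i - m + 1 : ℕ) * (i - m + 2 : ℕ) : ℚ) / 6 * t m := hS i
    rw [this]
    refine sum_congr rfl fun m hm => ?_
    push_cast [Nat.cast_sub (mem_range.1 hm).le]
    rfl
  simp only [h1]
  rcases i with _ | _ | _ | n
  · simp [sum_range_succ]
    norm_num
  · simp [sum_range_succ]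
    ring
  · simp [sum_range_succ]
    ring
  · have e1 : n + 1 + 1 + 1 - 1 = n + 1 + 1 := rfl
    have e2 : n + 1 + 1 + 1 - 2 = n + 1 := rfl
    have e3 : n + 1 + 1 + 1 - 3 = n := rfl
    rw [e1, e2, e3]
    simp only [sum_range_succ]
    have h2 : ∑ m ∈ range n, (((n + 1 + 1 + 1 + 1 : ℕ) : ℚ) - m) * (((n + 1 + 1 + 1 + 1 : ℕ) : ℚ) - m + 1) *
          (((n + 1 + 1 + 1 + 1 : ℕ) : ℚ) - m + 2) / 6 * t m =
        4 * ∑ m ∈ range n, (((n + 1 + 1 + 1 : ℕ) : ℚ) - m) * (((n + 1 + 1 + 1 : ℕ) : ℚ) - m + 1) *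
          (((n + 1 + 1 + 1 : ℕ) : ℚ) - m + 2) / 6 * t m -
        6 * ∑ m ∈ range n, (((n + 1 + 1 : ℕ) : ℚ) - m) * (((n + 1 + 1 : ℕ) : ℚ) - m + 1) *
          (((n + 1 + 1 : ℕ) : ℚ) - m + 2) / 6 * t m +
        4 * ∑ m ∈ range n, (((n + 1 : ℕ) : ℚ) - m) * (((n + 1 : ℕ) : ℚ) - m + 1) *
          (((n + 1 : ℕ) : ℚ) - m + 2) / 6 * t m -
        ∑ m ∈ range n, ((n : ℚ) - m) * ((n : ℚ) - m + 1) * ((n : ℚ) - m + 2) / 6 * t m := by
      simp only [mul_sum, ← sum_sub_distrib, ← sum_add_distrib]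
      refine sum_congr rfl fun m _ => ?_
      push_cast
      ring
    rw [h2]
    push_cast
    ring

private theorem z_d4 {e : ℕ → ℕ → ℕ → ℝ} (h : ∀ m j k, 0 ≤ e m j k ∧ e m j k ≤ 1) (i j k : ℕ) :
    |d4 e i j k| ≤ 8 := by
  obtain ⟨a1, a2⟩ := h (i + 1) j k
  obtain ⟨b1, b2⟩ := h i j k
  obtain ⟨c1, c2⟩ := h (i - 1) j k
  obtain ⟨d1, d2⟩ := h (i - 2) j k
  obtain ⟨e1, e2⟩ := h (i - 3) j k
  unfold d4
  exact abs_le.2 ⟨by linarith, by linarith⟩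

theorem fd_err (hb : 30 ≤ b) (hV : VOK b Vq V) (i j k : ℕ) :
    |fdR b Vq i j k - Lap V ((gr b).gp i j k)| ≤ 3 * PR b ^ 1500 * (gr b).h ^ 4 := by
  have h3 : ContDiff ℝ 3 V := hV.bd.1.of_le (by exact_mod_cast (by norm_num : 3 ≤ 6))
  have h2 : ContDiff ℝ 2 V := hV.bd.1.of_le (by exact_mod_cast (by norm_num : 2 ≤ 6))
  rw [z_fd hV, lap_eq h2, ← sum_sub_distrib]
  generalize (gr b).gp i j k = y
  have key : ∀ l : Fin 3, |(V (Function.update y l (y l + (gr b).h ^ 4)) +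
      V (Function.update y l (y l - (gr b).h ^ 4)) - 2 * V y) / ((gr b).h ^ 4) ^ 2 -
      dax 2 V l y| ≤ PR b ^ 1500 * (gr b).h ^ 4 := by
    intro l
    have := fd2 (contDiff_ax h3 l y) (A := PR b ^ 1500) (fun u => by
      rw [← dax_update]
      exact dax_bd hV.bd (by norm_num) l _) (z_h b).1 (y l)
    rw [Function.update_eq_self] at this
    exact this
  refine (abs_sum_le_sum_abs _ _).trans ((sum_le_sum fun l _ => key l).trans (le_of_eq ?_))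
  rw [Fin.sum_univ_three, mul_assoc]
  generalize PR b ^ 1500 * (gr b).h ^ 4 = t
  ring

theorem fd_zero (hb : 30 ≤ b) (hV : VOK b Vq V) {i j k : ℕ} {l : Fin 3}
    (h : PR b ^ 64 + 1 < |(gr b).gp i j k l|) : fdR b Vq i j k = 0 := by
  rw [z_fd hV]
  generalize (gr b).gp i j k = y at *
  obtain ⟨h0, h1⟩ := z_h b
  have key : ∀ x : E3, |x l - y l| ≤ 1 → V x = 0 := by
    intro x hx
    by_contra hne
    have h2 := supp_V hb hV x hne l
    have h3 := abs_sub_abs_le_abs_sub (y l) (x l)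
    rw [abs_sub_comm] at h3
    linarith
  have key2 : ∀ (l' : Fin 3) (t : ℝ), |t - y l'| ≤ 1 → V (Function.update y l' t) = 0 := by
    intro l' t ht
    refine key _ ?_
    by_cases hl : l = l'
    · subst hl
      rwa [Function.update_self]
    · rw [Function.update_of_ne hl, sub_self, abs_zero]
      exact zero_le_one
  refine sum_eq_zero fun l' _ => ?_
  rw [key y (by simp), key2 l' _ (by rwa [add_sub_cancel_left, abs_of_pos h0]),
    key2 l' _ (by rwa [sub_sub_cancel_left, abs_neg, abs_of_pos h0])]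
  simp

theorem tq_eq (b : ℕ) (Vq : ℚ × ℚ × ℚ → ℚ) (i j k : ℕ) :
    ((tq b Vq i j k : ℚ) : ℝ) = www i j k * fdR b Vq i j k / (omz b : ℝ) ^ 2 := by
  rw [tq, www, fdR]
  push_cast
  rfl

theorem www_bd (i j k : ℕ) : 1331 ≤ www i j k ∧ www i j k ≤ 2197 := by
  have h : ∀ i, (11 : ℝ) ≤ wt i ∧ (wt i : ℝ) ≤ 13 := fun i => by
    unfold wt
    split_ifs <;> norm_num
  obtain ⟨a1, a2⟩ := h i
  obtain ⟨b1, b2⟩ := h j
  obtain ⟨c1, c2⟩ := h k
  unfold www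
  constructor
  · calc (1331 : ℝ) = 11 * 11 * 11 := by norm_num
      _ ≤ _ := by gcongr
  · calc _ ≤ (13 : ℝ) * 13 * 13 := by gcongr
      _ = 2197 := by norm_num

theorem tq_le (hb : 30 ≤ b) (hV : VOK b Vq V) (i j k : ℕ) : |((tq b Vq i j k : ℚ) : ℝ)| ≤ 1 := by
  obtain ⟨w1, w2⟩ := www_bd i j k
  have h1 := fd_err hb hV i j k
  have h2 : |Lap V ((gr b).gp i j k)| ≤ 3 * PR b ^ 1500 := bd_abs (lap_bd (n := 4) hV.bd) _
  have hp : 0 < PR b ^ 1500 := pow_pos (PR_pos b) _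
  have h3 := mul_le_of_le_one_right (mul_pos three_pos hp).le (z_h b).2
  have h4 := abs_sub_abs_le_abs_sub (fdR b Vq i j k) (Lap V ((gr b).gp i j k))
  have h5 : |fdR b Vq i j k| ≤ 6 * PR b ^ 1500 := by linarith
  have h6 : 2197 * 6 * PR b ^ 1500 ≤ PR b ^ (1510 * 2) :=
    PR_mul_le hb (by norm_num) (by norm_num)
  have hq : 0 < PR b ^ (1510 * 2) := pow_pos (PR_pos b) _
  rw [tq_eq, omz_cast, ← pow_mul, abs_div, abs_of_pos hq, div_le_one hq, abs_mul,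
    abs_of_nonneg (by linarith)]
  refine le_trans ?_ h6
  rw [mul_assoc]
  exact mul_le_mul w2 h5 (abs_nonneg _) (by norm_num)

theorem ee_mem (b : ℕ) (Vq : ℚ × ℚ × ℚ → ℚ) (m j k : ℕ) :
    0 ≤ ee b Vq m j k ∧ ee b Vq m j k ≤ 1 := by
  unfold ee Fq
  generalize ((List.range m).map fun m' : ℕ =>
    ((m - m' : ℕ) * (m - m' + 1 : ℕ) * (m - m' + 2 : ℕ) : ℚ) / 6 * tq b Vq m' j k).sum = S
  have h1 : ((⌊S⌋ : ℤ) : ℝ) ≤ S := by exact_mod_cast Int.floor_le S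
  have h2 : (S : ℝ) < ((⌊S⌋ : ℤ) : ℝ) + 1 := by exact_mod_cast Int.lt_floor_add_one S
  constructor <;> linarith

theorem ee_zero (b : ℕ) (Vq : ℚ × ℚ × ℚ → ℚ) (j k : ℕ) : ee b Vq 0 j k = 0 := by
  simp [ee, Fq]

theorem ee_row (hb : 30 ≤ b) (hV : VOK b Vq V) {j k : ℕ}
    (h : PR b ^ 64 + 1 < |nd ((gr b).a 1) (gr b).h j| ∨
      PR b ^ 64 + 1 < |nd ((gr b).a 2) (gr b).h k|) (m : ℕ) : ee b Vq m j k = 0 := by
  have h1 : ∀ i, tq b Vq i j k = 0 := fun i => by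
    have h2 : fdR b Vq i j k = 0 := by
      rcases h with h | h
      · exact fd_zero hb hV (l := 1) h
      · exact fd_zero hb hV (l := 2) h
    have h3 := tq_eq b Vq i j k
    rw [h2, mul_zero, zero_div] at h3
    exact_mod_cast h3
  simp [ee, Fq, h1]

theorem Zq_eq (b : ℕ) (Vq : ℚ × ℚ × ℚ → ℚ) (i j k : ℕ) :
    (Zq b Vq i j k : ℝ) = Zp b Vq i j k + ce b Vq i j k := by
  obtain ⟨S, hS⟩ : ∃ S : ℕ → ℚ, ∀ i, S i = ((List.range i).map fun m : ℕ =>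
    ((i - m : ℕ) * (i - m + 1 : ℕ) * (i - m + 2 : ℕ) : ℚ) / 6 * tq b Vq m j k).sum :=
    ⟨_, fun _ => rfl⟩
  have h1 : ((S (i + 1) : ℚ) : ℝ) - 4 * S i + 6 * S (i - 1) - 4 * S (i - 2) + S (i - 3) =
      (tq b Vq i j k : ℚ) := by
    exact_mod_cast z_S4 (fun m => tq b Vq m j k) S hS i
  have h2 : ∀ m, (Fq b Vq m j k : ℝ) = S m - (eIn b Vq m j k + eOut b Vq m j k) := fun m => by
    have : eIn b Vq m j k + eOut b Vq m j k = ee b Vq m j k := by
      unfold eIn eOut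
      split_ifs <;> simp
    rw [this, ee, hS, sub_sub_cancel]
  rw [Zq, Zp, ce, d4, d4, www, ← h1]
  push_cast
  simp only [h2]
  ring

theorem Zp_le (hb : 30 ≤ b) (hV : VOK b Vq V) (i j k : ℕ) : |Zp b Vq i j k| ≤ 3000 := by
  obtain ⟨w1, w2⟩ := www_bd i j k
  obtain ⟨t1, t2⟩ := abs_le.1 (tq_le hb hV i j k)
  obtain ⟨d1, d2⟩ := abs_le.1 (z_d4 (e := eIn b Vq) (fun m j k => by
    unfold eIn
    split_ifs
    · exact ee_mem b Vq m j k
    · norm_num) i j k)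
  unfold Zp
  exact abs_le.2 ⟨by linarith, by linarith⟩

theorem ce_le (b : ℕ) (Vq : ℚ × ℚ × ℚ → ℚ) (i j k : ℕ) : |ce b Vq i j k| ≤ 8 := by
  rw [ce, abs_neg]
  refine z_d4 (fun m j k => ?_) i j k
  unfold eOut
  split_ifs
  · norm_num
  · exact ee_mem b Vq m j k

theorem ce_supp (hb : 30 ≤ b) (hV : VOK b Vq V) {i j k : ℕ} (h : ce b Vq i j k ≠ 0) :
    nx b ≤ i + 4 ∧ |nd ((gr b).a 1) (gr b).h j| ≤ PR b ^ 64 + 1 ∧
      |nd ((gr b).a 2) (gr b).h k| ≤ PR b ^ 64 + 1 := by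
  have key : ¬ ∀ m ≤ i + 1, eOut b Vq m j k = 0 := fun h0 => h (by
    rw [ce, d4, h0 _ le_rfl, h0 _ (by omega), h0 _ (by omega), h0 _ (by omega), h0 _ (by omega)]
    simp)
  have key2 : ¬ (PR b ^ 64 + 1 < |nd ((gr b).a 1) (gr b).h j| ∨
      PR b ^ 64 + 1 < |nd ((gr b).a 2) (gr b).h k|) := fun h0 => key fun m _ => by
    rw [eOut, ee_row hb hV h0, ite_self]
  refine ⟨?_, not_lt.1 fun h0 => key2 (Or.inl h0), not_lt.1 fun h0 => key2 (Or.inr h0)⟩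
  by_contra h0
  exact key fun m hm => if_pos (by omega)

theorem Zq_mem (hb : 30 ≤ b) (hV : VOK b Vq V) (i j k : ℕ) :
    1 ≤ Zq b Vq i j k ∧ Zq b Vq i j k ≤ 3000 := by
  obtain ⟨w1, w2⟩ := www_bd i j k
  obtain ⟨t1, t2⟩ := abs_le.1 (tq_le hb hV i j k)
  obtain ⟨d1, d2⟩ := abs_le.1 (z_d4 (e := eIn b Vq) (fun m j k => by
    unfold eIn
    split_ifs
    · exact ee_mem b Vq m j k
    · norm_num) i j k)
  obtain ⟨c1, c2⟩ := abs_le.1 (ce_le b Vq i j k)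
  have h := Zq_eq b Vq i j k
  unfold Zp at h
  have h1 : (1 : ℝ) ≤ Zq b Vq i j k := by linarith
  have h2 : (Zq b Vq i j k : ℝ) ≤ 3000 := by linarith
  exact ⟨by exact_mod_cast h1, by exact_mod_cast h2⟩

theorem dV_eq (hb : 30 ≤ b) (hV : VOK b Vq V) (x : E3) :
    dV b Vq V x = SG b V x - ErrP b Vq V (fun y => kk (x - y)) - EndP b Vq fun y => kk (x - y) := by
  have h1 : (gr b).sum (fun i j k => (Zq b Vq i j k : ℝ)) (fun y => kk (x - y)) =
      (gr b).sum (Zp b Vq) (fun y => kk (x - y)) + (gr b).sum (ce b Vq) fun y => kk (x - y) := by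
    simp only [Grid.sum, Zq_eq, add_mul, sum_add_distrib]
  rw [dV, Vs_eq _ (fun i j k => zero_le_one.trans (Zq_mem hb hV i j k).1), h1, SG, ErrP, EndP,
    Grid.err]
  ring

theorem dV_meas (hb : 30 ≤ b) (hV : VOK b Vq V) : Measurable (dV b Vq V) := by
  have h1 : Measurable (Vs (sq b) (nucQ b Vq)) := by
    rw [funext (Vs_eq _ fun i j k => zero_le_one.trans (Zq_mem hb hV i j k).1)]
    refine (Measurable.const_mul ?_ _).neg
    exact Finset.measurable_sum _ fun i _ => Finset.measurable_sum _ fun j _ =>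
      Finset.measurable_sum _ fun k _ =>
        (measurable_kk.comp (measurable_id.sub_const _)).const_mul _
  have h2 : Measurable V := hV.bd.1.continuous.measurable
  have h3 : Measurable fun x : E3 => min (x 2 ^ 2) (128 ^ 2) :=
    ((measurable_pi_apply 2).pow_const 2).min measurable_const
  exact h1.sub ((((h3.const_mul _).div_const _).const_add _).add h2)

end Vale.Agent.P370.Nuc
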