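import Vale.Agent.P370.Defs

/-! Numerical parameters; all are rational functions of `b`, with `P = 2 ^ b`. -/

namespace Vale.Agent.P370

def Pq (b : ℕ) : ℚ := 2 ^ b

/-- `P` as a real number -/
noncomputable def PR (b : ℕ) : ℝ := 2 ^ b

def lamb (b : ℕ) : ℕ := Nat.sqrt (128 * b) + 1

/-- approximation of `π` -/
def piQ (b : ℕ) : ℚ :=
  4 * ((List.range (2 ^ (66200 * b))).map fun i : ℕ => (-1 : ℚ) ^ i / (2 * i + 1)).sum

/-- approximation of `log 2` -/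
def l2 (b : ℕ) : ℚ :=
  ((List.range (262144 * b)).map fun i : ℕ => (1 / 2 : ℚ) ^ (i + 1) / (i + 1)).sum

/-- approximation of `log 3` -/
def l3 (b : ℕ) : ℚ :=
  ((List.range (524288 * b)).map fun i : ℕ => (2 / 3 : ℚ) ^ (i + 1) / (i + 1)).sum

/-- frequency of the dots -/
def om (b : ℕ) : ℚ := 2 * piQ b * (lamb b : ℚ) ^ 2

/-- on-site Coulomb integral of a dot -/
def uq (b : ℕ) : ℚ := piQ b * lamb b

def rho (b : ℕ) : ℚ := 1 / Pq b ^ 104

/-- vertical frequency -/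
def omz (b : ℕ) : ℚ := Pq b ^ 1510

def W0 (b : ℕ) : ℚ := Pq b ^ 300

/-- grid spacing of the nuclei -/
def hh (b : ℕ) : ℚ := 1 / Pq b ^ 22000

/-- the slab of nuclei is `[-4 Lb, 4 Lb] × [-3 Lb, 3 Lb] × [-128, 128]` -/
def Lb (b : ℕ) : ℚ := Pq b ^ 70000

/-- the scale factor and coupling constant -/
def sq (b : ℕ) : ℚ := omz b ^ 2 * hh b ^ 3 / (6912 * piQ b)

/-- depth of the slab potential -/
def C0q (b : ℕ) : ℚ :=
  omz b ^ 2 / (4 * piQ b) * (1024 * Lb b * (4 * l2 b + 3 * l3 b)) - omz b ^ 2 * 8192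

/-- one-body reference energy -/
def e0 (b : ℕ) : ℚ := -C0q b + omz b / 2 - 1

/-- plateau height giving the weight `2 ^ (-k) / √2` -/
def plq (b k : ℕ) : ℚ := (k + 1 / 2) * l2 b / (2 * om b)

end Vale.Agent.P370
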