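import Vale.Agent.P370.LayDefs

/-! The parameters are computable in polynomial time.

Plan.  `BPT b`: `b` and `2 ^ b` are available in unary.  `2 ^ (c * b) = (2 ^ b) ^ c` in unary by
induction on the constant `c` (`unMul`).  Series: `pt_qsum` of `PT.map` over `rangeU` (unary
exponents: `(-1) ^ i` by parity, `(1/2) ^ (i+1) = 1 / 2 ^ (i+1)` with `PT_pow`).
`Nat.sqrt n = ((range (n+1)).filter fun i => i * i ≤ n).length - 1`, or any other way. -/

namespace Vale.Agent.P370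

open Vale.Agent.Lib.H23 Vale.Agent.P338 Vale.Agent.P049

variable {α : Type} [Enc α] {b : α → ℕ}

structure BPT (b : α → ℕ) : Prop where
  un : PT fun x => (⟨b x⟩ : Un)
  pw : PT fun x => (⟨2 ^ b x⟩ : Un)

theorem BPT.comp {β : Type} [Enc β] (h : BPT b) {g : β → α} (hg : PT g) : BPT fun y => b (g y) :=
  ⟨PT.comp (f := fun x => (⟨b x⟩ : Un)) h.un hg,
    PT.comp (f := fun x => (⟨2 ^ b x⟩ : Un)) h.pw hg⟩

theorem Nat.bodd_eq_true_par (n : ℕ) : n.bodd = true ↔ Odd n := by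
  rw [Nat.odd_iff, Nat.mod_two_of_bodd]; cases n.bodd <;> simp

theorem Nat.bodd_eq_false_par (n : ℕ) : n.bodd = false ↔ Even n := by
  rw [Nat.even_iff, Nat.mod_two_of_bodd]; cases n.bodd <;> simp

theorem two_pow_size_par {m : ℕ} (hm : 0 < m) : 2 ^ m.size ≤ 2 * m := by
  have h1 : 0 < m.size := Nat.size_pos.2 hm
  have h2 : 2 ^ (m.size - 1) ≤ m := Nat.lt_size.1 (by omega)
  obtain ⟨k, hk⟩ : ∃ k, m.size = k + 1 := ⟨m.size - 1, by omega⟩
  rw [hk] at h2 ⊢
  rw [pow_succ]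
  simp only [Nat.add_sub_cancel] at h2
  omega

theorem sqrt_eq_par (n : ℕ) :
    Nat.sqrt n = ((List.range n).filter fun i => !ltb n ((i + 1) * (i + 1))).length := by
  have h : ∀ k, ((List.range k).filter fun i => !ltb n ((i + 1) * (i + 1))).length =
      min k (Nat.sqrt n) := by
    intro k
    induction k with
    | zero => simp
    | succ k ih =>
      rw [List.range_succ, List.filter_append, List.length_append, ih]
      by_cases hk : k + 1 ≤ Nat.sqrt n
      · have h2 : (k + 1) * (k + 1) ≤ n := Nat.le_sqrt.1 hk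
        have h3 : ¬ n < (k + 1) * (k + 1) := by omega
        simp [h3]; omega
      · have h2 : ¬ (k + 1) * (k + 1) ≤ n := fun h => hk (Nat.le_sqrt.2 h)
        have h3 : n < (k + 1) * (k + 1) := by omega
        simp [h3]; omega
  rw [h, min_eq_right (Nat.sqrt_le_self n)]

theorem pt_sqrt_par {n : α → ℕ} (hn : PT fun x => (⟨n x⟩ : Un)) : PT fun x => Nat.sqrt (n x) := by
  have h1 : PT n := PT_unn hn
  refine (PT.length (PT_filter (f := fun x i => !ltb (n x) ((i + 1) * (i + 1))) ?_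
    (PT_range hn))).congr fun x => sqrt_eq_par _
  have h2 : PT fun p : α × ℕ => n p.1 := PT.comp h1 (PT.fst PT.id)
  have h3 : PT fun p : α × ℕ => p.2 + 1 := PT.add (PT.snd PT.id) (PT.const 1)
  exact PT.not (PT.ltb h2 (PT.mul h3 h3))

theorem pt_geo_par {n : α → ℕ} (hn : PT fun x => (⟨n x⟩ : Un)) (u v : ℕ) {q : ℚ}
    (hq : q = (u : ℚ) / v) :
    PT fun x => ((List.range (n x)).map fun i : ℕ => q ^ (i + 1) / (i + 1)).sum := by
  have h1 : PT fun p : α × Un => unAdd p.2 ⟨1⟩ := PT_unAdd (PT.snd PT.id) (PT.const _)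
  refine (pt_qsum (PT.map (f := fun _ (i : Un) =>
    ((u ^ (unAdd i ⟨1⟩).n : ℕ) : ℚ) / ((v ^ (unAdd i ⟨1⟩).n : ℕ) : ℚ) / ((i.n : ℚ) + 1))
    (pt_qdiv (pt_qdiv (pt_qcast (PT_pow (PT.const u) h1)) (pt_qcast (PT_pow (PT.const v) h1)))
      (pt_qadd (pt_qcast (PT_unn (PT.snd PT.id))) (PT.const 1))) (PT_rangeU hn))).congr fun x => ?_
  simp only [rangeU, List.map_map, hq]
  congr 1
  refine List.map_congr_left fun i _ => ?_
  simp [unAdd, div_pow]

theorem Finset.sum_range_eq_list_par (n : ℕ) (f : ℕ → ℚ) :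
    ∑ i ∈ Finset.range n, f i = ((List.range n).map f).sum := by
  induction n with
  | zero => simp
  | succ n ih => rw [Finset.sum_range_succ, ih, List.range_succ]; simp

theorem pt_iteP {β : Type} [Enc β] {p : α → Prop} [DecidablePred p] {f g : α → β}
    (hp : PT fun x => decide (p x)) (hf : PT f) (hg : PT g) :
    PT fun x => if p x then f x else g x := by
  exact pt_ite hp (fun x => decide_eq_true_iff) hf hg

theorem pt_neq {f g : α → ℕ} (hf : PT f) (hg : PT g) : PT fun x => decide (f x = g x) := by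
  exact (PT.eqb hf hg).congr fun x => by simp

theorem pt_qabs {f : α → ℚ} (hf : PT f) : PT fun x => |f x| := by
  exact (pt_qmax hf (pt_qneg hf)).congr fun x => abs_eq_max_neg

theorem pt_qfloor {f : α → ℚ} (hf : PT f) : PT fun x => ⌊f x⌋ := by
  exact (PT_iediv (ratPT_num hf) (ratPT_den hf).natCast).congr fun x => Rat.floor_def' 

theorem pt_rangeSum {n : α → ℕ} {f : α → ℕ → ℚ} (hn : PT fun x => (⟨n x⟩ : Un))
    (hf : PT fun p : α × ℕ => f p.1 p.2) : PT fun x => ∑ i ∈ Finset.range (n x), f x i := by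
  refine (pt_qsum (PT.map hf (PT_range hn))).congr fun x => ?_
  exact Finset.sum_range_eq_list_par (n x) (f x)

theorem BPT.nat (h : BPT b) : PT b := by
  exact PT_unn h.un

theorem BPT.mulU (h : BPT b) (c : ℕ) : PT fun x => (⟨c * b x⟩ : Un) := by
  exact PT_unMul (PT.const (⟨c⟩ : Un)) h.un

theorem BPT.pwU (h : BPT b) (c : ℕ) : PT fun x => (⟨2 ^ (c * b x)⟩ : Un) := by
  induction c with
  | zero => exact (PT.const (⟨1⟩ : Un)).congr fun x => by simp
  | succ c ih =>
    refine (PT_unMul ih h.pw).congr fun x => ?_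
    simp only [unMul]
    rw [← pow_add, Nat.succ_mul]

theorem BPT.pwQ (h : BPT b) (c : ℕ) : PT fun x => (2 : ℚ) ^ (c * b x) := by
  exact (pt_qcast (PT_unn (h.pwU c))).congr fun x => by push_cast; rfl

theorem BPT.Pq (h : BPT b) : PT fun x => Pq (b x) := by
  exact (pt_qcast (PT_unn h.pw)).congr fun x => by unfold Vale.Agent.P370.Pq; push_cast; rfl

theorem BPT.lamb (h : BPT b) : PT fun x => lamb (b x) := by
  exact PT.add (pt_sqrt_par (h.mulU 128)) (PT.const 1)

theorem BPT.piQ (h : BPT b) : PT fun x => piQ (b x) := by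
  refine pt_qmul (PT.const 4) (pt_qsum (PT.map (f := fun _ (i : ℕ) => (-1 : ℚ) ^ i / (2 * i + 1))
    ?_ (PT_range (h.pwU 66200))))
  refine pt_qdiv ?_ (pt_qadd (pt_qmul (PT.const 2) (pt_qcast (PT.snd PT.id))) (PT.const 1))
  refine (PT.cond (PT.bodd (PT.snd PT.id)) (PT.const (-1 : ℚ)) (PT.const 1)).congr fun p => ?_
  rcases Nat.even_or_odd p.2 with he | ho
  · rw [he.neg_one_pow, (Nat.bodd_eq_false_par _).2 he]; rfl
  · rw [ho.neg_one_pow, (Nat.bodd_eq_true_par _).2 ho]; rfl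

theorem BPT.l2 (h : BPT b) : PT fun x => l2 (b x) := by
  exact pt_geo_par (h.mulU 262144) 1 2 (by norm_num)

theorem BPT.l3 (h : BPT b) : PT fun x => l3 (b x) := by
  exact pt_geo_par (h.mulU 524288) 2 3 (by norm_num)

theorem BPT.om (h : BPT b) : PT fun x => om (b x) := by
  exact pt_qmul (pt_qmul (PT.const 2) h.piQ) (pt_qpow (pt_qcast h.lamb) 2)

theorem BPT.uq (h : BPT b) : PT fun x => uq (b x) := by
  exact pt_qmul h.piQ (pt_qcast h.lamb)

theorem BPT.rho (h : BPT b) : PT fun x => rho (b x) := by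
  exact pt_qdiv (PT.const 1) (pt_qpow h.Pq 104)

theorem BPT.omz (h : BPT b) : PT fun x => omz (b x) := by
  exact pt_qpow h.Pq 1510

theorem BPT.W0 (h : BPT b) : PT fun x => W0 (b x) := by
  exact pt_qpow h.Pq 300

theorem BPT.hh (h : BPT b) : PT fun x => hh (b x) := by
  exact pt_qdiv (PT.const 1) (pt_qpow h.Pq 22000)

theorem BPT.Lb (h : BPT b) : PT fun x => Lb (b x) := by
  exact pt_qpow h.Pq 70000

theorem BPT.sq (h : BPT b) : PT fun x => sq (b x) := by
  exact pt_qdiv (pt_qmul (pt_qpow h.omz 2) (pt_qpow h.hh 3)) (pt_qmul (PT.const 6912) h.piQ)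

theorem BPT.e0 (h : BPT b) : PT fun x => e0 (b x) := by
  have hC : PT fun x => C0q (b x) :=
    pt_qsub (pt_qmul (pt_qdiv (pt_qpow h.omz 2) (pt_qmul (PT.const 4) h.piQ))
      (pt_qmul (pt_qmul (PT.const 1024) h.Lb)
        (pt_qadd (pt_qmul (PT.const 4) h.l2) (pt_qmul (PT.const 3) h.l3))))
      (pt_qmul (pt_qpow h.omz 2) (PT.const 8192))
  exact pt_qsub (pt_qadd (pt_qneg hC) (pt_qdiv h.omz (PT.const 2))) (PT.const 1)

theorem BPT.plq (h : BPT b) {k : α → ℕ} (hk : PT k) : PT fun x => plq (b x) (k x) := by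
  exact pt_qdiv (pt_qmul (pt_qadd (pt_qcast hk) (PT.const (1 / 2))) h.l2)
    (pt_qmul (PT.const 2) h.om)

theorem bpt_bH : BPT bH := by
  have h0 : PT fun H : LH => ((⟨H.nq⟩ : Un), H.one, H.two, H.thr, (⟨H.bd⟩ : Un)) :=
    PT.retag fun _ => rfl
  have hm : PT fun H : LH =>
      (⟨8 * (H.nq + H.one.length + H.two.length + H.bd + 4)⟩ : Un) :=
    PT_unMul (PT.const (⟨8⟩ : Un)) (PT_unAdd (PT_unAdd (PT_unAdd (PT_unAdd h0.fst
      (PT_unLen h0.snd.fst)) (PT_unLen h0.snd.snd.fst)) h0.snd.snd.snd.snd) (PT.const (⟨4⟩ : Un)))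
  have hs := PT_unSize (PT_unn hm)
  refine ⟨PT_unAdd (PT.const (⟨30⟩ : Un)) hs, ?_⟩
  have hp := PT_unMin (PT_pow (PT.const 2) hs) (PT_unMul (PT.const (⟨2⟩ : Un)) hm)
  refine (PT_unMul (PT.const (⟨2 ^ 30⟩ : Un)) hp).congr fun H => ?_
  simp only [unMul, unMin, unSize, bH]
  rw [pow_add, min_eq_left]
  exact two_pow_size_par (by omega)

end Vale.Agent.P370
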