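import Vale.Agent.P370.MBMain
import Vale.Agent.P370.IdealMain
import Vale.Agent.P370.NucMain

/-! The one-body package for the potential of the nuclei.

Plan.  `Vs - e0 = Vid + U`, `U = zeta * Ve + dV` (unfold `dV`, `Vid`, `VlocR`, `Vloc`, `e0`; `ring`).
Apply `OB.pert` with `Γ = P^-3012`, `η = P^-63042`, `Cb = omz`, `t0 = 8 P^-62914`, `θ1 = P^-5000`
(`zeta * Ve ≥ 0`), `θ2 = P^-69000` (`(x + y)² ≤ 2x² + 2y²`, `|gt| ≤ P^400`, support in `B0`,
`∫ gt² ≤ 4` from `Basis.close`, `g_norm`), `θ3 = 2 P^-63050` (`∫ |gt gt'| ≤ 4`), `card S ≤ 2 P`.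
`dV` is `Vs` minus a continuous function, hence measurable and locally integrable. -/

namespace Vale.Agent.P370

open MeasureTheory

variable {ι S : Type} [Fintype ι] [Fintype S] [DecidableEq ι] [DecidableEq S] {b : ℕ}
  {L : Lay ι S}

theorem vok_lay (hb : 30 ≤ b) (hL : L.Good b) :
    VOK b (fun q => L.Vloc b q.1 q.2.1 q.2.2) (L.VlocR b) :=
  ⟨Vloc_cast b L, Vloc_bd hb hL, Vloc_supp hb hL⟩

theorem pc_mul {U f : E3 → ℝ} (hU : LocallyIntegrable U volume) (hf : Continuous f)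
    (hc : HasCompactSupport f) : Integrable fun x => U x * f x :=
  hU.integrable_smul_right_of_hasCompactSupport hf hc

theorem pc_sq {f : E3 → ℝ} (hf : Test1 f) : Continuous (fun x => f x ^ 2) ∧
    HasCompactSupport fun x => f x ^ 2 :=
  ⟨hf.1.continuous.pow 2, by simp only [pow_two]; exact hf.2.mul_left⟩

omit [Fintype S] [DecidableEq S] in
theorem basis_gt_sq {g gt : S → E3 → ℝ} {Mg εd : ℝ} (hB : Basis g gt Mg εd) (h : εd ^ 2 ≤ 1)
    (a : S) : ∫ x, gt a x ^ 2 ≤ 4 := by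
  have h1 : Integrable fun x => g a x ^ 2 := by
    by_contra hn
    have := hB.g_norm a
    rw [integral_undef hn] at this
    exact zero_ne_one this
  have h2 : Integrable fun x => gt a x ^ 2 :=
    (pc_sq (hB.gt_test a)).1.integrable_of_hasCompactSupport (pc_sq (hB.gt_test a)).2
  have h3 : Integrable fun x => (g a x - gt a x) ^ 2 := by
    refine ((h1.const_mul 2).add (h2.const_mul 2)).mono'
      (((hB.g_meas a).sub (hB.gt_test a).1.continuous.measurable).pow_const 2).aestronglyMeasurable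
      (Filter.Eventually.of_forall fun x => ?_)
    rw [Real.norm_of_nonneg (sq_nonneg _), Pi.add_apply]
    nlinarith [sq_nonneg (g a x + gt a x)]
  have h4 : ∫ x, gt a x ^ 2 ≤ ∫ x, (2 * g a x ^ 2 + 2 * (g a x - gt a x) ^ 2) :=
    integral_mono h2 ((h1.const_mul 2).add (h3.const_mul 2)) fun x => by
      simp only
      nlinarith [sq_nonneg (2 * g a x - gt a x)]
  rw [integral_add (h1.const_mul 2) (h3.const_mul 2), integral_const_mul, integral_const_mul,
    hB.g_norm] at h4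
  linarith [hB.close a]

omit [Fintype S] [DecidableEq S] in
theorem basis_gt_abs {g gt : S → E3 → ℝ} {Mg εd : ℝ} (hB : Basis g gt Mg εd) (h : εd ^ 2 ≤ 1)
    (a a' : S) : ∫ x, |gt a x * gt a' x| ≤ 4 := by
  have h2 : ∀ a, Integrable fun x => gt a x ^ 2 := fun a =>
    (pc_sq (hB.gt_test a)).1.integrable_of_hasCompactSupport (pc_sq (hB.gt_test a)).2
  have h4 : ∫ x, |gt a x * gt a' x| ≤ ∫ x, (1 / 2 * gt a x ^ 2 + 1 / 2 * gt a' x ^ 2) :=
    integral_mono_of_nonneg (Filter.Eventually.of_forall fun x => abs_nonneg _)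
      (((h2 a).const_mul _).add ((h2 a').const_mul _)) (Filter.Eventually.of_forall fun x => by
        simp only
        rw [abs_le]
        constructor <;> nlinarith [sq_nonneg (gt a x + gt a' x), sq_nonneg (gt a x - gt a' x)])
  rw [integral_add ((h2 a).const_mul _) ((h2 a').const_mul _), integral_const_mul,
    integral_const_mul] at h4
  linarith [basis_gt_sq hB h a, basis_gt_sq hB h a']

theorem pc_B0 (b : ℕ) : MeasurableSet (B0 b) := by
  unfold B0
  measurability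

theorem pc_dV {Vq : ℚ × ℚ × ℚ → ℚ} {V : E3 → ℝ} (hV : Continuous V) :
    Measurable (dV b Vq V) ∧ LocallyIntegrable (dV b Vq V) volume := by
  have h : Continuous fun x : E3 =>
      -(C0q b : ℝ) + (omz b : ℝ) ^ 2 * min (x 2 ^ 2) (128 ^ 2) / 2 + V x := by fun_prop
  exact ⟨(Vs_meas _ _).sub h.measurable, (Vs_locInt _ _).sub h.locallyIntegrable⟩

theorem pc_card (hL : L.Good b) : (Fintype.card S : ℝ) ≤ 2 * PR b := by
  have := hL.card_S
  rw [← Pq_cast]
  exact_mod_cast this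

theorem pc_le (hb : 30 ≤ b) {c : ℝ} (hc : c ≤ 2 ^ 30) {i j l : ℕ} (h : i + l < j) :
    c * PR b ^ i / PR b ^ j ≤ 1 / PR b ^ l := by
  have := PR_div_le hb hc (i := i) (j := j) (k := 0) (l := l) (by omega)
  rwa [pow_zero] at this

theorem pc_eta (hb : 30 ≤ b) {n : ℝ} (h0 : 0 ≤ n) (hn : n ≤ 2 * PR b) :
    1 / PR b ^ 63042 + 2 / PR b ^ 63050 + n * (2 / PR b ^ 63050) +
      16 * n * (1 / PR b ^ 69000) / (1 / PR b ^ 3012) +
      1 / PR b ^ 5000 * (8 * (8 / PR b ^ 62914) + 4 * n * (1 / PR b ^ 63042) +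
        16 * (1 / PR b ^ 63042)) + 1 / PR b ^ 3012 * n * (1 / PR b ^ 31000) ^ 2 / 4 ≤
      2 / PR b ^ 63042 := by
  have hP := PR_pos b
  have e1 : 2 / PR b ^ 63050 ≤ 1 / PR b ^ 63043 := PR_inv_le hb (by norm_num) (by norm_num)
  have e2 : n * (2 / PR b ^ 63050) ≤ 1 / PR b ^ 63043 :=
    calc n * (2 / PR b ^ 63050) ≤ 2 * PR b * (2 / PR b ^ 63050) := by gcongr
      _ = 4 * PR b ^ 1 / PR b ^ 63050 := by ring
      _ ≤ _ := pc_le hb (by norm_num) (by norm_num)
  have e3 : 16 * n * (1 / PR b ^ 69000) / (1 / PR b ^ 3012) ≤ 1 / PR b ^ 63043 :=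
    calc 16 * n * (1 / PR b ^ 69000) / (1 / PR b ^ 3012)
        ≤ 16 * (2 * PR b) * (1 / PR b ^ 69000) / (1 / PR b ^ 3012) := by gcongr
      _ = 32 * PR b ^ 3013 / PR b ^ 69000 := by
        rw [div_div_eq_mul_div, div_one, pow_succ _ 3012]; ring
      _ ≤ _ := pc_le hb (by norm_num) (by norm_num)
  have e4 : 1 / PR b ^ 5000 * (8 * (8 / PR b ^ 62914)) ≤ 1 / PR b ^ 63043 :=
    calc 1 / PR b ^ 5000 * (8 * (8 / PR b ^ 62914)) = 64 / PR b ^ (5000 + 62914) := by
          rw [pow_add]; field_simp; norm_num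
      _ ≤ _ := PR_inv_le hb (by norm_num) (by norm_num)
  have e5 : 1 / PR b ^ 5000 * (4 * n * (1 / PR b ^ 63042)) ≤ 1 / PR b ^ 63043 :=
    calc 1 / PR b ^ 5000 * (4 * n * (1 / PR b ^ 63042))
        ≤ 1 / PR b ^ 5000 * (4 * (2 * PR b) * (1 / PR b ^ 63042)) := by gcongr
      _ = 8 * PR b ^ 1 / PR b ^ (5000 + 63042) := by rw [pow_add]; field_simp; norm_num
      _ ≤ _ := pc_le hb (by norm_num) (by norm_num)
  have e6 : 1 / PR b ^ 5000 * (16 * (1 / PR b ^ 63042)) ≤ 1 / PR b ^ 63043 :=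
    calc 1 / PR b ^ 5000 * (16 * (1 / PR b ^ 63042)) = 16 / PR b ^ (5000 + 63042) := by
          rw [pow_add]; field_simp
      _ ≤ _ := PR_inv_le hb (by norm_num) (by norm_num)
  have e7 : 1 / PR b ^ 3012 * n * (1 / PR b ^ 31000) ^ 2 / 4 ≤ 1 / PR b ^ 63043 :=
    calc 1 / PR b ^ 3012 * n * (1 / PR b ^ 31000) ^ 2 / 4
        ≤ 1 / PR b ^ 3012 * (2 * PR b) * (1 / PR b ^ 31000) ^ 2 / 4 := by gcongr
      _ = 1 / 2 * PR b ^ 1 / PR b ^ (3012 + 31000 * 2) := by
          rw [pow_add, pow_mul]; field_simp; norm_num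
      _ ≤ _ := pc_le hb (by norm_num) (by norm_num)
  have e8 : 7 / PR b ^ 63043 ≤ 1 / PR b ^ 63042 := PR_inv_le hb (by norm_num) (by norm_num)
  rw [mul_add, mul_add]
  generalize PR b ^ 63043 = A at *
  generalize PR b ^ 63042 = B at *
  have e9 : 7 / A = 7 * (1 / A) := by ring
  have e10 : 2 / B = 2 * (1 / B) := by ring
  linarith

theorem ob_lay (hb : 30 ≤ b) (hL : L.Good b) :
    OB (L.g3 b) (L.gt3 b)
      (fun x => Vs (sq b) (nucQ b fun q => L.Vloc b q.1 q.2.1 q.2.2) x - e0 b)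
      (fun σ σ' => ((L.T0 b σ σ' + if σ = σ' then L.eps σ else 0 : ℚ) : ℝ))
      (1 / PR b ^ 3012 / 4) (2 / PR b ^ 63042) := by
  have hP := PR_pos b
  have hB := ideal_basis hb hL
  have hV := vok_lay hb hL
  have hn := pc_card hL
  obtain ⟨hdm, hdi⟩ := pc_dV (b := b) (Vq := fun q => L.Vloc b q.1 q.2.1 q.2.2) hV.bd.1.continuous
  set δ := dV b (fun q => L.Vloc b q.1 q.2.1 q.2.2) (L.VlocR b) with hδ
  set W : E3 → ℝ := fun x => zeta (x 2) * L.Ve b (x 0) (x 1) with hW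
  have hWc : Continuous W := Ve_cont b L
  have hed : (1 / PR b ^ 31000) ^ 2 ≤ 1 :=
    pow_le_one₀ (by positivity) (div_le_one_of_le₀ (one_le_pow₀ (PR_one b)) (by positivity))
  have homz : (omz b : ℝ) = PR b ^ 1510 := by rw [omz, Rat.cast_pow, Pq_cast]
  have key := OB.pert hB (V := L.Vid b) (U := fun x => W x + δ x)
    (T1 := fun σ σ' => if σ = σ' then (L.eps σ : ℝ) else 0) (Cb := omz b)
    (θ1 := 1 / PR b ^ 5000) (θ2 := 1 / PR b ^ 69000) (θ3 := 2 / PR b ^ 63050)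
    (η' := 2 / PR b ^ 63042) (Vid_cont b L).locallyIntegrable (hWc.locallyIntegrable.add hdi)
    (Vid_cont b L).measurable (hWc.measurable.add hdm) (ideal_OB hb hL) (by positivity)
    (by positivity) (by rw [homz]; positivity) (Vid_low hb hL) (T0_psd hb hL) (by positivity)
    ?_ (by positivity) ?_ ?_ ?_ ?_ ?_ (by positivity) (by positivity)
    (pc_eta hb (Nat.cast_nonneg _) hn)
  · convert key using 2 with x σ
    · simp only [hW, hδ, dV, Lay.Vid, Lay.VlocR, Lay.Vloc, e0]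
      push_cast
      ring
    · funext σ'
      split_ifs <;> simp
  · calc (Fintype.card S : ℝ) * (1 / PR b ^ 31000) ^ 2 ≤ 2 * PR b * (1 / PR b ^ 31000) ^ 2 := by
          gcongr
      _ = 2 * PR b ^ 1 / PR b ^ (31000 * 2) := by rw [pow_mul]; field_simp
      _ ≤ 1 / PR b ^ 0 := pc_le hb (by norm_num) (by norm_num)
      _ = 1 := by simp
  · have := PR_inv_le hb (c := 8) (j := 5000) (l := 0) (by norm_num) (by norm_num)
    rw [pow_zero] at this
    have h8 : 8 / PR b ^ 5000 = 8 * (1 / PR b ^ 5000) := by ring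
    linarith
  · have h1 : (1 : ℝ) ≤ PR b ^ 1510 := one_le_pow₀ (PR_one b)
    have h2 := pc_le hb (c := 48) (i := 1510) (j := 5000) (l := 3012) (by norm_num) (by norm_num)
    rw [homz]
    calc 1 / PR b ^ 5000 * (2 * PR b ^ 1510 + 1) ≤ 1 / PR b ^ 5000 * (3 * PR b ^ 1510) := by
          gcongr; linarith
      _ = 48 * PR b ^ 1510 / PR b ^ 5000 / 16 := by ring
      _ ≤ _ := by gcongr
  · intro ψ hψ
    have h1 := nuc_D1 hb hV ψ hψ
    have h2 : 0 ≤ ∫ x, W x * ψ x ^ 2 :=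
      integral_nonneg fun x => mul_nonneg (Ve_bd hb hL x).1 (sq_nonneg _)
    simp only [add_mul]
    rw [integral_add (pc_mul hWc.locallyIntegrable (pc_sq hψ).1 (pc_sq hψ).2)
      (pc_mul hdi (pc_sq hψ).1 (pc_sq hψ).2)]
    linarith
  · intro a
    obtain ⟨h1, h2⟩ := nuc_D2 hb hV
    have hg : Integrable fun x => L.gt3 b a x ^ 2 :=
      (pc_sq (hB.gt_test a)).1.integrable_of_hasCompactSupport (pc_sq (hB.gt_test a)).2
    have hI := (integrable_indicator_iff (pc_B0 b)).2 h1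
    have hdom := (hg.const_mul (2 * (1 / PR b ^ 62890) ^ 2)).add
      (hI.const_mul (2 * (PR b ^ 400) ^ 2))
    have hle : ∀ x, ((W x + δ x) * L.gt3 b a x) ^ 2 ≤
        2 * (1 / PR b ^ 62890) ^ 2 * L.gt3 b a x ^ 2 +
          2 * (PR b ^ 400) ^ 2 * (B0 b).indicator (fun x => δ x ^ 2) x := by
      intro x
      have k1 : W x ^ 2 ≤ (1 / PR b ^ 62890) ^ 2 :=
        pow_le_pow_left₀ (Ve_bd hb hL x).1 (Ve_bd hb hL x).2 2
      have k2 : δ x ^ 2 * L.gt3 b a x ^ 2 ≤
          (PR b ^ 400) ^ 2 * (B0 b).indicator (fun x => δ x ^ 2) x := by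
        by_cases h0 : L.gt3 b a x = 0
        · rw [h0, zero_pow two_ne_zero, mul_zero]
          exact mul_nonneg (sq_nonneg _) (Set.indicator_nonneg (fun _ _ => sq_nonneg _) _)
        · rw [Set.indicator_of_mem (gt_supp hb hL a x h0), mul_comm]
          exact mul_le_mul_of_nonneg_right (sq_le_sq' (abs_le.1 (hB.gt_bd a x)).1
            (abs_le.1 (hB.gt_bd a x)).2) (sq_nonneg _)
      have k3 := mul_le_mul_of_nonneg_right k1 (sq_nonneg (L.gt3 b a x))
      have k4 := mul_nonneg (sq_nonneg (W x - δ x)) (sq_nonneg (L.gt3 b a x))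
      generalize (1 / PR b ^ 62890) ^ 2 = A at *
      generalize (PR b ^ 400) ^ 2 = B at *
      nlinarith
    have hint : Integrable fun x => ((W x + δ x) * L.gt3 b a x) ^ 2 :=
      hdom.mono' (((hWc.measurable.add hdm).mul
        (hB.gt_test a).1.continuous.measurable).pow_const 2).aestronglyMeasurable
        (Filter.Eventually.of_forall fun x => by
          rw [Real.norm_of_nonneg (sq_nonneg _)]; exact hle x)
    refine ⟨hint, (integral_mono hint hdom hle).trans ?_⟩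
    simp only [Pi.add_apply]
    rw [integral_add (hg.const_mul _) (hI.const_mul _), integral_const_mul, integral_const_mul,
      integral_indicator (pc_B0 b)]
    have k1 := basis_gt_sq hB hed a
    have e1 : 2 * (1 / PR b ^ 62890) ^ 2 * ∫ x, L.gt3 b a x ^ 2 ≤ 1 / PR b ^ 69001 :=
      calc _ ≤ 2 * (1 / PR b ^ 62890) ^ 2 * 4 := by gcongr
        _ = 8 / PR b ^ (62890 * 2) := by rw [pow_mul]; field_simp; norm_num
        _ ≤ _ := PR_inv_le hb (by norm_num) (by norm_num)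
    have e2 : 2 * (PR b ^ 400) ^ 2 * ∫ x in B0 b, δ x ^ 2 ≤ 1 / PR b ^ 69001 :=
      calc _ ≤ 2 * (PR b ^ 400) ^ 2 * (1 / PR b ^ 70000) := by gcongr
        _ = 2 * PR b ^ (400 * 2) / PR b ^ 70000 := by rw [pow_mul, mul_one_div]
        _ ≤ _ := pc_le hb (by norm_num) (by norm_num)
    have e3 : 2 / PR b ^ 69001 ≤ 1 / PR b ^ 69000 := PR_inv_le hb (by norm_num) (by norm_num)
    have e4 : 2 / PR b ^ 69001 = 2 * (1 / PR b ^ 69001) := mul_one_div _ _ |>.symm
    linarith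
  · intro a a'
    have hc : Continuous fun x => L.gt3 b a x * L.gt3 b a' x :=
      (hB.gt_test a).1.continuous.mul (hB.gt_test a').1.continuous
    have hs : HasCompactSupport fun x => L.gt3 b a x * L.gt3 b a' x := (hB.gt_test a').2.mul_left
    have h1 := Ve_first hb hL a a'
    have h2 := nuc_D3 hb hV _ (gt_bd4 hb hL a a')
      (fun x hx => gt_supp hb hL a x (left_ne_zero_of_mul hx)) (basis_gt_abs hB hed a a')
    simp only [add_mul]
    rw [integral_add (pc_mul hWc.locallyIntegrable hc hs) (pc_mul hdi hc hs)]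
    have e1 : 1 / PR b ^ 63100 ≤ 1 / PR b ^ 63050 := PR_inv_le hb (by norm_num) (by norm_num)
    have e4 : 2 / PR b ^ 63050 = 2 * (1 / PR b ^ 63050) := mul_one_div _ _ |>.symm
    rw [abs_le] at h1 h2 ⊢
    constructor <;> linarith [h1.1, h1.2, h2.1, h2.2]

theorem T_psd (hb : 30 ≤ b) (hL : L.Good b) (c : S → ℝ) :
    0 ≤ qf (fun σ σ' => ((L.T0 b σ σ' + if σ = σ' then L.eps σ else 0 : ℚ) : ℝ)) c := by
  have h1 := (T0_psd hb hL c).1
  have h2 : qf (fun σ σ' => ((L.T0 b σ σ' + if σ = σ' then L.eps σ else 0 : ℚ) : ℝ)) c =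
      qf (fun σ σ' => (L.T0 b σ σ' : ℝ)) c + ∑ σ, (L.eps σ : ℝ) * c σ ^ 2 := by
    simp only [qf, ← Finset.sum_add_distrib]
    refine Finset.sum_congr rfl fun σ _ => ?_
    simp only [Rat.cast_add, apply_ite (Rat.cast : ℚ → ℝ), Rat.cast_zero, mul_add, add_mul,
      Finset.sum_add_distrib, mul_ite, ite_mul, mul_zero, zero_mul, Finset.sum_ite_eq,
      Finset.mem_univ, if_true]
    ring
  rw [h2]
  exact add_nonneg h1 (Finset.sum_nonneg fun σ _ =>
    mul_nonneg (by exact_mod_cast hL.eps_nonneg σ) (sq_nonneg _))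

theorem T_row (hb : 30 ≤ b) (hL : L.Good b) (σ : S) :
    ∑ σ', |((L.T0 b σ σ' + if σ = σ' then L.eps σ else 0 : ℚ) : ℝ)| ≤ 2 / PR b ^ 62900 := by
  have h1 := T0_row hb hL σ
  have h0 : (0 : ℝ) ≤ L.eps σ := by exact_mod_cast hL.eps_nonneg σ
  have h2 : (L.eps σ : ℝ) ≤ 1 / PR b ^ 62900 := by
    have := (Rat.cast_le (K := ℝ)).2 (hL.eps_le σ)
    rwa [Rat.cast_div, Rat.cast_pow, Pq_cast, Rat.cast_one] at this
  have h3 : 8 / PR b ^ 62914 ≤ 1 / PR b ^ 62900 := PR_inv_le hb (by norm_num) (by norm_num)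
  have e4 : 2 / PR b ^ 62900 = 2 * (1 / PR b ^ 62900) := mul_one_div _ _ |>.symm
  calc _ ≤ ∑ σ', (|(L.T0 b σ σ' : ℝ)| + if σ = σ' then (L.eps σ : ℝ) else 0) := by
        refine Finset.sum_le_sum fun σ' _ => ?_
        rw [Rat.cast_add]
        refine (abs_add_le _ _).trans (add_le_add le_rfl ?_)
        split_ifs
        · exact (abs_of_nonneg h0).le
        · simp
    _ ≤ _ := by
        rw [Finset.sum_add_distrib, Finset.sum_ite_eq, if_pos (Finset.mem_univ _)]
        linarith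

end Vale.Agent.P370
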