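import Vale.Agent.P370.QGate

/-! Part Q: the lower bound for the clock Hamiltonian.
Plan: let `|v| = √(nsq v)` (triangle inequality from `abs_ip_le`, or transport to `EuclideanSpace`), `Δ` the
sum of the `nsq (ψ (τ + 1) - W τ (ψ τ))`, `ψ 0 = g + r` with `g` the restriction to `Good`, so `nsq r ≤ bad (ψ 0)`.
By induction `|ψ τ - U τ (ψ 0)| ≤ ∑ σ < τ, |ψ (σ + 1) - W σ (ψ σ)| ≤ √(T Δ)`. Put `ε = √(T Δ) + |r|`, so that
`ε ^ 2 ≤ 2 T Δ + 2 nsq r`. Then `|ψ τ| ≤ |g| + ε`, hence `nsq (ψ τ) ≤ 5 / 4 nsq g + 5 ε ^ 2`, and with `Π` the restriction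
to `bit x 0 = false`: `|Π U T g| ≤ |Π ψ T| + ε`, hence `2 / 3 nsq g ≤ 5 / 4 rej (ψ T) + 5 ε ^ 2` (`U_T`).
So `5 nsq (ψ τ) ≤ 12 rej (ψ T) + 72 ε ^ 2`; sum over `τ ≤ T`. -/

namespace Vale.Agent.P370.Q.HC

variable {h : HC}

theorem qclock_add {n : ℕ} (a b : Vec n) (l : ℝ) :
    l * nsq (a + b) ≤ (1 + l) * (l * nsq a + nsq b) := by
  simp only [nsq, Finset.mul_sum, ← Finset.sum_add_distrib, Pi.add_apply]
  exact Finset.sum_le_sum fun x _ => by nlinarith [sq_nonneg (l * a x - b x)]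

theorem qclock_err (hh : h.Ok) (ψ : ℕ → Vec h.m) {τ : ℕ} (hτ : τ ≤ h.T) :
    nsq (ψ τ - h.U τ (ψ 0)) ≤
      (τ + 1) * ∑ σ ∈ Finset.range τ, nsq (ψ (σ + 1) - h.W σ (ψ σ)) := by
  induction τ with
  | zero => simp [U, nsq]
  | succ τ ih =>
    have h1 := h.W_add τ (ψ τ - h.U τ (ψ 0)) (h.U τ (ψ 0))
    rw [sub_add_cancel] at h1
    have h2 : ψ (τ + 1) - h.U (τ + 1) (ψ 0) =
        (ψ (τ + 1) - h.W τ (ψ τ)) + h.W τ (ψ τ - h.U τ (ψ 0)) := by
      rw [U, h1]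
      abel
    have h3 := qclock_add (ψ (τ + 1) - h.W τ (ψ τ)) (h.W τ (ψ τ - h.U τ (ψ 0))) (τ + 1)
    rw [← h2, hh.nsq_W hτ] at h3
    have h4 := ih (by omega)
    have h5 : (0 : ℝ) < τ + 1 := by positivity
    rw [Finset.sum_range_succ]
    push_cast
    refine le_of_mul_le_mul_left (h3.trans ?_) h5
    nlinarith

theorem qclock_rej (a b : Vec h.m) : h.rej (a - b) ≤ 5 / 4 * h.rej a + 5 * nsq b := by
  simp only [rej, nsq, Finset.mul_sum, ← Finset.sum_add_distrib, Pi.sub_apply]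
  refine Finset.sum_le_sum fun x _ => ?_
  split_ifs
  · positivity
  · nlinarith [sq_nonneg (a x + 4 * b x)]

theorem qclock_rej_nonneg (a : Vec h.m) : 0 ≤ h.rej a :=
  Finset.sum_nonneg fun x _ => by split_ifs <;> positivity

open Classical in
theorem qclock_bad (v : Vec h.m) : nsq (fun x => if h.Good x then 0 else v x) ≤ h.bad v := by
  refine Finset.sum_le_sum fun x _ => ?_
  have h0 : ∀ y ∈ h.A.map fun a => if bit x a then (1 : ℝ) else 0, 0 ≤ y := fun y hy => by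
    obtain ⟨a, -, rfl⟩ := List.mem_map.1 hy
    split_ifs <;> norm_num
  dsimp only
  split_ifs with hx
  · rw [zero_pow two_ne_zero]
    exact mul_nonneg (List.sum_nonneg h0) (sq_nonneg _)
  · simp only [Good, not_forall] at hx
    obtain ⟨a, ha, hb⟩ := hx
    refine le_mul_of_one_le_left (sq_nonneg _) (List.single_le_sum h0 _ ?_)
    exact List.mem_map.2 ⟨a, ha, by simpa using hb⟩

theorem Ok.clock (hh : h.Ok) (hN : h.No) (ψ : ℕ → Vec h.m) :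
    5 * ∑ τ ∈ Finset.range (h.T + 1), nsq (ψ τ) ≤
      h.J * ∑ τ ∈ Finset.range h.T, nsq (ψ (τ + 1) - h.W τ (ψ τ)) + h.J * h.bad (ψ 0) +
        12 * ((h.T : ℝ) + 1) * h.rej (ψ h.T) := by
  classical
  set Δ := ∑ τ ∈ Finset.range h.T, nsq (ψ (τ + 1) - h.W τ (ψ τ)) with hΔ
  have hΔ0 : 0 ≤ Δ := Finset.sum_nonneg fun _ _ => nsq_nonneg _
  set g : Vec h.m := fun x => if h.Good x then ψ 0 x else 0 with hg
  set r : Vec h.m := fun x => if h.Good x then 0 else ψ 0 x with hr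
  have e0 : ψ 0 = g + r := by
    funext x
    simp only [hg, hr, Pi.add_apply]
    split_ifs <;> simp
  have hb : nsq r ≤ h.bad (ψ 0) := by convert qclock_bad (ψ 0)
  have hb0 : 0 ≤ h.bad (ψ 0) := (nsq_nonneg r).trans hb
  have hT : (0 : ℝ) ≤ h.T := Nat.cast_nonneg _
  have hz : ∀ τ ≤ h.T, nsq (ψ τ - h.U τ g) ≤ 2 * ((h.T + 1) * Δ + h.bad (ψ 0)) := by
    intro τ hτ
    have h1 : ψ τ - h.U τ g = (ψ τ - h.U τ (ψ 0)) + h.U τ r := by
      rw [e0, U_add]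
      abel
    have h2 := qclock_add (ψ τ - h.U τ (ψ 0)) (h.U τ r) 1
    rw [← h1, hh.nsq_U hτ] at h2
    have h3 := qclock_err hh ψ hτ
    have h4 : ∑ σ ∈ Finset.range τ, nsq (ψ (σ + 1) - h.W σ (ψ σ)) ≤ Δ :=
      Finset.sum_le_sum_of_subset_of_nonneg (Finset.range_mono hτ) fun _ _ _ => nsq_nonneg _
    have h5 : (τ : ℝ) ≤ h.T := by exact_mod_cast hτ
    have h6 : ((τ : ℝ) + 1) * ∑ σ ∈ Finset.range τ, nsq (ψ (σ + 1) - h.W σ (ψ σ)) ≤
        (h.T + 1) * Δ :=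
      mul_le_mul (by linarith) h4 (Finset.sum_nonneg fun _ _ => nsq_nonneg _) (by linarith)
    linarith
  have h1 := hN g fun x hx => if_neg hx
  have h2 := qclock_rej (ψ h.T) (ψ h.T - h.U h.T g)
  rw [sub_sub_cancel, U_T] at h2
  have h3 := hz h.T le_rfl
  rw [U_T] at h3
  have h4 := qclock_rej_nonneg (ψ h.T)
  have h5 : 0 ≤ (h.T + 1) * Δ := by positivity
  have hτ : ∀ τ ∈ Finset.range (h.T + 1), 5 * nsq (ψ τ) ≤
      12 * h.rej (ψ h.T) + 144 * ((h.T + 1) * Δ + h.bad (ψ 0)) := by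
    intro τ hτ
    have hτ' : τ ≤ h.T := Nat.lt_succ_iff.1 (Finset.mem_range.1 hτ)
    have h6 := qclock_add (h.U τ g) (ψ τ - h.U τ g) (1 / 4)
    rw [add_sub_cancel, hh.nsq_U hτ'] at h6
    have h7 := hz τ hτ'
    linarith
  have h6 := Finset.sum_le_sum hτ
  rw [← Finset.mul_sum, Finset.sum_const, Finset.card_range, nsmul_eq_mul] at h6
  refine h6.trans ?_
  unfold J
  push_cast
  nlinarith [mul_nonneg (mul_nonneg hT (add_nonneg hT zero_le_one)) hb0]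

end Vale.Agent.P370.Q.HC
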