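import Vale.Agent.P370.LHDefs

/-! Part Q (circuits to real 2-local Hamiltonians): definitions. See `notes/P370_Q.md`. -/

namespace Vale.Agent.P370.Q

open Vale.Agent.Lib.H23 Vale.Agent.P338

/-- real amplitude vectors of `n` qubits -/
abbrev Vec (n : ℕ) : Type := (Fin n → Bool) → ℝ

/-- inner product -/
def ip {n : ℕ} (v w : Vec n) : ℝ := ∑ x, v x * w x

/-- squared norm -/
def nsq {n : ℕ} (v : Vec n) : ℝ := ∑ x, v x ^ 2

/-- flip the bit number `a` -/
def flip {n : ℕ} (x : Fin n → Bool) (a : ℕ) : Fin n → Bool := setBit x a (!bit x a)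

/-- an elementary step: control qubit, target qubit, direction of the rotation; a control qubit
outside the register counts as the constant `0` -/
abbrev Step : Type := ℕ × ℕ × Bool

/-- the angle `± π / 8` -/
noncomputable def ang (s : Bool) : ℝ := if s then Real.pi / 8 else -(Real.pi / 8)

/-- the two reflections of a step: `Z` for `k = true`, `cos θ Z + sin θ X` for `k = false` -/
noncomputable def gate {n : ℕ} (s : Step) (k : Bool) (v : Vec n) : Vec n := fun x =>
  if k then pauli (s.2.1, false) v x else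
    Real.cos (ang s.2.2) * pauli (s.2.1, false) v x + Real.sin (ang s.2.2) * pauli (s.2.1, true) v x

/-- first (`k = false`) and second (`k = true`) half of a step -/
noncomputable def half {n : ℕ} (s : Step) (k : Bool) (v : Vec n) : Vec n := fun x =>
  gate s (xor k (bit x s.1)) v x

/-- a whole step -/
noncomputable def full {n : ℕ} (s : Step) (v : Vec n) : Vec n := half s true (half s false v)

/-- a list of steps -/
noncomputable def run {n : ℕ} (S : List Step) (v : Vec n) : Vec n :=
  S.foldl (fun v s => full s v) v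

/-- rotation of the qubit `b` by the angle `α` or `β`, according to the qubit `c` -/
noncomputable def rot {n : ℕ} (c b : ℕ) (α β : ℝ) (v : Vec n) : Vec n := fun x =>
  Real.cos (if bit x c then β else α) * v x +
    Real.sin (if bit x c then β else α) * ((if bit x b then 1 else -1) * v (flip x b))

/-- a real circuit: number of qubits, list of ancilla qubits, steps -/
structure HC : Type where
  m : ℕ
  A : List ℕ
  S : List Step

instance : Enc HC := ⟨fun h => Enc.enc ((⟨h.m⟩ : Un), h.A, h.S)⟩

namespace HC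

variable (h : HC)

/-- number of clock bits -/
def T : ℕ := 2 * h.S.length

/-- total number of qubits -/
def N : ℕ := h.m + h.T

/-- step number `t` -/
def st (t : ℕ) : Step := h.S.getD t (0, 0, false)

/-- the first and the last step have no control -/
structure Ok : Prop where
  m_pos : 1 ≤ h.m
  A_lt : ∀ a ∈ h.A, a < h.m
  tgt : ∀ t < h.S.length, (h.st t).2.1 < h.m ∧ (h.st t).1 ≠ (h.st t).2.1
  len : 1 ≤ h.S.length
  first : h.m ≤ (h.st 0).1
  last : h.m ≤ (h.st (h.S.length - 1)).1

/-- all ancilla qubits are `0` -/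
def Good (x : Fin h.m → Bool) : Prop := ∀ a ∈ h.A, bit x a = false

/-- the weight of the basis states whose qubit `0` is `0` -/
def rej (v : Vec h.m) : ℝ := ∑ x, if bit x 0 then 0 else v x ^ 2

/-- the number of ancilla qubits which are `1`, as an observable -/
def bad (v : Vec h.m) : ℝ := ∑ x, (h.A.map fun a => if bit x a then (1 : ℝ) else 0).sum * v x ^ 2

def Yes : Prop :=
  ∃ g : Vec h.m, (∀ x, ¬ h.Good x → g x = 0) ∧ nsq g = 1 ∧ h.rej (run h.S g) ≤ 1 / 3

def No : Prop :=
  ∀ g : Vec h.m, (∀ x, ¬ h.Good x → g x = 0) → 2 / 3 * nsq g ≤ h.rej (run h.S g)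

/-- the operator applied between the times `τ` and `τ + 1` -/
noncomputable def W (τ : ℕ) (v : Vec h.m) : Vec h.m := half (h.st (τ / 2)) (τ % 2 == 1) v

/-- the evolution up to the time `τ` -/
noncomputable def U : ℕ → Vec h.m → Vec h.m
  | 0, v => v
  | τ + 1, v => h.W τ (U τ v)

/-- the clock bit `j` is switched on between the times `ord x j` and `ord x j + 1` -/
def ord (x : Fin h.m → Bool) (j : ℕ) : ℕ :=
  2 * (j / 2) + if xor (j % 2 == 1) (bit x (h.st (j / 2)).1) then 1 else 0

/-- the legal basis state with content `x` at the time `τ` -/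
def leg (x : Fin h.m → Bool) (τ : ℕ) : Fin h.N → Bool := fun i =>
  if i.val < h.m then bit x i.val else decide (h.ord x (i.val - h.m) < τ)

/-- legal basis states -/
def Leg (y : Fin h.N → Bool) : Prop := ∃ x, ∃ τ ≤ h.T, y = h.leg x τ

/-- the content of a basis state -/
def res (y : Fin h.N → Bool) : Fin h.m → Bool := fun i => bit y i.val

/-- the slice of a vector at the time `τ` -/
def sl (v : Vec h.N) (τ : ℕ) : Vec h.m := fun x => v (h.leg x τ)

/-- weight of the propagation and input terms -/
def J : ℕ := 144 * (h.T + 1) ^ 2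

/-- weight of the clock penalty -/
def Jc : ℕ := 124416 * (h.T + 1) ^ 6

/-- denominator of the rational approximations -/
def D : ℕ := 576 * (h.T + 1) ^ 3

/-- the diagonal terms; `((p, s), (q, s'), κ)` is `κ` times the indicator of
`bit p = s ∧ bit q = s'` -/
def dts : List ((ℕ × Bool) × (ℕ × Bool) × ℚ) :=
  ((List.range h.T).flatMap fun j => (List.range h.T).flatMap fun j' =>
    bif ltb (j / 2) (j' / 2) then [((h.m + j, false), (h.m + j', true), (h.Jc : ℚ))] else []) ++
  ((List.range h.S.length).flatMap fun t =>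
    ((h.m + 2 * t, false), (h.m + 2 * t + 1, true), (h.Jc : ℚ)) ::
      bif ltb (h.st t).1 h.m then
        [(((h.st t).1, true), (h.m + 2 * t, true), (h.Jc : ℚ)),
          (((h.st t).1, true), (h.m + 2 * t + 1, true), -(h.Jc : ℚ))] else []) ++
  [((h.m, true), (h.N - 1, false), 2 * (h.J : ℚ)), ((h.m, true), (h.N - 1, true), (h.J : ℚ)),
    ((h.m, false), (h.N - 1, false), (h.J : ℚ)),
    ((0, false), (h.N - 1, true), 12 * ((h.T : ℚ) + 1))] ++
  h.A.map fun a => ((a, true), (h.m, false), (h.J : ℚ))

end HC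

/-- indicator of `bit q = s` -/
def ind {n : ℕ} (y : Fin n → Bool) (a : ℕ × Bool) : ℝ := if bit y a.1 = a.2 then 1 else 0

/-- `1` for `false`, `-1` for `true` -/
def sgq (s : Bool) : ℚ := bif s then -1 else 1

/-- the integer part of `D cos (π / 8)` -/
def cnum (D : Un) : ℕ :=
  ((List.range D.n).filter fun i =>
    !ltb (2 * D.n ^ 4) ((4 * (i + 1) ^ 2 - 2 * D.n ^ 2) ^ 2)).length

/-- the integer part of `D sin (π / 8)` -/
def snum (D : Un) : ℕ :=
  ((List.range D.n).filter fun i =>
    !ltb ((2 * D.n ^ 2 - 4 * (i + 1) ^ 2) ^ 2) (2 * D.n ^ 4)).length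

namespace HC

variable (h : HC)

/-- the diagonal part of the Hamiltonian -/
def diag (y : Fin h.N → Bool) : ℝ :=
  (h.dts.map fun t => (t.2.2 : ℝ) * ind y t.1 * ind y t.2.1).sum

/-- the hopping form -/
noncomputable def K (v w : Vec h.N) : ℝ :=
  ∑ j ∈ Finset.range h.T, ip v (gate (h.st (j / 2)) (j % 2 == 1) (pauli (h.m + j, true) w))

/-- the energy with exact coefficients -/
noncomputable def E (v : Vec h.N) : ℝ := ∑ y, h.diag y * v y ^ 2 - h.J * h.K v v

/-- the constant term of the diagonal part -/
def cst : ℚ := (h.dts.map fun t => t.2.2 / 4).sum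

/-- the hopping terms with rational coefficients -/
def hops : List ((ℕ × Bool) × (ℕ × Bool) × ℚ) :=
  (List.range h.S.length).flatMap fun t =>
    [(((h.st t).2.1, false), (h.m + 2 * t, true), -((h.J : ℚ) * (cnum ⟨h.D⟩ : ℚ) / (h.D : ℚ))),
      (((h.st t).2.1, true), (h.m + 2 * t, true),
        sgq (h.st t).2.2 * ((h.J : ℚ) * (snum ⟨h.D⟩ : ℚ) / (h.D : ℚ))),
      (((h.st t).2.1, false), (h.m + 2 * t + 1, true), -(h.J : ℚ))]

/-- the Hamiltonian of a real circuit -/
def toLH : LH where
  nq := h.N
  one := h.dts.flatMap fun t =>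
    [((t.1.1, false), t.2.2 * sgq t.1.2 / 4), ((t.2.1.1, false), t.2.2 * sgq t.2.1.2 / 4)]
  two := (h.dts.map fun t =>
    ((t.1.1, false), (t.2.1.1, false), t.2.2 * sgq t.1.2 * sgq t.2.1.2 / 4)) ++ h.hops
  thr := 17 / 4 - h.cst
  bd := (h.dts.length + 5) * h.Jc

end HC

/-- controlled rotation by `± π / 4` -/
def cr (m c b : ℕ) (s : Bool) : List Step := [(c, b, s), (m, b, !s)]

/-- controlled rotation by `± π / 2` -/
def cr2 (m c b : ℕ) (s : Bool) : List Step := cr m c b s ++ cr m c b s

/-- two steps which cancel -/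
def pad (n : ℕ) : List Step := [(n + 1, n, true), (n + 1, n, false)]

/-- the steps of a gate with code `d`; the qubit `n` separates real and imaginary parts -/
def gsteps (n : ℕ) (d : List ℕ) : List Step :=
  bif eqb (d.getD 0 0) 0 then
    cr2 (n + 1) (d.getD 1 0) n true ++ cr2 (n + 1) (d.getD 1 0) n true ++
      [(n + 1, d.getD 1 0, false), (n + 1, d.getD 1 0, false)]
  else bif eqb (d.getD 0 0) 1 then cr (n + 1) (d.getD 1 0) n true
  else cr2 (n + 1) (d.getD 2 0) n true ++ cr2 (n + 1) (d.getD 1 0) (d.getD 2 0) true ++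
    cr2 (n + 1) (d.getD 2 0) n false ++ cr2 (n + 1) (d.getD 1 0) n true

/-- the real circuit of a circuit -/
def toHC (C : Circ) : HC where
  m := C.wit + C.anc + 1
  A := (List.range C.anc).map fun j => C.wit + j
  S := pad (C.wit + C.anc) ++ (C.gates.flatMap fun g => gsteps (C.wit + C.anc) g.data) ++
    pad (C.wit + C.anc)

/-- real and imaginary parts, stored in one more qubit -/
def rl {n : ℕ} (ψ : (Fin n → Bool) → ℂ) : Vec (n + 1) := fun x =>
  if bit x n then (ψ fun i => x i.castSucc).im else (ψ fun i => x i.castSucc).re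

end Vale.Agent.P370.Q
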