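import Vale.Agent.P370.QLeg

/-! Part Q: the diagonal part of the Hamiltonian.
Plan: first rewrite `diag y` as `Jc * (∑ j < T, ∑ j' < T, if j / 2 < j' / 2 then .. else 0) +
Jc * (∑ t < L, pen t) + ...` (`List.map_flatMap`, `List.sum_flatMap`-like lemma, `List.sum_range`).
With `u, d` the clock bits `2 t`, `2 t + 1` and `c = bit (res y) (st t).1` (which is `false` when the control is
not `< m`), `pen t = [¬ u ∧ d] + [c ∧ u] - [c ∧ d]` is `[¬ u ∧ d]` for `c = false` and `[u ∧ ¬ d]` for `c = true`.
All the summands are nonnegative, and each is `0` or `≥ 1`; if all vanish then `leg_of_mono` applies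
(`ord j < ord j'` means `j / 2 < j' / 2`, or `j`, `j'` are the two bits of one step).
For a legal state use `bit_leg_clock`; `ord x 0 = 0` and `ord x (T - 1) = T - 1` by `ord_of_le`, `Ok.first`,
`Ok.last`, and `N - 1 = m + (T - 1)`. -/

namespace Vale.Agent.P370.Q.HC

variable {h : HC}

theorem qdiag_flat {α : Type} (F : α → ℝ) (f : ℕ → List α) (n : ℕ) :
    (((List.range n).flatMap f).map F).sum = ∑ j ∈ Finset.range n, ((f j).map F).sum := by
  induction n with
  | zero => simp
  | succ n ih =>
    rw [List.range_succ, List.flatMap_append, List.map_append, List.sum_append, ih,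
      Finset.sum_range_succ]
    simp

/-- penalty for two clock bits of different steps -/
def qdP (h : HC) (y : Fin h.N → Bool) (j j' : ℕ) : ℝ :=
  if j / 2 < j' / 2 ∧ bit y (h.m + j) = false ∧ bit y (h.m + j') = true then 1 else 0

/-- penalty for the two clock bits of one step -/
def qdQ (h : HC) (y : Fin h.N → Bool) (t : ℕ) : ℝ :=
  if bit y (h.m + 2 * t) = bit (h.res y) (h.st t).1 ∧
    bit y (h.m + (2 * t + 1)) = !bit (h.res y) (h.st t).1 then 1 else 0

/-- the remaining terms -/
def qdR (h : HC) (y : Fin h.N → Bool) : ℝ :=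
  2 * (h.J : ℝ) * ind y (h.m, true) * ind y (h.N - 1, false) +
    h.J * ind y (h.m, true) * ind y (h.N - 1, true) +
    h.J * ind y (h.m, false) * ind y (h.N - 1, false) +
    12 * ((h.T : ℝ) + 1) * ind y (0, false) * ind y (h.N - 1, true) +
    (h.A.map fun a => (h.J : ℝ) * ind y (a, true) * ind y (h.m, false)).sum

theorem qdiag_eq (y : Fin h.N → Bool) : h.diag y =
    h.Jc * (∑ j ∈ Finset.range h.T, ∑ j' ∈ Finset.range h.T, qdP h y j j') +
      h.Jc * (∑ t ∈ Finset.range h.S.length, qdQ h y t) + qdR h y := by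
  rw [diag, dts, List.map_append, List.map_append, List.map_append, List.sum_append,
    List.sum_append, List.sum_append, qdiag_flat, qdiag_flat, add_assoc (_ + _), Finset.mul_sum,
    Finset.mul_sum]
  congr 2
  · refine Finset.sum_congr rfl fun j _ => ?_
    rw [qdiag_flat, Finset.mul_sum]
    refine Finset.sum_congr rfl fun j' _ => ?_
    unfold qdP ind
    by_cases h1 : j / 2 < j' / 2 <;> cases e1 : bit y (h.m + j) <;>
      cases e2 : bit y (h.m + j') <;> simp [h1, e1, e2]
  · refine Finset.sum_congr rfl fun t _ => ?_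
    unfold qdQ ind
    rw [← add_assoc]
    by_cases h1 : (h.st t).1 < h.m
    · rw [h.bit_res y h1]
      cases e0 : bit y (h.st t).1 <;> cases e1 : bit y (h.m + 2 * t) <;>
        cases e2 : bit y (h.m + 2 * t + 1) <;> simp [h1, e0, e1, e2]
    · rw [bit_of_le _ (not_lt.1 h1)]
      cases e1 : bit y (h.m + 2 * t) <;> cases e2 : bit y (h.m + 2 * t + 1) <;> simp [h1, e1, e2]
  · simp only [List.map_cons, List.map_nil, List.sum_cons, List.sum_nil]
    push_cast
    ring
  · rw [List.map_map]
    congr 1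

theorem qdiag_ind (y : Fin h.N → Bool) (a : ℕ × Bool) : 0 ≤ ind y a := by
  unfold ind
  split_ifs <;> norm_num

theorem qdP_nonneg (y : Fin h.N → Bool) (j j' : ℕ) : 0 ≤ qdP h y j j' := by
  unfold qdP
  split_ifs <;> norm_num

theorem qdQ_nonneg (y : Fin h.N → Bool) (t : ℕ) : 0 ≤ qdQ h y t := by
  unfold qdQ
  split_ifs <;> norm_num

theorem qdR_nonneg (y : Fin h.N → Bool) : 0 ≤ qdR h y := by
  have h1 := qdiag_ind y
  have h2 : 0 ≤ (h.A.map fun a => (h.J : ℝ) * ind y (a, true) * ind y (h.m, false)).sum := by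
    refine List.sum_nonneg fun z hz => ?_
    obtain ⟨a, -, rfl⟩ := List.mem_map.1 hz
    exact mul_nonneg (mul_nonneg (Nat.cast_nonneg _) (h1 _)) (h1 _)
  have h3 : ∀ (c : ℝ) a b, 0 ≤ c → 0 ≤ c * ind y a * ind y b := fun c a b hc =>
    mul_nonneg (mul_nonneg hc (h1 _)) (h1 _)
  exact add_nonneg (add_nonneg (add_nonneg (add_nonneg (h3 _ _ _ (by positivity))
    (h3 _ _ _ (by positivity))) (h3 _ _ _ (by positivity))) (h3 _ _ _ (by positivity))) h2

theorem Ok.diag_illegal (hh : h.Ok) {y : Fin h.N → Bool} (hy : ¬ h.Leg y) :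
    (h.Jc : ℝ) ≤ h.diag y := by
  have h1 : 0 ≤ ∑ j ∈ Finset.range h.T, ∑ j' ∈ Finset.range h.T, qdP h y j j' :=
    Finset.sum_nonneg fun _ _ => Finset.sum_nonneg fun _ _ => qdP_nonneg y _ _
  have h2 : 0 ≤ ∑ t ∈ Finset.range h.S.length, qdQ h y t :=
    Finset.sum_nonneg fun _ _ => qdQ_nonneg y _
  have h3 : 1 ≤ ∑ j ∈ Finset.range h.T, ∑ j' ∈ Finset.range h.T, qdP h y j j' +
      ∑ t ∈ Finset.range h.S.length, qdQ h y t := by
    by_contra hc
    refine hy (h.leg_of_mono fun j hj j' hj' ho hb => ?_)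
    by_contra hb'
    have hb' : bit y (h.m + j) = false := by simpa using hb'
    apply hc
    have d1 := h.ord_div (h.res y) j
    have d2 := h.ord_div (h.res y) j'
    rcases (show j / 2 ≤ j' / 2 by omega).lt_or_eq with hl | he
    · have a1 : qdP h y j j' = 1 := if_pos ⟨hl, hb', hb⟩
      have a2 := Finset.single_le_sum (f := fun j' => qdP h y j j') (fun _ _ => qdP_nonneg y _ _)
        (Finset.mem_range.2 hj')
      have a3 := Finset.single_le_sum (f := fun j => ∑ j' ∈ Finset.range h.T, qdP h y j j')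
        (fun _ _ => Finset.sum_nonneg fun _ _ => qdP_nonneg y _ _) (Finset.mem_range.2 hj)
      linarith
    · have ht : j / 2 < h.S.length := by
        unfold T at hj
        omega
      have a1 : qdQ h y (j / 2) = 1 := by
        refine if_pos ?_
        unfold ord at ho
        rw [← he] at ho
        revert ho
        cases bit (h.res y) (h.st (j / 2)).1 <;>
          rcases Nat.mod_two_eq_zero_or_one j with e1 | e1 <;>
          rcases Nat.mod_two_eq_zero_or_one j' with e2 | e2 <;> simp [e1, e2]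
        · rw [show 2 * (j / 2) = j by omega, show j + 1 = j' by omega]
          exact ⟨hb', hb⟩
        · rw [show 2 * (j / 2) = j' by omega, show j' + 1 = j by omega]
          exact ⟨hb, hb'⟩
      have a2 := Finset.single_le_sum (f := fun t => qdQ h y t) (fun _ _ => qdQ_nonneg y _)
        (Finset.mem_range.2 ht)
      linarith
  have h4 := mul_le_mul_of_nonneg_left h3 (Nat.cast_nonneg (α := ℝ) h.Jc)
  have h5 := qdR_nonneg y
  rw [qdiag_eq]
  linarith

theorem Ok.diag_leg (hh : h.Ok) (x : Fin h.m → Bool) {τ : ℕ} (hτ : τ ≤ h.T) :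
    h.diag (h.leg x τ) = h.J * ((if τ < h.T then 1 else 0) + if 0 < τ then 1 else 0) +
      (if τ = 0 then h.J * (h.A.map fun a => if bit x a then (1 : ℝ) else 0).sum else 0) +
      if τ = h.T then (if bit x 0 then 0 else 12 * ((h.T : ℝ) + 1)) else 0 := by
  have hL := hh.len
  have hT : h.T = 2 * h.S.length := rfl
  have h1 : ∑ j ∈ Finset.range h.T, ∑ j' ∈ Finset.range h.T, qdP h (h.leg x τ) j j' = 0 := by
    refine Finset.sum_eq_zero fun j hj => Finset.sum_eq_zero fun j' hj' => if_neg ?_
    rw [h.bit_leg_clock _ _ (Finset.mem_range.1 hj), h.bit_leg_clock _ _ (Finset.mem_range.1 hj')]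
    have d1 := h.ord_div x j
    have d2 := h.ord_div x j'
    simp only [decide_eq_false_iff_not, decide_eq_true_eq]
    omega
  have h2 : ∑ t ∈ Finset.range h.S.length, qdQ h (h.leg x τ) t = 0 := by
    refine Finset.sum_eq_zero fun t ht => if_neg ?_
    have ht := Finset.mem_range.1 ht
    rw [h.bit_leg_clock _ _ (by omega), h.bit_leg_clock _ _ (by omega), res_leg]
    have e1 : 2 * t / 2 = t := by omega
    have e2 : (2 * t + 1) / 2 = t := by omega
    have e3 : (2 * t + 1) % 2 = 1 := by omega
    unfold ord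
    rw [e1, e2, e3]
    cases bit x (h.st t).1 <;> simp <;> omega
  have b0 : bit (h.leg x τ) h.m = decide (0 < τ) := by
    have := h.bit_leg_clock x τ (j := 0) (by omega)
    rwa [h.ord_of_le x hh.first] at this
  have bL : bit (h.leg x τ) (h.N - 1) = decide (τ = h.T) := by
    have e : h.N - 1 = h.m + (h.T - 1) := by
      unfold N
      omega
    have e' : (h.T - 1) / 2 = h.S.length - 1 := by omega
    rw [e, h.bit_leg_clock x τ (by omega), h.ord_of_le x (e' ▸ hh.last)]
    exact decide_eq_decide.2 (by omega)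
  have h3 : (h.A.map fun a => (h.J : ℝ) * ind (h.leg x τ) (a, true) *
      ind (h.leg x τ) (h.m, false)).sum =
      if τ = 0 then h.J * (h.A.map fun a => if bit x a then (1 : ℝ) else 0).sum else 0 := by
    rw [List.sum_map_mul_right, List.sum_map_mul_left,
      List.map_congr_left (g := fun a => if bit x a then (1 : ℝ) else 0)
        fun a ha => by rw [ind, h.bit_leg_lt _ _ (hh.A_lt a ha)], ind, b0]
    by_cases h0 : τ = 0
    · simp [h0]
    · simp [h0, Nat.pos_of_ne_zero h0]
  rw [qdiag_eq, h1, h2, qdR, h3]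
  simp only [ind, b0, bL, h.bit_leg_lt x τ hh.m_pos]
  by_cases h0 : τ = 0
  · have a1 : τ < h.T := by omega
    simp [h0 ▸ a1, h0, (h0 ▸ a1).ne]
  · by_cases h4 : τ = h.T
    · have a1 : 0 < h.T := by omega
      cases bit x 0 <;> simp [h4, a1, a1.ne']
    · have a1 : τ < h.T := by omega
      simp [h0, h4, a1, Nat.pos_of_ne_zero h0]
      ring

end Vale.Agent.P370.Q.HC
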