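import Vale.Agent.P370.QDefs

/-! Part Q: linear algebra of the Pauli matrices, reflections and half steps.
Plan: `flip x a` is an involution (also for `a ≥ n`, where it is the identity); sums are reindexed
with `Equiv.sum_comp (Function.Involutive.toPerm ..)`. For `nsq_gate` the cross term
`∑ x, (± v x) * v (flip x b)` changes sign under the involution (`b < n`). For `half` the control bit
is invariant under `flip · b` because `c ≠ b`: it is best to prove the pointwise identity
`f x + f (flip x b) = g x + g (flip x b)` and sum it. -/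

namespace Vale.Agent.P370.Q

variable {n : ℕ}

theorem bit_setBit_self (x : Fin n → Bool) {a : ℕ} (ha : a < n) (v : Bool) :
    bit (setBit x a v) a = v := by
  simp [bit, setBit, ha]

theorem bit_setBit_ne (x : Fin n → Bool) {a b : ℕ} (hab : b ≠ a) (v : Bool) :
    bit (setBit x a v) b = bit x b := by
  unfold bit setBit
  split_ifs <;> simp_all

theorem bit_of_le (x : Fin n → Bool) {a : ℕ} (ha : n ≤ a) : bit x a = false := by
  simp [bit, not_lt.2 ha]

theorem bit_val (x : Fin n → Bool) (i : Fin n) : bit x i.val = x i := by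
  simp [bit]

theorem ext_bit {x y : Fin n → Bool} (h : ∀ a < n, bit x a = bit y a) : x = y := by
  funext i
  rw [← bit_val x, ← bit_val y, h _ i.2]

theorem setBit_bit (x : Fin n → Bool) (a : ℕ) : setBit x a (bit x a) = x := by
  funext i
  unfold setBit
  split_ifs with h
  · rw [← h, bit_val]
  · rfl

theorem setBit_setBit (x : Fin n → Bool) (a : ℕ) (u v : Bool) :
    setBit (setBit x a u) a v = setBit x a v := by
  funext i
  unfold setBit
  split_ifs <;> rfl

theorem bit_flip_self (x : Fin n → Bool) {a : ℕ} (ha : a < n) : bit (flip x a) a = !bit x a := by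
  exact bit_setBit_self x ha _

theorem bit_flip_ne (x : Fin n → Bool) {a b : ℕ} (hab : b ≠ a) : bit (flip x a) b = bit x b := by
  exact bit_setBit_ne x hab _

theorem flip_flip (x : Fin n → Bool) (a : ℕ) : flip (flip x a) a = x := by
  refine ext_bit fun b hb => ?_
  by_cases h : b = a
  · subst h
    rw [bit_flip_self _ hb, bit_flip_self _ hb, Bool.not_not]
  · rw [bit_flip_ne _ h, bit_flip_ne _ h]

theorem flip_comm (x : Fin n → Bool) (a b : ℕ) : flip (flip x a) b = flip (flip x b) a := by
  by_cases hab : a = b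
  · rw [hab]
  refine ext_bit fun c hc => ?_
  by_cases h : c = a
  · subst h
    rw [bit_flip_ne _ hab, bit_flip_self _ hc, bit_flip_self _ hc, bit_flip_ne _ hab]
  by_cases h' : c = b
  · subst h'
    rw [bit_flip_ne _ h, bit_flip_self _ hc, bit_flip_self _ hc, bit_flip_ne _ h]
  · rw [bit_flip_ne _ h', bit_flip_ne _ h, bit_flip_ne _ h, bit_flip_ne _ h']

theorem sum_flip (f : (Fin n → Bool) → ℝ) (a : ℕ) : ∑ x, f (flip x a) = ∑ x, f x := by
  exact Equiv.sum_comp (Function.Involutive.toPerm (fun x => flip x a) fun x => flip_flip x a) f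

theorem pauli_true (q : ℕ) (v : Vec n) (x : Fin n → Bool) :
    pauli (q, true) v x = v (flip x q) := rfl

theorem pauli_false (q : ℕ) (v : Vec n) (x : Fin n → Bool) :
    pauli (q, false) v x = (if bit x q then -1 else 1) * v x := rfl

theorem nsq_nonneg (v : Vec n) : 0 ≤ nsq v := by
  exact Finset.sum_nonneg fun _ _ => sq_nonneg _

theorem ip_self (v : Vec n) : ip v v = nsq v := by
  simp only [ip, nsq, sq]

theorem ip_comm (v w : Vec n) : ip v w = ip w v := by
  simp only [ip, mul_comm]

theorem ip_add_left (u v w : Vec n) : ip (u + v) w = ip u w + ip v w := by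
  simp only [ip, Pi.add_apply, add_mul, Finset.sum_add_distrib]

theorem ip_add_right (u v w : Vec n) : ip u (v + w) = ip u v + ip u w := by
  simp only [ip, Pi.add_apply, mul_add, Finset.sum_add_distrib]

theorem nsq_sub (v w : Vec n) : nsq (v - w) = nsq v + nsq w - 2 * ip v w := by
  simp only [ip, nsq, Pi.sub_apply, Finset.mul_sum, ← Finset.sum_add_distrib,
    ← Finset.sum_sub_distrib]
  exact Finset.sum_congr rfl fun x _ => by ring

theorem nsq_smul (c : ℝ) (v : Vec n) : nsq (c • v) = c ^ 2 * nsq v := by
  simp only [nsq, Pi.smul_apply, smul_eq_mul, mul_pow, Finset.mul_sum]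

/-- Cauchy-Schwarz in the form used below -/
theorem abs_ip_le (v w : Vec n) {l : ℝ} (hl : 0 < l) : 2 * |ip v w| ≤ l * nsq v + nsq w / l := by
  have h1 : |ip v w| ≤ ∑ x, |v x * w x| := Finset.abs_sum_le_sum_abs _ _
  have h2 : 2 * ∑ x, |v x * w x| ≤ l * nsq v + nsq w / l := by
    simp only [nsq, Finset.mul_sum, Finset.sum_div, ← Finset.sum_add_distrib]
    refine Finset.sum_le_sum fun x _ => ?_
    rw [abs_mul, ← sq_abs (v x), ← sq_abs (w x), ← sub_nonneg]
    have : l * |v x| ^ 2 + |w x| ^ 2 / l - 2 * (|v x| * |w x|) = (l * |v x| - |w x|) ^ 2 / l := by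
      field_simp
      ring
    rw [this]
    positivity
  linarith

theorem nsq_pauli (a : ℕ × Bool) (v : Vec n) : nsq (pauli a v) = nsq v := by
  obtain ⟨q, _ | _⟩ := a
  · refine Finset.sum_congr rfl fun x _ => ?_
    rw [pauli_false]
    split_ifs <;> ring
  · exact sum_flip (fun x => v x ^ 2) q

theorem pauli_add (a : ℕ × Bool) (v w : Vec n) : pauli a (v + w) = pauli a v + pauli a w := by
  funext x
  simp only [pauli, Pi.add_apply]
  split_ifs <;> ring

theorem gate_add (s : Step) (k : Bool) (v w : Vec n) :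
    gate s k (v + w) = gate s k v + gate s k w := by
  funext x
  simp only [gate, pauli_add, Pi.add_apply]
  split_ifs <;> ring

theorem qg_nsq {s : Step} (hs : s.2.1 < n) (k : (Fin n → Bool) → Bool)
    (hk : ∀ x, k (flip x s.2.1) = k x) (v : Vec n) :
    nsq (fun x => gate s (k x) v x) = nsq v := by
  have h1 := sum_flip (fun x => gate s (k x) v x ^ 2) s.2.1
  have h2 := sum_flip (fun x => v x ^ 2) s.2.1
  have h3 : ∑ x, gate s (k (flip x s.2.1)) v (flip x s.2.1) ^ 2 + ∑ x, gate s (k x) v x ^ 2 =
      ∑ x, v (flip x s.2.1) ^ 2 + ∑ x, v x ^ 2 := by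
    rw [← Finset.sum_add_distrib, ← Finset.sum_add_distrib]
    refine Finset.sum_congr rfl fun x _ => ?_
    have h4 := Real.cos_sq_add_sin_sq (ang s.2.2)
    simp only [gate, pauli_true, pauli_false, hk, flip_flip, bit_flip_self x hs]
    cases k x <;> cases bit x s.2.1 <;> simp <;>
      linear_combination (v x ^ 2 + v (flip x s.2.1) ^ 2) * h4
  unfold nsq
  linarith

theorem nsq_gate {s : Step} (hs : s.2.1 < n) (k : Bool) (v : Vec n) :
    nsq (gate s k v) = nsq v := by
  exact qg_nsq hs (fun _ => k) (fun _ => rfl) v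

theorem half_add (s : Step) (k : Bool) (v w : Vec n) :
    half s k (v + w) = half s k v + half s k w := by
  funext x
  simp only [half, gate_add, Pi.add_apply]

theorem half_smul (s : Step) (k : Bool) (c : ℝ) (v : Vec n) :
    half s k (c • v) = c • half s k v := by
  funext x
  simp only [half, gate, pauli, Pi.smul_apply, smul_eq_mul]
  split_ifs <;> ring

theorem nsq_half {s : Step} (hs : s.2.1 < n) (hc : s.1 ≠ s.2.1) (k : Bool) (v : Vec n) :
    nsq (half s k v) = nsq v := by
  exact qg_nsq hs (fun x => xor k (bit x s.1)) (fun x => by rw [bit_flip_ne x hc]) v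

theorem ip_half {s : Step} (hc : s.1 ≠ s.2.1) (k : Bool) (v w : Vec n) :
    ip v (half s k w) = ip w (half s k v) := by
  have h1 : ∀ v w : Vec n, ip v (half s k w) =
      ∑ x, (if xor k (bit x s.1) then 1 else Real.cos (ang s.2.2)) *
        (if bit x s.2.1 then -1 else 1) * (v x * w x) +
      ∑ x, (if xor k (bit x s.1) then 0 else Real.sin (ang s.2.2)) *
        (v x * w (flip x s.2.1)) := fun v w => by
    rw [ip, ← Finset.sum_add_distrib]
    refine Finset.sum_congr rfl fun x _ => ?_
    simp only [half, gate, pauli_true, pauli_false]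
    split_ifs <;> ring
  rw [h1, h1, ← sum_flip (fun x => (if xor k (bit x s.1) then 0 else Real.sin (ang s.2.2)) *
    (v x * w (flip x s.2.1))) s.2.1]
  simp only [bit_flip_ne _ hc, flip_flip, mul_comm]

theorem run_append (S S' : List Step) (v : Vec n) : run (S ++ S') v = run S' (run S v) := by
  exact List.foldl_append

theorem run_smul (S : List Step) (c : ℝ) (v : Vec n) : run S (c • v) = c • run S v := by
  induction S generalizing v with
  | nil => rfl
  | cons s S ih =>
    show run S (full s (c • v)) = c • run S (full s v)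
    rw [full, half_smul, half_smul, ih, full]

namespace HC

variable (h : HC)

theorem W_add (τ : ℕ) (v w : Vec h.m) : h.W τ (v + w) = h.W τ v + h.W τ w := half_add _ _ _ _

theorem U_add (τ : ℕ) (v w : Vec h.m) : h.U τ (v + w) = h.U τ v + h.U τ w := by
  induction τ with
  | zero => rfl
  | succ τ ih => rw [U, ih, W_add, U, U]

/-- induction on `t ≤ h.S.length` for `h.U (2 * t) v = run (h.S.take t) v` -/
theorem U_T (v : Vec h.m) : h.U h.T v = run h.S v := by
  have key : ∀ t ≤ h.S.length, h.U (2 * t) v = run (h.S.take t) v := by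
    intro t ht
    induction t with
    | zero => rfl
    | succ t ih =>
      have e1 : (2 * t + 1) / 2 = t := by omega
      have e2 : 2 * t / 2 = t := by omega
      have e3 : ((2 * t + 1) % 2 == 1) = true := by simp
      have e4 : (2 * t % 2 == 1) = false := by simp
      rw [show 2 * (t + 1) = 2 * t + 1 + 1 by ring, U, U, ih (by omega), W, W, e1, e2, e3, e4,
        List.take_succ_eq_append_getElem (by omega), run_append, st,
        List.getD_eq_getElem _ _ (by omega)]
      rfl
  rw [T, key _ le_rfl, List.take_length]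

variable {h}

theorem Ok.nsq_W (hh : h.Ok) {τ : ℕ} (hτ : τ < h.T) (v : Vec h.m) : nsq (h.W τ v) = nsq v := by
  have := hh.tgt (τ / 2) (by rw [T] at hτ; omega)
  exact nsq_half this.1 this.2 _ _

theorem Ok.ip_W (hh : h.Ok) {τ : ℕ} (hτ : τ < h.T) (v w : Vec h.m) :
    ip v (h.W τ w) = ip w (h.W τ v) := by
  exact ip_half (hh.tgt (τ / 2) (by rw [T] at hτ; omega)).2 _ _ _

theorem Ok.nsq_U (hh : h.Ok) {τ : ℕ} (hτ : τ ≤ h.T) (v : Vec h.m) : nsq (h.U τ v) = nsq v := by
  induction τ with
  | zero => rfl
  | succ τ ih => rw [U, hh.nsq_W hτ, ih (by omega)]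

end HC

end Vale.Agent.P370.Q
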