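import Vale.Agent.P370.QLeg

/-! Part Q: the hopping form on legal states.
Plan: fix `j < T`, `s = st (j / 2)`, `b = s.2.1`, `o = ord x j`; note `ord (flip x b) j' = ord x j'` when
`j' / 2 = j / 2` (`s.1 ≠ b`). `hop_flip`: compare bits with `ext_clock`; for `x' = flip x b` and `j' / 2 ≠ j / 2` the
conditions `ord x j' < τ` with `τ ∈ {o, o + 1}` only depend on `j' / 2`. `hop_legal`: if `leg x τ` and
`leg x' τ'` (`x' = x` or `flip x b`) have the same clock bits except the bit `j`, and say `τ ≤ o < τ'`, look at the clock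
bits `ord x τ` (if `τ < o`) and `ord x' (o + 1)` (if `o + 1 < τ'`) to get a contradiction.
`K_leg`: by `sum_leg` the term `j` of `K a a` is `∑ x, (sl a o x * gate s k (sl a (o + 1)) x +
sl a (o + 1) x * gate s k (sl a o) x)`; exchange the sums over `j` and `x`, reindex by the involution `ord x` of
`range T` (`ord_div`, `ord_mod`: `gate (st (j / 2)) (j % 2 == 1) ψ x = W τ ψ x` for `j = ord x τ`), and use
`Ok.ip_W`. -/

namespace Vale.Agent.P370.Q.HC

variable {h : HC}

theorem qh_ord_eq {x x' : Fin h.m → Bool} {j j' : ℕ} (e : j' / 2 = j / 2)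
    (hc : bit x' (h.st (j / 2)).1 = bit x (h.st (j / 2)).1) : h.ord x' j' = h.ord x j' := by
  rw [ord, ord, e, hc]

theorem Ok.qh_tgt (hh : h.Ok) {j : ℕ} (hj : j < h.T) :
    (h.st (j / 2)).2.1 < h.m ∧ (h.st (j / 2)).1 ≠ (h.st (j / 2)).2.1 :=
  hh.tgt (j / 2) (by rw [T] at hj; omega)

theorem qh_clock (x : Fin h.m → Bool) {j : ℕ} (hj : j < h.T) :
    flip (h.leg x (h.ord x j)) (h.m + j) = h.leg x (h.ord x j + 1) := by
  refine h.ext_clock (fun q hq => ?_) fun j' hj' => ?_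
  · rw [bit_flip_ne _ (by omega), bit_leg_lt _ _ _ hq, bit_leg_lt _ _ _ hq]
  · by_cases e : j' = j
    · subst e
      rw [bit_flip_self _ (by rw [N]; omega), bit_leg_clock _ _ _ hj, bit_leg_clock _ _ _ hj]
      simp
    · have : h.ord x j' ≠ h.ord x j := fun e' => e (by rw [← h.ord_ord x j', e', ord_ord])
      rw [bit_flip_ne _ (by omega), bit_leg_clock _ _ _ hj', bit_leg_clock _ _ _ hj',
        decide_eq_decide]
      omega

theorem Ok.qh_target (hh : h.Ok) (x : Fin h.m → Bool) {j τ : ℕ} (hj : j < h.T)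
    (hτ : τ = h.ord x j ∨ τ = h.ord x j + 1) :
    flip (h.leg x τ) (h.st (j / 2)).2.1 = h.leg (flip x (h.st (j / 2)).2.1) τ := by
  obtain ⟨hb, hc⟩ := hh.qh_tgt hj
  refine h.ext_clock (fun q hq => ?_) fun j' hj' => ?_
  · rw [bit_leg_lt _ _ _ hq]
    by_cases e : q = (h.st (j / 2)).2.1
    · rw [e, bit_flip_self _ (by rw [N]; omega), bit_flip_self _ hb, bit_leg_lt _ _ _ hb]
    · rw [bit_flip_ne _ e, bit_flip_ne _ e, bit_leg_lt _ _ _ hq]
  · rw [bit_flip_ne _ (by omega), bit_leg_clock _ _ _ hj', bit_leg_clock _ _ _ hj',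
      decide_eq_decide]
    by_cases e : j' / 2 = j / 2
    · rw [qh_ord_eq e (bit_flip_ne x hc)]
    · have h1 := h.ord_div x j'
      have h2 := h.ord_div (flip x (h.st (j / 2)).2.1) j'
      have h3 := h.ord_div x j
      omega

theorem Ok.hop_flip (hh : h.Ok) (x : Fin h.m → Bool) {j : ℕ} (hj : j < h.T) :
    flip (h.leg x (h.ord x j)) (h.m + j) = h.leg x (h.ord x j + 1) ∧
    flip (h.leg x (h.ord x j + 1)) (h.m + j) = h.leg x (h.ord x j) ∧
    flip (h.leg x (h.ord x j)) (h.st (j / 2)).2.1 =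
      h.leg (flip x (h.st (j / 2)).2.1) (h.ord x j) ∧
    flip (h.leg x (h.ord x j + 1)) (h.st (j / 2)).2.1 =
      h.leg (flip x (h.st (j / 2)).2.1) (h.ord x j + 1) := by
  refine ⟨qh_clock x hj, ?_, hh.qh_target x hj (Or.inl rfl), hh.qh_target x hj (Or.inr rfl)⟩
  rw [← qh_clock x hj, flip_flip]

theorem qh_core {x x' : Fin h.m → Bool} {τ τ' j : ℕ} (hτ' : τ' ≤ h.T)
    (e : ∀ j', j' / 2 = j / 2 → h.ord x' j' = h.ord x j')
    (h1 : ∀ j' < h.T, j' ≠ j → (h.ord x' j' < τ' ↔ h.ord x j' < τ))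
    (h2 : τ ≤ h.ord x j) (h3 : h.ord x j < τ') : τ = h.ord x j ∧ τ' = h.ord x j + 1 := by
  have d0 := h.ord_div x j
  constructor
  · by_contra hne
    have a1 := h.ord_ord x τ
    have a2 := h1 (h.ord x τ) (h.ord_lt x (by omega)) fun e' => hne (by rw [← e', a1])
    have a3 := h.ord_div x' (h.ord x τ)
    have a4 := h.ord_div x τ
    have a5 := e (h.ord x τ)
    omega
  · by_contra hne
    have a0 := e j rfl
    have a1 := h.ord_ord x' (h.ord x j + 1)
    have a2 := h1 (h.ord x' (h.ord x j + 1)) (h.ord_lt x' (by omega)) fun e' => by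
      rw [e'] at a1
      omega
    have a3 := h.ord_div x (h.ord x' (h.ord x j + 1))
    have a4 := h.ord_div x' (h.ord x j + 1)
    have a5 := e (h.ord x' (h.ord x j + 1))
    omega

theorem Ok.hop_legal (hh : h.Ok) (x : Fin h.m → Bool) {j τ : ℕ} (hj : j < h.T) (hτ : τ ≤ h.T)
    (hl : h.Leg (flip (h.leg x τ) (h.m + j)) ∨
      h.Leg (flip (flip (h.leg x τ) (h.st (j / 2)).2.1) (h.m + j))) :
    τ = h.ord x j ∨ τ = h.ord x j + 1 := by
  obtain ⟨hb, hc⟩ := hh.qh_tgt hj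
  have key : ∀ y : Fin h.N → Bool, h.Leg (flip y (h.m + j)) →
      (∀ q, q ≠ (h.st (j / 2)).2.1 → bit y q = bit (h.leg x τ) q) →
      τ = h.ord x j ∨ τ = h.ord x j + 1 := by
    rintro y ⟨x', τ', hτ', e⟩ hy
    have a0 : bit x' (h.st (j / 2)).1 = bit x (h.st (j / 2)).1 := by
      rcases lt_or_ge (h.st (j / 2)).1 h.m with hq | hq
      · rw [← h.bit_leg_lt x' τ' hq, ← e, bit_flip_ne _ (by omega), hy _ hc, bit_leg_lt _ _ _ hq]
      · rw [bit_of_le _ hq, bit_of_le _ hq]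
    have a1 : ∀ j', j' / 2 = j / 2 → h.ord x' j' = h.ord x j' := fun j' e' => qh_ord_eq e' a0
    have a2 : ∀ j' < h.T, j' ≠ j → (h.ord x' j' < τ' ↔ h.ord x j' < τ) := fun j' hj' hne => by
      rw [← decide_eq_decide, ← h.bit_leg_clock x' τ' hj', ← e, bit_flip_ne _ (by omega),
        hy _ (by omega), bit_leg_clock _ _ _ hj']
    have a3 : decide (h.ord x' j < τ') = !decide (h.ord x j < τ) := by
      rw [← h.bit_leg_clock x' τ' hj, ← e, bit_flip_self _ (by rw [N]; omega), hy _ (by omega),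
        bit_leg_clock _ _ _ hj]
    have a4 := a1 j rfl
    rcases le_or_gt τ (h.ord x j) with h2 | h2
    · refine Or.inl (qh_core hτ' a1 a2 h2 ?_).1
      rw [← a4]
      simpa [not_lt.2 h2] using a3
    · have a5 : τ' ≤ h.ord x' j := by simpa [h2] using a3
      have := (qh_core (x := x') (x' := x) hτ (fun j' e' => (a1 j' e').symm)
        (fun j' hj' hne => (a2 j' hj' hne).symm) a5 (by omega)).2
      omega
  rcases hl with hl | hl
  · exact key _ hl fun _ _ => rfl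
  · exact key _ hl fun q hq => bit_flip_ne _ hq

theorem Ok.qh_term (hh : h.Ok) {a : Vec h.N} (ha : ∀ y, ¬ h.Leg y → a y = 0) {j : ℕ}
    (hj : j < h.T) :
    ip a (gate (h.st (j / 2)) (j % 2 == 1) (pauli (h.m + j, true) a)) =
      ∑ x, (h.sl a (h.ord x j) x *
          gate (h.st (j / 2)) (j % 2 == 1) (h.sl a (h.ord x j + 1)) x +
        h.sl a (h.ord x j + 1) x * gate (h.st (j / 2)) (j % 2 == 1) (h.sl a (h.ord x j)) x) := by
  obtain ⟨hb, hc⟩ := hh.qh_tgt hj
  rw [ip, h.sum_leg _ fun y hy => by rw [ha y hy, zero_mul], Finset.sum_comm]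
  refine Finset.sum_congr rfl fun x _ => ?_
  have ho := h.ord_lt x hj
  obtain ⟨f1, f2, f3, f4⟩ := hh.hop_flip x hj
  obtain ⟨g1, g2, -, -⟩ := hh.hop_flip (flip x (h.st (j / 2)).2.1) hj
  rw [qh_ord_eq rfl (bit_flip_ne x hc)] at g1 g2
  rw [Finset.sum_eq_add_of_mem (h.ord x j) (h.ord x j + 1) (Finset.mem_range.2 (by omega))
    (Finset.mem_range.2 (by omega)) (by omega)]
  · simp only [gate, pauli_true, pauli_false, f1, f2, f3, f4, g1, g2, h.bit_leg_lt x _ hb, sl]
  · intro τ hτ hne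
    have hτ' : τ ≤ h.T := by have := Finset.mem_range.1 hτ; omega
    have h1 : ¬ (h.Leg (flip (h.leg x τ) (h.m + j)) ∨
        h.Leg (flip (flip (h.leg x τ) (h.st (j / 2)).2.1) (h.m + j))) := fun hl => by
      have := hh.hop_legal x hj hτ' hl
      omega
    rw [not_or] at h1
    simp only [gate, pauli_true, pauli_false, ha _ h1.1, ha _ h1.2]
    split_ifs <;> simp

theorem Ok.K_leg (hh : h.Ok) {a : Vec h.N} (ha : ∀ y, ¬ h.Leg y → a y = 0) :
    h.K a a = 2 * ∑ τ ∈ Finset.range h.T, ip (h.sl a (τ + 1)) (h.W τ (h.sl a τ)) := by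
  rw [K, Finset.sum_congr rfl fun j hj => hh.qh_term ha (Finset.mem_range.1 hj), Finset.sum_comm]
  have h1 : ∀ x : Fin h.m → Bool, ∑ j ∈ Finset.range h.T, (h.sl a (h.ord x j) x *
          gate (h.st (j / 2)) (j % 2 == 1) (h.sl a (h.ord x j + 1)) x +
        h.sl a (h.ord x j + 1) x * gate (h.st (j / 2)) (j % 2 == 1) (h.sl a (h.ord x j)) x) =
      ∑ τ ∈ Finset.range h.T, (h.sl a τ x * h.W τ (h.sl a (τ + 1)) x +
        h.sl a (τ + 1) x * h.W τ (h.sl a τ) x) := fun x => by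
    symm
    refine Finset.sum_nbij' (h.ord x) (h.ord x)
      (fun j hj => Finset.mem_range.2 (h.ord_lt x (Finset.mem_range.1 hj)))
      (fun j hj => Finset.mem_range.2 (h.ord_lt x (Finset.mem_range.1 hj)))
      (fun j _ => h.ord_ord x j) (fun j _ => h.ord_ord x j) fun τ _ => ?_
    rw [ord_ord, ord_div, ord_mod]
    rfl
  rw [Finset.sum_congr rfl fun x _ => h1 x, Finset.sum_comm, Finset.mul_sum]
  refine Finset.sum_congr rfl fun τ hτ => ?_
  rw [Finset.sum_add_distrib, two_mul]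
  exact congrArg (· + _) (hh.ip_W (Finset.mem_range.1 hτ) _ _)

end Vale.Agent.P370.Q.HC
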