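import Vale.Agent.P370.QGate

/-! Part Q: legal clock states.
Plan: `ord x` is an involution of `[0, T)` which preserves `j / 2`. `leg_inj`: the content is
`res`; if `τ < τ' ≤ T` then the clock bit `ord x τ` is `false` at the time `τ` and `true` at the time
`τ'`. `leg_of_mono`: let `x = res y` and let `τ` be the least `σ ≤ T` such that `σ = T` or the clock bit
`ord x σ` of `y` is `false` (`Nat.find`). `sum_leg`: `Finset.sum_bij` or `Finset.sum_image` for the injective map
`(τ, x) ↦ leg x τ` on `range (T + 1) ×ˢ univ`. -/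

namespace Vale.Agent.P370.Q.HC

variable (h : HC)

theorem ord_div (x : Fin h.m → Bool) (j : ℕ) : h.ord x j / 2 = j / 2 := by
  unfold ord
  split_ifs <;> omega

theorem ord_mod (x : Fin h.m → Bool) (j : ℕ) :
    (h.ord x j % 2 == 1) = xor (j % 2 == 1) (bit x (h.st (j / 2)).1) := by
  unfold ord
  cases xor (j % 2 == 1) (bit x (h.st (j / 2)).1) <;> simp

theorem ord_ord (x : Fin h.m → Bool) (j : ℕ) : h.ord x (h.ord x j) = j := by
  rw [ord, ord_mod, ord_div]
  rcases Nat.mod_two_eq_zero_or_one j with hj | hj <;>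
    cases bit x (h.st (j / 2)).1 <;> simp [hj] <;> omega

theorem ord_lt (x : Fin h.m → Bool) {j : ℕ} (hj : j < h.T) : h.ord x j < h.T := by
  have h1 := h.ord_div x j
  unfold T at *
  omega

theorem ord_of_le (x : Fin h.m → Bool) {j : ℕ} (hj : h.m ≤ (h.st (j / 2)).1) : h.ord x j = j := by
  rw [ord, bit_of_le x hj]
  rcases Nat.mod_two_eq_zero_or_one j with hj | hj <;> simp [hj] <;> omega

theorem bit_leg_lt (x : Fin h.m → Bool) (τ : ℕ) {q : ℕ} (hq : q < h.m) :
    bit (h.leg x τ) q = bit x q := by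
  have h1 : q < h.N := lt_of_lt_of_le hq (Nat.le_add_right _ _)
  rw [bit, dif_pos h1, leg, if_pos hq]

theorem bit_leg_clock (x : Fin h.m → Bool) (τ : ℕ) {j : ℕ} (hj : j < h.T) :
    bit (h.leg x τ) (h.m + j) = decide (h.ord x j < τ) := by
  have h1 : h.m + j < h.N := Nat.add_lt_add_left hj _
  rw [bit, dif_pos h1, leg, if_neg (by simp)]
  simp

theorem bit_res (y : Fin h.N → Bool) {q : ℕ} (hq : q < h.m) : bit (h.res y) q = bit y q := by
  rw [bit, dif_pos hq, res]

theorem res_leg (x : Fin h.m → Bool) (τ : ℕ) : h.res (h.leg x τ) = x :=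
  ext_bit fun a ha => by rw [h.bit_res _ ha, h.bit_leg_lt _ _ ha]

/-- a basis state is determined by its content and its clock bits -/
theorem ext_clock {y y' : Fin h.N → Bool} (h1 : ∀ q < h.m, bit y q = bit y' q)
    (h2 : ∀ j < h.T, bit y (h.m + j) = bit y' (h.m + j)) : y = y' := by
  refine ext_bit fun a ha => ?_
  rcases lt_or_ge a h.m with hl | hl
  · exact h1 a hl
  · obtain ⟨j, rfl⟩ := Nat.exists_eq_add_of_le hl
    exact h2 j (by unfold N at ha; omega)

theorem qleg_lt {x : Fin h.m → Bool} {τ τ' : ℕ} (hτ' : τ' ≤ h.T) (hl : τ < τ') :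
    h.leg x τ ≠ h.leg x τ' := by
  intro e
  have hj := h.ord_lt x (hl.trans_le hτ')
  have h1 := h.bit_leg_clock x τ hj
  rw [e, h.bit_leg_clock x τ' hj, ord_ord] at h1
  simp [hl] at h1

theorem leg_inj {x x' : Fin h.m → Bool} {τ τ' : ℕ} (hτ : τ ≤ h.T) (hτ' : τ' ≤ h.T)
    (e : h.leg x τ = h.leg x' τ') : x = x' ∧ τ = τ' := by
  have hx : x = x' := by rw [← h.res_leg x τ, e, res_leg]
  subst hx
  refine ⟨rfl, ?_⟩
  rcases lt_trichotomy τ τ' with hl | hl | hl
  · exact absurd e (h.qleg_lt hτ' hl)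
  · exact hl
  · exact absurd e.symm (h.qleg_lt hτ hl)

theorem leg_of_mono {y : Fin h.N → Bool}
    (hy : ∀ j < h.T, ∀ j' < h.T, h.ord (h.res y) j < h.ord (h.res y) j' →
      bit y (h.m + j') = true → bit y (h.m + j) = true) : h.Leg y := by
  classical
  have hex : ∃ σ, σ = h.T ∨ bit y (h.m + h.ord (h.res y) σ) = false := ⟨h.T, Or.inl rfl⟩
  have hle : Nat.find hex ≤ h.T := Nat.find_min' hex (Or.inl rfl)
  refine ⟨h.res y, Nat.find hex, hle, h.ext_clock (fun q hq => ?_) fun j hj => ?_⟩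
  · rw [h.bit_leg_lt _ _ hq, h.bit_res _ hq]
  · rw [h.bit_leg_clock _ _ hj]
    rcases lt_or_ge (h.ord (h.res y) j) (Nat.find hex) with hl | hl
    · have h1 := Nat.find_min hex hl
      rw [ord_ord, not_or] at h1
      simpa [hl] using h1.2
    · have hlt := h.ord_lt (h.res y) hj
      have h1 := (Nat.find_spec hex).resolve_left (by omega)
      rw [decide_eq_false (not_lt.2 hl)]
      rcases hl.eq_or_lt with he | he
      · rw [he, ord_ord] at h1
        exact h1
      · by_contra hb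
        have h2 := hy _ (h.ord_lt (h.res y) (he.trans hlt)) j hj (by rwa [ord_ord])
          (by simpa using hb)
        rw [h1] at h2
        exact absurd h2 (by simp)

theorem sum_leg (f : (Fin h.N → Bool) → ℝ) (hf : ∀ y, ¬ h.Leg y → f y = 0) :
    ∑ y, f y = ∑ τ ∈ Finset.range (h.T + 1), ∑ x, f (h.leg x τ) := by
  classical
  rw [← Finset.sum_product', ← Finset.sum_image (g := fun z : ℕ × (Fin h.m → Bool) => h.leg z.2 z.1)]
  · refine (Finset.sum_subset (Finset.subset_univ _) fun y _ hy => hf y ?_).symm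
    rintro ⟨x, τ, hτ, rfl⟩
    exact hy (Finset.mem_image.2 ⟨(τ, x), by simpa [Nat.lt_succ_iff] using hτ, rfl⟩)
  · rintro ⟨τ, x⟩ hz ⟨τ', x'⟩ hz' e
    have h1 : τ ≤ h.T := by simpa [Nat.lt_succ_iff] using hz
    have h2 : τ' ≤ h.T := by simpa [Nat.lt_succ_iff] using hz'
    obtain ⟨rfl, rfl⟩ := h.leg_inj h1 h2 e
    rfl

theorem exists_sl (ψ : ℕ → Vec h.m) :
    ∃ v : Vec h.N, (∀ y, ¬ h.Leg y → v y = 0) ∧ ∀ τ ≤ h.T, h.sl v τ = ψ τ := by
  classical
  refine ⟨fun y => if hy : h.Leg y then ψ hy.choose_spec.choose hy.choose else 0,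
    fun y hy => dif_neg hy, fun τ hτ => funext fun x => ?_⟩
  have hy : h.Leg (h.leg x τ) := ⟨x, τ, hτ, rfl⟩
  obtain ⟨h1, h2⟩ := hy.choose_spec.choose_spec
  obtain ⟨e1, e2⟩ := h.leg_inj hτ h1 h2
  rw [sl, dif_pos hy, ← e2, ← e1]

end Vale.Agent.P370.Q.HC
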