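import Vale.Agent.P370.QDiag
import Vale.Agent.P370.QHop
import Vale.Agent.P370.QClock

/-! Part Q: the Hamiltonian with exact coefficients.
Plan: `E_leg` from `sum_leg`, `diag_leg`, `K_leg`, `nsq_sub`, `nsq_W`. `real_yes`: `exists_sl` for `ψ τ = U τ g`;
the energy is `12 (T + 1) rej ≤ 4 (T + 1)` and `nsq v = T + 1`. `proj`: `v = a + r`, `K` is additive in both
arguments, with `P = J (T + 1)`, `Jc = 6 P ^ 2`, each of the `T` terms of `K` is bounded with `abs_ip_le`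
(`l = 1 / (4 P)` or `4 P` for the mixed terms, `l = 1` for `K r r`), `nsq_gate`, `nsq_pauli`; `diag_illegal`. -/

namespace Vale.Agent.P370.Q.HC

variable {h : HC}

theorem nsq_leg {a : Vec h.N} (ha : ∀ y, ¬ h.Leg y → a y = 0) :
    nsq a = ∑ τ ∈ Finset.range (h.T + 1), nsq (h.sl a τ) :=
  h.sum_leg (fun y => a y ^ 2) fun y hy => by rw [ha y hy]; ring

theorem Ok.qr_slice (hh : h.Ok) (a : Vec h.N) {τ : ℕ} (hτ : τ ≤ h.T) :
    ∑ x, h.diag (h.leg x τ) * a (h.leg x τ) ^ 2 =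
      h.J * ((if τ < h.T then nsq (h.sl a τ) else 0) + if 0 < τ then nsq (h.sl a τ) else 0) +
        (if τ = 0 then h.J * h.bad (h.sl a τ) else 0) +
        if τ = h.T then 12 * ((h.T : ℝ) + 1) * h.rej (h.sl a τ) else 0 := by
  simp only [hh.diag_leg _ hτ, add_mul, Finset.sum_add_distrib]
  congr 1
  · congr 1
    · rw [← Finset.mul_sum]
      change _ * nsq (h.sl a τ) = _
      split_ifs <;> ring
    · split_ifs
      · rw [bad, Finset.mul_sum]
        exact Finset.sum_congr rfl fun x _ => mul_assoc _ _ _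
      · simp
  · split_ifs
    · rw [rej, Finset.mul_sum]
      refine Finset.sum_congr rfl fun x _ => ?_
      split_ifs
      · ring
      · rfl
    · simp

theorem Ok.E_leg (hh : h.Ok) {a : Vec h.N} (ha : ∀ y, ¬ h.Leg y → a y = 0) :
    h.E a = h.J * ∑ τ ∈ Finset.range h.T, nsq (h.sl a (τ + 1) - h.W τ (h.sl a τ)) +
      h.J * h.bad (h.sl a 0) + 12 * ((h.T : ℝ) + 1) * h.rej (h.sl a h.T) := by
  have h1 : ∑ τ ∈ Finset.range (h.T + 1), (if τ < h.T then nsq (h.sl a τ) else 0) =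
      ∑ τ ∈ Finset.range h.T, nsq (h.sl a τ) := by
    rw [Finset.sum_range_succ, if_neg (lt_irrefl _), add_zero]
    exact Finset.sum_congr rfl fun τ hτ => if_pos (Finset.mem_range.1 hτ)
  have h2 : ∑ τ ∈ Finset.range (h.T + 1), (if 0 < τ then nsq (h.sl a τ) else 0) =
      ∑ τ ∈ Finset.range h.T, nsq (h.sl a (τ + 1)) := by
    rw [Finset.sum_range_succ', if_neg (lt_irrefl _), add_zero]
    exact Finset.sum_congr rfl fun τ _ => if_pos (Nat.succ_pos _)
  have h3 : ∑ τ ∈ Finset.range h.T, nsq (h.sl a (τ + 1) - h.W τ (h.sl a τ)) =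
      ∑ τ ∈ Finset.range h.T, nsq (h.sl a (τ + 1)) + ∑ τ ∈ Finset.range h.T, nsq (h.sl a τ) -
        2 * ∑ τ ∈ Finset.range h.T, ip (h.sl a (τ + 1)) (h.W τ (h.sl a τ)) := by
    rw [Finset.mul_sum, ← Finset.sum_add_distrib, ← Finset.sum_sub_distrib]
    refine Finset.sum_congr rfl fun τ hτ => ?_
    rw [nsq_sub, hh.nsq_W (Finset.mem_range.1 hτ)]
  rw [E, hh.K_leg ha, h.sum_leg (fun y => h.diag y * a y ^ 2) fun y hy => by rw [ha y hy]; ring,
    Finset.sum_congr rfl fun τ hτ => hh.qr_slice a (Nat.lt_succ_iff.1 (Finset.mem_range.1 hτ)),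
    Finset.sum_add_distrib, Finset.sum_add_distrib, ← Finset.mul_sum, Finset.sum_add_distrib,
    h1, h2, h3, Finset.sum_ite_eq', Finset.sum_ite_eq', if_pos (Finset.mem_range.2 (by omega)),
    if_pos (Finset.mem_range.2 (by omega))]
  ring

theorem qr_bad {g : Vec h.m} (hg : ∀ x, ¬ h.Good x → g x = 0) : h.bad g = 0 := by
  refine Finset.sum_eq_zero fun x _ => ?_
  by_cases c : h.Good x
  · rw [List.sum_eq_zero, zero_mul]
    intro z hz
    obtain ⟨a, ha, rfl⟩ := List.mem_map.1 hz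
    rw [c a ha]
    rfl
  · rw [hg x c]
    ring

theorem Ok.real_yes (hh : h.Ok) (hY : h.Yes) : ∃ v : Vec h.N, 0 < nsq v ∧ h.E v ≤ 4 * nsq v := by
  obtain ⟨g, hg, h1, h2⟩ := hY
  obtain ⟨v, hv, e⟩ := h.exists_sl fun τ => h.U τ g
  have h3 : nsq v = (h.T : ℝ) + 1 := by
    rw [nsq_leg hv, Finset.sum_congr rfl (g := fun _ => (1 : ℝ)) fun τ hτ => ?_]
    · simp
    · have hτ' := Nat.lt_succ_iff.1 (Finset.mem_range.1 hτ)
      rw [e τ hτ', hh.nsq_U hτ', h1]
  have h4 : ∑ τ ∈ Finset.range h.T, nsq (h.sl v (τ + 1) - h.W τ (h.sl v τ)) = 0 := by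
    refine Finset.sum_eq_zero fun τ hτ => ?_
    have hτ' := Finset.mem_range.1 hτ
    rw [e (τ + 1) hτ', e τ hτ'.le, U, sub_self]
    simp [nsq]
  have hT : (0 : ℝ) ≤ h.T := Nat.cast_nonneg _
  refine ⟨v, by rw [h3]; positivity, ?_⟩
  rw [hh.E_leg hv, h4, e 0 (Nat.zero_le _), e h.T le_rfl, U, qr_bad hg, U_T, h3]
  nlinarith

theorem qr_K_add (a r : Vec h.N) :
    h.K (a + r) (a + r) = h.K a a + h.K a r + h.K r a + h.K r r := by
  simp only [K, pauli_add, gate_add, ip_add_left, ip_add_right, Finset.sum_add_distrib]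
  ring

theorem Ok.qr_K_le (hh : h.Ok) (v w : Vec h.N) {l : ℝ} (hl : 0 < l) :
    2 * h.K v w ≤ h.T * (l * nsq v + nsq w / l) := by
  rw [K, Finset.mul_sum]
  refine (Finset.sum_le_card_nsmul _ _ (l * nsq v + nsq w / l) fun j hj => ?_).trans ?_
  · have h1 := abs_ip_le v (gate (h.st (j / 2)) (j % 2 == 1) (pauli (h.m + j, true) w)) hl
    have h2 : (h.st (j / 2)).2.1 < h.N :=
      (hh.qh_tgt (Finset.mem_range.1 hj)).1.trans_le (Nat.le_add_right _ _)
    rw [nsq_gate h2, nsq_pauli] at h1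
    exact (mul_le_mul_of_nonneg_left (le_abs_self _) zero_le_two).trans h1
  · rw [Finset.card_range, nsmul_eq_mul]

theorem qr_sq {a r : Vec h.N} (ha : ∀ y, ¬ h.Leg y → a y = 0) (hr : ∀ y, h.Leg y → r y = 0)
    (y : Fin h.N → Bool) : (a + r) y ^ 2 = a y ^ 2 + r y ^ 2 := by
  rw [Pi.add_apply]
  by_cases c : h.Leg y
  · rw [hr y c]
    ring
  · rw [ha y c]
    ring

theorem Ok.proj (hh : h.Ok) {a r : Vec h.N} (ha : ∀ y, ¬ h.Leg y → a y = 0)
    (hr : ∀ y, h.Leg y → r y = 0) : h.E a - 1 / 4 * nsq a + 5 * nsq r ≤ h.E (a + r) := by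
  have h1 : (h.Jc : ℝ) * nsq r ≤ ∑ y, h.diag y * r y ^ 2 := by
    rw [nsq, Finset.mul_sum]
    refine Finset.sum_le_sum fun y _ => ?_
    by_cases c : h.Leg y
    · rw [hr y c]
      simp
    · exact mul_le_mul_of_nonneg_right (hh.diag_illegal c) (sq_nonneg _)
  have hT : (0 : ℝ) ≤ h.T := Nat.cast_nonneg _
  obtain ⟨P, hP⟩ : ∃ P : ℝ, P = h.J * ((h.T : ℝ) + 1) := ⟨_, rfl⟩
  have hJ : (h.J : ℝ) = 144 * ((h.T : ℝ) + 1) ^ 2 := by rw [J]; push_cast; ring
  have hJ1 : (144 : ℝ) ≤ h.J := by rw [hJ]; nlinarith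
  have hP1 : 144 ≤ P := by rw [hP]; nlinarith
  have hJc : (h.Jc : ℝ) = 6 * P ^ 2 := by rw [hP, hJ, Jc]; push_cast; ring
  have hJT : (h.J : ℝ) * h.T ≤ P := by rw [hP]; nlinarith
  have h2 := hh.qr_K_le a r (l := 1 / (4 * P)) (by positivity)
  have h3 := hh.qr_K_le r a (l := 4 * P) (by positivity)
  have h4 := hh.qr_K_le r r one_pos
  have na := nsq_nonneg a
  have nr := nsq_nonneg r
  have h5 : (h.J : ℝ) * (h.K a r + h.K r a) ≤ 1 / 4 * nsq a + 4 * P ^ 2 * nsq r := by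
    have e : 1 / (4 * P) * nsq a + nsq r / (1 / (4 * P)) = 4 * P * nsq r + nsq a / (4 * P) := by
      field_simp
      ring
    rw [e] at h2
    have h6 : (h.J : ℝ) * (h.K a r + h.K r a) ≤
        h.J * h.T * (4 * P * nsq r + nsq a / (4 * P)) := by
      rw [mul_assoc]
      exact mul_le_mul_of_nonneg_left (by linarith) (Nat.cast_nonneg _)
    refine h6.trans ((mul_le_mul_of_nonneg_right hJT (by positivity)).trans (le_of_eq ?_))
    field_simp
    ring
  have h6 : (h.J : ℝ) * h.K r r ≤ P * nsq r := by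
    refine le_trans ?_ (mul_le_mul_of_nonneg_right hJT nr)
    rw [mul_assoc]
    refine mul_le_mul_of_nonneg_left ?_ (Nat.cast_nonneg _)
    rw [one_mul, div_one] at h4
    linarith
  have h7 : (5 + P + 4 * P ^ 2) * nsq r ≤ 6 * P ^ 2 * nsq r :=
    mul_le_mul_of_nonneg_right (by nlinarith) nr
  rw [hJc] at h1
  simp only [E, qr_sq ha hr, qr_K_add, mul_add, Finset.sum_add_distrib] at h5 ⊢
  linarith

theorem Ok.real_no (hh : h.Ok) (hN : h.No) (v : Vec h.N) : 19 / 4 * nsq v ≤ h.E v := by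
  classical
  obtain ⟨a, r, ha, hr, rfl⟩ : ∃ a r : Vec h.N, (∀ y, ¬ h.Leg y → a y = 0) ∧
      (∀ y, h.Leg y → r y = 0) ∧ v = a + r :=
    ⟨fun y => if h.Leg y then v y else 0, fun y => if h.Leg y then 0 else v y,
      fun y hy => if_neg hy, fun y hy => if_pos hy, funext fun y => by
        rw [Pi.add_apply]
        split_ifs <;> simp⟩
  have h1 := hh.proj ha hr
  have h2 := hh.clock hN (h.sl a)
  rw [← hh.E_leg ha, ← nsq_leg ha] at h2
  have h3 : nsq (a + r) = nsq a + nsq r := by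
    simp only [nsq, qr_sq ha hr, Finset.sum_add_distrib]
  have nr := nsq_nonneg r
  rw [h3]
  linarith

end Vale.Agent.P370.Q.HC
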