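import Vale.Agent.P370.QGate

/-! Part Q: simulation of the gates by rotations.
Plan: `full_eq`, `rot_rot` pointwise (cases on `bit x c`, `bit x b`; `Real.cos_add`, `Real.sin_add`). Then
`run (cr m c b s) = rot c b 0 (2 * ang s)`, `run (cr2 m c b s) = rot c b 0 (4 * ang s)`, `run (pad n) = id`.
On `rl ψ`: `rot c n α β` multiplies `ψ x` by `exp (i α)` or `exp (i β)` (`c < n`), and for `b < n`, `c < n` it acts as the
same formula with complex amplitudes. `H = R (π / 4) Z`, `T` is `rot a n 0 (π / 4)`,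
`CX a b = S_a S_b⁻¹ (rot a b 0 (π / 2)) S_b` with `S_b = rot b n 0 (π / 2)` applied first. -/

namespace Vale.Agent.P370.Q

variable {n : ℕ}

theorem full_eq {c b : ℕ} (hb : b < n) (hc : c ≠ b) (s : Bool) (v : Vec n) :
    full (c, b, s) v = rot c b (-ang s) (ang s) v := by
  funext x
  simp only [full, half, gate, rot, pauli_true, pauli_false, bit_flip_ne _ hc, bit_flip_self _ hb]
  cases bit x c <;> cases bit x b <;> simp <;> ring

theorem rot_rot {c b : ℕ} (hb : b < n) (hc : c ≠ b) (α β α' β' : ℝ) (v : Vec n) :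
    rot c b α β (rot c b α' β' v) = rot c b (α + α') (β + β') v := by
  funext x
  simp only [rot, bit_flip_ne _ hc, bit_flip_self _ hb, flip_flip]
  cases bit x c <;> cases bit x b <;> simp [Real.cos_add, Real.sin_add] <;> ring

theorem rot_of_le {c : ℕ} (hc : n ≤ c) (c' b : ℕ) (α β : ℝ) (v : Vec n) :
    rot c b α β v = rot c' b α α v := by
  funext x
  simp [rot, bit_of_le x hc]

theorem qs_rot_zero (c b : ℕ) (v : Vec n) : rot c b 0 0 v = v := by
  funext x
  simp [rot]

theorem qs_ang_not (s : Bool) : ang (!s) = -ang s := by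
  cases s <;> simp [ang]

theorem qs_cr {m c b : ℕ} (hm : n ≤ m) (hb : b < n) (hc : c ≠ b) (s : Bool) (v : Vec n) :
    run (cr m c b s) v = rot c b 0 (2 * ang s) v := by
  show full (m, b, !s) (full (c, b, s) v) = _
  rw [full_eq hb hc, full_eq hb (by omega), rot_of_le hm c, rot_rot hb hc, qs_ang_not, neg_neg,
    add_neg_cancel, two_mul]

theorem qs_cr2 {m c b : ℕ} (hm : n ≤ m) (hb : b < n) (hc : c ≠ b) (s : Bool) (v : Vec n) :
    run (cr2 m c b s) v = rot c b 0 (4 * ang s) v := by
  rw [cr2, run_append, qs_cr hm hb hc, qs_cr hm hb hc, rot_rot hb hc, add_zero]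
  congr 1
  ring

theorem run_pad (v : Vec (n + 1)) : run (pad n) v = v := by
  show full (n + 1, n, false) (full (n + 1, n, true) v) = _
  rw [full_eq (by omega) (by omega), full_eq (by omega) (by omega), rot_rot (by omega) (by omega)]
  simp [ang, qs_rot_zero]

theorem qs_bit_ini (x : Fin (n + 1) → Bool) {q : ℕ} (hq : q ≠ n) :
    bit (fun i : Fin n => x i.castSucc) q = bit x q := by
  rcases lt_or_gt_of_ne hq with h | h
  · simp [bit, h, Nat.lt_succ_of_lt h]
  · rw [bit_of_le _ h.le, bit_of_le _ h]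

theorem qs_ini_last (x : Fin (n + 1) → Bool) :
    (fun i : Fin n => flip x n i.castSucc) = fun i : Fin n => x i.castSucc := by
  refine ext_bit fun a ha => ?_
  rw [qs_bit_ini _ ha.ne, qs_bit_ini _ ha.ne, bit_flip_ne _ ha.ne]

theorem qs_ini_flip (x : Fin (n + 1) → Bool) {b : ℕ} (hb : b < n) :
    (fun i : Fin n => flip x b i.castSucc) = flip (fun i : Fin n => x i.castSucc) b := by
  refine ext_bit fun a ha => ?_
  rw [qs_bit_ini _ ha.ne]
  by_cases h : a = b
  · rw [h, bit_flip_self _ hb, bit_flip_self _ (by omega), qs_bit_ini _ hb.ne]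
  · rw [bit_flip_ne _ h, bit_flip_ne _ h, qs_bit_ini _ ha.ne]

theorem qs_phase {c : ℕ} (hc : c ≠ n) (α β : ℝ) (ψ : (Fin n → Bool) → ℂ) :
    rot c n α β (rl ψ) = rl fun x => ((Real.cos (if bit x c then β else α) : ℂ) +
      (Real.sin (if bit x c then β else α) : ℂ) * Complex.I) * ψ x := by
  funext x
  simp only [rot, rl, qs_ini_last, bit_flip_self x (Nat.lt_succ_self n), qs_bit_ini x hc]
  generalize Real.cos (if bit x c then β else α) = co
  generalize Real.sin (if bit x c then β else α) = si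
  cases bit x n <;> simp <;> ring

theorem qs_rot {c b : ℕ} (hc : c ≠ n) (hb : b < n) (α β : ℝ) (ψ : (Fin n → Bool) → ℂ) :
    rot c b α β (rl ψ) = rl fun x => (Real.cos (if bit x c then β else α) : ℂ) * ψ x +
      (Real.sin (if bit x c then β else α) : ℂ) *
        ((if bit x b then 1 else -1) * ψ (flip x b)) := by
  funext x
  simp only [rot, rl, qs_ini_flip x hb, bit_flip_ne x hb.ne', qs_bit_ini x hc, qs_bit_ini x hb.ne]
  generalize Real.cos (if bit x c then β else α) = co
  generalize Real.sin (if bit x c then β else α) = si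
  cases bit x n <;> cases bit x b <;> simp

theorem qs_S {c : ℕ} (hc : c < n) (s : Bool) (ψ : (Fin n → Bool) → ℂ) :
    run (cr2 (n + 1) c n s) (rl ψ) =
      rl fun x => (if bit x c then (if s then Complex.I else -Complex.I) else 1) * ψ x := by
  rw [qs_cr2 le_rfl (Nat.lt_succ_self n) hc.ne, qs_phase hc.ne]
  congr 1
  funext x
  have e1 : 4 * (Real.pi / 8) = Real.pi / 2 := by ring
  have e2 : 4 * -(Real.pi / 8) = -(Real.pi / 2) := by ring
  cases bit x c <;> cases s <;> simp [ang, e1, e2]

theorem qs_H {a : ℕ} (ha : a < n) (ψ : (Fin n → Bool) → ℂ) :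
    run (cr2 (n + 1) a n true ++ cr2 (n + 1) a n true ++
      [(n + 1, a, false), (n + 1, a, false)]) (rl ψ) = rl ((Gate.H a).act ψ) := by
  rw [run_append, run_append, qs_S ha, qs_S ha]
  show full (n + 1, a, false) (full (n + 1, a, false) _) = _
  rw [full_eq (by omega) (by omega), full_eq (by omega) (by omega),
    rot_rot (by omega) (by omega), qs_rot (by omega) ha]
  congr 1
  funext x
  have e1 : -ang false + -ang false = Real.pi / 4 := by simp [ang]; ring
  have e2 : ((√2 / 2 : ℝ) : ℂ) = ((√2 : ℝ) : ℂ)⁻¹ := by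
    rw [← Complex.ofReal_inv]
    congr 1
    field_simp
    simp
  have e3 := setBit_bit x a
  simp only [Gate.act, bit_of_le x (Nat.le_succ n), e1, bit_flip_self x ha, flip,
    Bool.false_eq_true, if_false, Real.cos_pi_div_four, Real.sin_pi_div_four, e2,
    bit_setBit_self x ha]
  revert e3
  cases bit x a <;> intro e3 <;> simp only [e3] <;> simp [← mul_assoc] <;> ring

theorem qs_T {a : ℕ} (ha : a < n) (ψ : (Fin n → Bool) → ℂ) :
    run (cr (n + 1) a n true) (rl ψ) = rl ((Gate.T a).act ψ) := by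
  rw [qs_cr le_rfl (Nat.lt_succ_self n) ha.ne, qs_phase ha.ne]
  congr 1
  funext x
  have e1 : 2 * ang true = Real.pi / 4 := by simp [ang]; ring
  have e2 : Complex.exp (Real.pi / 4 * Complex.I) =
      (Real.cos (Real.pi / 4) : ℂ) + (Real.sin (Real.pi / 4) : ℂ) * Complex.I := by
    rw [Complex.exp_mul_I]
    push_cast
    rfl
  simp only [Gate.act, e1, e2]
  cases bit x a <;> simp

theorem qs_CX {a b : ℕ} (ha : a < n) (hb : b < n) (hab : a ≠ b) (ψ : (Fin n → Bool) → ℂ) :
    run (cr2 (n + 1) b n true ++ cr2 (n + 1) a b true ++ cr2 (n + 1) b n false ++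
      cr2 (n + 1) a n true) (rl ψ) = rl ((Gate.CX a b).act ψ) := by
  rw [run_append, run_append, run_append, qs_S hb, qs_cr2 le_rfl (by omega) hab,
    qs_rot ha.ne hb, qs_S hb, qs_S ha]
  congr 1
  funext x
  have e1 : 4 * ang true = Real.pi / 2 := by simp [ang]; ring
  have e3 := setBit_bit x b
  simp only [Gate.act, e1, flip, bit_setBit_self x hb]
  revert e3
  cases bit x a <;> cases bit x b <;> intro e3 <;> simp [e3, ← mul_assoc]

theorem run_gsteps {g : Gate} (hg : g.Valid n) (ψ : (Fin n → Bool) → ℂ) :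
    run (gsteps n g.data) (rl ψ) = rl (g.act ψ) := by
  cases g with
  | H a => exact qs_H hg ψ
  | T a => exact qs_T hg ψ
  | CX a b => exact qs_CX hg.1 hg.2.1 hg.2.2 ψ

theorem run_toHC {C : Circ} (hC : C.Valid) (ψ : (Fin (C.wit + C.anc) → Bool) → ℂ) :
    run (toHC C).S (rl ψ) = rl (C.gates.foldl (fun ψ g => g.act ψ) ψ) := by
  have key : ∀ l : List Gate, (∀ g ∈ l, g.Valid (C.wit + C.anc)) →
      ∀ ψ : (Fin (C.wit + C.anc) → Bool) → ℂ,
      run (l.flatMap fun g => gsteps (C.wit + C.anc) g.data) (rl ψ) =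
        rl (l.foldl (fun ψ g => g.act ψ) ψ) := by
    intro l
    induction l with
    | nil => exact fun _ _ => rfl
    | cons g l ih =>
      intro hl ψ
      rw [List.flatMap_cons, run_append, run_gsteps (hl g List.mem_cons_self),
        ih fun g hg => hl g (List.mem_cons_of_mem _ hg), List.foldl_cons]
  show run (_ ++ _ ++ _) _ = _
  rw [run_append, run_append, run_pad, run_pad, key _ hC.2]

end Vale.Agent.P370.Q
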