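import Mathlib

/-! Definitions used in the statement of the QMA-hardness of the continuum electronic
ground-state energy. -/

namespace Vale.Agent.P370

open MeasureTheory

/-! Binary codes -/

/-- Code of a bit. -/
def bBool : Bool → List Bool
  | false => [false]
  | true => [true, false, false]

/-- Code of a pair. -/
def bPair {α β : Type} (f : α → List Bool) (g : β → List Bool) (p : α × β) : List Bool :=
  true :: (f p.1 ++ g p.2)

/-- Self-delimiting code of a list. -/
def bList {α : Type} (f : α → List Bool) : List α → List Bool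
  | [] => [false]
  | a :: l => true :: (f a ++ bList f l)

/-- Binary code of a natural number: the list of its binary digits. -/
def bNat (n : ℕ) : List Bool := bList bBool n.bits

/-- Unary code of a natural number. -/
def bUn (n : ℕ) : List Bool := bList (fun _ : Unit => [false]) (List.replicate n ())

/-- Code of a rational number: sign, numerator and denominator (lowest terms) in binary. -/
def bRat (q : ℚ) : List Bool :=
  bPair (bPair bBool bNat) bNat ((decide (q.num < 0), q.num.natAbs), q.den)

/-! Quantum circuits and QMA -/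

/-- Gates: Hadamard, the `π/8` gate `diag (1, exp (iπ/4))`, and controlled NOT. -/
inductive Gate : Type
  | H (a : ℕ) : Gate
  | T (a : ℕ) : Gate
  | CX (a b : ℕ) : Gate

/-- A verifier circuit: number of witness qubits, number of ancilla qubits, gates. -/
structure Circ : Type where
  wit : ℕ
  anc : ℕ
  gates : List Gate

/-- The gate acts on existing (and, for CNOT, different) qubits. -/
def Gate.Valid (n : ℕ) : Gate → Prop
  | .H a => a < n
  | .T a => a < n
  | .CX a b => a < n ∧ b < n ∧ a ≠ b

/-- There is a qubit, and all gates are valid. -/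
def Circ.Valid (C : Circ) : Prop :=
  1 ≤ C.wit + C.anc ∧ ∀ g ∈ C.gates, g.Valid (C.wit + C.anc)

/-- The bit number `a` of a basis state. -/
def bit {n : ℕ} (x : Fin n → Bool) (a : ℕ) : Bool := if h : a < n then x ⟨a, h⟩ else false

/-- Replace the bit number `a` of a basis state. -/
def setBit {n : ℕ} (x : Fin n → Bool) (a : ℕ) (v : Bool) : Fin n → Bool :=
  fun i => if i.val = a then v else x i

/-- Action of a gate on the amplitude vector of `n` qubits. -/
noncomputable def Gate.act {n : ℕ} (ψ : (Fin n → Bool) → ℂ) : Gate → (Fin n → Bool) → ℂ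
  | .H a => fun x =>
      (ψ (setBit x a false) + (if bit x a then -1 else 1) * ψ (setBit x a true)) / (√2 : ℝ)
  | .T a => fun x => (if bit x a then Complex.exp (Real.pi / 4 * Complex.I) else 1) * ψ x
  | .CX a b => fun x => ψ (setBit x b (xor (bit x b) (bit x a)))

/-- The witness `φ` on the first qubits, all ancilla qubits in state `0`. -/
noncomputable def Circ.init (C : Circ) (φ : (Fin C.wit → Bool) → ℂ) :
    (Fin (C.wit + C.anc) → Bool) → ℂ :=
  fun x => if ∀ j : Fin C.anc, x (Fin.natAdd C.wit j) = false then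
    φ (fun i => x (Fin.castAdd C.anc i)) else 0

/-- Probability that measuring qubit `0` at the end gives `1`. -/
noncomputable def Circ.acc (C : Circ) (φ : (Fin C.wit → Bool) → ℂ) : ℝ :=
  ∑ x, if bit x 0 then ‖C.gates.foldl (fun ψ g => g.act ψ) (C.init φ) x‖ ^ 2 else 0

/-- Some unit witness is accepted with probability at least `2/3`. -/
def Circ.Yes (C : Circ) : Prop := ∃ φ, ∑ y, ‖φ y‖ ^ 2 = 1 ∧ 2 / 3 ≤ C.acc φ

/-- Every unit witness is accepted with probability at most `1/3`. -/
def Circ.No (C : Circ) : Prop := ∀ φ, ∑ y, ‖φ y‖ ^ 2 = 1 → C.acc φ ≤ 1 / 3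

/-- Code of a gate: kind and qubits. -/
def bGate : Gate → List Bool
  | .H a => bList bNat [0, a]
  | .T a => bList bNat [1, a]
  | .CX a b => bList bNat [2, a, b]

/-- Code of a circuit; the numbers of qubits are written in unary. -/
def codeCirc (C : Circ) : List Bool :=
  bPair bUn (bPair bUn (bList bGate)) (C.wit, C.anc, C.gates)

/-- `f` is computed in polynomial time by a Turing machine with finite alphabets which reads a
bit string and writes the code of the output. -/
def PolyTime {β : Type} (code : β → List Bool) (f : List Bool → β) : Prop :=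
  ∃ M : Turing.TM2ComputableInPolyTime (fun x : List Bool => x) code f, ∀ j, Finite (M.tm.Γ j)

/-- The promise problem with yes-instances `Y` and no-instances `N` lies in QMA. -/
def InQMA (Y N : Set (List Bool)) : Prop :=
  ∃ V : List Bool → Circ, PolyTime codeCirc V ∧
    ∀ x, (V x).Valid ∧ (x ∈ Y → (V x).Yes) ∧ (x ∈ N → (V x).No)

/-! The electronic structure problem -/

/-- An instance: nuclei (position, charge), number of electrons, thresholds. -/
structure Inst : Type where
  nuclei : List ((ℚ × ℚ × ℚ) × ℕ)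
  N : ℕ
  a : ℚ
  b : ℚ

/-- At least one nucleus, distinct positions, positive charges, `N ≥ 1`, `a < b`. -/
def Inst.Valid (I : Inst) : Prop :=
  I.nuclei ≠ [] ∧ (I.nuclei.map Prod.fst).Nodup ∧ (∀ p ∈ I.nuclei, 1 ≤ p.2) ∧ 1 ≤ I.N ∧ I.a < I.b

/-- Code of an instance: charges in binary, the number of electrons in unary. -/
def codeInst (I : Inst) : List Bool :=
  bPair (bList (bPair (bPair bRat (bPair bRat bRat)) bNat)) (bPair bUn (bPair bRat bRat))
    (I.nuclei, I.N, I.a, I.b)

/-- Euclidean distance in `ℝ³`. -/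
noncomputable def d3 (x y : Fin 3 → ℝ) : ℝ := √(∑ k, (x k - y k) ^ 2)

/-- A rational point as a point of `ℝ³`. -/
def pt (q : ℚ × ℚ × ℚ) : Fin 3 → ℝ := ![q.1, q.2.1, q.2.2]

/-- The Coulomb potential energy of `N` electrons at `x`. -/
noncomputable def Inst.pot (I : Inst) (x : Fin I.N → Fin 3 → ℝ) : ℝ :=
  -(∑ i, (I.nuclei.map fun p => (p.2 : ℝ) / d3 (x i) (pt p.1)).sum) +
    ∑ i, ∑ j, if i < j then 1 / d3 (x i) (x j) else 0

/-- Wave functions of `N` electrons: spins and positions. -/
abbrev Wave (N : ℕ) : Type := (Fin N → Bool) → (Fin N → Fin 3 → ℝ) → ℂ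

/-- Antisymmetry under simultaneous permutation of spins and positions. -/
def Antisym {N : ℕ} (Ψ : Wave N) : Prop :=
  ∀ (π : Equiv.Perm (Fin N)) (ς : Fin N → Bool) (x : Fin N → Fin 3 → ℝ),
    Ψ (ς ∘ π) (x ∘ π) = ((Equiv.Perm.sign π : ℤ) : ℂ) * Ψ ς x

/-- Squared norm. -/
noncomputable def normSq {N : ℕ} (Ψ : Wave N) : ℝ := ∑ ς, ∫ x, ‖Ψ ς x‖ ^ 2

/-- Antisymmetric, continuously differentiable, compactly supported wave functions (a core of
the quadratic form). -/
def Test {N : ℕ} (Ψ : Wave N) : Prop :=
  Antisym Ψ ∧ ∀ ς, ContDiff ℝ 1 (Ψ ς) ∧ HasCompactSupport (Ψ ς)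

/-- The quadratic form of the Hamiltonian. -/
noncomputable def Inst.energy (I : Inst) (Ψ : Wave I.N) : ℝ :=
  ∑ ς, ∫ x, (1 / 2 * ∑ i, ∑ k, ‖fderiv ℝ (Ψ ς) x (Pi.single i (Pi.single k 1))‖ ^ 2 +
    I.pot x * ‖Ψ ς x‖ ^ 2)

/-- The ground-state energy: the infimum of the form over normalized functions of the core. -/
noncomputable def Inst.E0 (I : Inst) : EReal :=
  ⨅ Ψ : {Ψ : Wave I.N // Test Ψ ∧ normSq Ψ = 1}, ((I.energy Ψ.1 : ℝ) : EReal)

end Vale.Agent.P370
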