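import Vale.Agent.P370.Stmt

/-! The ground-state energy defined with the full form domain `H¹ ∩ ⋀^N L²(ℝ³; ℂ²)`. -/

namespace Vale.Agent.P370

open MeasureTheory

/-- `G` is the weak derivative of `f` with respect to the coordinate `k` of electron `i`. -/
def IsWeakDeriv {N : ℕ} (f G : (Fin N → Fin 3 → ℝ) → ℂ) (i : Fin N) (k : Fin 3) : Prop :=
  ∀ φ : (Fin N → Fin 3 → ℝ) → ℝ, ContDiff ℝ (⊤ : ℕ∞) φ → HasCompactSupport φ →
    ∫ x, f x * (fderiv ℝ φ x (Pi.single i (Pi.single k 1)) : ℝ) = -∫ x, G x * (φ x : ℝ)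

/-- `Ψ` lies in `H¹` with weak gradient `G` and is antisymmetric almost everywhere. -/
def InH1 {N : ℕ} (Ψ : Wave N) (G : Fin N → Fin 3 → Wave N) : Prop :=
  (∀ ς, MemLp (Ψ ς) 2 volume) ∧
  (∀ i k ς, MemLp (G i k ς) 2 volume ∧ IsWeakDeriv (Ψ ς) (G i k ς) i k) ∧
  ∀ (π : Equiv.Perm (Fin N)) (ς : Fin N → Bool),
    ∀ᵐ x, Ψ (ς ∘ π) (x ∘ π) = ((Equiv.Perm.sign π : ℤ) : ℂ) * Ψ ς x

/-- The quadratic form of the Hamiltonian at `Ψ` with weak gradient `G`. -/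
noncomputable def Inst.energyH (I : Inst) (Ψ : Wave I.N) (G : Fin I.N → Fin 3 → Wave I.N) : ℝ :=
  ∑ ς, ∫ x, (1 / 2 * ∑ i, ∑ k, ‖G i k ς x‖ ^ 2 + I.pot x * ‖Ψ ς x‖ ^ 2)

/-- The ground-state energy: the infimum of the form over normalized antisymmetric `H¹`
functions. -/
noncomputable def Inst.E0H (I : Inst) : EReal :=
  ⨅ p : {p : Wave I.N × (Fin I.N → Fin 3 → Wave I.N) // InH1 p.1 p.2 ∧ normSq p.1 = 1},
    ((I.energyH p.1.1 p.1.2 : ℝ) : EReal)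

end Vale.Agent.P370
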