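import Vale.Agent.P370.Stmt

/-! Composition of polynomial-time Turing machines.

Plan.  Build the composite `FinTM2` with stacks `K₁ ⊕ K₂ ⊕ Unit`, labels `Λ₁ ⊕ Λ₂ ⊕ (copy labels)`,
states `σ₁ × σ₂ × Option Bool`.  Run the first machine (translate statements; `halt` becomes a jump
to the copy phase), move its output stack to the extra stack and then to the input stack of the
second machine (two reversals; translate letters by `outputAlphabet`, `inputAlphabet`), run the
second machine.  The output of the first machine has length at most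
`|x| + c * time` (each step pushes a bounded number of letters), which gives the polynomial bound.
Alternatively: show that a fixed finite machine can be simulated by a `PT` function
(`Vale.Agent.Lib.helper23`), whichever is shorter. -/

namespace Vale.Agent.P370

open Turing

namespace TMC

open TM2 Function

theorem sim {A B : Type} {f : A → Option A} {g : B → Option B} (φ : A → B)
    (h : ∀ a b, f a = some b → g (φ a) = some (φ b)) (n : ℕ) : ∀ a b,
    (flip bind f)^[n] (some a) = some b → (flip bind g)^[n] (some (φ a)) = some (φ b) := by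
  induction n with
  | zero =>
    intro a b e
    cases e
    rfl
  | succ n ih =>
    intro a b e
    rw [iterate_succ_apply] at e ⊢
    change (flip bind f)^[n] (f a) = _ at e
    change (flip bind g)^[n] (g (φ a)) = _
    cases hf : f a with
    | none =>
      rw [hf, iterate_fixed rfl] at e
      cases e
    | some c =>
      rw [hf] at e
      rw [h a c hf]
      exact ih c b e

theorem grow {A : Type} {f : A → Option A} (μ : A → ℕ) (C : ℕ)
    (h : ∀ a b, f a = some b → μ b ≤ μ a + C) (n : ℕ) : ∀ a b,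
    (flip bind f)^[n] (some a) = some b → μ b ≤ μ a + C * n := by
  induction n with
  | zero =>
    intro a b e
    cases e
    rfl
  | succ n ih =>
    intro a b e
    rw [iterate_succ_apply] at e
    change (flip bind f)^[n] (f a) = _ at e
    cases hf : f a with
    | none =>
      rw [hf, iterate_fixed rfl] at e
      cases e
    | some c =>
      rw [hf] at e
      have h1 := ih c b e
      have h2 := h a c hf
      rw [mul_add, mul_one]
      omega

/-- The number of push instructions in a statement. -/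
def pushes {K : Type} {Γ : K → Type} {Λ σ : Type} : Stmt Γ Λ σ → ℕ
  | .push _ _ q => pushes q + 1
  | .peek _ _ q => pushes q
  | .pop _ _ q => pushes q
  | .load _ q => pushes q
  | .branch _ q r => pushes q + pushes r
  | .goto _ => 0
  | .halt => 0

theorem len_stepAux {K : Type} [DecidableEq K] {Γ : K → Type} {Λ σ : Type} (j : K)
    (q : Stmt Γ Λ σ) : ∀ v S, ((stepAux q v S).stk j).length ≤ (S j).length + pushes q := by
  induction q with
  | push k f q ih =>
    intro v S
    refine (ih _ _).trans ?_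
    by_cases h : j = k
    · subst h
      simp [pushes]
      omega
    · simp [pushes, h]
  | peek k f q ih => exact fun v S => ih _ _
  | pop k f q ih =>
    intro v S
    refine (ih _ _).trans ?_
    by_cases h : j = k
    · subst h
      simp [pushes]
    · simp [pushes, h]
  | load f q ih => exact fun v S => ih _ _
  | branch f q r ih ih' =>
    intro v S
    have h1 := ih v S
    have h2 := ih' v S
    rw [stepAux.eq_5, pushes]
    cases f v
    · exact h2.trans (by omega)
    · exact h1.trans (by omega)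
  | goto f => exact fun v S => le_rfl
  | halt => exact fun v S => le_rfl

theorem init_eq (tm : FinTM2) (s : List (tm.Γ tm.k₀)) :
    initList tm s = ⟨some tm.main, tm.initialState, update (fun _ => []) tm.k₀ s⟩ := by
  unfold initList
  congr 1
  funext k
  by_cases h : k = tm.k₀
  · subst h
    simp
  · simp [h]

theorem halt_eq (tm : FinTM2) (s : List (tm.Γ tm.k₁)) :
    haltList tm s = ⟨none, tm.initialState, update (fun _ => []) tm.k₁ s⟩ := by
  unfold haltList
  congr 1
  funext k
  by_cases h : k = tm.k₁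
  · subst h
    simp
  · simp [h]

theorem out_len (tm : FinTM2) : ∃ C : ℕ, ∀ n s t,
    (flip bind tm.step)^[n] (some (initList tm s)) = some (haltList tm t) →
      t.length ≤ s.length + C * n := by
  have := tm.ΛFin
  refine ⟨∑ l, pushes (tm.m l), fun n s t e => ?_⟩
  have h := grow (fun c : tm.Cfg => (c.stk tm.k₁).length) (∑ l, pushes (tm.m l)) (by
    rintro ⟨_ | l, v, S⟩ b hb
    · cases hb
    · cases hb
      exact (len_stepAux _ _ _ _).trans (Nat.add_le_add_left
        (Finset.single_le_sum (f := fun l => pushes (tm.m l)) (fun _ _ => Nat.zero_le _)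
          (Finset.mem_univ l)) _)) n _ _ e
  rw [init_eq, halt_eq] at h
  simp only [update_self] at h
  refine h.trans (Nat.add_le_add_right ?_ _)
  rcases tm with ⟨k₀, k₁⟩
  by_cases h : k₁ = k₀
  · subst h
    simp
  · simp [h]

section
variable {K₁ K₂ : Type} {Γ₁ : K₁ → Type} {Γ₂ : K₂ → Type} {Λ₁ Λ₂ σ₁ σ₂ : Type}

/-- Stack alphabets of the composite machine. -/
@[reducible] def G (Γ₁ : K₁ → Type) (Γ₂ : K₂ → Type) : K₁ ⊕ K₂ ⊕ Unit → Type
  | .inl k => Γ₁ k
  | .inr (.inl k) => Γ₂ k
  | .inr (.inr _) => Bool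

/-- Stacks of the composite machine. -/
def stk (S₁ : ∀ k, List (Γ₁ k)) (S₂ : ∀ k, List (Γ₂ k)) (T : List Bool) :
    ∀ k, List (G Γ₁ Γ₂ k)
  | .inl k => S₁ k
  | .inr (.inl k) => S₂ k
  | .inr (.inr _) => T

theorem stk_nil : (fun _ => []) = stk (Γ₁ := Γ₁) (Γ₂ := Γ₂) (fun _ => []) (fun _ => []) [] := by
  funext j
  rcases j with j | j | j <;> rfl

/-- Translation of the first machine. -/
def tr1 : Stmt Γ₁ Λ₁ σ₁ → Stmt (G Γ₁ Γ₂) (Λ₁ ⊕ Λ₂ ⊕ Bool) (σ₁ × σ₂ × Option Bool)
  | .push k f q => .push (.inl k) (fun v => f v.1) (tr1 q)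
  | .peek k f q => .peek (.inl k) (fun v x => (f v.1 x, v.2)) (tr1 q)
  | .pop k f q => .pop (.inl k) (fun v x => (f v.1 x, v.2)) (tr1 q)
  | .load f q => .load (fun v => (f v.1, v.2)) (tr1 q)
  | .branch f q r => .branch (fun v => f v.1) (tr1 q) (tr1 r)
  | .goto f => .goto fun v => .inl (f v.1)
  | .halt => .goto fun _ => .inr (.inr false)

/-- Translation of the second machine. -/
def tr2 : Stmt Γ₂ Λ₂ σ₂ → Stmt (G Γ₁ Γ₂) (Λ₁ ⊕ Λ₂ ⊕ Bool) (σ₁ × σ₂ × Option Bool)
  | .push k f q => .push (.inr (.inl k)) (fun v => f v.2.1) (tr2 q)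
  | .peek k f q => .peek (.inr (.inl k)) (fun v x => (v.1, f v.2.1 x, v.2.2)) (tr2 q)
  | .pop k f q => .pop (.inr (.inl k)) (fun v x => (v.1, f v.2.1 x, v.2.2)) (tr2 q)
  | .load f q => .load (fun v => (v.1, f v.2.1, v.2.2)) (tr2 q)
  | .branch f q r => .branch (fun v => f v.2.1) (tr2 q) (tr2 r)
  | .goto f => .goto fun v => .inr (.inl (f v.2.1))
  | .halt => .halt

/-- The program of the composite machine. -/
def prog (m₁ : Λ₁ → Stmt Γ₁ Λ₁ σ₁) (m₂ : Λ₂ → Stmt Γ₂ Λ₂ σ₂) (k₁ : K₁) (k₀ : K₂)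
    (e₁ : Γ₁ k₁ → Bool) (e₂ : Bool → Γ₂ k₀) (l₂ : Λ₂) :
    Λ₁ ⊕ Λ₂ ⊕ Bool → Stmt (G Γ₁ Γ₂) (Λ₁ ⊕ Λ₂ ⊕ Bool) (σ₁ × σ₂ × Option Bool)
  | .inl l => tr1 (m₁ l)
  | .inr (.inl l) => tr2 (m₂ l)
  | .inr (.inr false) => .pop (.inl k₁) (fun v x => (v.1, v.2.1, Option.map e₁ x))
      (.branch (fun v => v.2.2.isSome)
        (.push (.inr (.inr ())) (fun v => v.2.2.getD false) (.goto fun _ => .inr (.inr false)))
        (.goto fun _ => .inr (.inr true)))
  | .inr (.inr true) => .pop (.inr (.inr ())) (fun v x => (v.1, v.2.1, x))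
      (.branch (fun v => v.2.2.isSome)
        (.push (.inr (.inl k₀)) (fun v => e₂ (v.2.2.getD false)) (.goto fun _ => .inr (.inr true)))
        (.goto fun _ => .inr (.inl l₂)))

/-- Configurations of the first phase. -/
def cfg1 (w : σ₂) (c : Cfg Γ₁ Λ₁ σ₁) :
    Cfg (G Γ₁ Γ₂) (Λ₁ ⊕ Λ₂ ⊕ Bool) (σ₁ × σ₂ × Option Bool) :=
  ⟨some (c.l.elim (.inr (.inr false)) .inl), (c.var, w, none), stk c.stk (fun _ => []) []⟩

/-- Configurations of the last phase. -/
def cfg2 (w : σ₁) (c : Cfg Γ₂ Λ₂ σ₂) :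
    Cfg (G Γ₁ Γ₂) (Λ₁ ⊕ Λ₂ ⊕ Bool) (σ₁ × σ₂ × Option Bool) :=
  ⟨c.l.map fun l => .inr (.inl l), (w, c.var, none), stk (fun _ => []) c.stk []⟩

variable [DecidableEq K₁] [DecidableEq K₂]

theorem upd1 (S₁ : ∀ k, List (Γ₁ k)) (S₂ : ∀ k, List (Γ₂ k)) (T : List Bool) (k : K₁)
    (L : List (Γ₁ k)) : update (stk S₁ S₂ T) (.inl k) L = stk (update S₁ k L) S₂ T := by
  funext j
  rcases j with j | j | j
  · by_cases h : j = k
    · subst h
      exact (update_self _ _ (stk S₁ S₂ T)).trans (update_self j L S₁).symm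
    · have e := (update_of_ne h L S₁).symm
      exact (update_of_ne (by simpa using h) _ (stk S₁ S₂ T)).trans e
  · exact update_of_ne (by simp) _ (stk S₁ S₂ T)
  · exact update_of_ne (by simp) _ (stk S₁ S₂ T)

theorem upd2 (S₁ : ∀ k, List (Γ₁ k)) (S₂ : ∀ k, List (Γ₂ k)) (T : List Bool) (k : K₂)
    (L : List (Γ₂ k)) : update (stk S₁ S₂ T) (.inr (.inl k)) L = stk S₁ (update S₂ k L) T := by
  funext j
  rcases j with j | j | j
  · exact update_of_ne (by simp) _ (stk S₁ S₂ T)
  · by_cases h : j = k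
    · subst h
      exact (update_self _ _ (stk S₁ S₂ T)).trans (update_self j L S₂).symm
    · have e := (update_of_ne h L S₂).symm
      exact (update_of_ne (by simpa using h) _ (stk S₁ S₂ T)).trans e
  · exact update_of_ne (by simp) _ (stk S₁ S₂ T)

theorem upd3 (S₁ : ∀ k, List (Γ₁ k)) (S₂ : ∀ k, List (Γ₂ k)) (T L : List Bool) :
    update (stk S₁ S₂ T) (.inr (.inr ())) L = stk S₁ S₂ L := by
  funext j
  rcases j with j | j | j
  · exact update_of_ne (by simp) _ (stk S₁ S₂ T)
  · exact update_of_ne (by simp) _ (stk S₁ S₂ T)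
  · exact update_self _ _ (stk S₁ S₂ T)

theorem step1 (w : σ₂) (q : Stmt Γ₁ Λ₁ σ₁) : ∀ v S,
    stepAux (tr1 (Γ₂ := Γ₂) (Λ₂ := Λ₂) q) (v, w, none) (stk S (fun _ => []) []) =
      cfg1 w (stepAux q v S) := by
  induction q with
  | push k f q ih => exact fun v S => (congrArg _ (upd1 _ _ _ _ _)).trans (ih _ _)
  | peek k f q ih => exact fun v S => ih _ _
  | pop k f q ih => exact fun v S => (congrArg _ (upd1 _ _ _ _ _)).trans (ih _ _)
  | load f q ih => exact fun v S => ih _ _
  | branch f q r ih ih' =>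
    intro v S
    rw [tr1, stepAux.eq_5, stepAux.eq_5, ih, ih']
    cases f v <;> rfl
  | goto f => exact fun v S => rfl
  | halt => exact fun v S => rfl

theorem step2 (w : σ₁) (q : Stmt Γ₂ Λ₂ σ₂) : ∀ v S,
    stepAux (tr2 (Γ₁ := Γ₁) (Λ₁ := Λ₁) q) (w, v, none) (stk (fun _ => []) S []) =
      cfg2 w (stepAux q v S) := by
  induction q with
  | push k f q ih => exact fun v S => (congrArg _ (upd2 _ _ _ _ _)).trans (ih _ _)
  | peek k f q ih => exact fun v S => ih _ _
  | pop k f q ih => exact fun v S => (congrArg _ (upd2 _ _ _ _ _)).trans (ih _ _)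
  | load f q ih => exact fun v S => ih _ _
  | branch f q r ih ih' =>
    intro v S
    rw [tr2, stepAux.eq_5, stepAux.eq_5, ih, ih']
    cases f v <;> rfl
  | goto f => exact fun v S => rfl
  | halt => exact fun v S => rfl

variable (m₁ : Λ₁ → Stmt Γ₁ Λ₁ σ₁) (m₂ : Λ₂ → Stmt Γ₂ Λ₂ σ₂) (k₁ : K₁) (k₀ : K₂)
  (e₁ : Γ₁ k₁ → Bool) (e₂ : Bool → Γ₂ k₀) (l₂ : Λ₂) (v : σ₁) (w : σ₂)

theorem copyA (L : List (Γ₁ k₁)) : ∀ (T : List Bool) (o : Option Bool),
    (flip bind (step (prog m₁ m₂ k₁ k₀ e₁ e₂ l₂)))^[L.length + 1]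
      (some ⟨some (.inr (.inr false)), (v, w, o),
        stk (update (fun _ => []) k₁ L) (fun _ => []) T⟩) =
      some ⟨some (.inr (.inr true)), (v, w, none),
        stk (fun _ => []) (fun _ => []) ((L.map e₁).reverse ++ T)⟩ := by
  have e : ∀ (L : List (Γ₁ k₁)) T,
      stk (Γ₂ := Γ₂) (update (fun _ => []) k₁ L) (fun _ => []) T (.inl k₁) = L :=
    fun L T => update_self (β := fun k => List (Γ₁ k)) k₁ L fun _ => []
  induction L with
  | nil =>
    intro T o
    change some (stepAux (prog m₁ m₂ k₁ k₀ e₁ e₂ l₂ (.inr (.inr false))) _ _) = _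
    rw [prog, stepAux.eq_3, e]
    refine (congrArg (fun S => some (stepAux _ _ S)) (upd1 _ _ _ _ _)).trans ?_
    rw [update_idem, List.tail_nil, update_eq_self]
    rfl
  | cons a L ih =>
    intro T o
    rw [List.length_cons, iterate_succ_apply, List.map_cons, List.reverse_cons, List.append_assoc,
      List.singleton_append, ← ih _ (some (e₁ a))]
    congr 1
    change some (stepAux (prog m₁ m₂ k₁ k₀ e₁ e₂ l₂ (.inr (.inr false))) _ _) = _
    rw [prog, stepAux.eq_3, e]
    refine (congrArg (fun S => some (stepAux _ _ S)) (upd1 _ _ _ _ _)).trans ?_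
    rw [update_idem]
    exact congrArg (fun S => some (Cfg.mk _ _ S)) (upd3 _ _ _ _)

theorem copyB (T : List Bool) : ∀ (L : List (Γ₂ k₀)) (o : Option Bool),
    (flip bind (step (prog m₁ m₂ k₁ k₀ e₁ e₂ l₂)))^[T.length + 1]
      (some ⟨some (.inr (.inr true)), (v, w, o),
        stk (fun _ => []) (update (fun _ => []) k₀ L) T⟩) =
      some ⟨some (.inr (.inl l₂)), (v, w, none),
        stk (fun _ => []) (update (fun _ => []) k₀ ((T.map e₂).reverse ++ L)) []⟩ := by
  induction T with
  | nil =>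
    intro L o
    exact congrArg (fun S => some (Cfg.mk _ _ S)) (upd3 _ _ _ _)
  | cons a T ih =>
    intro L o
    rw [List.length_cons, iterate_succ_apply, List.map_cons, List.reverse_cons, List.append_assoc,
      List.singleton_append, ← ih _ (some a)]
    congr 1
    change some (stepAux (prog m₁ m₂ k₁ k₀ e₁ e₂ l₂ (.inr (.inr true))) _ _) = _
    rw [prog, stepAux.eq_3]
    refine (congrArg (fun S => some (stepAux _ _ S)) (upd3 _ _ _ _)).trans ?_
    refine (congrArg (fun S => some (Cfg.mk _ _ S)) (upd2 _ _ _ _ _)).trans ?_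
    refine congrArg (fun S => some (Cfg.mk _ _ (stk _ S T))) ((update_idem _ _ _).trans ?_)
    exact congrArg (fun L' => update (β := fun k => List (Γ₂ k)) _ k₀ (e₂ a :: L'))
      (update_self (β := fun k => List (Γ₂ k)) k₀ L fun _ => [])

theorem run {a : Cfg Γ₁ Λ₁ σ₁} {b : Cfg Γ₂ Λ₂ σ₂} {L : List (Γ₁ k₁)} {n₁ n₂ : ℕ}
    (h₁ : (flip bind (step m₁))^[n₁] (some a) = some ⟨none, v, update (fun _ => []) k₁ L⟩)
    (h₂ : (flip bind (step m₂))^[n₂]
      (some ⟨some l₂, w, update (fun _ => []) k₀ ((L.map e₁).map e₂)⟩) = some b) :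
    (flip bind (step (prog m₁ m₂ k₁ k₀ e₁ e₂ l₂)))^[n₂ + (L.length + 1) + (L.length + 1) + n₁]
      (some (cfg1 w a)) = some (cfg2 v b) := by
  have p1 := sim (g := step (prog m₁ m₂ k₁ k₀ e₁ e₂ l₂)) (cfg1 w) (by
    rintro ⟨_ | l, u, S⟩ b hb
    · cases hb
    · cases hb
      exact congrArg some (step1 w _ _ _)) n₁ _ _ h₁
  have p4 := sim (g := step (prog m₁ m₂ k₁ k₀ e₁ e₂ l₂)) (cfg2 v) (by
    rintro ⟨_ | l, u, S⟩ b hb
    · cases hb
    · cases hb
      exact congrArg some (step2 v _ _ _)) n₂ _ _ h₂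
  have p2 := copyA m₁ m₂ k₁ k₀ e₁ e₂ l₂ v w L [] none
  have p3 := copyB m₁ m₂ k₁ k₀ e₁ e₂ l₂ v w (L.map e₁).reverse [] none
  rw [List.append_nil] at p2
  rw [List.append_nil, List.length_reverse, List.length_map, List.map_reverse, List.reverse_reverse,
    update_eq_self] at p3
  rw [iterate_add_apply, iterate_add_apply, iterate_add_apply, p1]
  exact (congrArg _ ((congrArg _ p2).trans p3)).trans p4

end

/-- The composite machine. -/
def comp (A B : FinTM2) (e₁ : A.Γ A.k₁ → Bool) (e₂ : Bool → B.Γ B.k₀) : FinTM2 where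
  K := A.K ⊕ B.K ⊕ Unit
  kFin := @instFintypeSum _ _ A.kFin (@instFintypeSum _ _ B.kFin inferInstance)
  k₀ := .inl A.k₀
  k₁ := .inr (.inl B.k₁)
  Γ := G A.Γ B.Γ
  Λ := A.Λ ⊕ B.Λ ⊕ Bool
  main := .inl A.main
  ΛFin := @instFintypeSum _ _ A.ΛFin (@instFintypeSum _ _ B.ΛFin inferInstance)
  σ := A.σ × B.σ × Option Bool
  initialState := (A.initialState, B.initialState, none)
  σFin := @instFintypeProd _ _ A.σFin (@instFintypeProd _ _ B.σFin inferInstance)
  Γk₀Fin := A.Γk₀Fin
  m := prog A.m B.m A.k₁ B.k₀ e₁ e₂ B.main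

theorem comp_run (A B : FinTM2) (e₁ : A.Γ A.k₁ → Bool) (e₂ : Bool → B.Γ B.k₀) {n₁ n₂ : ℕ}
    {s : List (A.Γ A.k₀)} {L : List (A.Γ A.k₁)} {t : List (B.Γ B.k₁)}
    (h₁ : (flip bind A.step)^[n₁] (some (initList A s)) = some (haltList A L))
    (h₂ : (flip bind B.step)^[n₂] (some (initList B ((L.map e₁).map e₂))) = some (haltList B t)) :
    (flip bind (comp A B e₁ e₂).step)^[n₂ + (L.length + 1) + (L.length + 1) + n₁]
      (some (initList (comp A B e₁ e₂) s)) = some (haltList (comp A B e₁ e₂) t) := by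
  rw [halt_eq] at h₁
  rw [init_eq] at h₂
  have h := run A.m B.m A.k₁ B.k₀ e₁ e₂ B.main A.initialState B.initialState h₁ h₂
  have a1 : initList (comp A B e₁ e₂) s = cfg1 B.initialState (initList A s) := by
    rw [init_eq A]
    refine (init_eq _ _).trans ?_
    have e := upd1 (Γ₂ := B.Γ) (fun _ => []) (fun _ => []) [] A.k₀ s
    rw [← stk_nil] at e
    exact congrArg (Cfg.mk _ _) e
  have a2 : haltList (comp A B e₁ e₂) t = cfg2 A.initialState (haltList B t) := by
    rw [halt_eq B]
    refine (halt_eq _ _).trans ?_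
    have e := upd2 (Γ₁ := A.Γ) (fun _ => []) (fun _ => []) [] B.k₁ t
    rw [← stk_nil] at e
    exact congrArg (Cfg.mk _ _) e
  rw [a1, a2]
  exact h

theorem eval_mono (p : Polynomial ℕ) {a b : ℕ} (h : a ≤ b) : p.eval a ≤ p.eval b := by
  rw [Polynomial.eval_eq_sum_range, Polynomial.eval_eq_sum_range]
  gcongr

end TMC

theorem polyTime_comp {β γ : Type} {cb : β → List Bool} {cc : γ → List Bool}
    {f : List Bool → β} {g : β → γ} (hf : PolyTime cb f)
    (hg : ∃ M : TM2ComputableInPolyTime cb cc g, ∀ j, Finite (M.tm.Γ j)) :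
    PolyTime cc (fun x => g (f x)) := by
  obtain ⟨A, hA⟩ := hf
  obtain ⟨B, hB⟩ := hg
  obtain ⟨C, hC⟩ := TMC.out_len A.tm
  let q : Polynomial ℕ := Polynomial.X + Polynomial.C C * A.time
  refine ⟨{ tm := TMC.comp A.tm B.tm A.outputAlphabet B.inputAlphabet.invFun
            inputAlphabet := A.inputAlphabet
            outputAlphabet := B.outputAlphabet
            time := B.time.comp q + (q + 1) + (q + 1) + A.time
            outputsFun := fun x => ⟨⟨_, TMC.comp_run A.tm B.tm _ _ (A.outputsFun x).evals_in_steps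
              (n₂ := (B.outputsFun (f x)).steps) ?_⟩, ?_⟩ }, ?_⟩
  · have e : (List.map A.outputAlphabet.invFun (cb (f x))).map A.outputAlphabet = cb (f x) := by
      simp
    rw [e]
    exact (B.outputsFun (f x)).evals_in_steps
  · have h1 := (A.outputsFun x).steps_le_m
    have h2 := (B.outputsFun (f x)).steps_le_m
    have h3 := hC _ _ _ (A.outputsFun x).evals_in_steps
    rw [List.length_map, List.length_map] at h3
    have h4 : (cb (f x)).length ≤ q.eval x.length := by
      have := Nat.mul_le_mul_left C h1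
      simp only [q, Polynomial.eval_add, Polynomial.eval_mul, Polynomial.eval_X, Polynomial.eval_C]
      omega
    have h5 := TMC.eval_mono B.time h4
    simp only [Polynomial.eval_add, Polynomial.eval_comp, Polynomial.eval_one, List.length_map]
    omega
  · rintro (j | j | j)
    · exact hA j
    · exact hB j
    · exact inferInstanceAs (Finite Bool)

end Vale.Agent.P370
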