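import Mathlib

/-! Part W: probability densities on the line and their Gaussian transforms (definitions). -/

namespace Vale.Agent.P370

open MeasureTheory

/-- a bounded probability density on the line -/
structure Dens (M : ℝ) (f : ℝ → ℝ) : Prop where
  meas : Measurable f
  nonneg : ∀ x, 0 ≤ f x
  le : ∀ x, f x ≤ M
  int : Integrable f
  one : ∫ x, f x = 1

noncomputable def kB (g : ℝ → ℝ) (t s : ℝ) : ℝ :=
  ∫ s', g s' * Real.exp (-(t ^ 2 * (s - s') ^ 2))

noncomputable def kA (f g : ℝ → ℝ) (t : ℝ) : ℝ := ∫ s, f s * kB g t s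

noncomputable def kI (α β γ : ℝ → ℝ) : ℝ :=
  2 / √Real.pi * ∫ t in Set.Ioi (0 : ℝ), α t * β t * γ t

/-- bounds satisfied by `kA f g` -/
structure Ker (M : ℝ) (α : ℝ → ℝ) : Prop where
  meas : Measurable α
  nonneg : ∀ t, 0 ≤ α t
  le_one : ∀ t, α t ≤ 1
  dec : ∀ t, 0 < t → t * α t ≤ 2 * M

/-- `f` vanishes outside `[p - R, p + R]` -/
def Supp (f : ℝ → ℝ) (p R : ℝ) : Prop := ∀ x, f x ≠ 0 → |x - p| ≤ R

/-- mass of the truncated Gaussian -/
noncomputable def mG (ω R : ℝ) : ℝ := ∫ z in (-R)..R, Real.exp (-(ω * z ^ 2))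

/-- truncated Gaussian, not normalised -/
noncomputable def eG (ω R p x : ℝ) : ℝ :=
  if |x - p| ≤ R then Real.exp (-(ω * (x - p) ^ 2)) else 0

/-- truncated Gaussian density -/
noncomputable def tG (ω R p x : ℝ) : ℝ := eG ω R p x / mG ω R

/-- Gaussian density -/
noncomputable def gG (ω p x : ℝ) : ℝ := √(ω / Real.pi) * Real.exp (-(ω * (x - p) ^ 2))

/-- average of `K` functions -/
noncomputable def avg (K : ℕ) (f : ℕ → ℝ → ℝ) (x : ℝ) : ℝ := (∑ j ∈ Finset.range K, f j x) / K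

end Vale.Agent.P370
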