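import Vale.Agent.P370.WSp
import Vale.Agent.P370.ParB

/-! Shape of `S` near and between the dots; geometry of the cells (helper58). -/

namespace Vale.Agent.P370

open Finset

variable {b : ℕ}

theorem rho_cast (b : ℕ) : ((rho b : ℚ) : ℝ) = 1 / PR b ^ 104 := by
  rw [rho]
  push_cast
  rw [Pq_cast]

theorem PR_pow_ge (hb : 30 ≤ b) {k : ℕ} (hk : 1 ≤ k) : (2 : ℝ) ^ 30 ≤ PR b ^ k :=
  (PR_ge hb).trans (le_self_pow₀ (PR_one b) (by omega))

theorem rho_bd (hb : 30 ≤ b) : 0 < (rho b : ℝ) ∧ (rho b : ℝ) ≤ 1 / 1000 := by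
  have h := PR_pow_ge hb (k := 104) (by norm_num)
  have h0 := PR_pos b
  rw [rho_cast]
  exact ⟨by positivity, one_div_le_one_div_of_le (by norm_num) (le_trans (by norm_num) h)⟩

theorem wd_cast (b : ℕ) : ((Chain.wd b : ℚ) : ℝ) = 1 + 9 * (rho b : ℝ) := by
  rw [Chain.wd]
  push_cast
  rfl

theorem wd_bd (hb : 30 ≤ b) : 1 < (Chain.wd b : ℝ) ∧ (Chain.wd b : ℝ) ≤ 2 := by
  have h := rho_bd hb
  rw [wd_cast]
  constructor <;> linarith [h.1, h.2]

section sig

variable {ϱ pl pll plr ξ : ℝ}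

theorem half_zero (h : 0 < ϱ) (hξ : ξ ≤ 1) : half ϱ pl ξ = 0 := by
  rw [half, sp_zero (by norm_num) (div_nonpos_of_nonpos_of_nonneg (by linarith) h.le), mul_zero]

theorem half_full (h : 0 < ϱ) (hξ : 1 + 9 * ϱ ≤ ξ) : half ϱ pl ξ = pl - ξ ^ 2 / 2 := by
  rw [half, sp9_one (by rw [le_div_iff₀ h]; linarith), mul_one]

theorem half_ge (hp : 1 ≤ pl) (hξ : 1 ≤ ξ) : 1 / 2 ≤ ξ ^ 2 / 2 + half ϱ pl ξ := by
  have h0 := sp9_nonneg ((ξ - 1) / ϱ)
  have h1 := sp9_le_one ((ξ - 1) / ϱ)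
  have h2 : 1 ≤ ξ ^ 2 := one_le_pow₀ hξ
  rw [half]
  nlinarith [mul_nonneg (sub_nonneg.2 h1) (sub_nonneg.2 h2), mul_nonneg h0 (sub_nonneg.2 hp)]

/-- the profile of one dot -/
noncomputable def sig (ϱ pll plr ξ : ℝ) : ℝ := ξ ^ 2 / 2 + half ϱ plr ξ + half ϱ pll (-ξ)

theorem sig_core (h : 0 < ϱ) (hξ : |ξ| ≤ 1) : sig ϱ pll plr ξ = ξ ^ 2 / 2 := by
  have h1 := abs_le.1 hξ
  rw [sig, half_zero h h1.2, half_zero h (by linarith [h1.1]), add_zero, add_zero]

theorem sig_right (h : 0 < ϱ) (hξ : 1 + 9 * ϱ ≤ ξ) : sig ϱ pll plr ξ = plr := by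
  rw [sig, half_full h hξ, half_zero h (by linarith)]
  ring

theorem sig_left (h : 0 < ϱ) (hξ : 1 + 9 * ϱ ≤ -ξ) : sig ϱ pll plr ξ = pll := by
  rw [sig, half_full h hξ, half_zero h (by linarith)]
  ring

theorem sig_tail (h : 0 < ϱ) (hl : 1 ≤ pll) (hr : 1 ≤ plr) (hξ : 1 ≤ |ξ|) :
    1 / 2 ≤ sig ϱ pll plr ξ := by
  rcases le_abs.1 hξ with c | c
  · rw [sig, half_zero (ξ := -ξ) h (by linarith), add_zero]
    exact half_ge hr c
  · have h1 := half_ge (ϱ := ϱ) hl c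
    rw [sig, half_zero (ξ := ξ) h (by linarith), add_zero]
    rwa [neg_sq] at h1

end sig

namespace Chain

variable {c : Chain}

theorem Good.n_pos (h : c.Good b) : 0 < c.n := Nat.mul_pos h.ng_pos h.K_pos

theorem Good.pos_add (h : c.Good b) {i j : ℕ} (hij : i < j) (hj : j < c.n) :
    (c.pos i : ℝ) + PR b ^ 30 ≤ c.pos j := by
  have h0 := PR_pos b
  have key : ∀ i, i + 1 < c.n → (c.pos i : ℝ) + PR b ^ 30 ≤ c.pos (i + 1) := fun i hi => by
    have := h.gap i hi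
    rw [← Pq_cast]
    exact_mod_cast this
  induction j, hij using Nat.le_induction with
  | base => exact key i hj
  | succ j _ ih =>
    have h1 := ih (by omega)
    have h2 := key j hj
    have h3 : 0 < PR b ^ 30 := by positivity
    linarith

theorem Good.pos_mono (h : c.Good b) {i j : ℕ} (hij : i ≤ j) (hj : j < c.n) :
    (c.pos i : ℝ) ≤ c.pos j := by
  rcases hij.eq_or_lt with e | e
  · rw [e]
  · have h0 := PR_pos b
    have h3 : 0 < PR b ^ 30 := by positivity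
    linarith [h.pos_add e hj]

theorem Good.pos_far (h : c.Good b) {i j : ℕ} (hi : i < c.n) (hj : j < c.n) (hij : i ≠ j) :
    PR b ^ 30 ≤ |(c.pos i : ℝ) - c.pos j| := by
  rcases lt_or_gt_of_ne hij with e | e
  · exact le_abs.2 (Or.inr (by linarith [h.pos_add e hj]))
  · exact le_abs.2 (Or.inl (by linarith [h.pos_add e hi]))

theorem Good.pos_abs (h : c.Good b) {i : ℕ} (hi : i < c.n) : |(c.pos i : ℝ)| ≤ PR b ^ 64 / 2 := by
  have := h.pos_bd i hi
  rw [← Pq_cast]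
  exact_mod_cast this

theorem Good.pl_bd (hb : 30 ≤ b) (h : c.Good b) (i : ℕ) :
    1 ≤ (c.pl b i : ℝ) ∧ (c.pl b i : ℝ) ≤ 64 := by
  have key : 1 ≤ c.pl b i ∧ c.pl b i ≤ 64 := by
    unfold pl
    split_ifs
    · exact plq_bd hb (by omega) le_rfl
    · exact plq_bd hb h.kw_ge h.kw_le
    · norm_num
  exact ⟨by exact_mod_cast key.1, by exact_mod_cast key.2⟩

theorem S_cont (b : ℕ) (c : Chain) : Continuous (c.S b : ℝ → ℝ) := by
  have h := sp_cont 9
  unfold S half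
  fun_prop

/-- on the zone of dot `i` only its own profile counts -/
theorem S_loc (hb : 30 ≤ b) {i : ℕ} (hi : i < c.n) {x : ℝ}
    (hl : ∀ j < i, (c.pos j : ℝ) + wd b ≤ x) (hr : ∀ j, i < j → j < c.n → x + wd b ≤ c.pos j) :
    c.S b x = om b * sig (rho b) (c.pl b i) (c.pl b (i + 1)) (x - c.pos i) := by
  have h0 := (rho_bd hb).1
  obtain ⟨m, hm⟩ : ∃ m, c.n = i + 1 + m := ⟨c.n - (i + 1), by omega⟩
  have e : c.S b x = om b * (∑ j ∈ range (i + 1 + m),
      sig (rho b) (c.pl b j) (c.pl b (j + 1)) (x - c.pos j) -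
        ∑ j ∈ range (i + m), (c.pl b (j + 1) : ℝ)) := by
    rw [S, hm, show i + 1 + m - 1 = i + m by omega]
    rfl
  rw [wd_cast] at hl hr
  rw [e, sum_range_add, sum_range_add _ i m, sum_range_succ,
    sum_congr rfl fun j hj => sig_right h0 (by linarith [hl j (mem_range.1 hj)]),
    sum_congr (s₁ := range m) rfl fun j hj => sig_left h0
      (by linarith [hr (i + 1 + j) (by omega) (by have := mem_range.1 hj; omega)])]
  simp only [add_right_comm i 1]
  ring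

/-- the nearest dot -/
theorem Good.exists_near (h : c.Good b) (x : ℝ) : ∃ i < c.n,
    (∀ j < i, (c.pos j : ℝ) + PR b ^ 30 / 2 ≤ x) ∧
      ∀ j, i < j → j < c.n → x + PR b ^ 30 / 2 ≤ c.pos j := by
  obtain ⟨i, hi, hm⟩ := exists_min_image (range c.n) (fun i => |x - c.pos i|)
    ⟨0, mem_range.2 h.n_pos⟩
  have hi := mem_range.1 hi
  have h0 := PR_pos b
  have h3 : 0 < PR b ^ 30 := by positivity
  refine ⟨i, hi, fun j hj => ?_, fun j hj hn => ?_⟩
  · have h1 := hm j (mem_range.2 (by omega))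
    have h2 := h.pos_add hj hi
    have h4 := neg_le_abs (x - c.pos i)
    rcases abs_cases (x - c.pos j) with c | c <;> linarith [c.1, c.2]
  · have h1 := hm j (mem_range.2 hn)
    have h2 := h.pos_add hj hn
    have h4 := le_abs_self (x - c.pos i)
    rcases abs_cases (x - c.pos j) with c | c <;> linarith [c.1, c.2]

theorem Good.exists_loc (hb : 30 ≤ b) (h : c.Good b) (x : ℝ) : ∃ i < c.n,
    c.S b x = om b * sig (rho b) (c.pl b i) (c.pl b (i + 1)) (x - c.pos i) := by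
  obtain ⟨i, hi, h1, h2⟩ := h.exists_near x
  have h3 := PR_pow_ge hb (k := 30) (by norm_num)
  have h4 := (wd_bd hb).2
  exact ⟨i, hi, S_loc hb hi (fun j hj => by linarith [h1 j hj])
    fun j hj hn => by linarith [h2 j hj hn]⟩

theorem Good.S_core (hb : 30 ≤ b) (h : c.Good b) {i : ℕ} (hi : i < c.n) {x : ℝ}
    (hx : |x - c.pos i| ≤ 1) : c.S b x = om b * ((x - c.pos i) ^ 2 / 2) := by
  have h3 := PR_pow_ge hb (k := 30) (by norm_num)
  have h4 := (wd_bd hb).2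
  have h5 := abs_le.1 hx
  rw [S_loc hb hi (fun j hj => by linarith [h.pos_add hj hi, h5.1])
    (fun j hj hn => by linarith [h.pos_add hj hn, h5.2]), sig_core (rho_bd hb).1 hx]

theorem Good.S_tail (hb : 30 ≤ b) (h : c.Good b) {x : ℝ} (hx : ∀ i < c.n, 1 ≤ |x - c.pos i|) :
    (om b : ℝ) / 2 ≤ c.S b x := by
  obtain ⟨i, hi, e⟩ := h.exists_loc hb x
  have h1 := sig_tail (rho_bd hb).1 (h.pl_bd hb i).1 (h.pl_bd hb (i + 1)).1 (hx i hi)
  have h2 := (om_le hb).1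
  rw [e]
  nlinarith

theorem Good.S_nonneg (hb : 30 ≤ b) (h : c.Good b) (x : ℝ) : 0 ≤ c.S b x := by
  have h2 := (om_le hb).1
  by_cases hx : ∀ i < c.n, 1 ≤ |x - c.pos i|
  · linarith [h.S_tail hb hx]
  · push Not at hx
    obtain ⟨i, hi, hx⟩ := hx
    rw [h.S_core hb hi hx.le]
    positivity

theorem Good.idx_lt (h : c.Good b) {a j : ℕ} (ha : a < c.ng) (hj : j < c.K) :
    a * c.K + j < c.n := by
  have h1 : (a + 1) * c.K ≤ c.ng * c.K := Nat.mul_le_mul_right _ ha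
  rw [add_mul, one_mul] at h1
  unfold n
  omega

theorem mb_zero (b : ℕ) (c : Chain) : (c.mb b 0 : ℝ) = c.pos 0 - wd b - 18 := by
  rw [mb, if_pos rfl, lo]
  push_cast
  rfl

theorem Good.mb_ng (h : c.Good b) : (c.mb b c.ng : ℝ) = c.pos (c.n - 1) + wd b + 18 := by
  have := h.ng_pos
  rw [mb, if_neg (by omega), if_pos rfl, hi]
  push_cast
  rfl

theorem mb_mid (b : ℕ) {a : ℕ} (h0 : a ≠ 0) (h1 : a ≠ c.ng) :
    (c.mb b a : ℝ) = c.pos (a * c.K - 1) + wd b := by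
  rw [mb, if_neg h0, if_neg h1, al, if_neg h0]
  push_cast
  rfl

/-- dots with index `≥ a K` lie to the right of `mb a` -/
theorem Good.mb_le (hb : 30 ≤ b) (h : c.Good b) {a i : ℕ} (hi : i < c.n) (ha : a * c.K ≤ i) :
    (c.mb b a : ℝ) + 4 ≤ c.pos i := by
  have h3 := PR_pow_ge hb (k := 30) (by norm_num)
  have h4 := wd_bd hb
  by_cases h0 : a = 0
  · rw [h0, mb_zero]
    linarith [h.pos_mono (Nat.zero_le i) hi, h4.1]
  · have h1 : a ≠ c.ng := by
      rintro rfl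
      exact absurd hi (not_lt.2 ha)
    have h2 : 0 < a * c.K := Nat.mul_pos (Nat.pos_of_ne_zero h0) h.K_pos
    rw [mb_mid b h0 h1]
    linarith [h.pos_add (i := a * c.K - 1) (by omega) hi, h4.2]

/-- dots with index `< a K` lie to the left of `mb a` -/
theorem Good.le_mb (hb : 30 ≤ b) (h : c.Good b) {a i : ℕ} (ha : a ≤ c.ng) (hi : i < a * c.K) :
    (c.pos i : ℝ) + wd b ≤ c.mb b a := by
  have h1 : a * c.K ≤ c.n := Nat.mul_le_mul_right _ ha
  by_cases h0 : a = c.ng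
  · rw [h0, h.mb_ng]
    linarith [h.pos_mono (i := i) (j := c.n - 1) (by omega) (by omega)]
  · have h2 : a ≠ 0 := by
      rintro rfl
      simp at hi
    rw [mb_mid b h2 h0]
    linarith [h.pos_mono (i := i) (j := a * c.K - 1) (by omega) (by omega)]

theorem Good.mb_abs (hb : 30 ≤ b) (h : c.Good b) {a : ℕ} (ha : a ≤ c.ng) :
    |(c.mb b a : ℝ)| ≤ PR b ^ 64 / 2 + 20 := by
  have h4 := wd_bd hb
  have hn := h.n_pos
  by_cases h0 : a = 0
  · have h1 := abs_le.1 (h.pos_abs hn)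
    rw [h0, mb_zero, abs_le]
    constructor <;> linarith [h1.1, h1.2, h4.1, h4.2]
  · by_cases h2 : a = c.ng
    · have h1 := abs_le.1 (h.pos_abs (i := c.n - 1) (by omega))
      rw [h2, h.mb_ng, abs_le]
      constructor <;> linarith [h1.1, h1.2, h4.1, h4.2]
    · have h3 : a * c.K ≤ c.n := Nat.mul_le_mul_right _ ha
      have h1 := abs_le.1 (h.pos_abs (i := a * c.K - 1) (by omega))
      rw [mb_mid b h0 h2, abs_le]
      constructor <;> linarith [h1.1, h1.2, h4.1, h4.2]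

theorem Good.cell_in (hb : 30 ≤ b) (h : c.Good b) {a j : ℕ} (ha : a < c.ng) (hj : j < c.K) :
    (c.mb b a : ℝ) + 4 ≤ c.pos (a * c.K + j) ∧
      (c.pos (a * c.K + j) : ℝ) + wd b ≤ c.mb b (a + 1) :=
  ⟨h.mb_le hb (h.idx_lt ha hj) (Nat.le_add_right _ _),
    h.le_mb hb ha (by rw [add_mul, one_mul]; omega)⟩

theorem Good.cell_len (hb : 30 ≤ b) (h : c.Good b) {a : ℕ} (ha : a < c.ng) :
    (c.mb b a : ℝ) < c.mb b (a + 1) ∧ (c.mb b (a + 1) : ℝ) - c.mb b a ≤ PR b ^ 65 := by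
  have h1 := h.cell_in hb ha h.K_pos
  have h2 := abs_le.1 (h.mb_abs hb ha.le)
  have h3 := abs_le.1 (h.mb_abs hb (a := a + 1) ha)
  have h4 := PR_mul_le hb (c := 2) (by norm_num) (i := 64) (j := 65) (by norm_num)
  have h5 := PR_pow_ge hb (k := 64) (by norm_num)
  exact ⟨by linarith [h1.1, h1.2, (wd_bd hb).1], by linarith [h2.1, h3.2]⟩

/-- a point of cell `a` is near a dot of group `a` or at distance `≥ 1` from all dots -/
theorem Good.cell_cases (hb : 30 ≤ b) (h : c.Good b) {a : ℕ} (ha : a < c.ng) {x : ℝ}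
    (h1 : (c.mb b a : ℝ) ≤ x) (h2 : x ≤ c.mb b (a + 1)) :
    (∃ j < c.K, |x - c.pos (a * c.K + j)| ≤ 1) ∨ ∀ i < c.n, 1 ≤ |x - c.pos i| := by
  refine or_iff_not_imp_left.2 fun hn i hi => ?_
  push Not at hn
  by_cases c1 : i < a * c.K
  · exact le_abs.2 (Or.inl (by linarith [h.le_mb hb ha.le c1, (wd_bd hb).1]))
  · by_cases c2 : (a + 1) * c.K ≤ i
    · exact le_abs.2 (Or.inr (by linarith [h.mb_le hb hi c2]))
    · rw [add_mul, one_mul] at c2
      have h3 := hn (i - a * c.K) (by omega)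
      rw [show a * c.K + (i - a * c.K) = i by omega] at h3
      exact h3.le

end Chain

end Vale.Agent.P370
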