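import Vale.Agent.P370.ChDefs

/-! Real splines `sp k` (helper58). -/

namespace Vale.Agent.P370

open Finset

/-- the general family of splines -/
noncomputable def spM (n k : ℕ) (x : ℝ) : ℝ :=
  (∑ j ∈ range (n + 1), (-1) ^ j * (Nat.choose n j : ℝ) * max (x - j) 0 ^ k) / (k.factorial : ℝ)

theorem sp_eq_spM (k : ℕ) (x : ℝ) : sp k x = spM 9 k x := rfl

theorem spM_succ (n k : ℕ) (x : ℝ) : spM (n + 1) k x = spM n k x - spM n k (x - 1) := by
  have h := sum_choose_succ_mul (R := ℝ) (fun i _ => (-1) ^ i * max (x - i) 0 ^ k) n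
  unfold spM
  rw [← sub_div]
  congr 1
  simp only [mul_comm ((-1 : ℝ) ^ _) (Nat.choose _ _ : ℝ), mul_assoc]
  rw [h, sub_eq_add_neg, ← sum_neg_distrib]
  congr 1
  refine sum_congr rfl fun j _ => ?_
  push_cast
  rw [show x - ((j : ℝ) + 1) = x - 1 - j by ring]
  ring

theorem hasDerivAt_max_pow {k : ℕ} (hk : 1 ≤ k) (x : ℝ) :
    HasDerivAt (fun y : ℝ => max y 0 ^ (k + 1)) ((k + 1) * max x 0 ^ k) x := by
  rcases lt_trichotomy x 0 with h | h | h
  · rw [max_eq_right h.le, zero_pow (by omega), mul_zero]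
    refine (hasDerivAt_const x (0 : ℝ)).congr_of_eventuallyEq ?_
    filter_upwards [Iio_mem_nhds h] with y hy
    rw [max_eq_right (le_of_lt hy), zero_pow (by omega)]
  · subst h
    rw [max_self, zero_pow (by omega), mul_zero]
    have h1 : HasDerivWithinAt (fun y : ℝ => max y 0 ^ (k + 1)) 0 (Set.Iic 0) 0 :=
      (hasDerivAt_const (0 : ℝ) (0 : ℝ)).hasDerivWithinAt.congr
        (fun y hy => by rw [max_eq_right hy, zero_pow (by omega)]) (by simp)
    have h2 : HasDerivWithinAt (fun y : ℝ => max y 0 ^ (k + 1)) 0 (Set.Ici 0) 0 := by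
      have h3 := (hasDerivAt_pow (k + 1) (0 : ℝ)).hasDerivWithinAt (s := Set.Ici 0)
      rw [Nat.add_sub_cancel, zero_pow (by omega), mul_zero] at h3
      exact h3.congr (fun y hy => by rw [max_eq_left hy]) (by simp)
    have h4 := h1.union h2
    rwa [Set.Iic_union_Ici, hasDerivWithinAt_univ] at h4
  · have h3 := hasDerivAt_pow (k + 1) x
    rw [Nat.add_sub_cancel] at h3
    rw [max_eq_left h.le]
    push_cast at h3
    refine h3.congr_of_eventuallyEq ?_
    filter_upwards [Ioi_mem_nhds h] with y hy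
    rw [max_eq_left (le_of_lt hy)]

theorem spM_deriv (n : ℕ) {k : ℕ} (hk : 1 ≤ k) (x : ℝ) :
    HasDerivAt (spM n (k + 1)) (spM n k x) x := by
  have h : ∀ j ∈ range (n + 1), HasDerivAt
      (fun y : ℝ => (-1) ^ j * (Nat.choose n j : ℝ) * max (y - j) 0 ^ (k + 1))
      ((-1) ^ j * (Nat.choose n j : ℝ) * ((k + 1) * max (x - j) 0 ^ k)) x := fun j _ =>
    ((hasDerivAt_max_pow hk (x - j)).comp_sub_const x j).const_mul _
  have h2 := (HasDerivAt.fun_sum h).div_const ((k + 1).factorial : ℝ)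
  refine HasDerivAt.congr_deriv h2 ?_
  have h3 : (k.factorial : ℝ) ≠ 0 := by positivity
  rw [spM, Nat.factorial_succ, div_eq_iff (by positivity), sum_div, sum_mul]
  refine sum_congr rfl fun j _ => ?_
  push_cast
  field_simp

theorem spM_mono (n : ℕ) : Monotone (spM (n + 1) (n + 1)) := by
  induction n with
  | zero =>
    intro x y h
    have e : ∀ x : ℝ, spM (0 + 1) (0 + 1) x = max x 0 - max (x - 1) 0 := fun x => by
      simp [spM, sum_range_succ, sub_eq_add_neg]
    rw [e, e]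
    simp only [max_def]
    split_ifs <;> linarith
  | succ n ih =>
    refine monotone_of_deriv_nonneg (fun x => (spM_deriv _ (by omega) x).differentiableAt)
      fun x => ?_
    rw [(spM_deriv _ (by omega) x).deriv, spM_succ]
    exact sub_nonneg.2 (ih (by linarith))

theorem sp_cont (k : ℕ) : Continuous (sp k : ℝ → ℝ) := by
  unfold sp
  fun_prop

theorem sp_deriv {k : ℕ} (hk : 1 ≤ k) (x : ℝ) : HasDerivAt (sp (k + 1)) (sp k x) x :=
  spM_deriv 9 hk x

theorem sp_zero {k : ℕ} (hk : 1 ≤ k) {x : ℝ} (hx : x ≤ 0) : sp k x = 0 := by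
  rw [sp, sum_eq_zero, zero_div]
  intro j _
  rw [max_eq_right (by linarith [Nat.cast_nonneg (α := ℝ) j]), zero_pow (by omega), mul_zero]

theorem sp_poly (k : ℕ) {x : ℝ} (hx : 9 ≤ x) : sp k x =
    (∑ j ∈ range 10, (-1) ^ j * (Nat.choose 9 j : ℝ) * (x - j) ^ k) / (k.factorial : ℝ) := by
  rw [sp]
  congr 1
  refine sum_congr rfl fun j hj => ?_
  have : (j : ℝ) ≤ 9 := by exact_mod_cast Nat.le_of_lt_succ (mem_range.1 hj)
  rw [max_eq_left (by linarith)]

theorem sp9_one {x : ℝ} (hx : 9 ≤ x) : sp 9 x = 1 := by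
  rw [sp_poly 9 hx]
  simp only [sum_range_succ, range_zero, sum_empty, Nat.choose, Nat.factorial]
  push_cast
  ring

theorem sp10_lin {x : ℝ} (hx : 9 ≤ x) : sp 10 x = x - 9 / 2 := by
  rw [sp_poly 10 hx]
  simp only [sum_range_succ, range_zero, sum_empty, Nat.choose, Nat.factorial]
  push_cast
  ring

theorem sp_nine {k : ℕ} (hk : k ≤ 8) {x : ℝ} (hx : 9 ≤ x) : sp k x = 0 := by
  rw [sp_poly k hx]
  simp only [sum_range_succ, range_zero, sum_empty, Nat.choose]
  push_cast
  interval_cases k <;> ring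

theorem sp8_nonneg (x : ℝ) : 0 ≤ sp 8 x := by
  rw [sp_eq_spM, spM_succ]
  exact sub_nonneg.2 (spM_mono 7 (by linarith))

theorem sp9_mono : Monotone (sp 9 : ℝ → ℝ) := spM_mono 8

theorem sp9_nonneg (x : ℝ) : 0 ≤ sp 9 x := by
  rw [← sp_zero (k := 9) (by norm_num) (min_le_right x 0)]
  exact sp9_mono (min_le_left _ _)

theorem sp9_le_one (x : ℝ) : sp 9 x ≤ 1 := by
  rw [← sp9_one (le_max_right x 9)]
  exact sp9_mono (le_max_left _ _)

end Vale.Agent.P370
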